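import Crest.Agent.R085.Lim2

/-!
# R085, module M3: integrals of nonnegative continuous functions over (moving) balls
-/

set_option autoImplicit false
set_option linter.unusedSectionVars false

open MeasureTheory Filter Topology Metric Set
open scoped ENNReal NNReal

namespace Crest.Agent.R085

variable {E : Type*} [NormedAddCommGroup E] [NormedSpace ℝ E] [ProperSpace E]
  [MeasurableSpace E] [BorelSpace E] {ι : Type*}

namespace WLim

variable {U : Ultrafilter ι} {m : ι → Measure E} {ν : Measure E}

lemma aux_integrableOn {μ : Measure E} (hμ : IsLocallyFiniteMeasure μ) {f : E → ℝ}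
    (hf : Continuous f) (y : E) (s : ℝ) : IntegrableOn f (ball y s) μ :=
  (hf.continuousOn.integrableOn_compact (isCompact_closedBall y s)).mono_set ball_subset_closedBall

lemma aux_cutoff (y : E) {s' s : ℝ} (hs : s' < s) :
    ∃ χ : E → ℝ, Continuous χ ∧ HasCompactSupport χ ∧ (∀ z ∈ closedBall y s', χ z = 1) ∧
      (∀ z, z ∉ ball y s → χ z = 0) ∧ ∀ z, 0 ≤ χ z ∧ χ z ≤ 1 :=
  exists_urysohn_cc (isCompact_closedBall y s') isOpen_ball (closedBall_subset_ball hs)

/-- If `∫_{ball y s} f dν < t` (with `f ≥ 0` continuous) then eventually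
`∫_{ball (y k) s'} f d(m k) < t` for `s' < s` and `y k → y`. -/
theorem eventually_setIntegral_lt (h : WLim U m ν) {f : E → ℝ} (hf : Continuous f)
    (hf0 : ∀ z, 0 ≤ f z) {y : ι → E} {y0 : E} (hy : Tendsto y (U : Filter ι) (𝓝 y0))
    {s s' t : ℝ} (hs : s' < s) (ht : ∫ z in ball y0 s, f z ∂ν < t) :
    ∀ᶠ k in (U : Filter ι), ∫ z in ball (y k) s', f z ∂(m k) < t := by
  obtain ⟨χ, hχ, hχc, hχ1, hχ0, hχ01⟩ := aux_cutoff y0 (show (s + s') / 2 < s by linarith)
  have hlfν := h.lf
  have hfχ : Continuous fun z => χ z * f z := hχ.mul hf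
  have hfχc : HasCompactSupport fun z => χ z * f z := hχc.mul_right
  have hlim := h.tendsto _ hfχ hfχc
  have h1 : ∫ z, χ z * f z ∂ν ≤ ∫ z in ball y0 s, f z ∂ν := by
    rw [← integral_indicator measurableSet_ball]
    apply integral_mono (hfχ.integrable_of_hasCompactSupport hfχc)
    · exact (aux_integrableOn hlfν hf y0 s).integrable_indicator measurableSet_ball
    · intro z
      by_cases hz : z ∈ ball y0 s
      · simp only [indicator_of_mem hz]
        exact mul_le_of_le_one_left (hf0 z) (hχ01 z).2
      · simp only [indicator_of_notMem hz, hχ0 z hz, zero_mul, le_refl]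
  have hev : ∀ᶠ k in (U : Filter ι), dist (y k) y0 < (s - s') / 2 :=
    hy (ball_mem_nhds y0 (by linarith))
  filter_upwards [hlim.eventually_lt_const (h1.trans_lt ht), hev] with k hk1 hk2
  refine lt_of_le_of_lt ?_ hk1
  have hlfk := h.lfk k
  rw [← integral_indicator measurableSet_ball]
  apply integral_mono ?_ (hfχ.integrable_of_hasCompactSupport hfχc)
  · intro z
    by_cases hz : z ∈ ball (y k) s'
    · simp only [indicator_of_mem hz]
      have : z ∈ closedBall y0 ((s + s') / 2) := by
        rw [mem_closedBall]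
        have := dist_triangle z (y k) y0
        rw [mem_ball] at hz
        linarith
      rw [hχ1 z this, one_mul]
    · simp only [indicator_of_notMem hz]
      exact mul_nonneg (hχ01 z).1 (hf0 z)
  · exact (aux_integrableOn hlfk hf (y k) s').integrable_indicator measurableSet_ball


end WLim

end Crest.Agent.R085
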