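import Crest.Agent.R085.AdrInt

/-!
Row 85: integrability versions of the kernel estimates, Poincaré inequality for the `H^{1/2}` energy,
and the coercive algebraic identity.
-/

set_option autoImplicit false
set_option linter.unusedSectionVars false

open MeasureTheory Metric Set
open scoped ENNReal NNReal

noncomputable section

namespace Crest.Agent.R085

section Integrable

variable {X : Type*} [MeasurableSpace X]

/-- A nonnegative function with finite lower integral is integrable, with the same bound. -/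
theorem integrable_and_integral_le_of_lintegral {ν : Measure X} {f : X → ℝ}
    (hf : AEStronglyMeasurable f ν) (h0 : ∀ x, 0 ≤ f x) {B : ℝ} (hB : 0 ≤ B)
    (h : ∫⁻ y, ENNReal.ofReal (f y) ∂ν ≤ ENNReal.ofReal B) :
    Integrable f ν ∧ ∫ y, f y ∂ν ≤ B := by
  have hfin : ∫⁻ y, ENNReal.ofReal (f y) ∂ν < ∞ := lt_of_le_of_lt h ENNReal.ofReal_lt_top
  have hint : Integrable f ν := by
    refine ⟨hf, ?_⟩
    rw [hasFiniteIntegral_iff_ofReal (Filter.Eventually.of_forall h0)]
    exact hfin
  refine ⟨hint, ?_⟩
  rw [integral_eq_lintegral_of_nonneg_ae (Filter.Eventually.of_forall h0) hf]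
  exact ENNReal.toReal_le_of_le_ofReal hB h

end Integrable

section Kernels

variable {X : Type*} [PseudoMetricSpace X] [MeasurableSpace X] [OpensMeasurableSpace X]

theorem measurable_dist_pow_inv (x : X) (k : ℕ) :
    Measurable fun y : X => ((dist x y) ^ k)⁻¹ :=
  ((continuous_const.dist continuous_id).measurable.pow_const k).inv

theorem measurable_dist_rpow (x : X) (s : ℝ) :
    Measurable fun y : X => (dist x y) ^ s :=
  (continuous_const.dist continuous_id).measurable.pow_const s

theorem integrableOn_tail {n : ℕ} {C : ℝ} {μ : Measure X} (hμ : UpperReg n C μ) (hC : 0 ≤ C)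
    {m : ℕ} (hm : 1 ≤ m) (x : X) {r : ℝ} (hr : 0 < r) :
    IntegrableOn (fun y => ((dist x y) ^ (n + m))⁻¹) {y | r ≤ dist x y} μ ∧
      ∫ y in {y | r ≤ dist x y}, ((dist x y) ^ (n + m))⁻¹ ∂μ ≤ C * 2 ^ (n + 1) / r ^ m :=
  integrable_and_integral_le_of_lintegral (measurable_dist_pow_inv x _).aestronglyMeasurable
    (fun y => by positivity) (by positivity) (lintegral_tail hμ hC hm x hr)

theorem integrableOn_near {n : ℕ} {C : ℝ} {μ : Measure X} (hμ : UpperReg n C μ) (hC : 0 ≤ C)
    {k : ℕ} (hk : k < n) (x : X) {r : ℝ} (hr : 0 < r) :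
    IntegrableOn (fun y => ((dist x y) ^ k)⁻¹) (closedBall x r) μ ∧
      ∫ y in closedBall x r, ((dist x y) ^ k)⁻¹ ∂μ ≤ C * 4 ^ n * r ^ (n - k) :=
  integrable_and_integral_le_of_lintegral (measurable_dist_pow_inv x _).aestronglyMeasurable
    (fun y => by positivity) (by positivity) (lintegral_near hμ hC hk x hr)

theorem integrableOn_tail_rpow {n : ℕ} {C : ℝ} {μ : Measure X} (hμ : UpperReg n C μ)
    (hC : 0 ≤ C) {s : ℝ} (hs : (n : ℝ) < s) (x : X) {r : ℝ} (hr : 0 < r) :
    IntegrableOn (fun y => (dist x y) ^ (-s)) {y | r ≤ dist x y} μ ∧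
      ∫ y in {y | r ≤ dist x y}, (dist x y) ^ (-s) ∂μ
        ≤ C * 2 ^ n / (1 - 2 ^ ((n : ℝ) - s)) * r ^ ((n : ℝ) - s) := by
  have hq1 : (2 : ℝ) ^ ((n : ℝ) - s) < 1 :=
    Real.rpow_lt_one_of_one_lt_of_neg (by norm_num) (by linarith)
  have h1 : 0 < 1 - (2 : ℝ) ^ ((n : ℝ) - s) := by linarith
  exact integrable_and_integral_le_of_lintegral (measurable_dist_rpow x _).aestronglyMeasurable
    (fun y => Real.rpow_nonneg dist_nonneg _) (by positivity) (lintegral_tail_rpow hμ hC hs x hr)


end Kernels

section Poincare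

variable {X : Type*} [MetricSpace X] [MeasurableSpace X] [BorelSpace X]
  [SecondCountableTopology X]
variable {V : Type*} [NormedAddCommGroup V] [MeasurableSpace V] [BorelSpace V]
  [SecondCountableTopology V]



end Poincare

section Identity

variable {V : Type*} [NormedAddCommGroup V] [InnerProductSpace ℝ V]


end Identity

end Crest.Agent.R085
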