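import Mathlib
import Crest.Agent.R085.Lim1
import Crest.Agent.R085.AdrInt
import Crest.Agent.R085.Defs
import Crest.Agent.R085.LimW
import Crest.Agent.R085.Cacc
import Crest.Agent.R085.Lim2
import Crest.Agent.R085.TouchK

-- ▼ part R085/LimDouble
section

/-!
# R085, module M3 (weak compactness), part 3: vector-valued integrals and double integrals

* `VagueTendsto.vector` : `∫ f dμ_k → ∫ f dν` for `f ∈ C_c(E; F)`, `F` finite dimensional;
* `VagueTendsto.double` : `∫∫ f(x,y) dμ'_k(y) dμ_k(x) → ∫∫ f(x,y) dν'(y) dν(x)` for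
  `f ∈ C_c(E × E'; F)`;
* `VagueTendsto.prod` : the same for product measures;
* `VagueTendsto.prod_singular` : product integrals of functions with an integrable singularity.
-/

set_option autoImplicit false
set_option linter.unusedSectionVars false

open MeasureTheory Filter Topology Metric Set
open scoped ENNReal NNReal

namespace Crest.Agent.R085


section Basic

variable {E : Type*} [MetricSpace E] [ProperSpace E] [MeasurableSpace E] [BorelSpace E]
variable {ι : Type*} {l : Filter ι}

theorem integrable_of_bdd_of_support {F : Type*} [NormedAddCommGroup F]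
    {m : Measure E} {K : Set E} (hm : m K < ∞) {f : E → F}
    (hf : AEStronglyMeasurable f m) {c : ℝ} (hc : ∀ x, ‖f x‖ ≤ c)
    (h0 : ∀ x, x ∉ K → f x = 0) : Integrable f m := by
  have h1 : IntegrableOn f K m :=
    Measure.integrableOn_of_bounded hm.ne hf (M := c) (ae_of_all _ hc)
  rwa [integrableOn_iff_integrable_of_support_subset] at h1
  intro x hx
  by_contra hxK
  exact hx (h0 x hxK)

theorem bdd_of_cont_of_support {E' : Type*} [TopologicalSpace E'] {F : Type*}
    [NormedAddCommGroup F] {K : Set E'} (hK : IsCompact K) {f : E' → F}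
    (hf : Continuous f) (h0 : ∀ x, x ∉ K → f x = 0) : ∃ c : ℝ, 0 ≤ c ∧ ∀ x, ‖f x‖ ≤ c := by
  obtain ⟨c, hc⟩ := (hK.bddAbove_image (f := fun x => ‖f x‖) hf.norm.continuousOn)
  refine ⟨max c 0, le_max_right _ _, fun x => ?_⟩
  by_cases hx : x ∈ K
  · exact (hc (mem_image_of_mem _ hx)).trans (le_max_left _ _)
  · rw [h0 x hx, norm_zero]; exact le_max_right _ _

theorem integrable_of_cont_of_support {F : Type*} [NormedAddCommGroup F]
    {m : Measure E} {K : Set E} (hK : IsCompact K) (hm : m K < ∞) {f : E → F}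
    (hf : Continuous f) (h0 : ∀ x, x ∉ K → f x = 0) : Integrable f m := by
  obtain ⟨c, -, hc⟩ := bdd_of_cont_of_support hK hf h0
  refine integrable_of_bdd_of_support hm ?_ hc h0
  have hcs : HasCompactSupport f := HasCompactSupport.intro hK h0
  exact (hf.stronglyMeasurable_of_hasCompactSupport hcs).aestronglyMeasurable

theorem norm_integral_le_of_support {F : Type*} [NormedAddCommGroup F] [NormedSpace ℝ F]
    {m : Measure E} {K : Set E} {c C : ℝ} (hm : m K ≤ ENNReal.ofReal C) (hC : 0 ≤ C)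
    (hc0 : 0 ≤ c) {f : E → F} (hc : ∀ x, ‖f x‖ ≤ c) (h0 : ∀ x, x ∉ K → f x = 0) :
    ‖∫ x, f x ∂m‖ ≤ c * C := by
  rw [← setIntegral_eq_integral_of_forall_compl_eq_zero h0]
  have hfin : m K < ∞ := hm.trans_lt ENNReal.ofReal_lt_top
  refine (norm_setIntegral_le_of_norm_le_const hfin (fun x _ => hc x)).trans ?_
  refine mul_le_mul_of_nonneg_left ?_ hc0
  exact ENNReal.toReal_le_of_le_ofReal hC hm

theorem UnifLocBdd.exists_pos {μ : ι → Measure E} (hb : UnifLocBdd l μ) {K : Set E}
    (hK : IsCompact K) : ∃ C : ℝ, 0 < C ∧ ∀ᶠ k in l, μ k K ≤ ENNReal.ofReal C := by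
  obtain ⟨C, hC⟩ := hb K hK
  refine ⟨C + 1, by positivity, hC.mono fun k hk => hk.trans ?_⟩
  rw [ENNReal.ofReal_add (NNReal.coe_nonneg C) zero_le_one, ENNReal.ofReal_coe_nnreal]
  exact le_self_add

section Vector

variable {F : Type*} [NormedAddCommGroup F] [NormedSpace ℝ F] [FiniteDimensional ℝ F]

theorem integral_eq_sum_basis {m : Measure E} {K : Set E} (hK : IsCompact K) (hm : m K < ∞)
    {f : E → F} (hf : Continuous f) (h0 : ∀ x, x ∉ K → f x = 0) :
    ∫ x, f x ∂m = ∑ j, (∫ x, (Module.finBasis ℝ F).coord j (f x) ∂m) • Module.finBasis ℝ F j := by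
  have h1 : ∀ x, f x = ∑ j, ((Module.finBasis ℝ F).coord j (f x)) • Module.finBasis ℝ F j := by
    intro x
    simp
  have hcont : ∀ j, Continuous (fun x => (Module.finBasis ℝ F).coord j (f x)) := fun j =>
    (LinearMap.continuous_of_finiteDimensional _).comp hf
  calc ∫ x, f x ∂m = ∫ x, ∑ j, ((Module.finBasis ℝ F).coord j (f x)) • Module.finBasis ℝ F j ∂m := by
        congr 1; ext x; exact h1 x
    _ = ∑ j, ∫ x, ((Module.finBasis ℝ F).coord j (f x)) • Module.finBasis ℝ F j ∂m := by
        refine integral_finsetSum _ fun j _ => ?_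
        refine Integrable.smul_const ?_ _
        exact integrable_of_cont_of_support hK hm (hcont j) (fun x hx => by rw [h0 x hx, map_zero])
    _ = _ := by
        refine Finset.sum_congr rfl fun j _ => ?_
        exact integral_smul_const _ _

/-- (a) vague convergence tests vector-valued functions. -/
theorem VagueTendsto.vector {μ : ι → Measure E} {ν : Measure E} [IsFiniteMeasureOnCompacts ν]
    (hb : UnifLocBdd l μ) (h : VagueTendsto l μ ν) {f : E → F} (hf : Continuous f)
    (hc : HasCompactSupport f) :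
    Tendsto (fun k => ∫ x, f x ∂μ k) l (𝓝 (∫ x, f x ∂ν)) := by
  have h0 : ∀ x, x ∉ tsupport f → f x = 0 := fun x hx => image_eq_zero_of_notMem_tsupport hx
  have hcont : ∀ j, Continuous (fun x => (Module.finBasis ℝ F).coord j (f x)) := fun j =>
    (LinearMap.continuous_of_finiteDimensional _).comp hf
  obtain ⟨C, -, hC⟩ := hb.exists_pos hc
  rw [integral_eq_sum_basis hc hc.measure_lt_top hf h0]
  have hev : ∀ᶠ k in l, ∫ x, f x ∂μ k =
      ∑ j, (∫ x, (Module.finBasis ℝ F).coord j (f x) ∂μ k) • Module.finBasis ℝ F j :=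
    hC.mono fun k hk => integral_eq_sum_basis hc (hk.trans_lt ENNReal.ofReal_lt_top) hf h0
  refine Tendsto.congr' (hev.mono fun k hk => hk.symm) ?_
  refine tendsto_finsetSum _ fun j _ => ?_
  refine Tendsto.smul_const ?_ _
  refine h _ (hcont j) ?_
  exact HasCompactSupport.intro hc (fun x hx => by rw [h0 x hx, map_zero])

end Vector

section Double

variable {E' : Type*} [MetricSpace E'] [ProperSpace E'] [MeasurableSpace E'] [BorelSpace E']
variable {F : Type*} [NormedAddCommGroup F] [NormedSpace ℝ F] [FiniteDimensional ℝ F]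

/-- inner integrals are uniformly continuous with a modulus independent of the measure -/
theorem norm_integral_sub_le {K' : Set E'} {f : E × E' → F}
    (h0' : ∀ x y, y ∉ K' → f (x, y) = 0) (hf : Continuous f) (hK' : IsCompact K')
    {m : Measure E'} {C : ℝ} (hC : 0 ≤ C) (hm : m K' ≤ ENNReal.ofReal C) {c : ℝ} (hc : 0 ≤ c)
    {x x' : E} (hx : ∀ y, ‖f (x, y) - f (x', y)‖ ≤ c) :
    ‖(∫ y, f (x, y) ∂m) - ∫ y, f (x', y) ∂m‖ ≤ c * C := by
  have hfin : m K' < ∞ := hm.trans_lt ENNReal.ofReal_lt_top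
  rw [← integral_sub
    (integrable_of_cont_of_support hK' hfin (by fun_prop) (fun y hy => h0' x y hy))
    (integrable_of_cont_of_support hK' hfin (by fun_prop) (fun y hy => h0' x' y hy))]
  refine norm_integral_le_of_support hm hC hc hx ?_
  intro y hy
  rw [h0' x y hy, h0' x' y hy, sub_zero]

theorem exists_modulus {f : E × E' → F} (hf : Continuous f) (hcs : HasCompactSupport f)
    {ε : ℝ} (hε : 0 < ε) : ∃ δ > 0, ∀ x x' y, dist x x' < δ → ‖f (x, y) - f (x', y)‖ ≤ ε := by
  have huc : UniformContinuous f := hcs.uniformContinuous_of_continuous hf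
  rw [Metric.uniformContinuous_iff] at huc
  obtain ⟨δ, hδ, h⟩ := huc ε hε
  refine ⟨δ, hδ, fun x x' y hxx => ?_⟩
  rw [← dist_eq_norm]
  refine (h ?_).le
  rw [Prod.dist_eq]
  simpa using hxx

theorem continuous_inner {f : E × E' → F} (hf : Continuous f) (hcs : HasCompactSupport f)
    {K' : Set E'} (hK' : IsCompact K') (h0' : ∀ x y, y ∉ K' → f (x, y) = 0)
    {m : Measure E'} {C : ℝ} (hC : 0 < C) (hm : m K' ≤ ENNReal.ofReal C) :
    Continuous (fun x => ∫ y, f (x, y) ∂m) := by
  rw [Metric.continuous_iff]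
  intro x₀ ε hε
  obtain ⟨δ, hδ, h⟩ := exists_modulus hf hcs (ε := ε / (2 * C)) (by positivity)
  refine ⟨δ, hδ, fun x hx => ?_⟩
  rw [dist_eq_norm]
  have := norm_integral_sub_le h0' hf hK' hC.le hm
    (c := ε / (2 * C)) (by positivity) (fun y => h x x₀ y hx)
  refine this.trans_lt ?_
  field_simp
  linarith

/-- (b) double integrals of continuous compactly supported functions converge -/
theorem VagueTendsto.double {μ : ι → Measure E} {μ' : ι → Measure E'} {ν : Measure E} {ν' : Measure E'}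
    [IsFiniteMeasureOnCompacts ν] [IsFiniteMeasureOnCompacts ν']
    (hb : UnifLocBdd l μ) (hb' : UnifLocBdd l μ') (h : VagueTendsto l μ ν) (h' : VagueTendsto l μ' ν')
    {f : E × E' → F} (hf : Continuous f) (hcs : HasCompactSupport f) :
    Tendsto (fun k => ∫ x, ∫ y, f (x, y) ∂μ' k ∂μ k) l (𝓝 (∫ x, ∫ y, f (x, y) ∂ν' ∂ν)) := by
  classical
  -- supports
  set K : Set E := Prod.fst '' tsupport f with hKdef
  set K' : Set E' := Prod.snd '' tsupport f with hK'def
  have hK : IsCompact K := hcs.image continuous_fst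
  have hK' : IsCompact K' := hcs.image continuous_snd
  have h0 : ∀ x y, x ∉ K → f (x, y) = 0 := by
    intro x y hx
    refine image_eq_zero_of_notMem_tsupport fun hxy => hx ?_
    exact ⟨(x, y), hxy, rfl⟩
  have h0' : ∀ x y, y ∉ K' → f (x, y) = 0 := by
    intro x y hy
    refine image_eq_zero_of_notMem_tsupport fun hxy => hy ?_
    exact ⟨(x, y), hxy, rfl⟩
  obtain ⟨C, hC0, hC⟩ := hb.exists_pos hK
  obtain ⟨C', hC'0, hC'⟩ := hb'.exists_pos hK'
  -- bound for ν'
  obtain ⟨D', hD'0, hD'⟩ : ∃ D' : ℝ, 0 < D' ∧ ν' K' ≤ ENNReal.ofReal D' := by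
    refine ⟨(ν' K').toReal + 1, by positivity, ?_⟩
    rw [← ENNReal.ofReal_toReal hK'.measure_lt_top.ne]
    exact ENNReal.ofReal_le_ofReal (by simp)
  -- limit inner function
  set G : E → F := fun x => ∫ y, f (x, y) ∂ν' with hG
  have hGc : Continuous G := continuous_inner hf hcs hK' h0' hD'0 hD'
  have hG0 : ∀ x, x ∉ K → G x = 0 := by
    intro x hx
    simp only [hG]
    rw [integral_congr_ae (g := fun _ => (0 : F)) (ae_of_all _ fun y => h0 x y hx), integral_zero]
  have hGcs : HasCompactSupport G := HasCompactSupport.intro hK hG0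
  have hGlim := h.vector hb hGc hGcs
  -- uniform convergence of the inner integrals
  have hunif : ∀ ε : ℝ, 0 < ε → ∀ᶠ k in l, ∀ x, ‖(∫ y, f (x, y) ∂μ' k) - G x‖ ≤ ε := by
    intro ε hε
    obtain ⟨δ, hδ, hmod⟩ := exists_modulus hf hcs (ε := ε / (3 * (C' + D'))) (by positivity)
    obtain ⟨t, ht, hcover⟩ := hK.finite_cover_balls hδ |>.imp fun t ht => ht
    have hfin : t.Finite := hcover.1
    have hpt : ∀ᶠ k in l, ∀ x ∈ t, ‖(∫ y, f (x, y) ∂μ' k) - G x‖ < ε / 3 := by
      rw [Filter.eventually_all_finite hfin]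
      intro x _
      have hfx : Continuous (fun y => f (x, y)) := by fun_prop
      have hfxc : HasCompactSupport (fun y => f (x, y)) :=
        HasCompactSupport.intro hK' (fun y hy => h0' x y hy)
      have := h'.vector hb' hfx hfxc
      have h2 := (tendsto_iff_norm_sub_tendsto_zero.1 this)
      exact h2.eventually (gt_mem_nhds (by positivity))
    filter_upwards [hpt, hC'] with k hk hCk x
    by_cases hx : x ∈ K
    · obtain ⟨z, hz, hxz⟩ : ∃ z ∈ t, x ∈ ball z δ := by
        have := hcover.2 hx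
        simpa using this
      have hxz' : dist x z < δ := hxz
      have h1 : ‖(∫ y, f (x, y) ∂μ' k) - ∫ y, f (z, y) ∂μ' k‖ ≤ ε / 3 := by
        refine (norm_integral_sub_le h0' hf hK' hC'0.le hCk
          (c := ε / (3 * (C' + D'))) (by positivity) (fun y => hmod x z y hxz')).trans ?_
        rw [div_mul_eq_mul_div, div_le_div_iff₀ (by positivity) (by positivity)]
        nlinarith
      have h2 : ‖G z - G x‖ ≤ ε / 3 := by
        rw [norm_sub_rev]
        refine (norm_integral_sub_le h0' hf hK' hD'0.le hD'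
          (c := ε / (3 * (C' + D'))) (by positivity) (fun y => hmod x z y hxz')).trans ?_
        rw [div_mul_eq_mul_div, div_le_div_iff₀ (by positivity) (by positivity)]
        nlinarith
      have h3 := (hk z hz).le
      calc ‖(∫ y, f (x, y) ∂μ' k) - G x‖
          = ‖((∫ y, f (x, y) ∂μ' k) - ∫ y, f (z, y) ∂μ' k) +
              ((∫ y, f (z, y) ∂μ' k) - G z) + (G z - G x)‖ := by congr 1; abel
        _ ≤ ‖(∫ y, f (x, y) ∂μ' k) - ∫ y, f (z, y) ∂μ' k‖ +
              ‖(∫ y, f (z, y) ∂μ' k) - G z‖ + ‖G z - G x‖ := norm_add₃_le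
        _ ≤ ε / 3 + ε / 3 + ε / 3 := by gcongr
        _ = ε := by ring
    · rw [hG0 x hx, sub_zero,
        integral_congr_ae (g := fun _ => (0 : F)) (ae_of_all _ fun y => h0 x y hx), integral_zero,
        norm_zero]
      exact hε.le
  -- conclusion
  rw [tendsto_iff_norm_sub_tendsto_zero, Metric.tendsto_nhds]
  intro ε hε
  have hGlim' := (tendsto_iff_norm_sub_tendsto_zero.1 hGlim).eventually
    (gt_mem_nhds (show (0 : ℝ) < ε / 3 by positivity))
  filter_upwards [hunif (ε / (3 * C)) (by positivity), hC, hC', hGlim'] with k hk hCk hC'k hGk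
  rw [Real.dist_eq, sub_zero, abs_norm]
  have hfinK : μ k K < ∞ := hCk.trans_lt ENNReal.ofReal_lt_top
  have hin : Continuous (fun x => ∫ y, f (x, y) ∂μ' k) := continuous_inner hf hcs hK' h0' hC'0 hC'k
  have hin0 : ∀ x, x ∉ K → (∫ y, f (x, y) ∂μ' k) = 0 := by
    intro x hx
    rw [integral_congr_ae (g := fun _ => (0 : F)) (ae_of_all _ fun y => h0 x y hx), integral_zero]
  have hint1 := integrable_of_cont_of_support hK hfinK hin hin0
  have hint2 := integrable_of_cont_of_support hK hfinK hGc hG0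
  have h1 : ‖(∫ x, ∫ y, f (x, y) ∂μ' k ∂μ k) - ∫ x, G x ∂μ k‖ ≤ ε / (3 * C) * C := by
    rw [← integral_sub hint1 hint2]
    refine norm_integral_le_of_support hCk hC0.le (by positivity) hk ?_
    intro x hx
    rw [hin0 x hx, hG0 x hx, sub_zero]
  have h2 : ε / (3 * C) * C = ε / 3 := by field_simp
  calc ‖(∫ x, ∫ y, f (x, y) ∂μ' k ∂μ k) - ∫ x, G x ∂ν‖
      = ‖((∫ x, ∫ y, f (x, y) ∂μ' k ∂μ k) - ∫ x, G x ∂μ k) +
          ((∫ x, G x ∂μ k) - ∫ x, G x ∂ν)‖ := by congr 1; abel
    _ ≤ _ := norm_add_le _ _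
    _ ≤ ε / 3 + ε / 3 := by
        refine add_le_add (h1.trans h2.le) hGk.le
    _ < ε := by linarith

/-- (b') product measure version -/
theorem VagueTendsto.prod {μ : ι → Measure E} {μ' : ι → Measure E'} {ν : Measure E}
    {ν' : Measure E'} [∀ k, IsFiniteMeasureOnCompacts (μ k)]
    [∀ k, IsFiniteMeasureOnCompacts (μ' k)]
    [IsFiniteMeasureOnCompacts ν] [IsFiniteMeasureOnCompacts ν']
    (hb : UnifLocBdd l μ) (hb' : UnifLocBdd l μ') (h : VagueTendsto l μ ν)
    (h' : VagueTendsto l μ' ν')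
    {f : E × E' → F} (hf : Continuous f) (hcs : HasCompactSupport f) :
    Tendsto (fun k => ∫ p, f p ∂((μ k).prod (μ' k))) l (𝓝 (∫ p, f p ∂(ν.prod ν'))) := by
  have h1 : ∀ (a : Measure E) (b : Measure E') [IsFiniteMeasureOnCompacts a]
      [IsFiniteMeasureOnCompacts b], ∫ p, f p ∂(a.prod b) = ∫ x, ∫ y, f (x, y) ∂b ∂a := by
    intro a b _ _
    refine integral_prod _ ?_
    exact hf.integrable_of_hasCompactSupport hcs
  simp_rw [h1]
  exact h.double hb hb' h' hf hcs

end Double

end Basic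

end Crest.Agent.R085
end

-- ▼ part R085/LimSing
section

/-!
# R085, module M3 (weak compactness), part 4: double integrals with a diagonal singularity

`VagueTendsto.prod_kernel` : if `μ_k → ν` vaguely, all `μ_k` are upper `n`-regular with the same
constant, `g` is compactly supported, continuous off the diagonal, zero on the diagonal and
`‖g(x,y)‖ ≤ A / |x-y|^m` with `m < n`, then `∫ g d(μ_k × μ_k) → ∫ g d(ν × ν)`.
-/

set_option autoImplicit false
set_option linter.unusedSectionVars false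

open MeasureTheory Filter Topology Metric Set
open scoped ENNReal NNReal

namespace Crest.Agent.R085

section Sing

variable {E : Type*} [MetricSpace E] [ProperSpace E] [MeasurableSpace E] [BorelSpace E]
variable {ι : Type*} {l : Filter ι}
variable {F : Type*} [NormedAddCommGroup F] [NormedSpace ℝ F] [FiniteDimensional ℝ F]

/-- cutoff away from the diagonal: `0` if `dist ≤ τ/2`, `1` if `dist ≥ τ`. -/
noncomputable def offDiag (τ : ℝ) (p : E × E) : ℝ := min 1 (max 0 (2 * dist p.1 p.2 / τ - 1))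

theorem continuous_offDiag (τ : ℝ) : Continuous (offDiag τ : E × E → ℝ) := by
  unfold offDiag
  fun_prop

theorem offDiag_nonneg (τ : ℝ) (p : E × E) : 0 ≤ offDiag τ p :=
  le_min zero_le_one (le_max_left _ _)

theorem offDiag_le_one (τ : ℝ) (p : E × E) : offDiag τ p ≤ 1 := min_le_left _ _

theorem offDiag_eq_one {τ : ℝ} (hτ : 0 < τ) {p : E × E} (h : τ ≤ dist p.1 p.2) :
    offDiag τ p = 1 := by
  unfold offDiag
  refine min_eq_left (le_max_of_le_right ?_)
  rw [le_sub_iff_add_le, le_div_iff₀ hτ]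
  linarith

theorem offDiag_eq_zero {τ : ℝ} (hτ : 0 < τ) {p : E × E} (h : dist p.1 p.2 ≤ τ / 2) :
    offDiag τ p = 0 := by
  unfold offDiag
  have : 2 * dist p.1 p.2 / τ - 1 ≤ 0 := by
    rw [sub_nonpos, div_le_one hτ]
    linarith
  rw [max_eq_left this]
  exact min_eq_right zero_le_one

theorem continuous_offDiag_smul {g : E × E → F} (hg : ContinuousOn g {p | p.1 ≠ p.2}) {τ : ℝ}
    (hτ : 0 < τ) : Continuous (fun p => offDiag τ p • g p) := by
  rw [continuous_iff_continuousAt]
  intro p
  by_cases hp : p.1 = p.2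
  · have hev : (fun p => offDiag τ p • g p) =ᶠ[𝓝 p] fun _ => 0 := by
      have hopen : {q : E × E | dist q.1 q.2 < τ / 2} ∈ 𝓝 p := by
        refine (isOpen_lt (by fun_prop) continuous_const).mem_nhds ?_
        show dist p.1 p.2 < τ / 2
        rw [hp, dist_self]; positivity
      filter_upwards [hopen] with q hq
      rw [offDiag_eq_zero hτ (le_of_lt hq), zero_smul]
    exact continuousAt_const.congr hev.symm
  · have hopen : {q : E × E | q.1 ≠ q.2} ∈ 𝓝 p :=
      (isOpen_ne_fun continuous_fst continuous_snd).mem_nhds hp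
    exact (continuous_offDiag τ).continuousAt.smul (hg.continuousAt hopen)

theorem stronglyMeasurable_of_offDiag {g : E × E → F} (hg : ContinuousOn g {p | p.1 ≠ p.2})
    (hg0 : ∀ x, g (x, x) = 0) : StronglyMeasurable g := by
  classical
  borelize F
  have hs : MeasurableSet {p : E × E | p.1 ≠ p.2} :=
    (isOpen_ne_fun continuous_fst continuous_snd).measurableSet
  have h1 : Measurable ({p : E × E | p.1 ≠ p.2}.piecewise g (fun _ => (0 : F))) :=
    ContinuousOn.measurable_piecewise hg continuousOn_const hs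
  have h2 : {p : E × E | p.1 ≠ p.2}.piecewise g (fun _ => (0 : F)) = g := by
    ext p
    by_cases hp : p.1 = p.2
    · have : p ∉ {p : E × E | p.1 ≠ p.2} := fun h => h hp
      rw [piecewise_eq_of_notMem _ _ _ this]
      have hpp : p = (p.1, p.1) := Prod.ext rfl hp.symm
      rw [hpp, hg0]
    · rw [piecewise_eq_of_mem _ _ _ (show p ∈ {p : E × E | p.1 ≠ p.2} from hp)]
  rw [h2] at h1
  exact h1.stronglyMeasurable

/-- estimate of the error made by removing the diagonal -/
theorem integral_offDiag_sub_le {m : Measure (E × E)} [IsFiniteMeasureOnCompacts m]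
    {g : E × E → F} (hg : ContinuousOn g {p | p.1 ≠ p.2}) (hg0 : ∀ x, g (x, x) = 0)
    {K : Set (E × E)} (hK : IsCompact K) (h0 : ∀ p, p ∉ K → g p = 0)
    {τ ε : ℝ} (hτ : 0 < τ) (hε : 0 ≤ ε)
    (hs : ∫⁻ p in {p | dist p.1 p.2 < τ}, ‖g p‖ₑ ∂m ≤ ENNReal.ofReal ε) :
    Integrable g m ∧ ‖(∫ p, g p ∂m) - ∫ p, offDiag τ p • g p ∂m‖ ≤ ε := by
  have hmeas : StronglyMeasurable g := stronglyMeasurable_of_offDiag hg hg0
  have hc : Continuous (fun p => offDiag τ p • g p) := continuous_offDiag_smul hg hτ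
  have hcs : HasCompactSupport (fun p => offDiag τ p • g p) :=
    HasCompactSupport.intro hK (fun p hp => by rw [h0 p hp, smul_zero])
  have hi : Integrable (fun p => offDiag τ p • g p) m := hc.integrable_of_hasCompactSupport hcs
  have hset : MeasurableSet {p : E × E | dist p.1 p.2 < τ} :=
    (isOpen_lt (by fun_prop) continuous_const).measurableSet
  -- the difference
  have hle : ∀ p, ‖(1 - offDiag τ p) • g p‖ₑ ≤
      {p : E × E | dist p.1 p.2 < τ}.indicator (fun p => ‖g p‖ₑ) p := by
    intro p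
    by_cases hp : dist p.1 p.2 < τ
    · rw [indicator_of_mem (show p ∈ {p : E × E | dist p.1 p.2 < τ} from hp), enorm_smul]
      refine mul_le_of_le_one_left zero_le ?_
      rw [Real.enorm_eq_ofReal (by linarith [offDiag_le_one τ p])]
      rw [← ENNReal.ofReal_one]
      exact ENNReal.ofReal_le_ofReal (by linarith [offDiag_nonneg τ p])
    · rw [offDiag_eq_one hτ (not_lt.1 hp)]
      simp
  have hlin : ∫⁻ p, ‖(1 - offDiag τ p) • g p‖ₑ ∂m ≤ ENNReal.ofReal ε := by
    refine (lintegral_mono hle).trans ?_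
    rwa [lintegral_indicator hset]
  have hmd : AEStronglyMeasurable (fun p => (1 - offDiag τ p) • g p) m :=
    ((continuous_const.sub (continuous_offDiag τ)).stronglyMeasurable.smul
      hmeas).aestronglyMeasurable
  have hid : Integrable (fun p => (1 - offDiag τ p) • g p) m :=
    ⟨hmd, hlin.trans_lt ENNReal.ofReal_lt_top⟩
  have hsum : g = fun p => (1 - offDiag τ p) • g p + offDiag τ p • g p := by
    ext p; rw [← add_smul]; simp
  have hig : Integrable g m := by
    rw [hsum]; exact hid.add hi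
  refine ⟨hig, ?_⟩
  rw [← integral_sub hig hi]
  have h3 : ∀ p, g p - offDiag τ p • g p = (1 - offDiag τ p) • g p := by
    intro p; rw [sub_smul, one_smul]
  simp_rw [h3]
  refine (norm_integral_le_lintegral_norm _).trans ?_
  refine ENNReal.toReal_le_of_le_ofReal hε ?_
  simpa only [ofReal_norm] using hlin

/-- (c) product integrals with a uniformly small diagonal singularity converge -/
theorem VagueTendsto.prod_singular {μ μ' : ι → Measure E} {ν ν' : Measure E}
    [∀ k, IsFiniteMeasureOnCompacts (μ k)] [∀ k, IsFiniteMeasureOnCompacts (μ' k)]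
    [IsFiniteMeasureOnCompacts ν] [IsFiniteMeasureOnCompacts ν']
    (hb : UnifLocBdd l μ) (hb' : UnifLocBdd l μ') (h : VagueTendsto l μ ν)
    (h' : VagueTendsto l μ' ν')
    {g : E × E → F} (hg : ContinuousOn g {p | p.1 ≠ p.2}) (hg0 : ∀ x, g (x, x) = 0)
    {K : Set (E × E)} (hK : IsCompact K) (h0 : ∀ p, p ∉ K → g p = 0)
    (hs : ∀ ε : ℝ, 0 < ε → ∃ τ > 0,
      (∀ᶠ k in l, ∫⁻ p in {p | dist p.1 p.2 < τ}, ‖g p‖ₑ ∂((μ k).prod (μ' k))
        ≤ ENNReal.ofReal ε) ∧
      ∫⁻ p in {p | dist p.1 p.2 < τ}, ‖g p‖ₑ ∂(ν.prod ν') ≤ ENNReal.ofReal ε) :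
    Tendsto (fun k => ∫ p, g p ∂((μ k).prod (μ' k))) l (𝓝 (∫ p, g p ∂(ν.prod ν'))) := by
  rw [tendsto_iff_norm_sub_tendsto_zero, Metric.tendsto_nhds]
  intro ε hε
  obtain ⟨τ, hτ, h1, h2⟩ := hs (ε / 4) (by positivity)
  have hc : Continuous (fun p => offDiag τ p • g p) := continuous_offDiag_smul hg hτ
  have hcs : HasCompactSupport (fun p => offDiag τ p • g p) :=
    HasCompactSupport.intro hK (fun p hp => by rw [h0 p hp, smul_zero])
  have hlim := h.prod hb hb' h' hc hcs
  have hlim' := (tendsto_iff_norm_sub_tendsto_zero.1 hlim).eventually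
    (gt_mem_nhds (show (0 : ℝ) < ε / 4 by positivity))
  obtain ⟨-, h3⟩ := integral_offDiag_sub_le hg hg0 hK h0 hτ (by positivity) h2
  filter_upwards [h1, hlim'] with k hk hk'
  obtain ⟨-, h4⟩ := integral_offDiag_sub_le hg hg0 hK h0 hτ (by positivity) hk
  rw [Real.dist_eq, sub_zero, abs_norm]
  rw [norm_sub_rev] at h3
  calc ‖(∫ p, g p ∂((μ k).prod (μ' k))) - ∫ p, g p ∂(ν.prod ν')‖
      = ‖((∫ p, g p ∂((μ k).prod (μ' k))) - ∫ p, offDiag τ p • g p ∂((μ k).prod (μ' k))) +
        ((∫ p, offDiag τ p • g p ∂((μ k).prod (μ' k))) - ∫ p, offDiag τ p • g p ∂(ν.prod ν')) +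
        ((∫ p, offDiag τ p • g p ∂(ν.prod ν')) - ∫ p, g p ∂(ν.prod ν'))‖ := by
          congr 1; abel
    _ ≤ _ := norm_add₃_le
    _ ≤ ε / 4 + ε / 4 + ε / 4 := add_le_add (add_le_add h4 hk'.le) h3
    _ < ε := by linarith

/-- near-diagonal mass of `|x-y|^{-m}` for the product of a locally finite measure and an upper
regular one -/
theorem lintegral_near_diag {n m : ℕ} (hm : m < n) {C : ℝ} (hC : 0 ≤ C) {μ μ' : Measure E}
    [SFinite μ] [SFinite μ'] (hμ : UpperReg n C μ') {K : Set E} (hK : MeasurableSet K) {τ : ℝ}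
    (hτ : 0 < τ) :
    ∫⁻ p in {p : E × E | p.1 ∈ K ∧ dist p.1 p.2 ≤ τ}, ENNReal.ofReal ((dist p.1 p.2 ^ m)⁻¹)
      ∂(μ.prod μ') ≤ ENNReal.ofReal (C * 4 ^ n * τ ^ (n - m)) * μ K := by
  have hset : MeasurableSet {p : E × E | p.1 ∈ K ∧ dist p.1 p.2 ≤ τ} := by
    refine (measurable_fst hK).inter ?_
    exact (isClosed_le (continuous_fst.dist continuous_snd) continuous_const).measurableSet
  have hmeas : Measurable (fun p : E × E => ENNReal.ofReal ((dist p.1 p.2 ^ m)⁻¹)) := by
    have : Measurable (fun p : E × E => dist p.1 p.2) :=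
      (continuous_fst.dist continuous_snd).measurable
    exact (this.pow_const m).inv.ennreal_ofReal
  rw [← lintegral_indicator hset, lintegral_prod _ (hmeas.indicator hset).aemeasurable]
  calc ∫⁻ x, ∫⁻ y, {p : E × E | p.1 ∈ K ∧ dist p.1 p.2 ≤ τ}.indicator
          (fun p => ENNReal.ofReal ((dist p.1 p.2 ^ m)⁻¹)) (x, y) ∂μ' ∂μ
      ≤ ∫⁻ x, K.indicator (fun _ => ENNReal.ofReal (C * 4 ^ n * τ ^ (n - m))) x ∂μ := by
        refine lintegral_mono fun x => ?_
        by_cases hx : x ∈ K
        · rw [indicator_of_mem hx]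
          refine le_trans (le_of_eq ?_) (lintegral_near hμ hC hm x hτ)
          rw [← lintegral_indicator isClosed_closedBall.measurableSet]
          refine lintegral_congr fun y => ?_
          by_cases hy : dist x y ≤ τ
          · rw [indicator_of_mem (show (x, y) ∈ {p : E × E | p.1 ∈ K ∧ dist p.1 p.2 ≤ τ} from
              ⟨hx, hy⟩), indicator_of_mem (by rwa [mem_closedBall, dist_comm])]
          · rw [indicator_of_notMem (fun h : (x, y) ∈ {p : E × E | p.1 ∈ K ∧ dist p.1 p.2 ≤ τ} =>
              hy h.2), indicator_of_notMem (by rwa [mem_closedBall, dist_comm])]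
        · rw [indicator_of_notMem hx]
          refine le_of_eq ?_
          rw [lintegral_eq_zero_of_ae_eq_zero]
          refine ae_of_all _ fun y => ?_
          exact indicator_of_notMem
            (fun h : (x, y) ∈ {p : E × E | p.1 ∈ K ∧ dist p.1 p.2 ≤ τ} => hx h.1) _
    _ = _ := by rw [lintegral_indicator hK, setLIntegral_const]

theorem UnifLocBdd.of_upperReg {n : ℕ} {C : ℝ} {μ : ι → Measure E}
    (h : ∀ᶠ k in l, UpperReg n C (μ k)) : UnifLocBdd l μ := by
  intro K hK
  rcases K.eq_empty_or_nonempty with rfl | ⟨x0, hx0⟩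
  · exact ⟨0, Eventually.of_forall fun k => by simp⟩
  obtain ⟨R, hR⟩ := hK.isBounded.subset_ball x0
  refine ⟨(C * (max R 1) ^ n).toNNReal, h.mono fun k hk => ?_⟩
  refine (measure_mono (hR.trans (ball_subset_ball (le_max_left R 1)))).trans ?_
  exact hk x0 (max R 1) (by positivity)

theorem VagueTendsto.upperReg {n : ℕ} {C : ℝ} {μ : ι → Measure E} {ν : Measure E}
    [∀ k, IsFiniteMeasureOnCompacts (μ k)] [IsFiniteMeasureOnCompacts ν] [l.NeBot]
    (h : VagueTendsto l μ ν) (hμ : ∀ᶠ k in l, UpperReg n C (μ k)) : UpperReg n C ν := by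
  intro x r hr
  exact h.measure_open_le isOpen_ball (hμ.frequently.mono fun k hk => hk x r hr)

/-- (c') product integrals of kernels with an integrable diagonal singularity converge -/
theorem VagueTendsto.prod_kernel {n m : ℕ} (hm : m < n) {C : ℝ} (hC : 0 ≤ C)
    {μ : ι → Measure E} {ν : Measure E}
    [∀ k, IsFiniteMeasureOnCompacts (μ k)] [IsFiniteMeasureOnCompacts ν] [l.NeBot]
    (h : VagueTendsto l μ ν) (hμ : ∀ᶠ k in l, UpperReg n C (μ k))
    {g : E × E → F} (hg : ContinuousOn g {p | p.1 ≠ p.2}) (hg0 : ∀ x, g (x, x) = 0)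
    {K : Set (E × E)} (hK : IsCompact K) (h0 : ∀ p, p ∉ K → g p = 0) {A : ℝ}
    (hA : ∀ p : E × E, ‖g p‖ ≤ A * (dist p.1 p.2 ^ m)⁻¹) :
    Tendsto (fun k => ∫ p, g p ∂((μ k).prod (μ k))) l (𝓝 (∫ p, g p ∂(ν.prod ν))) := by
  have hb : UnifLocBdd l μ := UnifLocBdd.of_upperReg hμ
  have hν : UpperReg n C ν := h.upperReg hμ
  refine h.prod_singular hb hb h hg hg0 hK h0 ?_
  intro ε hε
  -- the first projection of the support
  set K1 : Set E := Prod.fst '' K with hK1def
  have hK1 : IsCompact K1 := hK.image continuous_fst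
  obtain ⟨B, hB0, hB⟩ := hb.exists_pos hK1
  set B' : ℝ := max B ((ν K1).toReal) with hB'
  have hB'0 : 0 < B' := lt_max_of_lt_left hB0
  have hνB : ν K1 ≤ ENNReal.ofReal B' := by
    rw [← ENNReal.ofReal_toReal hK1.measure_lt_top.ne]
    exact ENNReal.ofReal_le_ofReal (le_max_right _ _)
  set A' : ℝ := max A 1 with hA'
  have hA'0 : 0 < A' := lt_max_of_lt_right one_pos
  -- choice of `τ`
  have key : ∀ (a : Measure E) [IsFiniteMeasureOnCompacts a], UpperReg n C a →
      a K1 ≤ ENNReal.ofReal B' → ∀ τ : ℝ, 0 < τ →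
      ∫⁻ p in {p : E × E | dist p.1 p.2 < τ}, ‖g p‖ₑ ∂(a.prod a) ≤
        ENNReal.ofReal (A' * (C * 4 ^ n * τ ^ (n - m)) * B') := by
    intro a _ ha haB τ hτ
    have hset : MeasurableSet {p : E × E | dist p.1 p.2 < τ} :=
      (isOpen_lt (continuous_fst.dist continuous_snd) continuous_const).measurableSet
    have hset' : MeasurableSet {p : E × E | p.1 ∈ K1 ∧ dist p.1 p.2 ≤ τ} := by
      refine (measurable_fst hK1.measurableSet).inter ?_
      exact (isClosed_le (continuous_fst.dist continuous_snd) continuous_const).measurableSet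
    calc ∫⁻ p in {p : E × E | dist p.1 p.2 < τ}, ‖g p‖ₑ ∂(a.prod a)
        = ∫⁻ p, {p : E × E | dist p.1 p.2 < τ}.indicator (fun p => ‖g p‖ₑ) p ∂(a.prod a) := by
          rw [lintegral_indicator hset]
      _ ≤ ∫⁻ p, {p : E × E | p.1 ∈ K1 ∧ dist p.1 p.2 ≤ τ}.indicator
            (fun p => ENNReal.ofReal A' * ENNReal.ofReal ((dist p.1 p.2 ^ m)⁻¹)) p
            ∂(a.prod a) := by
          refine lintegral_mono fun p => ?_
          by_cases hp : dist p.1 p.2 < τ
          · rw [indicator_of_mem (show p ∈ {p : E × E | dist p.1 p.2 < τ} from hp)]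
            by_cases hpK : p ∈ K
            · rw [indicator_of_mem (show p ∈ {p : E × E | p.1 ∈ K1 ∧ dist p.1 p.2 ≤ τ} from
                ⟨mem_image_of_mem _ hpK, hp.le⟩)]
              rw [← ENNReal.ofReal_mul hA'0.le, ← ofReal_norm]
              refine ENNReal.ofReal_le_ofReal ((hA p).trans ?_)
              exact mul_le_mul_of_nonneg_right (le_max_left _ _) (by positivity)
            · rw [h0 p hpK]; simp
          · rw [indicator_of_notMem (show p ∉ {p : E × E | dist p.1 p.2 < τ} from hp)]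
            exact zero_le
      _ = ENNReal.ofReal A' * ∫⁻ p in {p : E × E | p.1 ∈ K1 ∧ dist p.1 p.2 ≤ τ},
            ENNReal.ofReal ((dist p.1 p.2 ^ m)⁻¹) ∂(a.prod a) := by
          rw [lintegral_indicator hset', lintegral_const_mul' _ _ ENNReal.ofReal_ne_top]
      _ ≤ ENNReal.ofReal A' * (ENNReal.ofReal (C * 4 ^ n * τ ^ (n - m)) * a K1) := by
          gcongr
          exact lintegral_near_diag hm hC ha hK1.measurableSet hτ
      _ ≤ ENNReal.ofReal A' * (ENNReal.ofReal (C * 4 ^ n * τ ^ (n - m)) * ENNReal.ofReal B') := by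
          gcongr
      _ = _ := by
          rw [← ENNReal.ofReal_mul (by positivity), ← ENNReal.ofReal_mul hA'0.le]; congr 1; ring
  obtain ⟨τ, hτ, hτε⟩ : ∃ τ > 0, A' * (C * 4 ^ n * τ ^ (n - m)) * B' ≤ ε := by
    have hlim : Tendsto (fun τ : ℝ => A' * (C * 4 ^ n * τ ^ (n - m)) * B') (𝓝[>] 0) (𝓝 0) := by
      have : Tendsto (fun τ : ℝ => A' * (C * 4 ^ n * τ ^ (n - m)) * B') (𝓝 0)
          (𝓝 (A' * (C * 4 ^ n * (0 : ℝ) ^ (n - m)) * B')) := by
        refine Continuous.tendsto ?_ _
        fun_prop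
      rw [zero_pow (by omega)] at this
      simp only [mul_zero, zero_mul] at this
      exact this.mono_left nhdsWithin_le_nhds
    have h1 := (hlim.eventually (gt_mem_nhds hε)).and self_mem_nhdsWithin
    obtain ⟨τ, h2, h3⟩ := h1.exists
    exact ⟨τ, h3, h2.le⟩
  refine ⟨τ, hτ, ?_, ?_⟩
  · filter_upwards [hμ, hB] with k hk hkB
    refine (key (μ k) hk (hkB.trans (ENNReal.ofReal_le_ofReal (le_max_left _ _))) τ hτ).trans ?_
    exact ENNReal.ofReal_le_ofReal hτε
  · exact (key ν hν hνB τ hτ).trans (ENNReal.ofReal_le_ofReal hτε)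

end Sing

end Crest.Agent.R085
end

-- ▼ part R085/LimBf
section

/-!
# R085, module M3 (weak compactness), part 5: `Bf` passes to the limit

Auxiliary lemmas are in the namespace `Crest.Agent.R085.LimBf`.
-/

set_option autoImplicit false

open MeasureTheory Filter Topology Metric Set
open scoped ENNReal NNReal

namespace Crest.Agent.R085

namespace LimBf

variable {d n : ℕ}

theorem continuous_cut : Continuous cut := by
  unfold cut
  fun_prop

theorem kN_nonneg (N : ℝ) (z : V d) : 0 ≤ kN n N z :=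
  mul_nonneg (le_max_left _ _) (by positivity)

theorem kN_le (N : ℝ) (z : V d) : kN n N z ≤ (‖z‖ ^ (n + 1))⁻¹ :=
  mul_le_of_le_one_left (by positivity) (max_le zero_le_one (min_le_left _ _))

theorem kN_eq_zero {N : ℝ} (hN : 0 < N) {z : V d} (h : 2 * N ≤ ‖z‖) : kN n N z = 0 := by
  unfold kN cut
  have h1 : 2 ≤ ‖z‖ / N := by rwa [le_div_iff₀ hN]
  rw [max_eq_left ((min_le_right _ _).trans (by linarith)), zero_mul]

/-- the kernel `kN` is continuous away from the origin -/
theorem continuousOn_kN (N : ℝ) : ContinuousOn (kN n N : V d → ℝ) {z | z ≠ 0} := by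
  unfold kN
  refine ContinuousOn.mul ?_ ?_
  · exact (continuous_cut.comp (continuous_norm.div_const N)).continuousOn
  · refine ContinuousOn.inv₀ (by fun_prop) ?_
    intro z hz
    exact pow_ne_zero _ (norm_ne_zero_iff.2 hz)

/-- the integrand of `Bf` -/
noncomputable def bI (n : ℕ) (N : ℝ) (u ψ : V d → ℝ) (p : V d × V d) : ℝ :=
  (u p.1 - u p.2) * (ψ p.1 - ψ p.2) * kN n N (p.1 - p.2)

theorem Bf_eq (μ : Measure (V d)) (N : ℝ) (u ψ : V d → ℝ) :
    Bf n μ N u ψ = (1 / 2 : ℝ) * ∫ p, bI n N u ψ p ∂(μ.prod μ) := rfl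

theorem continuousOn_bI {N : ℝ} {u ψ : V d → ℝ} (hu : Continuous u) (hψ : Continuous ψ) :
    ContinuousOn (bI n N u ψ) {p | p.1 ≠ p.2} := by
  unfold bI
  refine ContinuousOn.mul (by fun_prop) ?_
  refine (continuousOn_kN (n := n) (d := d) N).comp (by fun_prop) ?_
  intro p hp
  exact sub_ne_zero.2 hp

theorem bI_diag (N : ℝ) (u ψ : V d → ℝ) (x : V d) : bI n N u ψ (x, x) = 0 := by
  unfold bI; simp

theorem abs_bI_le (hn : 1 ≤ n) {N : ℝ} {u ψ : V d → ℝ} {L K : ℝ} (hL : 0 ≤ L) (hK : 0 ≤ K)
    (hu : ∀ x y, |u x - u y| ≤ L * dist x y) (hψ : ∀ x y, |ψ x - ψ y| ≤ K * dist x y)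
    (p : V d × V d) :
    |bI n N u ψ p| ≤ L * K * (dist p.1 p.2 ^ (n - 1))⁻¹ := by
  obtain ⟨x, y⟩ := p
  unfold bI
  rw [abs_mul, abs_mul, abs_of_nonneg (kN_nonneg _ _)]
  have hnn : n + 1 = 2 + (n - 1) := by omega
  have h1 : kN n N (x - y) ≤ (dist x y ^ (n + 1))⁻¹ := by
    rw [dist_eq_norm]; exact kN_le _ _
  calc |u x - u y| * |ψ x - ψ y| * kN n N (x - y)
      ≤ (L * dist x y) * (K * dist x y) * (dist x y ^ (n + 1))⁻¹ := by
        gcongr
        · exact kN_nonneg _ _
        · exact hu x y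
        · exact hψ x y
    _ ≤ L * K * (dist x y ^ (n - 1))⁻¹ := by
        rcases eq_or_lt_of_le (dist_nonneg : 0 ≤ dist x y) with h | h
        · rw [← h]; simp; positivity
        · rw [hnn, pow_add]
          field_simp
          exact le_refl _

/-- the integrand of `Bf` is compactly supported -/
theorem bI_compact_support {N : ℝ} (hN : 0 < N) {u ψ : V d → ℝ} {c : V d} {R : ℝ}
    (hsupp : ∀ y, y ∉ closedBall c R → ψ y = 0) (p : V d × V d)
    (hp : p ∉ closedBall c (R + 2 * N) ×ˢ closedBall c (R + 4 * N)) : bI n N u ψ p = 0 := by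
  by_cases hfar : 2 * N ≤ dist p.1 p.2
  · unfold bI
    rw [kN_eq_zero hN (by rwa [← dist_eq_norm]), mul_zero]
  push Not at hfar
  have key : R < dist p.1 c ∧ R < dist p.2 c := by
    by_contra hcon
    apply hp
    rw [not_and_or, not_lt, not_lt] at hcon
    rw [mem_prod, mem_closedBall, mem_closedBall]
    rcases hcon with h | h
    · have := dist_triangle p.2 p.1 c
      rw [dist_comm p.2 p.1] at this
      constructor <;> linarith
    · have := dist_triangle p.1 p.2 c
      constructor <;> linarith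
  have z1 : ψ p.1 = 0 := hsupp _ (by rw [mem_closedBall, not_le]; exact key.1)
  have z2 : ψ p.2 = 0 := hsupp _ (by rw [mem_closedBall, not_le]; exact key.2)
  unfold bI
  rw [z1, z2]; ring

theorem lipschitzWith_lin (e : V d) : LipschitzWith ‖e‖₊ (lin e) := by
  refine LipschitzWith.of_dist_le_mul fun x y => ?_
  unfold lin
  rw [Real.dist_eq, ← inner_sub_left, dist_eq_norm, coe_nnnorm, mul_comm]
  exact abs_real_inner_le_norm _ _

end LimBf

open LimBf in
/-- `Bf` passes to vague limits (fixed truncation, fixed Lipschitz functions). -/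
theorem VagueTendsto.Bf_tendsto {d n : ℕ} {ι : Type*} {l : Filter ι} [l.NeBot] (hn : 1 ≤ n)
    {C : ℝ} (hC : 0 ≤ C)
    {μ : ι → Measure (V d)} {ν : Measure (V d)}
    [∀ k, IsFiniteMeasureOnCompacts (μ k)] [IsFiniteMeasureOnCompacts ν]
    (h : VagueTendsto l μ ν) (hμ : ∀ᶠ k in l, UpperReg n C (μ k)) {N : ℝ} (hN : 0 < N)
    {u ψ : V d → ℝ} {L K : ℝ≥0} (hu : LipschitzWith L u) (hψ : LipschitzWith K ψ)
    (hc : HasCompactSupport ψ) :
    Tendsto (fun k => Bf n (μ k) N u ψ) l (𝓝 (Bf n ν N u ψ)) := by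
  obtain ⟨R, hR⟩ := hc.isCompact.isBounded.subset_closedBall (0 : V d)
  have hsupp : ∀ y, y ∉ closedBall (0 : V d) R → ψ y = 0 := fun y hy =>
    image_eq_zero_of_notMem_tsupport fun hy' => hy (hR hy')
  have hu' : ∀ x y, |u x - u y| ≤ L * dist x y := fun x y => by
    rw [← Real.dist_eq]; exact hu.dist_le_mul x y
  have hψ' : ∀ x y, |ψ x - ψ y| ≤ K * dist x y := fun x y => by
    rw [← Real.dist_eq]; exact hψ.dist_le_mul x y
  simp_rw [LimBf.Bf_eq]
  refine Tendsto.const_mul _ ?_
  refine h.prod_kernel (n := n) (m := n - 1) (by omega) hC hμ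
    (continuousOn_bI hu.continuous hψ.continuous) (bI_diag N u ψ)
    (K := closedBall (0 : V d) (R + 2 * N) ×ˢ closedBall (0 : V d) (R + 4 * N))
    ((isCompact_closedBall _ _).prod (isCompact_closedBall _ _))
    (bI_compact_support hN hsupp) (A := L * K) ?_
  intro p
  exact abs_bI_le hn L.2 K.2 hu' hψ' p

/-- the truncated Riesz form passes to vague limits -/
theorem VagueTendsto.Bf_lin_tendsto {d n : ℕ} {ι : Type*} {l : Filter ι} [l.NeBot] (hn : 1 ≤ n)
    {C : ℝ} (hC : 0 ≤ C)
    {μ : ι → Measure (V d)} {ν : Measure (V d)}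
    [∀ k, IsFiniteMeasureOnCompacts (μ k)] [IsFiniteMeasureOnCompacts ν]
    (h : VagueTendsto l μ ν) (hμ : ∀ᶠ k in l, UpperReg n C (μ k)) {N : ℝ} (hN : 0 < N)
    (e : V d) {ψ : V d → ℝ} (hψ : IsTest ψ) :
    Tendsto (fun k => Bf n (μ k) N (lin e) ψ) l (𝓝 (Bf n ν N (lin e) ψ)) := by
  obtain ⟨K, hK⟩ := hψ.lip
  exact h.Bf_tendsto hn hC hμ hN (LimBf.lipschitzWith_lin e) hK hψ.cpt

/-! ### versions for `WLim` -/

section WLimVersions

variable {d n : ℕ} {ι : Type*}
variable {U : Ultrafilter ι} {μ : ι → Measure (V d)} {ν : Measure (V d)}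


theorem WLim.Bf_lin_tendsto (h : WLim U μ ν) (hn : 1 ≤ n) {C : ℝ} (hC : 0 ≤ C)
    (hμ : ∀ᶠ k in (U : Filter ι), UpperReg n C (μ k)) {N : ℝ} (hN : 0 < N)
    (e : V d) {ψ : V d → ℝ} (hψ : IsTest ψ) :
    Tendsto (fun k => Bf n (μ k) N (lin e) ψ) (U : Filter ι) (𝓝 (Bf n ν N (lin e) ψ)) := by
  have := h.lfk
  have := h.lf
  exact VagueTendsto.Bf_lin_tendsto hn hC h.vague hμ hN e hψ

theorem WLim.upperReg (h : WLim U μ ν) {C : ℝ}
    (hμ : ∀ᶠ k in (U : Filter ι), UpperReg n C (μ k)) : UpperReg n C ν := by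
  have := h.lfk
  have := h.lf
  exact VagueTendsto.upperReg h.vague hμ




end WLimVersions

end Crest.Agent.R085
end

-- ▼ part R085/Tail
section

/-!
R085: tail estimate for the form `Bf` (dependence on the outer truncation `N`), for an upper
`n`-regular measure; integrability of the integrand of `Bf`.
-/

set_option autoImplicit false

namespace Crest.Agent.R085

open MeasureTheory Metric Set Filter
open scoped ENNReal NNReal Topology

variable {d : ℕ}

theorem IsTest.continuous {ψ : V d → ℝ} (h : IsTest ψ) : Continuous ψ := by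
  obtain ⟨K, hK⟩ := h.lip
  exact hK.continuous

theorem IsTest.bounded {ψ : V d → ℝ} (h : IsTest ψ) : ∃ M : ℝ, 0 ≤ M ∧ ∀ y, |ψ y| ≤ M := by
  obtain ⟨M, hM⟩ := h.cpt.exists_bound_of_continuous h.continuous
  exact ⟨M, (norm_nonneg _).trans (hM 0), hM⟩

theorem kN_abs_sub_le (n : ℕ) (N N' : ℝ) (z : V d) :
    |kN n N' z - kN n N z| ≤ (‖z‖ ^ (n + 1))⁻¹ := by
  have h1 := kN_nonneg n N z
  have h2 := kN_nonneg n N' z
  have h3 := kN_le n N z
  have h4 := kN_le n N' z
  rw [abs_le]
  constructor <;> linarith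

theorem IsTest.supp_ball {ψ : V d → ℝ} (h : IsTest ψ) :
    ∃ R : ℝ, 0 < R ∧ ∀ y, y ∉ ball (0 : V d) R → ψ y = 0 := by
  obtain ⟨R, hR⟩ := h.cpt.isCompact.isBounded.subset_ball (0 : V d)
  refine ⟨max R 1, lt_of_lt_of_le one_pos (le_max_right _ _), fun y hy => ?_⟩
  by_contra hne
  exact hy (ball_subset_ball (le_max_left _ _) (hR (subset_tsupport _ hne)))

/-- The integrand of `Bf` is integrable. -/
theorem integrable_Bf {n : ℕ} {C : ℝ} (hC : 0 ≤ C) (hn : 1 ≤ n) {μ : Measure (V d)}
    (hμ : UpperReg n C μ) {u : V d → ℝ} (hu : LocLip u) {ψ : V d → ℝ} (hψ : IsTest ψ)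
    {N : ℝ} (hN : 0 < N) :
    Integrable (fun p : V d × V d => (u p.1 - u p.2) * (ψ p.1 - ψ p.2) * kN n N (p.1 - p.2))
      (μ.prod μ) := by
  have hσ : SigmaFinite μ := hμ.sigmaFinite
  obtain ⟨R, hR, hs⟩ := hψ.supp_ball
  obtain ⟨K, hK⟩ := hψ.lip
  obtain ⟨L, hL0, hL⟩ := hu.ball 0 (R + 2 * N)
  have hum : Measurable u := hu.continuous.measurable
  have hψm : Measurable ψ := hψ.continuous.measurable
  have hkm : Measurable fun p : V d × V d => kN n N (p.1 - p.2) :=
    (measurable_kN n N).comp (measurable_fst.sub measurable_snd)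
  refine integrable_of_near hμ hC hn 0 (by positivity : 0 < R + 2 * N)
    ((((hum.comp measurable_fst).sub (hum.comp measurable_snd)).mul
      ((hψm.comp measurable_fst).sub (hψm.comp measurable_snd))).mul hkm)
    (M := L * K) (by positivity) ?_ ?_
  · intro p h1 h2
    rw [abs_mul, abs_mul, abs_of_nonneg (kN_nonneg _ _ _)]
    have e1 := hL _ h1 _ h2
    have e2 := hK.dist_le_mul p.1 p.2
    rw [Real.dist_eq] at e2
    calc |u p.1 - u p.2| * |ψ p.1 - ψ p.2| * kN n N (p.1 - p.2)
        ≤ (L * dist p.1 p.2) * (K * dist p.1 p.2) * kN n N (p.1 - p.2) := by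
          gcongr
          exact kN_nonneg _ _ _
      _ = L * K * (‖p.1 - p.2‖ ^ 2 * kN n N (p.1 - p.2)) := by rw [dist_eq_norm]; ring
      _ ≤ _ := by
          gcongr
          exact (mul_le_mul_of_nonneg_left (kN_le n N _) (by positivity)).trans
            (norm_sq_mul_inv_le n hn _)
  · intro p hp
    have key : (ψ p.1 = 0 ∧ ψ p.2 = 0) ∨ kN n N (p.1 - p.2) = 0 := by
      by_cases h1 : p.1 ∈ ball (0 : V d) R
      · right
        have h2 : ¬ (p.2 ∈ ball (0 : V d) (R + 2 * N)) :=
          fun h => hp ⟨ball_subset_ball (by linarith) h1, h⟩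
        rw [mem_ball, not_lt] at h2
        rw [mem_ball] at h1
        refine kN_eq_zero hN ?_
        rw [← dist_eq_norm]
        have := dist_triangle p.2 p.1 0
        rw [dist_comm p.2 p.1] at this
        linarith
      · by_cases h3 : p.2 ∈ ball (0 : V d) R
        · right
          have h2 : ¬ (p.1 ∈ ball (0 : V d) (R + 2 * N)) :=
            fun h => hp ⟨h, ball_subset_ball (by linarith) h3⟩
          rw [mem_ball, not_lt] at h2
          rw [mem_ball] at h3
          refine kN_eq_zero hN ?_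
          rw [← dist_eq_norm]
          have := dist_triangle p.1 p.2 0
          linarith
        · exact Or.inl ⟨hs _ h1, hs _ h3⟩
    rcases key with ⟨h1, h2⟩ | h
    · rw [h1, h2]; ring
    · rw [h, mul_zero]

theorem tail_aux {n : ℕ} {C : ℝ} (hC : 0 ≤ C) (hn : 1 ≤ n) {μ : Measure (V d)}
    (hμ : UpperReg n C μ) {u : V d → ℝ} (hu : LocLip u) {ψ : V d → ℝ} (hψ : IsTest ψ)
    (hz : ∫ y, ψ y ∂μ = 0) (x : V d) {R N N' a : ℝ} (hR : 0 < R)
    (hs : ∀ y, y ∉ ball x R → ψ y = 0) (hN : 8 * R ≤ N) (hNN : N ≤ N') :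
    |Bf n μ N' u ψ - Bf n μ N u ψ| ≤ C * 2 ^ (n + 1) * (N⁻¹ * (∫ y, |ψ y| * |u y - a| ∂μ))
      + (n + 3) * 2 ^ (n + 3) * (R * (∫ y, |ψ y| ∂μ)
        * farI n μ (fun y => u y - a) x (N / 2) (4 * N')) := by
  have hσ : SigmaFinite μ := hμ.sigmaFinite
  have hN0 : 0 < N := by linarith
  have hN'0 : 0 < N' := by linarith
  set w : V d → ℝ := fun y => u y - a with hwdef
  have hum : Measurable u := hu.continuous.measurable
  have hwm : Measurable w := hum.sub_const a
  have hψm : Measurable ψ := hψ.continuous.measurable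
  obtain ⟨Mψ, hMψ0, hMψ⟩ := hψ.bounded
  obtain ⟨L, hL0, hL⟩ := hu.ball x (4 * N')
  obtain ⟨M, hM0, hM⟩ : ∃ M : ℝ, 0 ≤ M ∧ ∀ y ∈ ball x (4 * N'), |w y| ≤ M := by
    refine ⟨|w x| + L * (4 * N'), by positivity, fun y hy => ?_⟩
    have h1 := hL y hy x (mem_ball_self (by positivity))
    have h2 : |w y| ≤ |w x| + |u y - u x| := by
      have : w y = w x + (u y - u x) := by simp only [hwdef]; ring
      rw [this]; exact abs_add_le _ _
    have h3 : L * dist y x ≤ L * (4 * N') := by
      gcongr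
      exact (mem_ball.1 hy).le
    linarith
  set κ : V d → ℝ := fun z => kN n N' z - kN n N z with hκ
  have hκm : Measurable κ := (measurable_kN n N').sub (measurable_kN n N)
  have hκp : Measurable fun p : V d × V d => κ (p.1 - p.2) :=
    hκm.comp (measurable_fst.sub measurable_snd)
  have hκ0 : ∀ z : V d, ‖z‖ ≤ N → κ z = 0 := by
    intro z hz
    simp only [hκ]
    rw [kN_eq hN0 hz, kN_eq hN'0 (hz.trans hNN), sub_self]
  have hκ1 : ∀ z : V d, 2 * N' ≤ ‖z‖ → κ z = 0 := by
    intro z hz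
    simp only [hκ]
    rw [kN_eq_zero hN'0 hz, kN_eq_zero hN0 (by linarith), sub_self]
  have hκb : ∀ z : V d, |κ z| ≤ (‖z‖ ^ (n + 1))⁻¹ := fun z => kN_abs_sub_le n N N' z
  have hκb2 : ∀ z : V d, |κ z| ≤ (N ^ (n + 1))⁻¹ := by
    intro z
    rcases le_or_gt ‖z‖ N with h | h
    · rw [hκ0 z h, abs_zero]; positivity
    · exact (hκb z).trans (by gcongr)
  have hκs : ∀ z : V d, κ (-z) = κ z := fun z => by simp only [hκ, kN_neg]
  set B : Set (V d) := ball x (4 * N') with hB
  set BB : Set (V d × V d) := B ×ˢ B with hBB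
  have hBm : MeasurableSet B := measurableSet_ball
  have hBBm : MeasurableSet BB := hBm.prod hBm
  have hBBfin : (μ.prod μ) BB < ∞ := by
    rw [hBB, Measure.prod_prod]
    exact ENNReal.mul_lt_top (hμ.ball_lt_top _ _) (hμ.ball_lt_top _ _)
  -- localisation of products `ψ p.1 * κ (p.1 - p.2)`
  have hloc : ∀ p : V d × V d, p ∉ BB → ψ p.1 * κ (p.1 - p.2) = 0 := by
    intro p hp
    by_cases h1 : p.1 ∈ ball x R
    · have h1' := mem_ball.1 h1
      have hp2 : p.2 ∉ B := fun h => hp ⟨ball_subset_ball (by linarith) h1, h⟩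
      rw [hκ1, mul_zero]
      rw [← dist_eq_norm]
      have h3 : 4 * N' ≤ dist p.2 x := not_lt.1 (fun h => hp2 (mem_ball.2 h))
      have := dist_triangle p.2 p.1 x
      rw [dist_comm p.2 p.1] at this
      linarith
    · rw [hs _ h1, zero_mul]
  set G1 : V d × V d → ℝ := fun p => w p.1 * (ψ p.1 * κ (p.1 - p.2)) with hG1
  set G2 : V d × V d → ℝ := fun p => w p.2 * (ψ p.1 * κ (p.1 - p.2)) with hG2
  have hψ1m : Measurable fun p : V d × V d => ψ p.1 := hψm.comp measurable_fst
  have hw1m : Measurable fun p : V d × V d => w p.1 := hwm.comp measurable_fst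
  have hw2m : Measurable fun p : V d × V d => w p.2 := hwm.comp measurable_snd
  have hG1m : Measurable G1 := hw1m.mul (hψ1m.mul hκp)
  have hG2m : Measurable G2 := hw2m.mul (hψ1m.mul hκp)
  have hint : ∀ G : V d × V d → ℝ, Measurable G → (∀ p ∉ BB, G p = 0) →
      (∀ p ∈ BB, |G p| ≤ M * (Mψ * (N ^ (n + 1))⁻¹)) → Integrable G (μ.prod μ) := by
    intro G hGm hG0 hGb
    have e : G = BB.indicator G := by
      ext p
      by_cases hp : p ∈ BB
      · rw [indicator_of_mem hp]
      · rw [indicator_of_notMem hp, hG0 p hp]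
    rw [e, integrable_indicator_iff hBBm]
    refine Measure.integrableOn_of_bounded hBBfin.ne hGm.aestronglyMeasurable
      (M := M * (Mψ * (N ^ (n + 1))⁻¹)) ?_
    filter_upwards [ae_restrict_mem hBBm] with p hp
    exact hGb p hp
  have hG1i : Integrable G1 (μ.prod μ) := by
    refine hint G1 hG1m (fun p hp => by simp only [hG1]; rw [hloc p hp, mul_zero]) (fun p hp => ?_)
    simp only [hG1]
    rw [abs_mul, abs_mul]
    gcongr
    · exact hM _ hp.1
    · exact hMψ _
    · exact hκb2 _
  have hG2i : Integrable G2 (μ.prod μ) := by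
    refine hint G2 hG2m (fun p hp => by simp only [hG2]; rw [hloc p hp, mul_zero]) (fun p hp => ?_)
    simp only [hG2]
    rw [abs_mul, abs_mul]
    gcongr
    · exact hM _ hp.2
    · exact hMψ _
    · exact hκb2 _
  -- integrability of the two integrands of `Bf`
  have hdiff : Bf n μ N' u ψ - Bf n μ N u ψ = (∫ p, G1 p ∂(μ.prod μ)) - ∫ p, G2 p ∂(μ.prod μ) := by
    unfold Bf
    rw [← mul_sub, ← integral_sub (integrable_Bf hC hn hμ hu hψ hN'0)
      (integrable_Bf hC hn hμ hu hψ hN0),
      ← integral_sub hG1i hG2i]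
    have h1 : ∫ p : V d × V d, ((u p.1 - u p.2) * (ψ p.1 - ψ p.2) * kN n N' (p.1 - p.2)
        - (u p.1 - u p.2) * (ψ p.1 - ψ p.2) * kN n N (p.1 - p.2)) ∂(μ.prod μ)
        = ∫ p : V d × V d, ((G1 p - G2 p) + (G1 p.swap - G2 p.swap)) ∂(μ.prod μ) := by
      refine integral_congr_ae (Eventually.of_forall fun p => ?_)
      simp only [hG1, hG2, hwdef, Prod.fst_swap, Prod.snd_swap]
      have : κ (p.2 - p.1) = κ (p.1 - p.2) := by rw [← hκs, neg_sub]
      rw [this]
      simp only [hκ]
      ring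
    have hGi : Integrable (fun p : V d × V d => G1 p - G2 p) (μ.prod μ) := hG1i.sub hG2i
    have hGs : Integrable (fun p : V d × V d => G1 p.swap - G2 p.swap) (μ.prod μ) := hGi.swap
    rw [h1, integral_add hGi hGs, integral_prod_swap (f := fun p => G1 p - G2 p)]
    ring
  have hb1 : |∫ p, G1 p ∂(μ.prod μ)| ≤ C * 2 ^ (n + 1) * (N⁻¹ * (∫ y, |ψ y| * |u y - a| ∂μ)) := by
    rw [integral_prod _ hG1i]
    have hκi : ∀ z : V d, Integrable (fun y => κ (z - y)) μ ∧
        ∫ y, |κ (z - y)| ∂μ ≤ C * 2 ^ (n + 1) / N ^ 1 := by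
      intro z
      have h1 := integrableOn_tail hμ hC (m := 1) le_rfl z hN0
      have hTm : MeasurableSet {y : V d | N ≤ dist z y} :=
        measurableSet_le measurable_const (measurable_const.dist measurable_id)
      have e : (fun y => κ (z - y)) = {y : V d | N ≤ dist z y}.indicator (fun y => κ (z - y)) := by
        ext y
        by_cases hy : y ∈ {y : V d | N ≤ dist z y}
        · rw [indicator_of_mem hy]
        · rw [indicator_of_notMem hy, hκ0]
          rw [← dist_eq_norm]
          exact (not_le.1 hy).le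
      have hm : Measurable fun y => κ (z - y) := hκm.comp (measurable_const.sub measurable_id)
      have hi : IntegrableOn (fun y => κ (z - y)) {y : V d | N ≤ dist z y} μ := by
        refine h1.1.mono' hm.aestronglyMeasurable (Eventually.of_forall fun y => ?_)
        rw [Real.norm_eq_abs, dist_eq_norm]
        exact hκb _
      have hi' : Integrable (fun y => κ (z - y)) μ := by
        rw [e, integrable_indicator_iff hTm]
        exact hi
      refine ⟨hi', ?_⟩
      have e2 : (fun y => |κ (z - y)|)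
          = {y : V d | N ≤ dist z y}.indicator (fun y => |κ (z - y)|) := by
        ext y
        by_cases hy : y ∈ {y : V d | N ≤ dist z y}
        · rw [indicator_of_mem hy]
        · rw [indicator_of_notMem hy, hκ0, abs_zero]
          rw [← dist_eq_norm]
          exact (not_le.1 hy).le
      rw [e2, integral_indicator hTm]
      refine (integral_mono_ae hi.abs h1.1 (Eventually.of_forall fun y => ?_)).trans h1.2
      simp only [dist_eq_norm]
      exact hκb _
    have hinner : ∀ z, |∫ y, G1 (z, y) ∂μ| ≤ |ψ z| * |w z| * (C * 2 ^ (n + 1) / N ^ 1) := by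
      intro z
      have e1 : ∫ y, G1 (z, y) ∂μ = (w z * ψ z) * ∫ y, κ (z - y) ∂μ := by
        rw [← integral_const_mul]
        refine integral_congr_ae (Eventually.of_forall fun y => ?_)
        simp only [hG1]; ring
      rw [e1, abs_mul, abs_mul]
      have h2 : |∫ y, κ (z - y) ∂μ| ≤ ∫ y, |κ (z - y)| ∂μ := abs_integral_le_integral_abs
      calc |w z| * |ψ z| * |∫ y, κ (z - y) ∂μ| ≤ |w z| * |ψ z| * (C * 2 ^ (n + 1) / N ^ 1) := by
            gcongr
            exact h2.trans (hκi z).2
        _ = _ := by ring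
    have hψwi : Integrable (fun z => |ψ z| * |w z|) μ := by
      have e : (fun z => |ψ z| * |w z|) = (ball x R).indicator (fun z => |ψ z| * |w z|) := by
        ext y
        by_cases hy : y ∈ ball x R
        · rw [indicator_of_mem hy]
        · rw [indicator_of_notMem hy, hs y hy, abs_zero, zero_mul]
      rw [e, integrable_indicator_iff measurableSet_ball]
      refine Measure.integrableOn_of_bounded (M := Mψ * M) (hμ.ball_lt_top _ _).ne
        (hψm.abs.mul hwm.abs).aestronglyMeasurable ?_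
      filter_upwards [ae_restrict_mem measurableSet_ball] with y hy
      rw [Real.norm_eq_abs, abs_mul, abs_abs, abs_abs]
      gcongr
      · exact hMψ _
      · exact hM _ (ball_subset_ball (by linarith) hy)
    rw [← Real.norm_eq_abs]
    refine (norm_integral_le_of_norm_le (hψwi.mul_const (C * 2 ^ (n + 1) / N ^ 1))
      (Eventually.of_forall fun z => by rw [Real.norm_eq_abs]; exact hinner z)).trans ?_
    rw [integral_mul_const]
    refine le_of_eq ?_
    simp only [hwdef, pow_one]
    field_simp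
  have hb2 : |∫ p, G2 p ∂(μ.prod μ)| ≤ (n + 3) * 2 ^ (n + 3) * (R * (∫ y, |ψ y| ∂μ)
        * farI n μ (fun y => u y - a) x (N / 2) (4 * N')) := by
    rw [integral_prod_symm _ hG2i]
    set W : ℝ := ∫ y, |ψ y| ∂μ with hW
    set D : ℝ := (n + 3) * 2 ^ (n + 3) * (R * W) with hD
    have hW0 : 0 ≤ W := integral_nonneg fun y => abs_nonneg _
    have hD0 : 0 ≤ D := by positivity
    set P : Set (V d) := ball x (4 * N') \ ball x (N / 2) with hP
    have hPm : MeasurableSet P := measurableSet_ball.diff measurableSet_ball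
    have hψi : Integrable ψ μ := by
      have e : ψ = (ball x R).indicator ψ := by
        ext y
        by_cases hy : y ∈ ball x R
        · rw [indicator_of_mem hy]
        · rw [indicator_of_notMem hy, hs y hy]
      rw [e, integrable_indicator_iff measurableSet_ball]
      exact Measure.integrableOn_of_bounded (M := Mψ) (hμ.ball_lt_top _ _).ne
        hψm.aestronglyMeasurable (Eventually.of_forall fun y => hMψ y)
    have hinner : ∀ y, |∫ z, G2 (z, y) ∂μ|
        ≤ P.indicator (fun y => D * (|w y| * (dist y x ^ (n + 2))⁻¹)) y := by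
      intro y
      by_cases hyP : y ∈ P
      · rw [indicator_of_mem hyP]
        have hdy : N / 2 ≤ dist y x := not_lt.1 (fun h => hyP.2 (mem_ball.2 h))
        have hdy0 : 0 < dist y x := lt_of_lt_of_le (by positivity) hdy
        have hker : ∀ z ∈ ball x R, |κ (z - y) - κ (x - y)|
            ≤ (n + 3) * 2 ^ (n + 3) * R * (dist y x ^ (n + 2))⁻¹ := by
          intro z hz2
          have hz3 := mem_ball.1 hz2
          have hm : 0 < dist y x / 2 := by linarith
          have h1 : dist y x / 2 ≤ ‖z - y‖ := by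
            rw [← dist_eq_norm]
            have := dist_triangle y z x
            rw [dist_comm y z] at this
            linarith
          have h2 : dist y x / 2 ≤ ‖x - y‖ := by
            rw [← dist_eq_norm, dist_comm x y]; linarith
          have h3 : ‖(z - y) - (x - y)‖ ≤ R := by
            rw [sub_sub_sub_cancel_right, ← dist_eq_norm]; exact hz3.le
          have e1 := kN_diff (n := n) hN0 hm h1 h2
          have e2 := kN_diff (n := n) hN'0 hm h1 h2
          have e3 : |κ (z - y) - κ (x - y)| ≤ |kN n N' (z - y) - kN n N' (x - y)|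
              + |kN n N (z - y) - kN n N (x - y)| := by
            simp only [hκ]
            have : kN n N' (z - y) - kN n N (z - y) - (kN n N' (x - y) - kN n N (x - y))
              = (kN n N' (z - y) - kN n N' (x - y)) - (kN n N (z - y) - kN n N (x - y)) := by ring
            rw [this]
            exact abs_sub _ _
          calc |κ (z - y) - κ (x - y)|
              ≤ ((n : ℝ) + 3) * ‖(z - y) - (x - y)‖ * ((dist y x / 2) ^ (n + 2))⁻¹
                + ((n : ℝ) + 3) * ‖(z - y) - (x - y)‖ * ((dist y x / 2) ^ (n + 2))⁻¹ :=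
                e3.trans (add_le_add e2 e1)
            _ ≤ ((n : ℝ) + 3) * R * ((dist y x / 2) ^ (n + 2))⁻¹
                + ((n : ℝ) + 3) * R * ((dist y x / 2) ^ (n + 2))⁻¹ := by gcongr
            _ = (n + 3) * 2 ^ (n + 3) * R * (dist y x ^ (n + 2))⁻¹ := by
                rw [div_pow, inv_div]
                ring
        have hI1 : Integrable (fun z => ψ z * (κ (z - y) - κ (x - y))) μ := by
          refine (hψi.mul_const ((n + 3) * 2 ^ (n + 3) * R * (dist y x ^ (n + 2))⁻¹)).mono
            (hψm.mul ((hκm.comp (measurable_id.sub_const y)).sub_const _)).aestronglyMeasurable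
            (Eventually.of_forall fun z => ?_)
          rw [Real.norm_eq_abs, Real.norm_eq_abs, abs_mul, abs_mul]
          by_cases hz2 : z ∈ ball x R
          · exact mul_le_mul_of_nonneg_left ((hker z hz2).trans (le_abs_self _)) (abs_nonneg _)
          · rw [hs z hz2, abs_zero, zero_mul, zero_mul]
        have hI2 : Integrable (fun z => ψ z * κ (x - y)) μ := hψi.mul_const _
        have e2 : ∫ z, G2 (z, y) ∂μ = w y * ∫ z, ψ z * (κ (z - y) - κ (x - y)) ∂μ := by
          have e1 : ∀ z, G2 (z, y) = w y * (ψ z * (κ (z - y) - κ (x - y)) + ψ z * κ (x - y)) := by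
            intro z
            simp only [hG2]; ring
          simp only [e1]
          rw [integral_const_mul, integral_add hI1 hI2, integral_mul_const, hz]
          ring
        rw [e2, abs_mul]
        have h3 : |∫ z, ψ z * (κ (z - y) - κ (x - y)) ∂μ| ≤ D * (dist y x ^ (n + 2))⁻¹ := by
          rw [← Real.norm_eq_abs]
          refine (norm_integral_le_of_norm_le (g := fun z => |ψ z| *
            ((n + 3) * 2 ^ (n + 3) * R * (dist y x ^ (n + 2))⁻¹)) (hψi.abs.mul_const _) ?_).trans ?_
          · refine Eventually.of_forall fun z => ?_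
            rw [Real.norm_eq_abs, abs_mul]
            by_cases hz2 : z ∈ ball x R
            · gcongr
              exact hker z hz2
            · rw [hs z hz2, abs_zero, zero_mul, zero_mul]
          · rw [integral_mul_const]
            refine le_of_eq ?_
            simp only [hD, hW]
            ring
        calc |w y| * |∫ z, ψ z * (κ (z - y) - κ (x - y)) ∂μ|
            ≤ |w y| * (D * (dist y x ^ (n + 2))⁻¹) := by gcongr
          _ = _ := by ring
      · rw [indicator_of_notMem hyP]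
        refine le_of_eq ?_
        rw [abs_eq_zero]
        have : ∀ z, G2 (z, y) = 0 := by
          intro z
          simp only [hG2]
          by_cases hzR : z ∈ ball x R
          · have hzR' := mem_ball.1 hzR
            have : κ (z - y) = 0 := by
              by_cases h1 : y ∈ ball x (4 * N')
              · have h2 : y ∈ ball x (N / 2) := by
                  by_contra h
                  exact hyP ⟨h1, h⟩
                apply hκ0
                rw [← dist_eq_norm]
                have h3 := mem_ball.1 h2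
                have := dist_triangle_right z y x
                linarith
              · apply hκ1
                rw [mem_ball, not_lt] at h1
                rw [← dist_eq_norm]
                have := dist_triangle y z x
                rw [dist_comm y z] at this
                linarith
            rw [this]; ring
          · rw [hs z hzR]; ring
        simp only [this, integral_zero]
    have hPi : IntegrableOn (fun y => |w y| * (dist y x ^ (n + 2))⁻¹) P μ := by
      refine Measure.integrableOn_of_bounded (M := M * ((N / 2) ^ (n + 2))⁻¹)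
        ((measure_mono sdiff_subset).trans_lt (hμ.ball_lt_top x (4 * N'))).ne ?_ ?_
      · exact (hwm.abs.mul (((continuous_id.dist continuous_const).measurable.pow_const _).inv)).aestronglyMeasurable
      · filter_upwards [ae_restrict_mem hPm] with y hy
        rw [Real.norm_eq_abs, abs_of_nonneg (by positivity)]
        have h1 : N / 2 ≤ dist y x := not_lt.1 (fun h => hy.2 (mem_ball.2 h))
        gcongr
        exact hM _ hy.1
    rw [← Real.norm_eq_abs]
    refine (norm_integral_le_of_norm_le (g := P.indicator (fun y => D * (|w y| * (dist y x ^ (n + 2))⁻¹)))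
      ?_ (Eventually.of_forall fun y => by rw [Real.norm_eq_abs]; exact hinner y)).trans ?_
    · rw [integrable_indicator_iff hPm]
      exact hPi.const_mul _
    · rw [integral_indicator hPm, integral_const_mul]
      refine le_of_eq ?_
      simp only [hD, farI, hwdef, hP]
      ring
  rw [hdiff]
  exact (abs_sub _ _).trans (add_le_add hb1 hb2)


theorem tail (n d : ℕ) (C : ℝ) (hC : 0 ≤ C) (hn : 1 ≤ n) :
    ∃ K : ℝ, 0 < K ∧ ∀ (μ : Measure (V d)), UpperReg n C μ → ∀ u : V d → ℝ, LocLip u →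
      ∀ ψ : V d → ℝ, IsTest ψ → ∫ y, ψ y ∂μ = 0 →
      ∀ (x : V d) (R N N' a : ℝ), 0 < R → (∀ y, y ∉ ball x R → ψ y = 0) → 8 * R ≤ N → N ≤ N' →
      |Bf n μ N' u ψ - Bf n μ N u ψ| ≤ K * (N⁻¹ * (∫ y, |ψ y| * |u y - a| ∂μ)
          + R * (∫ y, |ψ y| ∂μ) * farI n μ (fun y => u y - a) x (N / 2) (4 * N')) := by
  refine ⟨C * 2 ^ (n + 1) + (n + 3) * 2 ^ (n + 3), by positivity, ?_⟩
  intro μ hμ u hu ψ hψ hz x R N N' a hR hs hN hNN
  refine (tail_aux (a := a) hC hn hμ hu hψ hz x hR hs hN hNN).trans ?_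
  have h1 : 0 ≤ N⁻¹ * (∫ y, |ψ y| * |u y - a| ∂μ) :=
    mul_nonneg (inv_nonneg.2 (by linarith)) (integral_nonneg fun y => by positivity)
  have h2 : 0 ≤ R * (∫ y, |ψ y| ∂μ) * farI n μ (fun y => u y - a) x (N / 2) (4 * N') :=
    mul_nonneg (mul_nonneg hR.le (integral_nonneg fun y => abs_nonneg _))
      (integral_nonneg fun y => by positivity)
  have h3 : 0 ≤ C * 2 ^ (n + 1) := by positivity
  have h4 : (0 : ℝ) ≤ (n + 3) * 2 ^ (n + 3) := by positivity
  nlinarith [mul_nonneg h3 h2, mul_nonneg h4 h1]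

end Crest.Agent.R085
end

-- ▼ part R085/LimRefl

/-!
# R085, module M3, part L4: reflectionless limits
-/

set_option autoImplicit false
set_option linter.unusedSectionVars false

open MeasureTheory Filter Topology Metric Set
open scoped ENNReal NNReal

namespace Crest.Agent.R085

namespace LR

variable {ι : Type*} {d n : ℕ} {C : ℝ} {D : ℝ≥0∞} {μ : Measure (V d)}

section Lin


lemma lin_sub_lin (e y z : V d) : lin e y - lin e z = inner ℝ (y - z) e := by
  simp [lin, inner_sub_left]

lemma abs_lin_sub_le (e y z : V d) : |lin e y - lin e z| ≤ ‖e‖ * dist y z := by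
  rw [lin_sub_lin, dist_eq_norm, mul_comm]
  exact abs_real_inner_le_norm _ _

lemma lipschitzWith_lin (e : V d) : LipschitzWith ‖e‖₊ (lin e) := by
  apply LipschitzWith.of_dist_le_mul
  intro y z
  rw [Real.dist_eq]
  exact abs_lin_sub_le e y z

lemma locLip_of_lipschitz {u : V d → ℝ} {K : ℝ≥0} (h : LipschitzWith K u) : LocLip u :=
  fun _ => ⟨K, h.lipschitzOnWith⟩

lemma locLip_lin (e : V d) : LocLip (lin e) := locLip_of_lipschitz (lipschitzWith_lin e)

end Lin

section Bilin

variable (n) (μ)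

lemma bf_smul_left (N c : ℝ) (u ψ : V d → ℝ) :
    Bf n μ N (fun y => c * u y) ψ = c * Bf n μ N u ψ := by
  unfold Bf
  rw [mul_left_comm c, ← integral_const_mul c]
  congr 1
  refine integral_congr_ae (Eventually.of_forall fun p => ?_)
  simp only
  ring

lemma bf_smul_right (N c : ℝ) (u ψ : V d → ℝ) :
    Bf n μ N u (fun y => c * ψ y) = c * Bf n μ N u ψ := by
  unfold Bf
  rw [mul_left_comm c, ← integral_const_mul c]
  congr 1
  refine integral_congr_ae (Eventually.of_forall fun p => ?_)
  simp only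
  ring

lemma lin_smul (c : ℝ) (e : V d) : lin (c • e) = fun y => c * lin e y := by
  ext y
  simp [lin, inner_smul_right]

end Bilin

theorem bf_integrable (hn : 1 ≤ n) (hC : 0 ≤ C) (hμ : UpperReg n C μ) {u : V d → ℝ} {K : ℝ≥0}
    (hu : LipschitzWith K u) {ψ : V d → ℝ} (hψ : IsTest ψ) {N : ℝ} (hN : 0 < N) :
    Integrable (fun p : V d × V d => (u p.1 - u p.2) * (ψ p.1 - ψ p.2) * kN n N (p.1 - p.2))
      (μ.prod μ) := by
  obtain ⟨L, hL⟩ := hψ.lip
  obtain ⟨R, hR⟩ := hψ.cpt.isCompact.isBounded.subset_closedBall 0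
  exact Touch.integrable_bfI hn hC hμ hN K.2 L.2
    (fun x y => by rw [← Real.dist_eq]; exact hu.dist_le_mul x y)
    (fun x y => by rw [← Real.dist_eq]; exact hL.dist_le_mul x y)
    hu.continuous.measurable hL.continuous.measurable
    (c := 0) (R := R) (fun y hy => image_eq_zero_of_notMem_tsupport fun h => hy (hR h))

lemma bf_sub_smul_right (hn : 1 ≤ n) (hC : 0 ≤ C) (hμ : UpperReg n C μ) {u : V d → ℝ} {K : ℝ≥0}
    (hu : LipschitzWith K u) {ψ ψ0 : V d → ℝ} (hψ : IsTest ψ) (hψ0 : IsTest ψ0) {N : ℝ}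
    (hN : 0 < N) (c : ℝ) :
    Bf n μ N u (fun y => ψ y - c * ψ0 y) = Bf n μ N u ψ - c * Bf n μ N u ψ0 := by
  unfold Bf
  rw [mul_left_comm c, ← integral_const_mul c, ← mul_sub, ← integral_sub
    (bf_integrable hn hC hμ hu hψ hN) ((bf_integrable hn hC hμ hu hψ0 hN).const_mul c)]
  congr 1
  refine integral_congr_ae (Eventually.of_forall fun p => ?_)
  simp only
  ring

section IsTest

variable {ψ : V d → ℝ}

lemma it_continuous (h : IsTest ψ) : Continuous ψ := by
  obtain ⟨K, hK⟩ := h.lip
  exact hK.continuous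

lemma it_ball (h : IsTest ψ) : ∃ R : ℝ, 0 < R ∧ ∀ y, y ∉ ball (0 : V d) R → ψ y = 0 := by
  obtain ⟨R, hR0, hR⟩ := h.cpt.isCompact.isBounded.subset_ball_lt 0 0
  exact ⟨R, hR0, fun y hy => image_eq_zero_of_notMem_tsupport fun hy' => hy (hR hy')⟩

lemma it_bound (h : IsTest ψ) : ∃ B : ℝ, 0 < B ∧ ∀ y, |ψ y| ≤ B := by
  obtain ⟨B, hB⟩ := h.cpt.exists_bound_of_continuous (it_continuous h)
  exact ⟨max B 1, lt_max_of_lt_right one_pos, fun y => (hB y).trans (le_max_left _ _)⟩

lemma it_integrable (h : IsTest ψ) (μ : Measure (V d)) [IsLocallyFiniteMeasure μ] :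
    Integrable ψ μ := (it_continuous h).integrable_of_hasCompactSupport h.cpt

lemma it_const_mul (h : IsTest ψ) (c : ℝ) : IsTest (fun y => c * ψ y) := by
  obtain ⟨K, hK⟩ := h.lip
  refine ⟨⟨‖c‖₊ * K, ?_⟩, h.cpt.mul_left⟩
  apply LipschitzWith.of_dist_le_mul
  intro y z
  rw [Real.dist_eq, ← mul_sub, abs_mul]
  have := hK.dist_le_mul y z
  rw [Real.dist_eq] at this
  calc |c| * |ψ y - ψ z| ≤ |c| * (K * dist y z) := by gcongr
    _ = _ := by simp [mul_assoc]

lemma it_sub (h : IsTest ψ) {ψ' : V d → ℝ} (h' : IsTest ψ') : IsTest (fun y => ψ y - ψ' y) := by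
  obtain ⟨K, hK⟩ := h.lip
  obtain ⟨K', hK'⟩ := h'.lip
  exact ⟨⟨K + K', hK.sub hK'⟩, h.cpt.sub h'.cpt⟩

/-- the tent function around `x` -/
lemma it_tent (x : V d) (r : ℝ) : IsTest (fun y => max 0 (r - dist y x)) := by
  refine ⟨⟨1, ?_⟩, ?_⟩
  · apply LipschitzWith.of_dist_le_mul
    intro y z
    rw [Real.dist_eq, NNReal.coe_one, one_mul]
    have h1 : |max 0 (r - dist y x) - max 0 (r - dist z x)|
        ≤ |(r - dist y x) - (r - dist z x)| := by
      have := abs_max_sub_max_le_abs (r - dist y x) (r - dist z x) 0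
      rwa [max_comm, max_comm (r - dist z x)] at this
    refine h1.trans ?_
    rw [abs_le]
    constructor
    · have := dist_triangle y z x; linarith [dist_comm y z]
    · have := dist_triangle z y x; linarith [dist_comm y z]
  · apply HasCompactSupport.intro (isCompact_closedBall x r)
    intro y hy
    rw [mem_closedBall, not_le] at hy
    exact max_eq_left (by linarith)

end IsTest

end LR

open LR

variable {ι : Type*} {d n : ℕ} {C : ℝ} {D : ℝ≥0∞} {μ : Measure (V d)}

/-- uniform tail estimate for the coordinate functions -/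
theorem lin_tail (n d : ℕ) (C : ℝ) (hC : 0 ≤ C) (hn : 1 ≤ n) :
    ∃ K : ℝ, 0 < K ∧ ∀ (μ : Measure (V d)), UpperReg n C μ → ∀ e : V d,
      ∀ ψ : V d → ℝ, IsTest ψ → ∫ y, ψ y ∂μ = 0 →
      ∀ (x : V d) (R N N' : ℝ), 0 < R → (∀ y, y ∉ ball x R → ψ y = 0) → 8 * R ≤ N → N ≤ N' →
      |Bf n μ N' (lin e) ψ - Bf n μ N (lin e) ψ| ≤ K * ‖e‖ * (R / N) * ∫ y, |ψ y| ∂μ := by
  obtain ⟨K, hK0, hK⟩ := tail n d C hC hn
  refine ⟨K * (1 + C * 2 ^ (n + 2)), by positivity, ?_⟩
  intro μ hμ e ψ hψ hint x R N N' hR hsupp hRN hNN'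
  have hN : 0 < N := by linarith
  have h1 := hK μ hμ (lin e) (locLip_lin e) ψ hψ hint x R N N' (lin e x) hR hsupp hRN hNN'
  have hlf : IsLocallyFiniteMeasure μ :=
    ⟨fun x => ⟨ball x 1, ball_mem_nhds x one_pos, (hμ x 1 one_pos).trans_lt ENNReal.ofReal_lt_top⟩⟩
  set I := ∫ y, |ψ y| ∂μ with hI
  have hI0 : 0 ≤ I := integral_nonneg fun y => abs_nonneg _
  have hint1 : Integrable (fun y => |ψ y|) μ := (it_integrable hψ μ).abs
  have h2 : ∫ y, |ψ y| * |lin e y - lin e x| ∂μ ≤ ‖e‖ * R * I := by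
    rw [hI, ← integral_const_mul]
    apply integral_mono_of_nonneg (Eventually.of_forall fun y => by positivity)
      (hint1.const_mul _)
    refine Eventually.of_forall fun y => ?_
    by_cases hy : y ∈ ball x R
    · have := abs_lin_sub_le e y x
      have h3 : dist y x ≤ R := (mem_ball.1 hy).le
      calc |ψ y| * |lin e y - lin e x| ≤ |ψ y| * (‖e‖ * R) := by
            gcongr
            exact this.trans (by gcongr)
        _ = _ := by ring
    · simp [hsupp y hy]
  have h3 : farI n μ (fun y => lin e y - lin e x) x (N / 2) (4 * N')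
      ≤ ‖e‖ * (C * 2 ^ (n + 2) / N) := by
    unfold farI
    obtain ⟨ht1, ht2⟩ := integrableOn_tail hμ hC le_rfl x (half_pos hN) (m := 1)
    have hsub : ball x (4 * N') \ ball x (N / 2) ⊆ {y | N / 2 ≤ dist x y} := by
      intro y hy
      have := hy.2
      rw [mem_ball, not_lt, dist_comm] at this
      exact this
    have hmeas : MeasurableSet (ball x (4 * N') \ ball x (N / 2)) :=
      measurableSet_ball.diff measurableSet_ball
    calc ∫ y in ball x (4 * N') \ ball x (N / 2),
          |lin e y - lin e x| * (dist y x ^ (n + 2))⁻¹ ∂μ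
        ≤ ∫ y in ball x (4 * N') \ ball x (N / 2), ‖e‖ * ((dist x y) ^ (n + 1))⁻¹ ∂μ := by
          apply integral_mono_of_nonneg (Eventually.of_forall fun y => by positivity)
            ((ht1.mono_set hsub).const_mul _)
          rw [EventuallyLE, ae_restrict_iff' hmeas]
          refine Eventually.of_forall fun y hy => ?_
          have hy1 : N / 2 ≤ dist x y := hsub hy
          have hy2 : 0 < dist y x := by rw [dist_comm]; linarith
          rw [dist_comm x y]
          calc |lin e y - lin e x| * (dist y x ^ (n + 2))⁻¹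
              ≤ (‖e‖ * dist y x) * (dist y x ^ (n + 2))⁻¹ := by
                gcongr
                exact abs_lin_sub_le e y x
            _ = ‖e‖ * (dist y x ^ (n + 1))⁻¹ := by
                rw [pow_succ _ (n + 1)]; field_simp
      _ = ‖e‖ * ∫ y in ball x (4 * N') \ ball x (N / 2), ((dist x y) ^ (n + 1))⁻¹ ∂μ :=
          integral_const_mul _ _
      _ ≤ ‖e‖ * ∫ y in {y | N / 2 ≤ dist x y}, ((dist x y) ^ (n + 1))⁻¹ ∂μ := by
          refine mul_le_mul_of_nonneg_left (setIntegral_mono_set ht1 ?_ ?_) (norm_nonneg _)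
          · exact Eventually.of_forall fun y => by positivity
          · exact hsub.eventuallyLE
      _ ≤ ‖e‖ * (C * 2 ^ (n + 1) / (N / 2) ^ 1) := by gcongr
      _ = ‖e‖ * (C * 2 ^ (n + 2) / N) := by
          rw [pow_one, pow_succ _ (n + 1)]; field_simp
  calc |Bf n μ N' (lin e) ψ - Bf n μ N (lin e) ψ| ≤ _ := h1
    _ ≤ K * (N⁻¹ * (‖e‖ * R * I) + R * I * (‖e‖ * (C * 2 ^ (n + 2) / N))) := by
        gcongr
    _ = K * (1 + C * 2 ^ (n + 2)) * ‖e‖ * (R / N) * I := by
        field_simp

/-- **Reflectionless limits.** If the oscillations of `m k` in larger and larger windows around `0`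
at scale `1` tend to `0`, then the weak limit is reflectionless. -/
theorem refl_of_wLim (hn : 1 ≤ n) {U : Ultrafilter ι} {m : ι → Measure (V d)} {ν : Measure (V d)}
    (h : WLim U m ν) (hA : ∀ᶠ k in (U : Filter ι), UpperReg n C (m k))
    (hE : ∀ M δ : ℝ, 0 < M → 0 < δ → ∀ᶠ k in (U : Filter ι), EtaS n (m k) 0 1 M δ) :
    Refl n ν := by
  intro e ψ hψ hint
  have hlfν := h.lf
  -- we may enlarge `C`
  wlog hC : 0 ≤ C generalizing C
  · refine this (C := max C 0) ?_ (le_max_right _ _)
    filter_upwards [hA] with k hk x r hr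
    exact (hk x r hr).trans (ENNReal.ofReal_le_ofReal (by gcongr; exact le_max_left _ _))
  -- the trivial case
  rcases eq_or_ne ν 0 with hν | hν
  · simp [hν, Bf]
  obtain ⟨x0, hx0⟩ := Measure.nonempty_support hν
  -- the correcting function
  set ψ0 : V d → ℝ := fun y => max 0 (1 - dist y x0) with hψ0def
  have hψ0 : IsTest ψ0 := it_tent x0 1
  have hψ0nn : ∀ y, 0 ≤ ψ0 y := fun y => le_max_left _ _
  have hI0 : 0 < ∫ y, ψ0 y ∂ν := by
    rw [integral_pos_iff_support_of_nonneg hψ0nn (it_integrable hψ0 ν)]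
    refine lt_of_lt_of_le ((Measure.mem_support_iff_forall x0).1 hx0 _ (ball_mem_nhds x0 one_pos))
      (measure_mono fun y hy => ?_)
    rw [Function.mem_support]
    have : 0 < 1 - dist y x0 := by linarith [mem_ball.1 hy]
    exact (lt_max_of_lt_right this).ne'
  have hlim := h.tendsto ψ (it_continuous hψ) hψ.cpt
  rw [hint] at hlim
  have hlim0 := h.tendsto ψ0 (it_continuous hψ0) hψ0.cpt
  set c : ι → ℝ := fun k => (∫ y, ψ y ∂(m k)) / ∫ y, ψ0 y ∂(m k) with hc
  have hclim : Tendsto c (U : Filter ι) (𝓝 0) := by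
    have := hlim.div hlim0 hI0.ne'
    rwa [zero_div] at this
  set φ : ι → V d → ℝ := fun k y => ψ y - c k * ψ0 y with hφ
  have hφt : ∀ k, IsTest (φ k) := fun k => it_sub hψ (it_const_mul hψ0 (c k))
  have hφint : ∀ᶠ k in (U : Filter ι), ∫ y, φ k y ∂(m k) = 0 := by
    filter_upwards [hlim0.eventually_const_lt hI0] with k hk
    have := h.lfk k
    simp only [hφ]
    rw [integral_sub (it_integrable hψ _) ((it_integrable hψ0 _).const_mul _), integral_const_mul, hc]
    simp only
    rw [div_mul_cancel₀ _ hk.ne', sub_self]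
  -- common bounds
  obtain ⟨R1, hR1, hsupp1⟩ := it_ball hψ
  obtain ⟨R2, hR2, hsupp2⟩ := it_ball hψ0
  obtain ⟨B, hB, hBψ⟩ := it_bound hψ
  obtain ⟨B0, hB0, hBψ0⟩ := it_bound hψ0
  obtain ⟨L, hL⟩ := hψ.lip
  obtain ⟨L0, hL0⟩ := hψ0.lip
  set R := max R1 R2 with hR
  have hRpos : 0 < R := lt_max_of_lt_left hR1
  have hφsupp : ∀ k y, y ∉ ball (0 : V d) R → φ k y = 0 := by
    intro k y hy
    have h1 : y ∉ ball (0 : V d) R1 := fun h' => hy (ball_subset_ball (le_max_left _ _) h')
    have h2 : y ∉ ball (0 : V d) R2 := fun h' => hy (ball_subset_ball (le_max_right _ _) h')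
    simp [hφ, hsupp1 y h1, hsupp2 y h2]
  have hcle : ∀ᶠ k in (U : Filter ι), |c k| ≤ 1 := by
    have h1 : Tendsto (fun k => |c k|) (U : Filter ι) (𝓝 |(0 : ℝ)|) := hclim.abs
    rw [abs_zero] at h1
    filter_upwards [h1.eventually_lt_const one_pos] with k hk using hk.le
  set A : ℝ := B + B0 + L + L0 with hAdef
  have hApos : 0 < A := by positivity
  have hφbd : ∀ᶠ k in (U : Filter ι), ∀ y, |φ k y| ≤ B + B0 := by
    filter_upwards [hcle] with k hk y
    calc |φ k y| ≤ |ψ y| + |c k * ψ0 y| := abs_sub _ _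
      _ ≤ B + 1 * B0 := by
          rw [abs_mul]
          gcongr
          · exact hBψ y
          · exact hBψ0 y
      _ = B + B0 := by ring
  have hφlip : ∀ᶠ k in (U : Filter ι), ∀ y z, |φ k y - φ k z| ≤ A * dist y z := by
    filter_upwards [hcle] with k hk y z
    have e1 : |ψ y - ψ z| ≤ L * dist y z := by
      rw [← Real.dist_eq]; exact hL.dist_le_mul y z
    have e2 : |ψ0 y - ψ0 z| ≤ L0 * dist y z := by
      rw [← Real.dist_eq]; exact hL0.dist_le_mul y z
    calc |φ k y - φ k z| = |(ψ y - ψ z) - c k * (ψ0 y - ψ0 z)| := by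
          simp only [hφ]; congr 1; ring
      _ ≤ |ψ y - ψ z| + |c k * (ψ0 y - ψ0 z)| := abs_sub _ _
      _ ≤ L * dist y z + 1 * (L0 * dist y z) := by
          rw [abs_mul]; gcongr
      _ = (L + L0) * dist y z := by ring
      _ ≤ A * dist y z := by
          gcongr
          rw [hAdef]; linarith
  -- the tail estimate
  obtain ⟨K, hK0, hK⟩ := lin_tail n d C hC hn
  set T : ℝ := K * ‖e‖ * R * ((B + B0) * (C * R ^ n)) with hT
  have hTnn : 0 ≤ T := by positivity
  have htail : ∀ᶠ k in (U : Filter ι), ∀ N N' : ℝ, 8 * R ≤ N → N ≤ N' →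
      |Bf n (m k) N' (lin e) (φ k) - Bf n (m k) N (lin e) (φ k)| ≤ T / N := by
    filter_upwards [hA, hφint, hφbd] with k hk1 hk2 hk3 N N' hN hNN'
    have hlfk := h.lfk k
    have hN0 : 0 < N := by linarith
    refine (hK (m k) hk1 e (φ k) (hφt k) hk2 0 R N N' hRpos (hφsupp k) hN hNN').trans ?_
    have h1 : ∫ y, |φ k y| ∂(m k) ≤ (B + B0) * (C * R ^ n) := by
      have hz : ∀ y, y ∉ ball (0 : V d) R → |φ k y| = 0 := fun y hy => by
        rw [hφsupp k y hy, abs_zero]
      rw [← setIntegral_eq_integral_of_forall_compl_eq_zero hz]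
      have hfin : (m k) (ball (0 : V d) R) < ∞ := (hk1 0 R hRpos).trans_lt ENNReal.ofReal_lt_top
      have h2 := norm_setIntegral_le_of_norm_le_const (μ := m k) (s := ball (0 : V d) R)
        (f := fun y => |φ k y|) (C := B + B0) hfin (fun y _ => by simpa using hk3 y)
      rw [Real.norm_eq_abs, abs_of_nonneg (integral_nonneg fun y => abs_nonneg _)] at h2
      refine h2.trans ?_
      gcongr
      rw [measureReal_def]
      exact ENNReal.toReal_le_of_le_ofReal (by positivity) (hk1 0 R hRpos)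
    calc K * ‖e‖ * (R / N) * ∫ y, |φ k y| ∂(m k)
        ≤ K * ‖e‖ * (R / N) * ((B + B0) * (C * R ^ n)) := by gcongr
      _ = T / N := by rw [hT]; ring
  -- the small oscillation
  have hosc : ∀ δ : ℝ, 0 < δ → ∀ᶠ k in (U : Filter ι), ∀ᶠ N' : ℝ in atTop,
      |Bf n (m k) N' (lin e) (φ k)| ≤ (‖e‖ + 1) * A * δ := by
    intro δ hδ
    filter_upwards [hE R δ hRpos hδ, hφint, hφbd, hφlip] with k hk1 hk2 hk3 hk4
    have hlfk := h.lfk k
    have he1 : ‖(‖e‖ + 1)⁻¹ • e‖ ≤ 1 := by
      rw [norm_smul, norm_inv, Real.norm_of_nonneg (by positivity)]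
      rw [inv_mul_le_iff₀ (by positivity)]
      linarith
    have := hk1 ((‖e‖ + 1)⁻¹ • e) he1 (fun y => A⁻¹ * φ k y) ?_ ?_ ?_ ?_
    · filter_upwards [this] with N' hN'
      rw [lin_smul, bf_smul_left, bf_smul_right, one_pow, mul_one, abs_mul, abs_mul,
        abs_of_pos (by positivity), abs_of_pos (by positivity), inv_mul_le_iff₀ (by positivity),
        inv_mul_le_iff₀ (by positivity)] at hN'
      linarith
    · intro y z
      rw [← mul_sub, abs_mul, abs_of_pos (by positivity), inv_mul_le_iff₀ (by positivity), div_one]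
      exact hk4 y z
    · intro y
      rw [abs_mul, abs_of_pos (by positivity), inv_mul_le_iff₀ (by positivity), mul_one]
      refine (hk3 y).trans ?_
      rw [hAdef]
      linarith [L.2, L0.2]
    · intro y hy
      rw [mul_one] at hy
      rw [hφsupp k y hy, mul_zero]
    · rw [integral_const_mul, hk2, mul_zero]
  -- conclusion at fixed truncation
  have hmain : ∀ N : ℝ, 8 * R ≤ N → |Bf n ν N (lin e) ψ| ≤ T / N := by
    intro N hN
    have hN0 : 0 < N := by linarith
    have hlimB : Tendsto (fun k => Bf n (m k) N (lin e) (φ k)) (U : Filter ι)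
        (𝓝 (Bf n ν N (lin e) ψ)) := by
      have h1 := h.Bf_lin_tendsto hn hC hA hN0 e hψ
      have h2 := h.Bf_lin_tendsto hn hC hA hN0 e hψ0
      have h3 := h1.sub (hclim.mul h2)
      rw [zero_mul, sub_zero] at h3
      refine h3.congr' ?_
      filter_upwards [hA] with k hk
      exact (bf_sub_smul_right hn hC hk (lipschitzWith_lin e) hψ hψ0 hN0 (c k)).symm
    refine le_of_forall_pos_le_add fun δ hδ => ?_
    have hδ' : 0 < δ / ((‖e‖ + 1) * A) := by positivity
    refine le_of_tendsto hlimB.abs ?_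
    filter_upwards [htail, hosc _ hδ'] with k hk1 hk2
    obtain ⟨N', hN', hNN'⟩ := (hk2.and (eventually_ge_atTop N)).exists
    have e1 := hk1 N N' hN hNN'
    have e2 : (‖e‖ + 1) * A * (δ / ((‖e‖ + 1) * A)) = δ := by field_simp
    rw [e2] at hN'
    have e3 := abs_sub_abs_le_abs_sub (Bf n (m k) N (lin e) (φ k)) (Bf n (m k) N' (lin e) (φ k))
    rw [abs_sub_comm] at e3
    linarith
  -- limit
  have hT0 : Tendsto (fun N : ℝ => T / N) atTop (𝓝 0) := tendsto_const_nhds.div_atTop tendsto_id
  refine squeeze_zero_norm' ?_ hT0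
  filter_upwards [eventually_ge_atTop (8 * R)] with N hN
  exact hmain N hN

/-- reflectionless measures have zero oscillation everywhere -/
theorem Refl.etaS (h : Refl n μ) (x : V d) {r : ℝ} (hr : 0 < r) (M : ℝ) {δ : ℝ} (hδ : 0 < δ) :
    EtaS n μ x r M δ := by
  intro e _ ψ hlip _ hsupp hint
  have hψ : IsTest ψ := by
    refine ⟨⟨Real.toNNReal r⁻¹, ?_⟩, ?_⟩
    · apply LipschitzWith.of_dist_le_mul
      intro y z
      rw [Real.dist_eq, Real.coe_toNNReal _ (by positivity), mul_comm, ← div_eq_mul_inv]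
      exact hlip y z
    · apply HasCompactSupport.intro (isCompact_closedBall x (M * r))
      intro y hy
      exact hsupp y fun h' => hy (ball_subset_closedBall h')
  have h1 := (h e ψ hψ hint).abs
  rw [abs_zero] at h1
  filter_upwards [h1.eventually_lt_const (show 0 < δ * r ^ n by positivity)] with N hN
  exact hN.le

/-- weak limits of reflectionless measures are reflectionless -/
theorem refl_of_wLim_refl (hn : 1 ≤ n) {U : Ultrafilter ι} {m : ι → Measure (V d)}
    {ν : Measure (V d)} (h : WLim U m ν) (hA : ∀ᶠ k in (U : Filter ι), UpperReg n C (m k))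
    (hR : ∀ᶠ k in (U : Filter ι), Refl n (m k)) : Refl n ν := by
  refine refl_of_wLim hn h hA fun M δ _ hδ => ?_
  filter_upwards [hR] with k hk using hk.etaS 0 one_pos M hδ

end Crest.Agent.R085
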