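import Mathlib
import Crest.Agent.R085.Defs

/-!
# R085: scaling lemmas for `resc n x r μ`

`resc n x r μ = r^{-n} (φ_* μ)` with `φ y = r⁻¹ • (y - x)` (inverse `z ↦ x + r • z`).
-/

set_option autoImplicit false

namespace Crest.Agent.R085

open MeasureTheory Metric Set Filter
open scoped ENNReal NNReal Topology

variable {d : ℕ}

/-- the dilation `y ↦ r⁻¹ • (y - x)` as a homeomorphism -/
noncomputable def dil (x : V d) (r : ℝ) (hr : 0 < r) : V d ≃ₜ V d where
  toFun y := r⁻¹ • (y - x)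
  invFun z := x + r • z
  left_inv y := by
    simp only [smul_smul, mul_inv_cancel₀ hr.ne', one_smul]
    abel
  right_inv z := by
    simp only [add_sub_cancel_left, smul_smul, inv_mul_cancel₀ hr.ne', one_smul]
  continuous_toFun := by fun_prop
  continuous_invFun := by fun_prop

@[simp] lemma dil_apply (x : V d) (r : ℝ) (hr : 0 < r) (y : V d) :
    dil x r hr y = r⁻¹ • (y - x) := rfl

@[simp] lemma dil_symm_apply (x : V d) (r : ℝ) (hr : 0 < r) (z : V d) :
    (dil x r hr).symm z = x + r • z := rfl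

lemma dist_dil (x : V d) {r : ℝ} (hr : 0 < r) (y z : V d) :
    dist (r⁻¹ • (y - x)) z = r⁻¹ * dist y (x + r • z) := by
  have h : r⁻¹ • (y - x) - z = r⁻¹ • (y - (x + r • z)) := by
    rw [← sub_sub, smul_sub r⁻¹ (y - x), smul_smul, inv_mul_cancel₀ hr.ne', one_smul]
  rw [dist_eq_norm, dist_eq_norm, h, norm_smul, Real.norm_eq_abs, abs_of_pos (inv_pos.mpr hr)]

lemma dist_dil_dil (x : V d) {r : ℝ} (hr : 0 < r) (y z : V d) :
    dist (r⁻¹ • (y - x)) (r⁻¹ • (z - x)) = dist y z / r := by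
  rw [dist_eq_norm, dist_eq_norm, ← smul_sub, norm_smul, Real.norm_eq_abs,
    abs_of_pos (inv_pos.mpr hr), div_eq_inv_mul]
  congr 2
  abel

lemma dist_add_smul (x : V d) {r : ℝ} (hr : 0 < r) (y z : V d) :
    dist (x + r • y) (x + r • z) = r * dist y z := by
  rw [dist_eq_norm, dist_eq_norm, add_sub_add_left_eq_sub, ← smul_sub, norm_smul,
    Real.norm_eq_abs, abs_of_pos hr]

lemma preimage_dil_ball (x : V d) {r : ℝ} (hr : 0 < r) (z : V d) (t : ℝ) :
    (fun y : V d => r⁻¹ • (y - x)) ⁻¹' ball z t = ball (x + r • z) (r * t) := by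
  ext y
  rw [mem_preimage, mem_ball, mem_ball, dist_dil x hr, inv_mul_lt_iff₀ hr]


lemma mem_ball_dil (x : V d) {r : ℝ} (hr : 0 < r) (y z : V d) (t : ℝ) :
    r⁻¹ • (y - x) ∈ ball z t ↔ y ∈ ball (x + r • z) (r * t) := by
  rw [← preimage_dil_ball x hr]; rfl

lemma resc_apply (n : ℕ) (x : V d) {r : ℝ} (hr : 0 < r) (μ : Measure (V d)) (s : Set (V d)) :
    resc n x r μ s = ENNReal.ofReal ((r ^ n)⁻¹) * μ ((fun y => r⁻¹ • (y - x)) ⁻¹' s) := by
  have h : (μ.map (fun y : V d => r⁻¹ • (y - x))) s = μ ((fun y => r⁻¹ • (y - x)) ⁻¹' s) :=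
    (dil x r hr).toMeasurableEquiv.map_apply s
  rw [resc, Measure.smul_apply, h, smul_eq_mul]

lemma resc_ball (n : ℕ) (x : V d) {r : ℝ} (hr : 0 < r) (μ : Measure (V d)) (z : V d) (t : ℝ) :
    resc n x r μ (ball z t) = ENNReal.ofReal ((r ^ n)⁻¹) * μ (ball (x + r • z) (r * t)) := by
  rw [resc_apply n x hr, preimage_dil_ball x hr]


lemma mem_support_iff_forall_ball {μ : Measure (V d)} {x : V d} :
    x ∈ μ.support ↔ ∀ r > 0, 0 < μ (ball x r) :=
  nhds_basis_ball.mem_measureSupport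

lemma mem_support_resc (n : ℕ) (x : V d) {r : ℝ} (hr : 0 < r) (μ : Measure (V d)) (z : V d) :
    z ∈ (resc n x r μ).support ↔ x + r • z ∈ μ.support := by
  rw [mem_support_iff_forall_ball, mem_support_iff_forall_ball]
  have hc : ENNReal.ofReal ((r ^ n)⁻¹) ≠ 0 := by
    rw [Ne, ENNReal.ofReal_eq_zero, not_le]; positivity
  constructor
  · intro h t ht
    have := h (t / r) (by positivity)
    rw [resc_ball n x hr, mul_div_cancel₀ _ hr.ne'] at this
    rcases (CanonicallyOrderedAdd.mul_pos.mp this) with ⟨_, h2⟩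
    exact h2
  · intro h t ht
    rw [resc_ball n x hr]
    exact CanonicallyOrderedAdd.mul_pos.mpr ⟨pos_iff_ne_zero.mpr hc, h (r * t) (by positivity)⟩


lemma integral_resc {F : Type*} [NormedAddCommGroup F] [NormedSpace ℝ F] (n : ℕ) (x : V d)
    {r : ℝ} (hr : 0 < r) (μ : Measure (V d)) (f : V d → F) :
    ∫ z, f z ∂(resc n x r μ) = (r ^ n)⁻¹ • ∫ y, f (r⁻¹ • (y - x)) ∂μ := by
  rw [resc, integral_smul_measure, ENNReal.toReal_ofReal (by positivity)]
  congr 1
  exact (dil x r hr).measurableEmbedding.integral_map f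



lemma resc_restrict (n : ℕ) (x : V d) {r : ℝ} (hr : 0 < r) (μ : Measure (V d)) (s : Set (V d)) :
    (resc n x r μ).restrict s = resc n x r (μ.restrict ((fun y => r⁻¹ • (y - x)) ⁻¹' s)) := by
  rw [resc, resc, Measure.restrict_smul]
  congr 1
  exact (dil x r hr).measurableEmbedding.restrict_map μ s

lemma setIntegral_ball_resc {F : Type*} [NormedAddCommGroup F] [NormedSpace ℝ F] (n : ℕ)
    (x : V d) {r : ℝ} (hr : 0 < r) (μ : Measure (V d)) (f : V d → F) (z : V d) (t : ℝ) :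
    ∫ y in ball z t, f y ∂(resc n x r μ) =
      (r ^ n)⁻¹ • ∫ y in ball (x + r • z) (r * t), f (r⁻¹ • (y - x)) ∂μ := by
  rw [resc_restrict n x hr, preimage_dil_ball x hr, integral_resc n x hr]



instance resc_sFinite (n : ℕ) (x : V d) (r : ℝ) (μ : Measure (V d)) [SFinite μ] :
    SFinite (resc n x r μ) := by
  unfold resc; infer_instance

/-! ### consequences of upper regularity -/

theorem ADR.isLocallyFinite {n : ℕ} {C : ℝ} {D : ℝ≥0∞} {μ : Measure (V d)} (h : ADR n C D μ) :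
    IsLocallyFiniteMeasure μ :=
  ⟨fun x => ⟨ball x 1, ball_mem_nhds x one_pos,
    lt_of_le_of_lt (h.upper x 1 one_pos) ENNReal.ofReal_lt_top⟩⟩



/-- Rescaled AD-regular measures are AD-regular. -/
theorem ADR.resc {n : ℕ} {C : ℝ} {D D' : ℝ≥0∞} {μ : Measure (V d)} (h : ADR n C D μ) (x : V d)
    {r : ℝ} (hr : 0 < r) (hD : ENNReal.ofReal r * D' ≤ D) : ADR n C D' (resc n x r μ) := by
  refine ⟨h.one_le, fun z t ht => ?_, fun z hz t ht htD => ?_⟩
  · rw [resc_ball n x hr]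
    calc ENNReal.ofReal ((r ^ n)⁻¹) * μ (ball (x + r • z) (r * t))
        ≤ ENNReal.ofReal ((r ^ n)⁻¹) * ENNReal.ofReal (C * (r * t) ^ n) := by
          gcongr; exact h.upper _ _ (by positivity)
      _ = ENNReal.ofReal (C * t ^ n) := by
          rw [← ENNReal.ofReal_mul (by positivity)]
          congr 1
          rw [mul_pow]; field_simp
  · rw [resc_ball n x hr]
    have hz' := (mem_support_resc n x hr μ z).mp hz
    have hrt : ENNReal.ofReal (r * t) ≤ D := by
      rw [ENNReal.ofReal_mul hr.le]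
      exact (mul_le_mul_right htD _).trans hD
    calc ENNReal.ofReal (C⁻¹ * t ^ n)
        = ENNReal.ofReal ((r ^ n)⁻¹) * ENNReal.ofReal (C⁻¹ * (r * t) ^ n) := by
          rw [← ENNReal.ofReal_mul (by positivity)]
          congr 1
          rw [mul_pow]; field_simp
      _ ≤ ENNReal.ofReal ((r ^ n)⁻¹) * μ (ball (x + r • z) (r * t)) := by
          gcongr; exact h.lower _ hz' _ (by positivity) hrt

/-! ### the forms -/

lemma kN_smul (n : ℕ) (N : ℝ) {r : ℝ} (hr : 0 < r) (z : V d) :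
    kN n N (r⁻¹ • z) = r ^ (n + 1) * kN n (r * N) z := by
  unfold kN
  rw [norm_smul, Real.norm_eq_abs, abs_of_pos (inv_pos.mpr hr)]
  have h1 : r⁻¹ * ‖z‖ / N = ‖z‖ / (r * N) := by
    rw [div_mul_eq_div_div, inv_mul_eq_div]
  rw [h1, mul_pow, mul_inv, inv_pow, inv_inv]
  ring

lemma prod_resc (n : ℕ) (x : V d) {r : ℝ} (hr : 0 < r) (μ : Measure (V d)) [SFinite μ] :
    (resc n x r μ).prod (resc n x r μ) = ENNReal.ofReal ((r ^ n)⁻¹ * (r ^ n)⁻¹) •
      (μ.prod μ).map (Prod.map (fun y : V d => r⁻¹ • (y - x)) (fun y : V d => r⁻¹ • (y - x))) := by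
  have hm : Measurable (fun y : V d => r⁻¹ • (y - x)) := (dil x r hr).measurable
  rw [resc, Measure.prod_smul_left, Measure.prod_smul_right, smul_smul,
    Measure.map_prod_map μ μ hm hm, ENNReal.ofReal_mul (by positivity)]

lemma integral_prod_resc {F : Type*} [NormedAddCommGroup F] [NormedSpace ℝ F] (n : ℕ) (x : V d)
    {r : ℝ} (hr : 0 < r) (μ : Measure (V d)) [SFinite μ] (f : V d × V d → F) :
    ∫ p, f p ∂((resc n x r μ).prod (resc n x r μ)) = ((r ^ n)⁻¹ * (r ^ n)⁻¹) •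
      ∫ p : V d × V d, f (r⁻¹ • (p.1 - x), r⁻¹ • (p.2 - x)) ∂(μ.prod μ) := by
  rw [prod_resc n x hr, integral_smul_measure, ENNReal.toReal_ofReal (by positivity)]
  congr 1
  have he : MeasurableEmbedding (Prod.map (fun y : V d => r⁻¹ • (y - x))
      (fun y : V d => r⁻¹ • (y - x))) :=
    ((dil x r hr).prodCongr (dil x r hr)).measurableEmbedding
  rw [he.integral_map]
  rfl

/-- scaling of the form, general first argument -/
theorem Bf_resc_gen (n : ℕ) (x : V d) {r : ℝ} (hr : 0 < r) (μ : Measure (V d)) [SFinite μ]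
    (N : ℝ) (u ψ : V d → ℝ) :
    Bf n (resc n x r μ) N u ψ = (r ^ n)⁻¹ * r * Bf n μ (r * N) (fun y => u (r⁻¹ • (y - x)))
      (fun y => ψ (r⁻¹ • (y - x))) := by
  unfold Bf
  rw [integral_prod_resc n x hr, smul_eq_mul]
  have key : ∫ p : V d × V d,
      (u (r⁻¹ • (p.1 - x)) - u (r⁻¹ • (p.2 - x))) * (ψ (r⁻¹ • (p.1 - x)) - ψ (r⁻¹ • (p.2 - x))) *
        kN n N (r⁻¹ • (p.1 - x) - r⁻¹ • (p.2 - x)) ∂(μ.prod μ) =
      r ^ (n + 1) * ∫ p : V d × V d,
      (u (r⁻¹ • (p.1 - x)) - u (r⁻¹ • (p.2 - x))) * (ψ (r⁻¹ • (p.1 - x)) - ψ (r⁻¹ • (p.2 - x))) *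
        kN n (r * N) (p.1 - p.2) ∂(μ.prod μ) := by
    rw [← integral_const_mul]
    refine integral_congr_ae (ae_of_all _ fun p => ?_)
    have h1 : r⁻¹ • (p.1 - x) - r⁻¹ • (p.2 - x) = r⁻¹ • (p.1 - p.2) := by
      rw [← smul_sub]; congr 1; abel
    simp only
    rw [h1, kN_smul n N hr]
    ring
  simp only at key ⊢
  rw [key]
  have h2 : (r ^ n)⁻¹ * (r ^ n)⁻¹ * r ^ (n + 1) = (r ^ n)⁻¹ * r := by
    rw [pow_succ]; field_simp
  linear_combination (1 / 2 : ℝ) * (∫ p : V d × V d,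
      (u (r⁻¹ • (p.1 - x)) - u (r⁻¹ • (p.2 - x))) * (ψ (r⁻¹ • (p.1 - x)) - ψ (r⁻¹ • (p.2 - x))) *
        kN n (r * N) (p.1 - p.2) ∂(μ.prod μ)) * h2

lemma lin_dil (e x : V d) (r : ℝ) (y : V d) :
    lin e (r⁻¹ • (y - x)) = r⁻¹ * lin e y - r⁻¹ * lin e x := by
  unfold lin
  rw [inner_smul_left, inner_sub_left]
  simp [mul_sub]

/-- adding a constant and scaling the first argument -/
lemma Bf_affine_left (n : ℕ) (μ : Measure (V d)) (N a c : ℝ) (u ψ : V d → ℝ) :
    Bf n μ N (fun y => a * u y - c) ψ = a * Bf n μ N u ψ := by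
  unfold Bf
  rw [← integral_const_mul, ← integral_const_mul, ← integral_const_mul]
  congr 1
  ext p
  ring

/-- scaling of the Riesz form -/
theorem Bf_resc (n : ℕ) (x : V d) {r : ℝ} (hr : 0 < r) (μ : Measure (V d)) [SFinite μ]
    (N : ℝ) (e : V d) (ψ : V d → ℝ) :
    Bf n (resc n x r μ) N (lin e) ψ =
      (r ^ n)⁻¹ * Bf n μ (r * N) (lin e) (fun y => ψ (r⁻¹ • (y - x))) := by
  rw [Bf_resc_gen n x hr]
  have h : (fun y : V d => lin e (r⁻¹ • (y - x))) = fun y => r⁻¹ * lin e y - r⁻¹ * lin e x := by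
    ext y; exact lin_dil e x r y
  rw [h, Bf_affine_left, mul_assoc ((r ^ n)⁻¹) r, ← mul_assoc r r⁻¹, mul_inv_cancel₀ hr.ne',
    one_mul]

/-- inverse form of `Bf_resc` -/
theorem Bf_eq_resc (n : ℕ) (x : V d) {r : ℝ} (hr : 0 < r) (μ : Measure (V d)) [SFinite μ]
    (N : ℝ) (e : V d) (ψ : V d → ℝ) :
    Bf n μ N (lin e) ψ =
      r ^ n * Bf n (resc n x r μ) (N / r) (lin e) (fun z => ψ (x + r • z)) := by
  rw [Bf_resc n x hr, mul_div_cancel₀ _ hr.ne', ← mul_assoc, mul_inv_cancel₀ (by positivity),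
    one_mul]
  congr 1
  ext y
  rw [smul_smul, mul_inv_cancel₀ hr.ne', one_smul, add_sub_cancel]

/-! ### test functions -/

lemma IsTest.comp_dil {ψ : V d → ℝ} (h : IsTest ψ) (x : V d) {r : ℝ} (hr : 0 < r) :
    IsTest (fun y => ψ (r⁻¹ • (y - x))) := by
  obtain ⟨K, hK⟩ := h.lip
  refine ⟨⟨K * (r⁻¹).toNNReal, ?_⟩, ?_⟩
  · refine hK.comp (LipschitzWith.of_dist_le_mul fun y z => ?_)
    rw [dist_dil_dil x hr, Real.coe_toNNReal _ (inv_pos.mpr hr).le, div_eq_inv_mul]
  · exact h.cpt.comp_homeomorph (dil x r hr)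


/-- rescalings of reflectionless measures are reflectionless -/
theorem Refl.resc {n : ℕ} {μ : Measure (V d)} [SFinite μ] (h : Refl n μ) (x : V d) {r : ℝ}
    (hr : 0 < r) : Refl n (resc n x r μ) := by
  intro e ψ hψ h0
  have h0' : ∫ y, ψ (r⁻¹ • (y - x)) ∂μ = 0 := by
    rw [integral_resc n x hr, smul_eq_mul] at h0
    rcases mul_eq_zero.mp h0 with h1 | h1
    · exact absurd h1 (by positivity)
    · exact h1
  have h2 := h e _ (hψ.comp_dil x hr) h0'
  have h3 : Tendsto (fun N : ℝ => r * N) atTop atTop := tendsto_id.const_mul_atTop hr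
  have h4 := (h2.comp h3).const_mul ((r ^ n)⁻¹)
  rw [mul_zero] at h4
  refine h4.congr fun N => ?_
  rw [Bf_resc n x hr]
  rfl

/-! ### the Riesz oscillation -/

theorem EtaS.mono {n : ℕ} {μ : Measure (V d)} {x : V d} {r M M' δ δ' : ℝ} (hr : 0 ≤ r)
    (h : EtaS n μ x r M δ) (hM : M' ≤ M) (hδ : δ ≤ δ') : EtaS n μ x r M' δ' := by
  intro e he ψ h1 h2 h3 h4
  have h3' : ∀ y, y ∉ ball x (M * r) → ψ y = 0 := by
    intro y hy
    apply h3
    intro hy'
    exact hy (ball_subset_ball (mul_le_mul_of_nonneg_right hM hr) hy')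
  filter_upwards [h e he ψ h1 h2 h3' h4] with N hN
  exact hN.trans (mul_le_mul_of_nonneg_right hδ (by positivity))

theorem EtaS_resc {n : ℕ} {μ : Measure (V d)} [SFinite μ] (x : V d) {r : ℝ} (hr : 0 < r)
    (z : V d) {t : ℝ} (ht : 0 < t) (M δ : ℝ) :
    EtaS n (resc n x r μ) z t M δ ↔ EtaS n μ (x + r • z) (r * t) M δ := by
  constructor
  · intro h e he ψ h1 h2 h3 h4
    have hN := h e he (fun w => ψ (x + r • w)) ?_ (fun w => h2 _) ?_ ?_
    · have h5 : Tendsto (fun N : ℝ => N / r) atTop atTop := tendsto_id.atTop_div_const hr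
      filter_upwards [h5.eventually hN] with N hN
      rw [Bf_eq_resc n x hr, abs_mul, abs_of_pos (by positivity : 0 < r ^ n), mul_pow]
      calc r ^ n * |Bf n (resc n x r μ) (N / r) (lin e) fun z => ψ (x + r • z)|
          ≤ r ^ n * (δ * t ^ n) := by gcongr
        _ = δ * (r ^ n * t ^ n) := by ring
    · intro w w'
      refine (h1 _ _).trans (le_of_eq ?_)
      rw [dist_add_smul x hr, mul_div_mul_left _ _ hr.ne']
    · intro w hw
      apply h3
      intro hw'
      apply hw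
      rw [mem_ball, dist_add_smul x hr] at hw'
      rw [mem_ball]
      have : r * dist w z < r * (M * t) := by linarith
      exact lt_of_mul_lt_mul_left this hr.le
    · rw [integral_resc n x hr]
      have : (fun y : V d => ψ (x + r • r⁻¹ • (y - x))) = ψ := by
        ext y
        rw [smul_smul, mul_inv_cancel₀ hr.ne', one_smul, add_sub_cancel]
      simp only [this, h4, smul_zero]
  · intro h e he ψ h1 h2 h3 h4
    have hN := h e he (fun y => ψ (r⁻¹ • (y - x))) ?_ (fun w => h2 _) ?_ ?_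
    · have h5 : Tendsto (fun N : ℝ => r * N) atTop atTop := tendsto_id.const_mul_atTop hr
      filter_upwards [h5.eventually hN] with N hN
      rw [Bf_resc n x hr, abs_mul, abs_of_pos (by positivity : 0 < (r ^ n)⁻¹)]
      calc (r ^ n)⁻¹ * |Bf n μ (r * N) (lin e) fun y => ψ (r⁻¹ • (y - x))|
          ≤ (r ^ n)⁻¹ * (δ * (r * t) ^ n) := by gcongr
        _ = δ * t ^ n := by rw [mul_pow]; field_simp
    · intro w w'
      refine (h1 _ _).trans (le_of_eq ?_)
      rw [dist_dil_dil x hr, div_div]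
    · intro w hw
      apply h3
      intro hw'
      apply hw
      rw [mem_ball_dil x hr] at hw'
      rw [show M * (r * t) = r * (M * t) by ring]
      exact hw'
    · rw [integral_resc n x hr, smul_eq_mul] at h4
      rcases mul_eq_zero.mp h4 with h5 | h5
      · exact absurd h5 (by positivity)
      · exact h5

/-! ### flatness -/

lemma nsq_smul (n : ℕ) (a : ℝ) (z : V d) : nsq n (a • z) = a ^ 2 * nsq n z := by
  unfold nsq
  rw [Finset.mul_sum]
  refine Finset.sum_congr rfl fun i _ => ?_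
  split_ifs
  · simp [mul_pow]
  · simp

lemma nsq_nonneg (n : ℕ) (z : V d) : 0 ≤ nsq n z :=
  Finset.sum_nonneg fun i _ => by split_ifs <;> positivity


@[fun_prop]
lemma continuous_nsq (n : ℕ) : Continuous (nsq n : V d → ℝ) := by
  unfold nsq
  refine continuous_finsetSum _ fun i _ => ?_
  split_ifs
  · exact ((EuclideanSpace.proj (𝕜 := ℝ) i).continuous).pow 2
  · exact continuous_const

theorem FlatW.mono {n : ℕ} {μ : Measure (V d)} {x : V d} {ρ ε ε' M M' : ℝ} (hρ : 0 < ρ)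
    (hε : 0 ≤ ε) (h : FlatW n μ x ρ ε M) (hε' : ε ≤ ε') (hM : M' ≤ M) :
    FlatW n μ x ρ ε' M' := by
  obtain ⟨g, b, hgb⟩ := h
  refine ⟨g, b, fun R hR hRM => ?_⟩
  have h1 := hgb R hR (hRM.trans (mul_le_mul_of_nonneg_right hM hρ.le))
  have hR0 : 0 < R := hρ.trans_le hR
  refine h1.trans ?_
  gcongr

theorem FlatW_resc {n : ℕ} {μ : Measure (V d)} (x : V d) {r : ℝ} (hr : 0 < r)
    (z : V d) {ρ : ℝ} (ε M : ℝ) :
    FlatW n (resc n x r μ) z ρ ε M ↔ FlatW n μ (x + r • z) (r * ρ) ε M := by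
  have key : ∀ (g : V d ≃ₗᵢ[ℝ] V d) (b : V d) (R : ℝ),
      ∫ y in ball z R, nsq n (g y - b) ∂(resc n x r μ) =
        (r ^ n)⁻¹ * ((r⁻¹) ^ 2 * ∫ y in ball (x + r • z) (r * R),
          nsq n (g y - (g x + r • b)) ∂μ) := by
    intro g b R
    rw [setIntegral_ball_resc n x hr, smul_eq_mul]
    congr 1
    rw [← integral_const_mul]
    refine setIntegral_congr_fun measurableSet_ball fun y _ => ?_
    rw [← nsq_smul]
    congr 1
    rw [map_smul, map_sub, ← sub_sub, smul_sub r⁻¹ (g y - g x), smul_smul,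
      inv_mul_cancel₀ hr.ne', one_smul]
  constructor
  · rintro ⟨g, b, h⟩
    refine ⟨g, g x + r • b, fun R hR hRM => ?_⟩
    have h1 := h (R / r) (by rwa [le_div_iff₀ hr, mul_comm]) (by
      rw [div_le_iff₀ hr]; linarith)
    rw [key, mul_div_cancel₀ _ hr.ne'] at h1
    have h2 : ∫ y in ball (x + r • z) R, nsq n (g y - (g x + r • b)) ∂μ =
        r ^ (n + 2) * ((r ^ n)⁻¹ * ((r⁻¹) ^ 2 * ∫ y in ball (x + r • z) R,
          nsq n (g y - (g x + r • b)) ∂μ)) := by
      rw [pow_add]; field_simp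
    rw [h2]
    calc _ ≤ r ^ (n + 2) * (ε ^ 2 * (R / r / ρ) * (R / r) ^ (n + 2)) := by gcongr
      _ = ε ^ 2 * (R / (r * ρ)) * R ^ (n + 2) := by
          rw [div_pow, div_div]; field_simp
  · rintro ⟨g, b, h⟩
    refine ⟨g, r⁻¹ • (b - g x), fun R hR hRM => ?_⟩
    have hb : g x + r • r⁻¹ • (b - g x) = b := by
      rw [smul_smul, mul_inv_cancel₀ hr.ne', one_smul, add_sub_cancel]
    have h1 := h (r * R) (by gcongr) (by
      calc r * R ≤ r * (M * ρ) := by gcongr
        _ = M * (r * ρ) := by ring)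
    rw [key, hb]
    calc (r ^ n)⁻¹ * (r⁻¹ ^ 2 * ∫ y in ball (x + r • z) (r * R), nsq n (g y - b) ∂μ)
        ≤ (r ^ n)⁻¹ * (r⁻¹ ^ 2 * (ε ^ 2 * (r * R / (r * ρ)) * (r * R) ^ (n + 2))) := by gcongr
      _ = ε ^ 2 * (R / ρ) * R ^ (n + 2) := by
          rw [mul_div_mul_left _ _ hr.ne', mul_pow, pow_add r n 2]; field_simp

theorem BiFlat.mono {n : ℕ} {μ : Measure (V d)} {x : V d} {r ε ε' M M' : ℝ} (hr : 0 ≤ r)
    (h : BiFlat n μ x r ε M) (hε' : ε ≤ ε') (hM : M' ≤ M) : BiFlat n μ x r ε' M' := by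
  obtain ⟨ι, b, h1, h2⟩ := h
  have hs : ball x (M' * r) ⊆ ball x (M * r) :=
    ball_subset_ball (mul_le_mul_of_nonneg_right hM hr)
  have he : ε * r ≤ ε' * r := mul_le_mul_of_nonneg_right hε' hr
  refine ⟨ι, b, fun y hy hyb => ?_, fun z hz => ?_⟩
  · obtain ⟨z, hz⟩ := h1 y hy (hs hyb)
    exact ⟨z, hz.trans he⟩
  · obtain ⟨y, hy, hz'⟩ := h2 z (hs hz)
    exact ⟨y, hy, hz'.trans he⟩

theorem BiFlat_resc {n : ℕ} {μ : Measure (V d)} (x : V d) {r : ℝ} (hr : 0 < r)
    (z : V d) {t : ℝ} (ε M : ℝ) :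
    BiFlat n (resc n x r μ) z t ε M ↔ BiFlat n μ (x + r • z) (r * t) ε M := by
  have e1 : ∀ (ι : V n →ₗᵢ[ℝ] V d) (b : V d) (v : V n),
      x + r • (b + ι v) = (x + r • b) + ι (r • v) := by
    intro ι b v
    rw [map_smul, smul_add, add_assoc]
  constructor
  · rintro ⟨ι, b, h1, h2⟩
    refine ⟨ι, x + r • b, fun y hy hyb => ?_, fun v hv => ?_⟩
    · have hy' : r⁻¹ • (y - x) ∈ (resc n x r μ).support := by
        rw [mem_support_resc n x hr, smul_smul, mul_inv_cancel₀ hr.ne', one_smul, add_sub_cancel]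
        exact hy
      obtain ⟨v, hv⟩ := h1 _ hy' (by
        rw [mem_ball_dil x hr]
        rwa [show M * (r * t) = r * (M * t) by ring] at hyb)
      refine ⟨r • v, ?_⟩
      rw [dist_dil x hr, inv_mul_le_iff₀ hr, e1] at hv
      linarith
    · have hv' : b + ι (r⁻¹ • v) ∈ ball z (M * t) := by
        have : x + r • b + ι v = x + r • (b + ι (r⁻¹ • v)) := by
          rw [e1, smul_smul, mul_inv_cancel₀ hr.ne', one_smul]
        rw [this, mem_ball, dist_add_smul x hr] at hv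
        rw [mem_ball]
        have h3 : r * dist (b + ι (r⁻¹ • v)) z < r * (M * t) := by linarith
        exact lt_of_mul_lt_mul_left h3 hr.le
      obtain ⟨y, hy, hd⟩ := h2 _ hv'
      refine ⟨x + r • y, (mem_support_resc n x hr μ y).mp hy, ?_⟩
      have : x + r • b + ι v = x + r • (b + ι (r⁻¹ • v)) := by
        rw [e1, smul_smul, mul_inv_cancel₀ hr.ne', one_smul]
      rw [this, dist_add_smul x hr]
      calc r * dist y (b + ι (r⁻¹ • v)) ≤ r * (ε * t) := by gcongr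
        _ = ε * (r * t) := by ring
  · rintro ⟨ι, b, h1, h2⟩
    have e2 : ∀ v : V n, x + r • (r⁻¹ • (b - x) + ι (r⁻¹ • v)) = b + ι v := by
      intro v
      rw [e1, smul_smul r r⁻¹ v, mul_inv_cancel₀ hr.ne', one_smul, smul_smul,
        mul_inv_cancel₀ hr.ne', one_smul, add_sub_cancel]
    have e3 : ∀ v : V n, x + r • (r⁻¹ • (b - x) + ι v) = b + ι (r • v) := by
      intro v
      have := e2 (r • v)
      rwa [smul_smul, inv_mul_cancel₀ hr.ne', one_smul] at this
    refine ⟨ι, r⁻¹ • (b - x), fun y hy hyb => ?_, fun v hv => ?_⟩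
    · rw [mem_support_resc n x hr] at hy
      obtain ⟨v, hv⟩ := h1 _ hy (by
        rw [mem_ball, dist_add_smul x hr]
        rw [mem_ball] at hyb
        calc r * dist y z < r * (M * t) := by gcongr
          _ = M * (r * t) := by ring)
      refine ⟨r⁻¹ • v, ?_⟩
      rw [← e2 v, dist_add_smul x hr] at hv
      have h3 : r * dist y (r⁻¹ • (b - x) + ι (r⁻¹ • v)) ≤ r * (ε * t) := by linarith
      exact le_of_mul_le_mul_left h3 hr
    · obtain ⟨y, hy, hd⟩ := h2 (r • v) (by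
        rw [← e3 v, mem_ball, dist_add_smul x hr]
        rw [mem_ball] at hv
        calc r * dist (r⁻¹ • (b - x) + ι v) z < r * (M * t) := by gcongr
          _ = M * (r * t) := by ring)
      refine ⟨r⁻¹ • (y - x), ?_, ?_⟩
      · rw [mem_support_resc n x hr, smul_smul, mul_inv_cancel₀ hr.ne', one_smul, add_sub_cancel]
        exact hy
      · rw [dist_dil x hr, e3 v, inv_mul_le_iff₀ hr]
        linarith

end Crest.Agent.R085
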