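import Mathlib
import Crest.Agent.R085.TouchK
import Crest.Agent.R085.M9Ana
import Crest.Agent.R085.P2Card
import Crest.Agent.R085.P2Defs
import Crest.Prelude.Def_RieszRectifiability
import Crest.Agent.R085.Defs
import Crest.Agent.R085.Lim3
import Crest.Agent.R085.LimRefl
import Crest.Agent.R085.Resc
import Crest.Agent.R085.Targets

-- ▼ part R085/WeakRiesz
section

/-!
R085 (S0113), module M2(a): the `L²` bound of the hard truncations of the Riesz transform gives the
"weak" bilinear bound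
`|1/2 ∬ ⟪f y • X x - f x • X y, x - y⟫ |x-y|^{-(n+1)}| ≤ A ‖f‖₂ ‖X‖₂`
for Lipschitz compactly supported `f`, `X`.
-/

set_option autoImplicit false

namespace Crest.Agent.R085

open MeasureTheory Metric Set Filter
open scoped ENNReal NNReal Topology
open Touch

/-- Lipschitz compactly supported test field. -/
structure IsTestV {d : ℕ} (X : V d → V d) : Prop where
  lip : ∃ K : ℝ≥0, LipschitzWith K X
  cpt : HasCompactSupport X

/-- the integrand of `Wf`. -/
noncomputable def wker {d : ℕ} (n : ℕ) (f : V d → ℝ) (X : V d → V d) (p : V d × V d) : ℝ :=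
  inner ℝ (f p.2 • X p.1 - f p.1 • X p.2) (p.1 - p.2) * (‖p.1 - p.2‖ ^ (n + 1))⁻¹

/-- antisymmetrised weak form of the Riesz transform, `⟨R (f μ), X⟩_μ`. -/
noncomputable def Wf {d : ℕ} (n : ℕ) (μ : Measure (V d)) (f : V d → ℝ) (X : V d → V d) : ℝ :=
  (1 / 2 : ℝ) * ∫ p : V d × V d, wker n f X p ∂(μ.prod μ)

/-- weak Riesz bound. -/
def WeakRiesz {d : ℕ} (n : ℕ) (A : ℝ) (μ : Measure (V d)) : Prop :=
  ∀ (f : V d → ℝ) (X : V d → V d), IsTest f → IsTestV X →
    |Wf n μ f X| ≤ A * Real.sqrt (∫ y, f y ^ 2 ∂μ) * Real.sqrt (∫ y, ‖X y‖ ^ 2 ∂μ)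

variable {d n : ℕ} {μ : Measure (V d)} {C A : ℝ}

/-- shell estimate near the diagonal. -/
theorem UpperReg.lintegral_nearD (hC : 0 ≤ C) (hU : UpperReg n C μ) (x : V d) {r : ℝ} (hr : 0 < r) :
    ∫⁻ y in ball x r, ENNReal.ofReal (‖x - y‖ * (‖x - y‖ ^ n)⁻¹) ∂μ ≤
      ENNReal.ofReal (2 ^ (n + 1) * C * r) := by
  set A : ℕ → Set (V d) := fun k => ball x (r / 2 ^ k) \ ball x (r / 2 ^ (k + 1)) with hAdef
  have hcov : ball x r ⊆ {x} ∪ ⋃ k, A k := by
    intro y hy
    by_cases hyx : y = x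
    · exact Or.inl hyx
    right
    have hpos : 0 < dist y x := dist_pos.2 hyx
    have hlim : ∃ k : ℕ, r / 2 ^ k ≤ dist y x := by
      obtain ⟨k, hk⟩ := exists_pow_lt_of_lt_one (div_pos hpos hr) (by norm_num : (1/2:ℝ) < 1)
      refine ⟨k, ?_⟩
      rw [div_le_iff₀ (by positivity)]
      have := (lt_div_iff₀ hr).1 hk
      have h2 : (0:ℝ) < 2 ^ k := by positivity
      have h3 : (1/2:ℝ)^k * r * 2 ^ k = r := by
        rw [one_div, inv_pow]; field_simp
      nlinarith
    classical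
    have hk := Nat.find_spec hlim
    set k := Nat.find hlim with hkdef
    have hk0 : k ≠ 0 := by
      intro h0
      rw [h0] at hk
      simp at hk
      exact absurd (mem_ball.1 hy) (not_lt.2 hk)
    obtain ⟨j, hj⟩ := Nat.exists_eq_succ_of_ne_zero hk0
    have hlt : dist y x < r / 2 ^ j := by
      by_contra hcon
      have := Nat.find_min' hlim (not_lt.1 hcon)
      omega
    refine mem_iUnion.2 ⟨j, ?_, ?_⟩
    · exact hlt
    · rw [mem_ball, not_lt]
      rw [hj] at hk
      exact hk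
  have hterm : ∀ k, ∫⁻ y in A k, ENNReal.ofReal (‖x - y‖ * (‖x - y‖ ^ n)⁻¹) ∂μ ≤
      ENNReal.ofReal (2 ^ n * C * r * (1/2) ^ k) := by
    intro k
    have h1 : ∀ y ∈ A k, ENNReal.ofReal (‖x - y‖ * (‖x - y‖ ^ n)⁻¹) ≤
        ENNReal.ofReal (r / 2 ^ k * ((r / 2 ^ (k + 1)) ^ n)⁻¹) := by
      intro y hy
      have hlt : ‖x - y‖ < r / 2 ^ k := by
        have := hy.1
        rwa [mem_ball, dist_comm, dist_eq_norm] at this
      have hle : r / 2 ^ (k + 1) ≤ ‖x - y‖ := by
        have := hy.2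
        rwa [mem_ball, not_lt, dist_comm, dist_eq_norm] at this
      have h0 : 0 < r / 2 ^ (k + 1) := by positivity
      gcongr
    calc ∫⁻ y in A k, ENNReal.ofReal (‖x - y‖ * (‖x - y‖ ^ n)⁻¹) ∂μ
        ≤ ∫⁻ y in A k, ENNReal.ofReal (r / 2 ^ k * ((r / 2 ^ (k + 1)) ^ n)⁻¹) ∂μ := by
          refine setLIntegral_mono' ?_ h1
          exact measurableSet_ball.diff measurableSet_ball
      _ = ENNReal.ofReal (r / 2 ^ k * ((r / 2 ^ (k + 1)) ^ n)⁻¹) * μ (A k) := by
          rw [setLIntegral_const]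
      _ ≤ ENNReal.ofReal (r / 2 ^ k * ((r / 2 ^ (k + 1)) ^ n)⁻¹) *
            ENNReal.ofReal (C * (r / 2 ^ k) ^ n) := by
          gcongr
          exact (measure_mono sdiff_subset).trans (hU x _ (by positivity))
      _ = ENNReal.ofReal (2 ^ n * C * r * (1/2) ^ k) := by
          rw [← ENNReal.ofReal_mul (by positivity)]
          congr 1
          have : (r / 2 ^ (k + 1)) ^ n = (r / 2 ^ k) ^ n / 2 ^ n := by
            rw [← div_pow]; congr 1; rw [pow_succ]; field_simp
          rw [this]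
          have h0 : (r / 2 ^ k) ^ n ≠ 0 := by positivity
          rw [one_div, inv_pow]
          field_simp
  calc ∫⁻ y in ball x r, ENNReal.ofReal (‖x - y‖ * (‖x - y‖ ^ n)⁻¹) ∂μ
      ≤ ∫⁻ y in {x} ∪ ⋃ k, A k, ENNReal.ofReal (‖x - y‖ * (‖x - y‖ ^ n)⁻¹) ∂μ :=
        lintegral_mono_set hcov
    _ ≤ ∫⁻ y in {x}, ENNReal.ofReal (‖x - y‖ * (‖x - y‖ ^ n)⁻¹) ∂μ +
        ∫⁻ y in ⋃ k, A k, ENNReal.ofReal (‖x - y‖ * (‖x - y‖ ^ n)⁻¹) ∂μ :=
        lintegral_union_le _ _ _
    _ ≤ 0 + ∑' k, ∫⁻ y in A k, ENNReal.ofReal (‖x - y‖ * (‖x - y‖ ^ n)⁻¹) ∂μ := by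
        gcongr
        · rw [lintegral_singleton]; simp
        · exact lintegral_iUnion_le _ _
    _ ≤ 0 + ∑' k : ℕ, ENNReal.ofReal (2 ^ n * C * r * (1/2) ^ k) := by
        gcongr with k
        exact hterm k
    _ = ENNReal.ofReal (2 ^ (n + 1) * C * r) := by
        rw [zero_add, ← ENNReal.ofReal_tsum_of_nonneg]
        · rw [tsum_mul_left, tsum_geometric_two]; congr 1; ring
        · intro k; positivity
        · exact (summable_geometric_two).mul_left _

theorem IsTest.cont {f : V d → ℝ} (hf : IsTest f) : Continuous f := by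
  obtain ⟨K, hK⟩ := hf.lip; exact hK.continuous

theorem IsTestV.continuous {X : V d → V d} (hX : IsTestV X) : Continuous X := by
  obtain ⟨K, hK⟩ := hX.lip; exact hK.continuous

theorem measurable_wker {f : V d → ℝ} {X : V d → V d} (hf : Continuous f) (hX : Continuous X) :
    Measurable (wker n f X) := by
  unfold wker
  apply Measurable.mul
  · apply Continuous.measurable
    fun_prop
  · apply Measurable.inv
    apply Continuous.measurable
    fun_prop

/-- common radius of a ball containing the supports -/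
theorem exists_radius {f : V d → ℝ} {X : V d → V d} (hf : HasCompactSupport f)
    (hX : HasCompactSupport X) :
    ∃ R : ℝ, 0 < R ∧ (∀ y, y ∉ ball (0 : V d) R → f y = 0) ∧ (∀ y, y ∉ ball (0 : V d) R → X y = 0) := by
  obtain ⟨R1, hR1⟩ := hf.isCompact.isBounded.subset_ball (0 : V d)
  obtain ⟨R2, hR2⟩ := hX.isCompact.isBounded.subset_ball (0 : V d)
  refine ⟨max 1 (max R1 R2), by positivity, ?_, ?_⟩
  · intro y hy
    by_contra h
    exact hy (ball_subset_ball (by simp) (hR1 (subset_tsupport _ h)))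
  · intro y hy
    by_contra h
    exact hy (ball_subset_ball (by simp) (hR2 (subset_tsupport _ h)))

theorem wker_bound {f : V d → ℝ} {X : V d → V d} {R Kf KX Bf BX : ℝ}
    (hfR : ∀ y, y ∉ ball (0 : V d) R → f y = 0) (hXR : ∀ y, y ∉ ball (0 : V d) R → X y = 0)
    (hKf : ∀ x y, |f x - f y| ≤ Kf * ‖x - y‖) (hKX : ∀ x y, ‖X x - X y‖ ≤ KX * ‖x - y‖)
    (hBf : ∀ x, |f x| ≤ Bf) (hBX : ∀ x, ‖X x‖ ≤ BX) (p : V d × V d) :
    |wker n f X p| ≤ (Bf * KX + Kf * BX) *
      (ball (0 : V d) R ×ˢ ball (0 : V d) R).indicator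
        (fun p => ‖p.1 - p.2‖ * (‖p.1 - p.2‖ ^ n)⁻¹) p := by
  by_cases hp : p ∈ ball (0 : V d) R ×ˢ ball (0 : V d) R
  · rw [indicator_of_mem hp]
    unfold wker
    rw [abs_mul, abs_of_nonneg (inv_nonneg.2 (pow_nonneg (norm_nonneg _) _))]
    have h1 : |inner ℝ (f p.2 • X p.1 - f p.1 • X p.2) (p.1 - p.2)| ≤
        (Bf * KX + Kf * BX) * ‖p.1 - p.2‖ * ‖p.1 - p.2‖ := by
      refine (abs_real_inner_le_norm _ _).trans ?_
      gcongr
      have : f p.2 • X p.1 - f p.1 • X p.2 = f p.2 • (X p.1 - X p.2) - (f p.1 - f p.2) • X p.2 := by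
        module
      rw [this]
      calc _ ≤ ‖f p.2 • (X p.1 - X p.2)‖ + ‖(f p.1 - f p.2) • X p.2‖ := norm_sub_le _ _
        _ = |f p.2| * ‖X p.1 - X p.2‖ + |f p.1 - f p.2| * ‖X p.2‖ := by
            rw [norm_smul, norm_smul, Real.norm_eq_abs, Real.norm_eq_abs]
        _ ≤ Bf * (KX * ‖p.1 - p.2‖) + (Kf * ‖p.1 - p.2‖) * BX := by
            have hBf0 : 0 ≤ Bf := (abs_nonneg _).trans (hBf 0)
            have hK0 : 0 ≤ Kf * ‖p.1 - p.2‖ := (abs_nonneg _).trans (hKf p.1 p.2)
            gcongr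
            · exact hBf _
            · exact hKX _ _
            · exact hKf _ _
            · exact hBX _
        _ = _ := by ring
    by_cases h0 : ‖p.1 - p.2‖ = 0
    · rw [h0] at h1 ⊢
      simp
    · calc _ ≤ (Bf * KX + Kf * BX) * ‖p.1 - p.2‖ * ‖p.1 - p.2‖ * (‖p.1 - p.2‖ ^ (n + 1))⁻¹ := by
            gcongr
        _ = _ := by
            rw [pow_succ]; field_simp
  · rw [indicator_of_notMem hp]
    have : f p.2 • X p.1 - f p.1 • X p.2 = 0 := by
      simp only [mem_prod, not_and_or] at hp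
      rcases hp with hp | hp
      · rw [hXR _ hp, hfR _ hp]; simp
      · rw [hXR _ hp, hfR _ hp]; simp
    simp [wker, this]

theorem UpperReg.integrable_near (hC : 0 ≤ C) (hU : UpperReg n C μ) (R : ℝ) :
    Integrable ((ball (0 : V d) R ×ˢ ball (0 : V d) R).indicator
        (fun p => ‖p.1 - p.2‖ * (‖p.1 - p.2‖ ^ n)⁻¹)) (μ.prod μ) := by
  have := Touch.lf_of_upper hU
  rw [integrable_indicator_iff (measurableSet_ball.prod measurableSet_ball)]
  have hmeas : Measurable (fun p : V d × V d => ‖p.1 - p.2‖ * (‖p.1 - p.2‖ ^ n)⁻¹) := by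
    apply Measurable.mul
    · exact Continuous.measurable (by fun_prop)
    · apply Measurable.inv
      exact Continuous.measurable (by fun_prop)
  refine ⟨hmeas.aestronglyMeasurable, ?_⟩
  rcases le_or_gt R 0 with hR | hR
  · rw [ball_eq_empty.2 hR]; simp
  unfold HasFiniteIntegral
  have : ∀ p : V d × V d, ‖‖p.1 - p.2‖ * (‖p.1 - p.2‖ ^ n)⁻¹‖ₑ =
      ENNReal.ofReal (‖p.1 - p.2‖ * (‖p.1 - p.2‖ ^ n)⁻¹) := by
    intro p
    rw [Real.enorm_of_nonneg (by positivity)]
  simp_rw [this]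
  rw [← Measure.prod_restrict, lintegral_prod _ hmeas.ennreal_ofReal.aemeasurable]
  calc ∫⁻ x in ball (0 : V d) R, ∫⁻ y in ball (0 : V d) R,
        ENNReal.ofReal (‖x - y‖ * (‖x - y‖ ^ n)⁻¹) ∂μ ∂μ
      ≤ ∫⁻ x in ball (0 : V d) R, ENNReal.ofReal (2 ^ (n + 1) * C * (2 * R)) ∂μ := by
        refine setLIntegral_mono' measurableSet_ball ?_
        intro x hx
        refine le_trans (lintegral_mono_set ?_) (hU.lintegral_nearD hC x (by positivity : 0 < 2 * R))
        intro y hy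
        rw [mem_ball] at *
        calc dist y x ≤ dist y 0 + dist 0 x := dist_triangle _ _ _
          _ < 2 * R := by rw [dist_comm 0 x]; linarith
    _ = ENNReal.ofReal (2 ^ (n + 1) * C * (2 * R)) * μ (ball (0 : V d) R) := by
        rw [setLIntegral_const]
    _ < ⊤ := ENNReal.mul_lt_top ENNReal.ofReal_lt_top (hU.ball_lt_top _ _)

theorem integrable_wker' (hC : 0 ≤ C) (hU : UpperReg n C μ)
    {f : V d → ℝ} {X : V d → V d} (hf : IsTest f) (hX : IsTestV X) :
    Integrable (wker n f X) (μ.prod μ) := by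
  obtain ⟨R, hR, hfR, hXR⟩ := exists_radius hf.cpt hX.cpt
  obtain ⟨Kf, hKf⟩ := hf.lip
  obtain ⟨KX, hKX⟩ := hX.lip
  obtain ⟨Bf, hBf⟩ := hf.cont.bounded_above_of_compact_support hf.cpt
  obtain ⟨BX, hBX⟩ := hX.continuous.bounded_above_of_compact_support hX.cpt
  have hb := wker_bound (n := n) (Kf := Kf) (KX := KX) hfR hXR
    (fun x y => by
      have := hKf.dist_le_mul x y
      rwa [Real.dist_eq, dist_eq_norm] at this)
    (fun x y => by
      have := hKX.dist_le_mul x y
      rwa [dist_eq_norm, dist_eq_norm] at this)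
    (fun x => by simpa using hBf x) hBX
  refine Integrable.mono' ((hU.integrable_near hC R).const_mul (Bf * KX + Kf * BX))
    (measurable_wker hf.cont hX.continuous).aestronglyMeasurable ?_
  exact Eventually.of_forall (fun p => by simpa using hb p)

/-- the (not yet antisymmetrised) integrand of the hard truncation. -/
noncomputable def hker (n : ℕ) (f : V d → ℝ) (X : V d → V d) (p : V d × V d) : ℝ :=
  (f p.2 * (‖p.1 - p.2‖ ^ (n + 1))⁻¹) * inner ℝ (p.1 - p.2) (X p.1)

theorem measurableSet_far (ε : ℝ) : MeasurableSet {p : V d × V d | ε < dist p.1 p.2} :=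
  (isOpen_lt continuous_const (by fun_prop)).measurableSet

theorem integrable_hker (hU : UpperReg n C μ) {f : V d → ℝ} {X : V d → V d}
    (hf : Continuous f) (hfc : HasCompactSupport f) (hX : Continuous X)
    (hXc : HasCompactSupport X) {ε : ℝ} (hε : 0 < ε) :
    Integrable ({p : V d × V d | ε < dist p.1 p.2}.indicator (hker n f X)) (μ.prod μ) := by
  have := Touch.lf_of_upper hU
  obtain ⟨R, hR, hfR, hXR⟩ := exists_radius hfc hXc
  obtain ⟨Bf, hBf⟩ := hf.bounded_above_of_compact_support hfc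
  obtain ⟨BX, hBX⟩ := hX.bounded_above_of_compact_support hXc
  have hBf0 : 0 ≤ Bf := (norm_nonneg _).trans (hBf 0)
  have hBX0 : 0 ≤ BX := (norm_nonneg _).trans (hBX 0)
  have hmeas : Measurable (hker n f X) := by
    unfold hker
    refine Measurable.mul (Measurable.mul ?_ (Measurable.inv ?_)) ?_ <;>
      exact Continuous.measurable (by fun_prop)
  have hfin : (μ.prod μ) (ball (0 : V d) R ×ˢ ball (0 : V d) R) < ⊤ := by
    rw [Measure.prod_prod]
    exact ENNReal.mul_lt_top (hU.ball_lt_top _ _) (hU.ball_lt_top _ _)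
  have hI : Integrable ((ball (0 : V d) R ×ˢ ball (0 : V d) R).indicator
      (fun _ => Bf * BX * (ε ^ n)⁻¹)) (μ.prod μ) := by
    rw [integrable_indicator_iff (measurableSet_ball.prod measurableSet_ball)]
    exact integrableOn_const hfin.ne
  refine hI.mono' (hmeas.indicator (measurableSet_far ε)).aestronglyMeasurable ?_
  refine Eventually.of_forall (fun p => ?_)
  by_cases hp : ε < dist p.1 p.2
  · rw [indicator_of_mem (s := {p : V d × V d | ε < dist p.1 p.2}) hp]
    by_cases hq : p ∈ ball (0 : V d) R ×ˢ ball (0 : V d) R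
    · rw [indicator_of_mem hq]
      unfold hker
      rw [dist_eq_norm] at hp
      have h0 : 0 < ‖p.1 - p.2‖ := hε.trans hp
      rw [norm_mul, norm_mul, norm_inv, norm_pow, norm_norm]
      calc ‖f p.2‖ * (‖p.1 - p.2‖ ^ (n + 1))⁻¹ * ‖inner ℝ (p.1 - p.2) (X p.1)‖
          ≤ Bf * (‖p.1 - p.2‖ ^ (n + 1))⁻¹ * (‖p.1 - p.2‖ * BX) := by
            gcongr
            · exact hBf _
            · exact (norm_inner_le_norm _ _).trans (by gcongr; exact hBX _)
        _ = Bf * BX * (‖p.1 - p.2‖ ^ n)⁻¹ := by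
            rw [pow_succ]; field_simp
        _ ≤ Bf * BX * (ε ^ n)⁻¹ := by gcongr
    · rw [indicator_of_notMem hq]
      have : hker n f X p = 0 := by
        simp only [mem_prod, not_and_or] at hq
        rcases hq with hq | hq
        · simp [hker, hXR _ hq]
        · simp [hker, hfR _ hq]
      simp [this]
  · rw [indicator_of_notMem (s := {p : V d × V d | ε < dist p.1 p.2}) hp]
    simp only [norm_zero]
    exact indicator_nonneg (fun _ _ => by positivity) _

theorem hker_add_swap (f : V d → ℝ) (X : V d → V d) (ε : ℝ) (p : V d × V d) :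
    ({p : V d × V d | ε < dist p.1 p.2}.indicator (hker n f X)) p +
      ({p : V d × V d | ε < dist p.1 p.2}.indicator (hker n f X)) p.swap =
    ({p : V d × V d | ε < dist p.1 p.2}.indicator (wker n f X)) p := by
  by_cases hp : ε < dist p.1 p.2
  · have hp' : ε < dist p.swap.1 p.swap.2 := by simpa [dist_comm] using hp
    rw [indicator_of_mem (s := {p : V d × V d | ε < dist p.1 p.2}) hp,
      indicator_of_mem (s := {p : V d × V d | ε < dist p.1 p.2}) hp',
      indicator_of_mem (s := {p : V d × V d | ε < dist p.1 p.2}) hp]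
    unfold hker wker
    simp only [Prod.fst_swap, Prod.snd_swap]
    have e1 : inner ℝ (f p.2 • X p.1 - f p.1 • X p.2) (p.1 - p.2) =
        f p.2 * inner ℝ (p.1 - p.2) (X p.1) - f p.1 * inner ℝ (p.1 - p.2) (X p.2) := by
      rw [inner_sub_left (f p.2 • X p.1), real_inner_smul_left, real_inner_smul_left,
        real_inner_comm (p.1 - p.2), real_inner_comm (p.1 - p.2)]
    rw [e1, norm_sub_rev p.2 p.1, ← neg_sub p.1 p.2, inner_neg_left]
    ring
  · have hp' : ¬ ε < dist p.swap.1 p.swap.2 := by simpa [dist_comm] using hp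
    rw [indicator_of_notMem (s := {p : V d × V d | ε < dist p.1 p.2}) hp,
      indicator_of_notMem (s := {p : V d × V d | ε < dist p.1 p.2}) hp',
      indicator_of_notMem (s := {p : V d × V d | ε < dist p.1 p.2}) hp]
    ring

theorem integral_inner_rieszTruncation (hU : UpperReg n C μ) {f : V d → ℝ} {X : V d → V d}
    (hf : Continuous f) (hfc : HasCompactSupport f) (hX : Continuous X)
    (hXc : HasCompactSupport X) {ε : ℝ} (hε : 0 < ε) :
    ∫ x, inner ℝ (Crest.AnalysisR.rieszTruncation n μ ε f x) (X x) ∂μ =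
      (1 / 2 : ℝ) * ∫ p in {p : V d × V d | ε < dist p.1 p.2}, wker n f X p ∂(μ.prod μ) := by
  have := Touch.lf_of_upper hU
  have hI := integrable_hker (n := n) hU hf hfc hX hXc hε
  have h1 : ∀ x, inner ℝ (Crest.AnalysisR.rieszTruncation n μ ε f x) (X x) =
      ∫ y, ({p : V d × V d | ε < dist p.1 p.2}.indicator (hker n f X)) (x, y) ∂μ := by
    intro x
    unfold Crest.AnalysisR.rieszTruncation
    have hint : Integrable (fun y => (f y * (‖x - y‖ ^ (n + 1))⁻¹) • (x - y))
        (μ.restrict {y | ε < dist x y}) := by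
      obtain ⟨R, hR, hfR, -⟩ := exists_radius hfc hXc
      obtain ⟨Bf, hBf⟩ := hf.bounded_above_of_compact_support hfc
      have hBf0 : 0 ≤ Bf := (norm_nonneg _).trans (hBf 0)
      have hI' : Integrable ((ball (0 : V d) R).indicator
          (fun _ => Bf * (ε ^ n)⁻¹)) (μ.restrict {y | ε < dist x y}) := by
        rw [integrable_indicator_iff measurableSet_ball]
        refine integrableOn_const (ne_of_lt ?_)
        exact (Measure.restrict_apply_le _ _).trans_lt (hU.ball_lt_top _ _)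
      refine hI'.mono' ?_ ?_
      · have m1 : Measurable (fun y => (‖x - y‖ ^ (n + 1))⁻¹) :=
          Measurable.inv (Continuous.measurable (by fun_prop))
        exact ((hf.measurable.mul m1).smul
          (Continuous.measurable (by fun_prop))).aestronglyMeasurable
      · have hms : MeasurableSet {y | ε < dist x y} :=
          (isOpen_lt continuous_const (by fun_prop)).measurableSet
        rw [ae_restrict_iff' hms]
        refine Eventually.of_forall (fun y hy => ?_)
        have hy' : ε < ‖x - y‖ := by rwa [mem_ofPred_eq, dist_eq_norm] at hy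
        by_cases hq : y ∈ ball (0 : V d) R
        · rw [indicator_of_mem hq, norm_smul, norm_mul, norm_inv, norm_pow, norm_norm]
          have h0 : 0 < ‖x - y‖ := hε.trans hy'
          calc ‖f y‖ * (‖x - y‖ ^ (n + 1))⁻¹ * ‖x - y‖
              ≤ Bf * (‖x - y‖ ^ (n + 1))⁻¹ * ‖x - y‖ := by gcongr; exact hBf _
            _ = Bf * (‖x - y‖ ^ n)⁻¹ := by rw [pow_succ]; field_simp
            _ ≤ Bf * (ε ^ n)⁻¹ := by gcongr
        · rw [indicator_of_notMem hq, hfR _ hq]; simp
    rw [real_inner_comm, ← integral_inner hint,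
      ← integral_indicator (isOpen_lt continuous_const (by fun_prop)).measurableSet]
    refine integral_congr_ae (Eventually.of_forall (fun y => ?_))
    change _ = {p : V d × V d | ε < dist p.1 p.2}.indicator (hker n f X) (x, y)
    by_cases hy : ε < dist x y
    · rw [indicator_of_mem (s := {y | ε < dist x y}) hy,
        indicator_of_mem (s := {p : V d × V d | ε < dist p.1 p.2}) (a := (x, y)) hy]
      unfold hker
      rw [real_inner_smul_right, real_inner_comm]
    · rw [indicator_of_notMem (s := {y | ε < dist x y}) hy,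
        indicator_of_notMem (s := {p : V d × V d | ε < dist p.1 p.2}) (a := (x, y)) hy]
  simp_rw [h1]
  rw [← integral_prod _ hI, ← integral_indicator (measurableSet_far ε)]
  have hsw : ∫ p : V d × V d, ({p : V d × V d | ε < dist p.1 p.2}.indicator (hker n f X)) p.swap
      ∂(μ.prod μ) = ∫ p, ({p : V d × V d | ε < dist p.1 p.2}.indicator (hker n f X)) p
      ∂(μ.prod μ) := integral_prod_swap _
  have hsum : ∫ p : V d × V d, ({p : V d × V d | ε < dist p.1 p.2}.indicator (wker n f X)) p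
      ∂(μ.prod μ) = ∫ p, ({p : V d × V d | ε < dist p.1 p.2}.indicator (hker n f X)) p
      ∂(μ.prod μ) + ∫ p : V d × V d,
        ({p : V d × V d | ε < dist p.1 p.2}.indicator (hker n f X)) p.swap ∂(μ.prod μ) := by
    have := integral_add hI hI.swap
    simp only [Function.comp_def] at this
    rw [← this]
    exact integral_congr_ae (Eventually.of_forall (fun p => (hker_add_swap f X ε p).symm))
  rw [hsum, hsw]; ring

theorem stronglyMeasurable_rieszTruncation (hU : UpperReg n C μ) {f : V d → ℝ} (hf : Continuous f)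
    (ε : ℝ) : StronglyMeasurable (Crest.AnalysisR.rieszTruncation n μ ε f) := by
  have := Touch.lf_of_upper hU
  set g : V d × V d → V d := {p : V d × V d | ε < dist p.1 p.2}.indicator
    (fun p => (f p.2 * (‖p.1 - p.2‖ ^ (n + 1))⁻¹) • (p.1 - p.2)) with hg
  have hgm : StronglyMeasurable g := by
    apply StronglyMeasurable.indicator _ (measurableSet_far ε)
    apply Measurable.stronglyMeasurable
    have m1 : Measurable (fun p : V d × V d => (‖p.1 - p.2‖ ^ (n + 1))⁻¹) :=
      Measurable.inv (Continuous.measurable (by fun_prop))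
    have m2 : Measurable (fun p : V d × V d => f p.2) := Continuous.measurable (by fun_prop)
    exact (m2.mul m1).smul (Continuous.measurable (by fun_prop))
  have h := hgm.integral_prod_right' (ν := μ)
  suffices heq : Crest.AnalysisR.rieszTruncation n μ ε f = fun x => ∫ y, g (x, y) ∂μ by
    rw [heq]; exact h
  funext x
  unfold Crest.AnalysisR.rieszTruncation
  rw [← integral_indicator (isOpen_lt continuous_const (by fun_prop)).measurableSet]
  refine integral_congr_ae (Eventually.of_forall (fun y => ?_))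
  change _ = g (x, y)
  rw [hg]
  by_cases hy : ε < dist x y
  · rw [indicator_of_mem (s := {y | ε < dist x y}) hy,
      indicator_of_mem (s := {p : V d × V d | ε < dist p.1 p.2}) (a := (x, y)) hy]
  · rw [indicator_of_notMem (s := {y | ε < dist x y}) hy,
      indicator_of_notMem (s := {p : V d × V d | ε < dist p.1 p.2}) (a := (x, y)) hy]

theorem eLpNorm_two_eq {E : Type*} [NormedAddCommGroup E] {g : V d → E}
    (hg : MemLp g 2 μ) : eLpNorm g 2 μ = ENNReal.ofReal (Real.sqrt (∫ x, ‖g x‖ ^ 2 ∂μ)) := by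
  rw [hg.eLpNorm_eq_integral_rpow_norm (by norm_num) (by norm_num)]
  congr 1
  rw [Real.sqrt_eq_rpow]
  simp

theorem abs_integral_inner_leWR {T X : V d → V d} (hT : AEStronglyMeasurable T μ)
    (hX : AEStronglyMeasurable X μ) {a b : ℝ} (ha : 0 ≤ a) (hb : 0 ≤ b)
    (h1 : eLpNorm T 2 μ ≤ ENNReal.ofReal a)
    (h2 : eLpNorm X 2 μ ≤ ENNReal.ofReal b) : |∫ x, inner ℝ (T x) (X x) ∂μ| ≤ a * b := by
  have h3 : ‖∫ x, inner ℝ (T x) (X x) ∂μ‖ₑ ≤ ENNReal.ofReal (a * b) := by
    calc ‖∫ x, inner ℝ (T x) (X x) ∂μ‖ₑ ≤ ∫⁻ x, ‖inner ℝ (T x) (X x)‖ₑ ∂μ :=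
          enorm_integral_le_lintegral_enorm _
      _ ≤ ∫⁻ x, ((fun x => ‖T x‖ₑ) * (fun x => ‖X x‖ₑ)) x ∂μ := by
          refine lintegral_mono (fun x => ?_)
          simp only [Pi.mul_apply]
          rw [← ofReal_norm, ← ofReal_norm, ← ofReal_norm, ← ENNReal.ofReal_mul (norm_nonneg _)]
          exact ENNReal.ofReal_le_ofReal (norm_inner_le_norm _ _)
      _ ≤ (∫⁻ x, ‖T x‖ₑ ^ (2:ℝ) ∂μ) ^ (1 / (2:ℝ)) * (∫⁻ x, ‖X x‖ₑ ^ (2:ℝ) ∂μ) ^ (1 / (2:ℝ)) :=
          ENNReal.lintegral_mul_le_Lp_mul_Lq μ (by constructor <;> norm_num) hT.enorm hX.enorm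
      _ = eLpNorm T 2 μ * eLpNorm X 2 μ := by
          rw [eLpNorm_eq_lintegral_rpow_enorm_toReal (by norm_num) (by norm_num),
            eLpNorm_eq_lintegral_rpow_enorm_toReal (by norm_num) (by norm_num)]
          simp
      _ ≤ ENNReal.ofReal (a * b) := by
          rw [ENNReal.ofReal_mul ha]; gcongr
  rw [← Real.norm_eq_abs]
  rw [← ofReal_norm] at h3
  exact (ENNReal.ofReal_le_ofReal_iff (by positivity)).1 h3

theorem UpperReg.nonneg_const (hU : UpperReg n C μ) : UpperReg n (max C 0) μ := by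
  intro x r hr
  refine (hU x r hr).trans (ENNReal.ofReal_le_ofReal ?_)
  gcongr
  exact le_max_left _ _

theorem integrable_wker (hU : UpperReg n C μ)
    {f : V d → ℝ} {X : V d → V d} (hf : IsTest f) (hX : IsTestV X) :
    Integrable (wker n f X) (μ.prod μ) :=
  integrable_wker' (le_max_right C 0) hU.nonneg_const hf hX

/-- the hard truncations converge to the weak form. -/
theorem tendsto_integral_far (hU : UpperReg n C μ)
    {f : V d → ℝ} {X : V d → V d} (hf : IsTest f) (hX : IsTestV X) :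
    Tendsto (fun ε : ℝ => ∫ p in {p : V d × V d | ε < dist p.1 p.2}, wker n f X p ∂(μ.prod μ))
      (𝓝[>] 0) (𝓝 (∫ p, wker n f X p ∂(μ.prod μ))) := by
  have hI := integrable_wker hU hf hX
  have h1 : ∀ ε : ℝ, ∫ p in {p : V d × V d | ε < dist p.1 p.2}, wker n f X p ∂(μ.prod μ) =
      ∫ p, {p : V d × V d | ε < dist p.1 p.2}.indicator (wker n f X) p ∂(μ.prod μ) :=
    fun ε => (integral_indicator (measurableSet_far ε)).symm
  simp_rw [h1]
  refine tendsto_integral_filter_of_dominated_convergence (fun p => ‖wker n f X p‖) ?_ ?_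
    hI.norm ?_
  · refine Eventually.of_forall (fun ε => ?_)
    exact hI.aestronglyMeasurable.indicator (measurableSet_far ε)
  · refine Eventually.of_forall (fun ε => Eventually.of_forall (fun p => ?_))
    exact norm_indicator_le_norm_self _ _
  · refine Eventually.of_forall (fun p => ?_)
    by_cases hp : p.1 = p.2
    · have hw : wker n f X p = 0 := by simp [wker, hp]
      have : ∀ ε : ℝ, {p : V d × V d | ε < dist p.1 p.2}.indicator (wker n f X) p = 0 := by
        intro ε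
        by_cases h : p ∈ {p : V d × V d | ε < dist p.1 p.2}
        · rw [indicator_of_mem h, hw]
        · rw [indicator_of_notMem h]
      simp_rw [this, hw]
      exact tendsto_const_nhds
    · have hpos : 0 < dist p.1 p.2 := dist_pos.2 hp
      refine tendsto_const_nhds.congr' ?_
      filter_upwards [mem_nhdsWithin_of_mem_nhds (Iio_mem_nhds hpos)] with ε hε
      rw [indicator_of_mem]
      exact hε

theorem IsTest.memLp (hU : UpperReg n C μ) {f : V d → ℝ} (hf : IsTest f) : MemLp f 2 μ := by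
  have := Touch.lf_of_upper hU
  exact hf.cont.memLp_of_hasCompactSupport hf.cpt

theorem IsTestV.memLp (hU : UpperReg n C μ) {X : V d → V d} (hX : IsTestV X) : MemLp X 2 μ := by
  have := Touch.lf_of_upper hU
  exact hX.continuous.memLp_of_hasCompactSupport hX.cpt

theorem weakRiesz_of_hasRieszBound (hU : UpperReg n C μ)
    (hA : Crest.AnalysisR.HasRieszBound n A μ) : WeakRiesz n (max A 0) μ := by
  intro f X hf hX
  have hfm := hf.memLp hU
  have hXm := hX.memLp hU
  set a := max A 0 * Real.sqrt (∫ y, f y ^ 2 ∂μ) with ha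
  have ha0 : 0 ≤ a := by positivity
  set b := Real.sqrt (∫ y, ‖X y‖ ^ 2 ∂μ) with hb
  have hb0 : 0 ≤ b := by positivity
  have key : ∀ ε : ℝ, 0 < ε → |(1 / 2 : ℝ) *
      ∫ p in {p : V d × V d | ε < dist p.1 p.2}, wker n f X p ∂(μ.prod μ)| ≤ a * b := by
    intro ε hε
    rw [← integral_inner_rieszTruncation hU hf.cont hf.cpt hX.continuous hX.cpt hε]
    refine abs_integral_inner_leWR
      (stronglyMeasurable_rieszTruncation hU hf.cont ε).aestronglyMeasurable
      hXm.aestronglyMeasurable ha0 hb0 ?_ (eLpNorm_two_eq hXm).le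
    refine (hA f hfm ε hε).trans ?_
    rw [eLpNorm_two_eq hfm, ha, ENNReal.ofReal_mul (le_max_right _ _)]
    simp only [Real.norm_eq_abs, sq_abs]
    gcongr
    exact le_max_left _ _
  have hlim := ((tendsto_integral_far hU hf hX).const_mul (1 / 2 : ℝ)).abs
  have := le_of_tendsto hlim (b := a * b) (by
    filter_upwards [self_mem_nhdsWithin] with ε hε
    exact key ε hε)
  rw [Wf]
  exact this

end Crest.Agent.R085
end

-- ▼ part R085/M9Pack
section

/-!
R085, module M9: packing of the eta-bad cells of a lattice. Owner: helper237.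
-/

set_option autoImplicit false

namespace Crest.Agent.R085

open MeasureTheory Metric Set Filter
open scoped ENNReal NNReal Topology

/-- M2 interface: quantitative packing of points/scales with large oscillation. -/
def TPacking (n d : ℕ) (C A M δ σ : ℝ) : Prop :=
  ∃ K : ℝ, 0 < K ∧ ∀ (μ : Measure (V d)) (D : ℝ≥0∞), ADR n C D μ → WeakRiesz n A μ →
    ∀ (x0 : V d) (R0 b : ℝ), 0 < R0 → 2 ≤ b → ∀ (ι : Type) (s : Finset ι) (x : ι → V d)
      (k : ι → ℕ),
      (∀ i ∈ s, x i ∈ μ.support ∧ dist (x i) x0 ≤ R0 ∧ ENNReal.ofReal (R0 / b ^ k i) ≤ D ∧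
        ¬ EtaS n μ (x i) (R0 / b ^ k i) M δ) →
      (∀ i ∈ s, ∀ j ∈ s, i ≠ j → k i = k j → σ * (R0 / b ^ k i) ≤ dist (x i) (x j)) →
      ∑ i ∈ s, (R0 / b ^ k i) ^ n ≤ K * R0 ^ n

namespace M9

theorem sep_centers {d : ℕ} {S : Set (V d)} {x₀ : V d} {ℓ b : ℝ} {K : ℕ} (L : Lat S x₀ ℓ b K)
    {k : ℕ} (hk : k ≤ K) {w w' : V d} (hw : w ∈ L.W) (hw' : w' ∈ L.W)
    (hne : L.c k w ≠ L.c k w') : sc ℓ b k / 4 ≤ dist (L.c k w) (L.c k w') := by
  by_contra hcon
  push Not at hcon
  have h1 := L.c_inner k hk (L.c k w') (L.c_mem k hk w' hw') (L.c_comp k k le_rfl hk w' hw')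
    (L.c k w) (L.c_mem k hk w hw) hcon
  rw [L.c_comp k k le_rfl hk w hw] at h1
  exact hne h1

open Classical in
theorem sum_etaBad {d n : ℕ} {C A M1 δ1 b cL CL : ℝ} (hb : 16 ≤ b) (hcL : 0 < cL)
    (hCL : 0 < CL) (hP : TPacking n d C A M1 δ1 (1 / 4)) :
    ∃ CH : ℝ, 0 ≤ CH ∧ ∀ (μ : Measure (V d)) (D : ℝ≥0∞) (x₀ : V d) (ℓ : ℝ) (K : ℕ)
      (L : Lat μ.support x₀ ℓ b K), 0 < ℓ → ADR n C D μ → WeakRiesz n A μ →
      ENNReal.ofReal ℓ ≤ D →
      (∀ k ≤ K, ∀ x ∈ L.W, L.c k x = x → L.c 0 x = x₀ →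
        cL * (b ^ (K - k)) ^ n ≤ ((L.cell k x).card : ℝ)) →
      (∀ k ≤ K, ∀ x ∈ L.W, L.c k x = x → L.c 0 x = x₀ →
        ((L.cell k x).card : ℝ) ≤ CL * (b ^ (K - k)) ^ n) →
      ∑ w ∈ L.top, ((((Finset.range (K + 1)).filter
        (fun k => ¬ EtaS n μ (L.c k w) (sc ℓ b k) M1 δ1)).card : ℕ) : ℝ) ≤ CH * (L.top.card : ℝ) := by
  obtain ⟨Kp, hKp, hpack⟩ := hP
  have hb0 : 0 < b := by linarith
  refine ⟨CL * Kp * b ^ n / cL, by positivity, ?_⟩
  intro μ D x₀ ℓ K L hℓ hADR hWR hℓD hlow hupp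
  -- the set of pairs (leaf, generation)
  set P : Finset (V d × ℕ) := (L.top ×ˢ Finset.range (K + 1)).filter
    (fun p => ¬ EtaS n μ (L.c p.2 p.1) (sc ℓ b p.2) M1 δ1) with hPdef
  set f : V d × ℕ → ℕ × V d := fun p => (p.2, L.c p.2 p.1) with hf
  set T : Finset (ℕ × V d) := P.image f with hT
  have hmemP : ∀ p : V d × ℕ, p ∈ P ↔ (p.1 ∈ L.W ∧ L.c 0 p.1 = x₀) ∧ p.2 ≤ K ∧
      ¬ EtaS n μ (L.c p.2 p.1) (sc ℓ b p.2) M1 δ1 := by
    intro p
    rw [hPdef, Finset.mem_filter, Finset.mem_product, L.mem_top, Finset.mem_range]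
    constructor
    · rintro ⟨⟨h1, h2⟩, h3⟩; exact ⟨h1, by omega, h3⟩
    · rintro ⟨h1, h2, h3⟩; exact ⟨⟨h1, by omega⟩, h3⟩
  have hcardP : ∑ w ∈ L.top, ((((Finset.range (K + 1)).filter
        (fun k => ¬ EtaS n μ (L.c k w) (sc ℓ b k) M1 δ1)).card : ℕ) : ℝ) = (P.card : ℝ) := by
    rw [hPdef, Finset.card_filter, Finset.sum_product]
    push_cast
    refine Finset.sum_congr rfl fun w _ => ?_
    rw [Finset.card_filter]
    push_cast
    rfl
  rw [hcardP]
  have hfib : P.card = ∑ t ∈ T, (P.filter (fun p => f p = t)).card :=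
    Finset.card_eq_sum_card_image f P
  have hTprop : ∀ t ∈ T, t.1 ≤ K ∧ t.2 ∈ L.W ∧ L.c t.1 t.2 = t.2 ∧ L.c 0 t.2 = x₀ ∧
      ¬ EtaS n μ t.2 (sc ℓ b t.1) M1 δ1 := by
    intro t ht
    rw [hT, Finset.mem_image] at ht
    obtain ⟨p, hp, rfl⟩ := ht
    rw [hmemP] at hp
    obtain ⟨⟨hW, hc0⟩, hK, hE⟩ := hp
    refine ⟨hK, L.c_mem _ hK _ hW, L.c_comp _ _ le_rfl hK _ hW, ?_, hE⟩
    show L.c 0 (L.c p.2 p.1) = x₀
    rw [L.c_comp 0 p.2 (Nat.zero_le _) hK _ hW, hc0]
  have hfibcard : ∀ t ∈ T, (P.filter (fun p => f p = t)).card ≤ (L.cell t.1 t.2).card := by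
    intro t _
    refine Finset.card_le_card_of_injOn (fun p => p.1) ?_ ?_
    · intro p hp
      rw [Finset.mem_coe, Finset.mem_filter, hmemP] at hp
      obtain ⟨⟨⟨hW, hc0⟩, hK, hE⟩, hpt⟩ := hp
      rw [Finset.mem_coe, L.mem_cell]
      rw [← hpt]
      exact ⟨hW, rfl⟩
    · intro p hp q hq hpq
      rw [Finset.mem_coe, Finset.mem_filter] at hp hq
      have h1 : p.2 = q.2 := by
        have h1 := congrArg Prod.fst hp.2
        have h2 := congrArg Prod.fst hq.2
        simp only [hf] at h1 h2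
        rw [h1, h2]
      exact Prod.ext hpq h1
  -- apply the packing
  have hpk := hpack μ D hADR hWR x₀ (b * ℓ) b (by positivity) (by linarith) (ℕ × V d) T
    (fun t => t.2) (fun t => t.1 + 1) ?_ ?_
  · have hscale : ∀ k : ℕ, b * ℓ / b ^ (k + 1) = sc ℓ b k := by
      intro k
      unfold sc
      rw [pow_succ]
      field_simp
    simp only [hscale] at hpk
    have hscK : 0 < sc ℓ b K := sc_pos hℓ hb0 K
    have hpow : ∀ k ≤ K, (b ^ (K - k)) ^ n = (sc ℓ b k) ^ n / (sc ℓ b K) ^ n := by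
      intro k hk
      rw [← div_pow]
      congr 1
      unfold sc
      rw [div_div_div_cancel_left' _ _ hℓ.ne', eq_div_iff (by positivity), ← pow_add]
      congr 1
      omega
    have h1 : (P.card : ℝ) ≤ ∑ t ∈ T, CL * ((sc ℓ b t.1) ^ n / (sc ℓ b K) ^ n) := by
      rw [hfib]
      push_cast
      refine Finset.sum_le_sum fun t ht => ?_
      obtain ⟨hk, hW, hcc, hc0, _⟩ := hTprop t ht
      calc ((P.filter (fun p => f p = t)).card : ℝ) ≤ ((L.cell t.1 t.2).card : ℝ) := by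
            exact_mod_cast hfibcard t ht
        _ ≤ CL * (b ^ (K - t.1)) ^ n := hupp t.1 hk t.2 hW hcc hc0
        _ = CL * ((sc ℓ b t.1) ^ n / (sc ℓ b K) ^ n) := by rw [hpow t.1 hk]
    have h2 : ∑ t ∈ T, CL * ((sc ℓ b t.1) ^ n / (sc ℓ b K) ^ n)
        = CL / (sc ℓ b K) ^ n * ∑ t ∈ T, (sc ℓ b t.1) ^ n := by
      rw [Finset.mul_sum]
      refine Finset.sum_congr rfl fun t _ => ?_
      ring
    have h3 : (b ^ K) ^ n * (sc ℓ b K) ^ n = ℓ ^ n := by
      rw [← mul_pow]
      congr 1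
      unfold sc
      field_simp
    have h4 : cL * (b ^ K) ^ n ≤ (L.top.card : ℝ) := by
      have := hlow 0 (Nat.zero_le K) x₀ L.root_mem L.c_root L.c_root
      simpa [Lat.top] using this
    calc (P.card : ℝ) ≤ CL / (sc ℓ b K) ^ n * ∑ t ∈ T, (sc ℓ b t.1) ^ n := by
          rw [← h2]; exact h1
      _ ≤ CL / (sc ℓ b K) ^ n * (Kp * (b * ℓ) ^ n) := by gcongr
      _ = CL * Kp * b ^ n / cL * (cL * (b ^ K) ^ n) := by
          rw [mul_pow, ← h3]
          field_simp
      _ ≤ CL * Kp * b ^ n / cL * (L.top.card : ℝ) := by gcongr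
  · intro t ht
    obtain ⟨hk, hW, hcc, hc0, hE⟩ := hTprop t ht
    have hscale : b * ℓ / b ^ (t.1 + 1) = sc ℓ b t.1 := by
      unfold sc
      rw [pow_succ]
      field_simp
    rw [hscale]
    refine ⟨L.W_sub _ hW, ?_, ?_, hE⟩
    · have h := L.c_dist 0 (Nat.zero_le K) t.2 hW
      rw [hc0, sc_zero] at h
      nlinarith
    · refine le_trans (ENNReal.ofReal_le_ofReal ?_) hℓD
      have := sc_anti (b := b) hℓ (by linarith) (Nat.zero_le t.1)
      rwa [sc_zero] at this
  · intro s hs t ht hst hk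
    have hk' : s.1 = t.1 := by simpa using hk
    obtain ⟨hks, hWs, hccs, hc0s, hEs⟩ := hTprop s hs
    obtain ⟨hkt, hWt, hcct, hc0t, hEt⟩ := hTprop t ht
    have hscale : b * ℓ / b ^ (s.1 + 1) = sc ℓ b s.1 := by
      unfold sc
      rw [pow_succ]
      field_simp
    rw [hscale]
    have hne : L.c s.1 s.2 ≠ L.c s.1 t.2 := by
      rw [hccs, hk', hcct]
      intro h
      exact hst (Prod.ext hk' h)
    have := sep_centers L hks hWs hWt hne
    rw [hccs, hk', hcct] at this
    rw [hk']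
    linarith

end M9

end Crest.Agent.R085
end

-- ▼ part R085/M9Comb
section

/-!
R085 (S0113), module M9, combinatorial core: if flatness (`F`) can only be lost at `H`-cells, if
every cell contains a flat cell of comparable size, and if the `H`-cells are packed, then the
non-flat cells are packed.
-/

set_option autoImplicit false

namespace Crest.Agent.R085

open Finset

/-- geometric decay every `J` steps gives a summable sequence -/
theorem sum_le_of_block_decay (a : ℕ → ℝ) (N J : ℕ) (κ : ℝ) (_hκ : 0 < κ) (hκ1 : κ ≤ 1)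
    (ha : ∀ k, 0 ≤ a k) (hanti : ∀ k, a k ≤ a 0)
    (hdec : ∀ k, k + J < N → a (k + J) ≤ (1 - κ) * a k) :
    κ * ∑ k ∈ range N, a k ≤ J * a 0 := by
  have hT0 : 0 ≤ ∑ k ∈ range N, a k := sum_nonneg fun k _ => ha k
  by_cases hNJ : N ≤ J
  · have h1 : ∑ k ∈ range N, a k ≤ N * a 0 := by
      calc ∑ k ∈ range N, a k ≤ ∑ k ∈ range N, a 0 := sum_le_sum fun k _ => hanti k
        _ = N * a 0 := by simp
    have h2 : (N : ℝ) ≤ J := by exact_mod_cast hNJ
    have h3 := ha 0
    nlinarith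
  · push Not at hNJ
    obtain ⟨M, rfl⟩ := Nat.exists_eq_add_of_lt hNJ
    have hsplit : ∑ k ∈ range (J + M + 1), a k =
        ∑ k ∈ range J, a k + ∑ k ∈ range (M + 1), a (J + k) := by
      rw [add_assoc, Finset.sum_range_add]
    have h1 : ∑ k ∈ range J, a k ≤ J * a 0 := by
      calc ∑ k ∈ range J, a k ≤ ∑ k ∈ range J, a 0 := sum_le_sum fun k _ => hanti k
        _ = J * a 0 := by simp
    have h2 : ∑ k ∈ range (M + 1), a (J + k) ≤ (1 - κ) * ∑ k ∈ range (M + 1), a k := by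
      rw [mul_sum]
      refine sum_le_sum fun k hk => ?_
      rw [mem_range] at hk
      rw [add_comm J k]
      exact hdec k (by omega)
    have h3 : ∑ k ∈ range (M + 1), a k ≤ ∑ k ∈ range (J + M + 1), a k := by
      refine sum_le_sum_of_subset_of_nonneg ?_ (fun k _ _ => ha k)
      intro k hk; rw [mem_range] at *; omega
    have h4 : 0 ≤ 1 - κ := by linarith
    nlinarith [mul_le_mul_of_nonneg_left h3 h4]

section M9

variable {d : ℕ} {S : Set (EuclideanSpace ℝ (Fin d))} {x₀ : EuclideanSpace ℝ (Fin d)}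
  {ℓ b : ℝ} {K : ℕ} (L : Lat S x₀ ℓ b K)
  (F H : ℕ → EuclideanSpace ℝ (Fin d) → Prop)

open Classical in
/-- leaves of the top cell whose ancestors of generations `p, …, k` are all non-flat, those of
generations `p, …, k - 1` are not `H`-cells, and with `p = 0` or the ancestor of generation
`p - 1` being an `H`-cell. -/
noncomputable def chainSet (p k : ℕ) : Finset (EuclideanSpace ℝ (Fin d)) :=
  L.top.filter (fun w => (p = 0 ∨ H (p - 1) (L.c (p - 1) w)) ∧
    (∀ i, p ≤ i → i ≤ k → ¬ F i (L.c i w)) ∧ (∀ i, p ≤ i → i < k → ¬ H i (L.c i w)))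

omit F H in
lemma Lat.c_eq_of_c_eq {i k : ℕ} (hik : i ≤ k) (hk : k ≤ K) {w w' : EuclideanSpace ℝ (Fin d)}
    (hw : w ∈ L.W) (hw' : w' ∈ L.W) (h : L.c k w = L.c k w') : L.c i w = L.c i w' := by
  rw [← L.c_comp i k hik hk w hw, ← L.c_comp i k hik hk w' hw', h]

lemma mem_chainSet {p k : ℕ} {w : EuclideanSpace ℝ (Fin d)} :
    w ∈ chainSet L F H p k ↔ (w ∈ L.W ∧ L.c 0 w = x₀) ∧
      (p = 0 ∨ H (p - 1) (L.c (p - 1) w)) ∧ (∀ i, p ≤ i → i ≤ k → ¬ F i (L.c i w)) ∧
      (∀ i, p ≤ i → i < k → ¬ H i (L.c i w)) := by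
  classical
  simp [chainSet, L.mem_top]

lemma chainSet_of_c_eq {p k : ℕ} (hpk : p ≤ k) (hk : k ≤ K) {w w' : EuclideanSpace ℝ (Fin d)}
    (hw : w ∈ chainSet L F H p k) (hw' : w' ∈ L.W) (h : L.c k w' = L.c k w) :
    w' ∈ chainSet L F H p k := by
  rw [mem_chainSet] at *
  obtain ⟨⟨hw1, hw2⟩, hw3, hw4, hw5⟩ := hw
  have key : ∀ i ≤ k, L.c i w' = L.c i w := fun i hi => L.c_eq_of_c_eq hi hk hw' hw1 h
  refine ⟨⟨hw', by rw [key 0 (Nat.zero_le _), hw2]⟩, ?_, ?_, ?_⟩
  · rcases hw3 with h0 | h1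
    · exact Or.inl h0
    · right; rw [key (p - 1) (by omega)]; exact h1
  · intro i hi1 hi2
    rw [key i hi2]; exact hw4 i hi1 hi2
  · intro i hi1 hi2
    rw [key i hi2.le]; exact hw5 i hi1 hi2

/-- one block of decay -/
lemma card_chainSet_decay (J : ℕ) (hJ : 1 ≤ J) (κ : ℝ) (hκ1 : κ ≤ 1)
    (hab : ∀ k, k + J ≤ K → ∀ w ∈ L.top, ¬ H k (L.c k w) →
      ∃ j ≤ J, ∃ w' ∈ L.cell k (L.c k w), F (k + j) (L.c (k + j) w') ∧
        κ * ((L.cell k (L.c k w)).card : ℝ) ≤ ((L.cell (k + j) (L.c (k + j) w')).card : ℝ))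
    {p k : ℕ} (hpk : p ≤ k) (hk : k + J ≤ K) :
    ((chainSet L F H p (k + J)).card : ℝ) ≤ (1 - κ) * ((chainSet L F H p k).card : ℝ) := by
  classical
  set A := chainSet L F H p k with hA
  set B := chainSet L F H p (k + J) with hB
  have hBA : B ⊆ A := by
    intro w hw
    rw [hB, mem_chainSet] at hw
    rw [hA, mem_chainSet]
    exact ⟨hw.1, hw.2.1, fun i h1 h2 => hw.2.2.1 i h1 (by omega),
      fun i h1 h2 => hw.2.2.2 i h1 (by omega)⟩
  have hmaps : ∀ w ∈ A, L.c k w ∈ A.image (L.c k) := fun w hw => mem_image_of_mem _ hw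
  have hmapsB : ∀ w ∈ B, L.c k w ∈ A.image (L.c k) := fun w hw => hmaps w (hBA hw)
  have hcA : (A.card : ℝ) = ∑ x ∈ A.image (L.c k), ((A.filter fun w => L.c k w = x).card : ℝ) := by
    rw [card_eq_sum_card_fiberwise (f := L.c k) (t := A.image (L.c k)) hmaps]
    push_cast; rfl
  have hcB : (B.card : ℝ) = ∑ x ∈ A.image (L.c k), ((B.filter fun w => L.c k w = x).card : ℝ) := by
    rw [card_eq_sum_card_fiberwise (f := L.c k) (t := A.image (L.c k)) hmapsB]
    push_cast; rfl
  rw [hcA, hcB, mul_sum]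
  refine sum_le_sum fun x hx => ?_
  rw [mem_image] at hx
  obtain ⟨w0, hw0, rfl⟩ := hx
  have hw0W : w0 ∈ L.W := ((mem_chainSet L F H).1 hw0).1.1
  have hfib : A.filter (fun w => L.c k w = L.c k w0) = L.cell k (L.c k w0) := by
    ext w
    rw [mem_filter, L.mem_cell]
    constructor
    · rintro ⟨h1, h2⟩
      exact ⟨((mem_chainSet L F H).1 h1).1.1, h2⟩
    · rintro ⟨h1, h2⟩
      exact ⟨chainSet_of_c_eq L F H hpk (by omega) hw0 h1 h2, h2⟩
  have hw0T : w0 ∈ L.top := L.mem_top.2 ((mem_chainSet L F H).1 hw0).1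
  rw [hfib]
  by_cases hHk : H k (L.c k w0)
  · -- no leaf of an `H`-cell survives
    have hempty : B.filter (fun w => L.c k w = L.c k w0) = ∅ := by
      rw [filter_eq_empty_iff]
      intro w hw hcw
      have := ((mem_chainSet L F H).1 hw).2.2.2 k hpk (by omega)
      rw [hcw] at this
      exact this hHk
    rw [hempty]
    have h4 : 0 ≤ 1 - κ := by linarith
    simp only [card_empty, Nat.cast_zero]
    positivity
  obtain ⟨j, hj, w', hw', hF, hcard⟩ := hab k hk w0 hw0T hHk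
  rw [L.mem_cell] at hw'
  have hsub : L.cell (k + j) (L.c (k + j) w') ⊆ L.cell k (L.c k w0) := by
    intro w hw
    rw [L.mem_cell] at *
    refine ⟨hw.1, ?_⟩
    rw [← hw'.2]
    exact L.c_eq_of_c_eq (by omega) (by omega) hw.1 hw'.1 hw.2
  have hBsub : B.filter (fun w => L.c k w = L.c k w0) ⊆
      L.cell k (L.c k w0) \ L.cell (k + j) (L.c (k + j) w') := by
    intro w hw
    rw [mem_filter] at hw
    have hwB := (mem_chainSet L F H).1 hw.1
    rw [mem_sdiff, L.mem_cell, L.mem_cell]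
    refine ⟨⟨hwB.1.1, hw.2⟩, ?_⟩
    rintro ⟨_, h2⟩
    have := hwB.2.2.1 (k + j) (by omega) (by omega)
    rw [h2] at this
    exact this hF
  have hle : ((B.filter fun w => L.c k w = L.c k w0).card : ℝ) ≤
      ((L.cell k (L.c k w0)).card : ℝ) - ((L.cell (k + j) (L.c (k + j) w')).card : ℝ) := by
    have h1 := card_le_card hBsub
    rw [card_sdiff_of_subset hsub] at h1
    have h2 := card_le_card hsub
    have h3 : (B.filter fun w => L.c k w = L.c k w0).card +
      (L.cell (k + j) (L.c (k + j) w')).card ≤ (L.cell k (L.c k w0)).card := by omega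
    have h4 : ((B.filter fun w => L.c k w = L.c k w0).card : ℝ) +
      ((L.cell (k + j) (L.c (k + j) w')).card : ℝ) ≤ ((L.cell k (L.c k w0)).card : ℝ) := by
      exact_mod_cast h3
    linarith
  linarith

lemma sum_card_chainSet_le (J : ℕ) (hJ : 1 ≤ J) (κ : ℝ) (hκ : 0 < κ) (hκ1 : κ ≤ 1)
    (hab : ∀ k, k + J ≤ K → ∀ w ∈ L.top, ¬ H k (L.c k w) →
      ∃ j ≤ J, ∃ w' ∈ L.cell k (L.c k w), F (k + j) (L.c (k + j) w') ∧
        κ * ((L.cell k (L.c k w)).card : ℝ) ≤ ((L.cell (k + j) (L.c (k + j) w')).card : ℝ))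
    (p : ℕ) :
    κ * ∑ k ∈ range (K + 1 - p), ((chainSet L F H p (p + k)).card : ℝ) ≤
      J * ((chainSet L F H p p).card : ℝ) := by
  classical
  have h := sum_le_of_block_decay (fun k => ((chainSet L F H p (p + k)).card : ℝ)) (K + 1 - p) J κ
    hκ hκ1 (fun k => Nat.cast_nonneg _) ?_ ?_
  · simpa using h
  · intro k
    have : (chainSet L F H p (p + k)) ⊆ chainSet L F H p (p + 0) := by
      intro w hw
      rw [mem_chainSet] at *
      exact ⟨hw.1, hw.2.1, fun i h1 h2 => hw.2.2.1 i h1 (by omega),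
        fun i h1 h2 => hw.2.2.2 i h1 (by omega)⟩
    exact_mod_cast card_le_card this
  · intro k hk
    have := card_chainSet_decay L F H J hJ κ hκ1 hab (p := p) (k := p + k) (by omega) (by omega)
    simpa [add_assoc] using this

open Classical in
/-- Combinatorial core of M9 (abundance only below the cells which are not `H`). -/
theorem nonflat_packing (J : ℕ) (hJ : 1 ≤ J) (κ CH : ℝ) (hκ : 0 < κ) (hκ1 : κ ≤ 1)
    (hprop : ∀ k, k < K → ∀ w ∈ L.top, F k (L.c k w) → ¬ H k (L.c k w) →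
      F (k + 1) (L.c (k + 1) w))
    (hab : ∀ k, k + J ≤ K → ∀ w ∈ L.top, ¬ H k (L.c k w) →
      ∃ j ≤ J, ∃ w' ∈ L.cell k (L.c k w), F (k + j) (L.c (k + j) w') ∧
        κ * ((L.cell k (L.c k w)).card : ℝ) ≤ ((L.cell (k + j) (L.c (k + j) w')).card : ℝ))
    (hH : ∑ w ∈ L.top, (((range (K + 1)).filter fun k => H k (L.c k w)).card : ℝ) ≤
      CH * (L.top.card : ℝ)) :
    ∑ w ∈ L.top, (((range (K + 1)).filter fun k => ¬ F k (L.c k w)).card : ℝ) ≤
      (J / κ) * (1 + CH) * (L.top.card : ℝ) := by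
  -- exchange sums
  have hswap : ∀ P : ℕ → EuclideanSpace ℝ (Fin d) → Prop,
      ∑ w ∈ L.top, (((range (K + 1)).filter fun k => P k (L.c k w)).card : ℝ) =
      ∑ k ∈ range (K + 1), ((L.top.filter fun w => P k (L.c k w)).card : ℝ) := by
    intro P
    have h1 : ∀ w, (((range (K + 1)).filter fun k => P k (L.c k w)).card : ℝ) =
        ∑ k ∈ range (K + 1), if P k (L.c k w) then (1 : ℝ) else 0 := by
      intro w
      rw [sum_boole]
    have h2 : ∀ k, ((L.top.filter fun w => P k (L.c k w)).card : ℝ) =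
        ∑ w ∈ L.top, if P k (L.c k w) then (1 : ℝ) else 0 := by
      intro k
      rw [sum_boole]
    simp_rw [h1, h2]
    exact sum_comm
  rw [hswap] at hH
  have hgoal : ∑ w ∈ L.top, (((range (K + 1)).filter fun k => ¬ F k (L.c k w)).card : ℝ) =
      ∑ k ∈ range (K + 1), ((L.top.filter fun w => ¬ F k (L.c k w)).card : ℝ) := by
    convert hswap (fun k x => ¬ F k x)
  rw [hgoal]
  -- cover by chain sets
  have hcov : ∀ k ∈ range (K + 1), (L.top.filter fun w => ¬ F k (L.c k w)) ⊆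
      (range (k + 1)).biUnion fun p => chainSet L F H p k := by
    intro k hk w hw
    rw [mem_range] at hk
    rw [mem_filter] at hw
    have hwt := L.mem_top.1 hw.1
    have hex : ∃ p, p ≤ k ∧ (∀ i, p ≤ i → i ≤ k → ¬ F i (L.c i w)) ∧
        (∀ i, p ≤ i → i < k → ¬ H i (L.c i w)) :=
      ⟨k, le_rfl, fun i h1 h2 => by
        have : i = k := le_antisymm h2 h1
        rw [this]; exact hw.2, fun i h1 h2 => by omega⟩
    set p := Nat.find hex with hp
    obtain ⟨hp1, hp2, hp3⟩ := Nat.find_spec hex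
    rw [← hp] at hp1 hp2 hp3
    rw [mem_biUnion]
    refine ⟨p, mem_range.2 (by omega), ?_⟩
    rw [mem_chainSet]
    refine ⟨hwt, ?_, hp2, hp3⟩
    by_cases hp0 : p = 0
    · exact Or.inl hp0
    · right
      by_contra hnH
      have hlt : p - 1 < p := by omega
      have hmin := Nat.find_min hex (m := p - 1) (by rw [← hp]; exact hlt)
      apply hmin
      refine ⟨by omega, ?_, ?_⟩
      · intro i hi1 hi2
        rcases Nat.lt_or_ge i p with hip | hip
        · have hi : i = p - 1 := by omega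
          intro hFi
          rw [hi] at hFi
          have := hprop (p - 1) (by omega) w hw.1 hFi hnH
          have hpp : p - 1 + 1 = p := by omega
          rw [hpp] at this
          exact hp2 p le_rfl hp1 this
        · exact hp2 i hip hi2
      · intro i hi1 hi2
        rcases Nat.lt_or_ge i p with hip | hip
        · have hi : i = p - 1 := by omega
          rw [hi]; exact hnH
        · exact hp3 i hip hi2
  have hbound : ∀ k ∈ range (K + 1), ((L.top.filter fun w => ¬ F k (L.c k w)).card : ℝ) ≤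
      ∑ p ∈ range (k + 1), ((chainSet L F H p k).card : ℝ) := by
    intro k hk
    have h1 := (card_le_card (hcov k hk)).trans card_biUnion_le
    exact_mod_cast h1
  have hstep1 : ∑ k ∈ range (K + 1), ((L.top.filter fun w => ¬ F k (L.c k w)).card : ℝ) ≤
      ∑ p ∈ range (K + 1), ∑ k ∈ range (K + 1 - p), ((chainSet L F H p (p + k)).card : ℝ) := by
    refine (sum_le_sum hbound).trans ?_
    rw [Finset.sum_sigma', Finset.sum_sigma']
    refine le_of_eq (Finset.sum_nbij' (fun x => ⟨x.2, x.1 - x.2⟩) (fun x => ⟨x.1 + x.2, x.1⟩)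
      ?_ ?_ ?_ ?_ ?_)
    · rintro ⟨k, p⟩ h
      simp only [mem_sigma, mem_range] at *
      omega
    · rintro ⟨p, k⟩ h
      simp only [mem_sigma, mem_range] at *
      omega
    · rintro ⟨k, p⟩ h
      simp only [mem_sigma, mem_range] at *
      have : p + (k - p) = k := by omega
      rw [this]
    · rintro ⟨p, k⟩ h
      simp only [mem_sigma, mem_range] at *
      have : p + k - p = k := by omega
      rw [this]
    · rintro ⟨k, p⟩ h
      simp only [mem_sigma, mem_range] at *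
      have : p + (k - p) = k := by omega
      rw [this]
  have hstep2 : ∀ p ∈ range (K + 1),
      ∑ k ∈ range (K + 1 - p), ((chainSet L F H p (p + k)).card : ℝ) ≤
      (J / κ) * ((chainSet L F H p p).card : ℝ) := by
    intro p _
    have := sum_card_chainSet_le L F H J hJ κ hκ hκ1 hab p
    rw [div_mul_eq_mul_div, le_div_iff₀ hκ]
    linarith
  have hstep3 : ∑ p ∈ range (K + 1), ((chainSet L F H p p).card : ℝ) ≤
      (L.top.card : ℝ) + ∑ k ∈ range (K + 1), ((L.top.filter fun w => H k (L.c k w)).card : ℝ) := by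
    rw [Finset.sum_range_succ']
    have h0 : ((chainSet L F H 0 0).card : ℝ) ≤ (L.top.card : ℝ) := by
      have : chainSet L F H 0 0 ⊆ L.top := by
        unfold chainSet; exact filter_subset _ _
      exact_mod_cast card_le_card this
    have h1 : ∀ p ∈ range K, ((chainSet L F H (p + 1) (p + 1)).card : ℝ) ≤
        ((L.top.filter fun w => H p (L.c p w)).card : ℝ) := by
      intro p _
      have : chainSet L F H (p + 1) (p + 1) ⊆ L.top.filter fun w => H p (L.c p w) := by
        intro w hw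
        rw [mem_chainSet] at hw
        rw [mem_filter]
        refine ⟨L.mem_top.2 hw.1, ?_⟩
        rcases hw.2.1 with h | h
        · omega
        · simpa using h
      exact_mod_cast card_le_card this
    have h2 : ∑ p ∈ range K, ((L.top.filter fun w => H p (L.c p w)).card : ℝ) ≤
        ∑ p ∈ range (K + 1), ((L.top.filter fun w => H p (L.c p w)).card : ℝ) := by
      refine sum_le_sum_of_subset_of_nonneg ?_ (fun _ _ _ => Nat.cast_nonneg _)
      intro k hk; rw [mem_range] at *; omega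
    linarith [sum_le_sum h1]
  have hJκ : 0 ≤ (J : ℝ) / κ := by positivity
  calc ∑ k ∈ range (K + 1), ((L.top.filter fun w => ¬ F k (L.c k w)).card : ℝ)
      ≤ ∑ p ∈ range (K + 1), ∑ k ∈ range (K + 1 - p), ((chainSet L F H p (p + k)).card : ℝ) :=
        hstep1
    _ ≤ ∑ p ∈ range (K + 1), (J / κ) * ((chainSet L F H p p).card : ℝ) := sum_le_sum hstep2
    _ = (J / κ) * ∑ p ∈ range (K + 1), ((chainSet L F H p p).card : ℝ) := by rw [mul_sum]
    _ ≤ (J / κ) * ((L.top.card : ℝ) + CH * (L.top.card : ℝ)) := by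
        refine mul_le_mul_of_nonneg_left ?_ hJκ
        linarith
    _ = (J / κ) * (1 + CH) * (L.top.card : ℝ) := by ring

open Classical in
/-- Combinatorial core of M9, in the form used by `M9Main`. -/
theorem m9_comb (n J : ℕ) (cL CL CH : ℝ) (hb : 1 ≤ b) (hcL : 0 < cL)
    (hcard : ∀ k ≤ K, ∀ w ∈ L.top,
      cL * (b ^ (K - k)) ^ n ≤ ((L.cell k (L.c k w)).card : ℝ) ∧
        ((L.cell k (L.c k w)).card : ℝ) ≤ CL * (b ^ (K - k)) ^ n)
    (hprop : ∀ k, k < K → ∀ w ∈ L.top, F k (L.c k w) → ¬ H k (L.c k w) →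
      F (k + 1) (L.c (k + 1) w))
    (hab : ∀ k, k + J ≤ K → ∀ w ∈ L.top, ¬ H k (L.c k w) →
      ∃ j ≤ J, ∃ w' ∈ L.cell k (L.c k w), F (k + j) (L.c (k + j) w'))
    (hH : ∑ w ∈ L.top, (((range (K + 1)).filter fun k => H k (L.c k w)).card : ℝ) ≤
      CH * (L.top.card : ℝ)) :
    ∑ w ∈ L.top, (((range (K + 1)).filter fun k => ¬ F k (L.c k w)).card : ℝ) ≤
      ((J + 1) * (CL * (b ^ (J + 1)) ^ n / cL)) * (1 + CH) * (L.top.card : ℝ) := by
  have hb0 : 0 < b := by linarith
  have hx0 : x₀ ∈ L.top := L.mem_top.2 ⟨L.root_mem, L.c_root⟩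
  have hCL : 0 < CL := by
    have h := hcard 0 (Nat.zero_le _) x₀ hx0
    have h1 : 0 < cL * (b ^ (K - 0)) ^ n := by positivity
    have h2 : 0 < CL * (b ^ (K - 0)) ^ n := lt_of_lt_of_le h1 (h.1.trans h.2)
    exact (pos_iff_pos_of_mul_pos h2).2 (by positivity)
  have hcC : cL ≤ CL := by
    have h := hcard 0 (Nat.zero_le _) x₀ hx0
    have h1 : (0:ℝ) < (b ^ (K - 0)) ^ n := by positivity
    exact le_of_mul_le_mul_right (h.1.trans h.2) h1
  set κ : ℝ := cL / (CL * (b ^ (J + 1)) ^ n) with hκdef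
  have hκ : 0 < κ := by positivity
  have hbJ : 1 ≤ (b ^ (J + 1)) ^ n := one_le_pow₀ (one_le_pow₀ hb)
  have hκ1 : κ ≤ 1 := by
    rw [hκdef, div_le_one (by positivity)]
    nlinarith
  have hmain := nonflat_packing L F H (J + 1) (by omega) κ CH hκ hκ1 hprop ?_ hH
  · refine hmain.trans (le_of_eq ?_)
    rw [hκdef]
    push_cast
    field_simp
  · intro k hk w hw hHk
    obtain ⟨j, hj, w', hw', hF⟩ := hab k (by omega) w hw hHk
    refine ⟨j, by omega, w', hw', hF, ?_⟩
    rw [L.mem_cell] at hw'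
    have hwt := L.mem_top.1 hw
    have hw't : w' ∈ L.top := by
      rw [L.mem_top]
      refine ⟨hw'.1, ?_⟩
      rw [L.c_eq_of_c_eq (Nat.zero_le k) (by omega) hw'.1 hwt.1 hw'.2]
      exact hwt.2
    have h1 := (hcard k (by omega) w hw).2
    have h2 := (hcard (k + j) (by omega) w' hw't).1
    refine le_trans ?_ h2
    have hexp : K - k = (K - (k + j)) + j := by omega
    have h3 : (b ^ (K - k)) ^ n = (b ^ (K - (k + j))) ^ n * (b ^ j) ^ n := by
      rw [hexp, pow_add, mul_pow]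
    have h4 : (b ^ j) ^ n ≤ (b ^ (J + 1)) ^ n :=
      pow_le_pow_left₀ (by positivity) (pow_le_pow_right₀ hb (by omega)) n
    calc κ * ((L.cell k (L.c k w)).card : ℝ) ≤ κ * (CL * (b ^ (K - k)) ^ n) := by gcongr
      _ = κ * CL * ((b ^ (K - (k + j))) ^ n * (b ^ j) ^ n) := by rw [h3]; ring
      _ ≤ κ * CL * ((b ^ (K - (k + j))) ^ n * (b ^ (J + 1)) ^ n) := by gcongr
      _ = cL * (b ^ (K - (k + j))) ^ n := by
          rw [hκdef]
          field_simp

end M9

end Crest.Agent.R085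
end

-- ▼ part R085/Interface
section

/-!
R085 (S0113), module M11: interface between the Crest definitions and internal ones.
-/

set_option autoImplicit false

open MeasureTheory Metric Set Filter Topology
open scoped ENNReal NNReal

namespace Crest.Agent.R085.Interface

/-- Upper bound for the measure of every ball (all centres, all radii), with a constant
depending only on `d`, `n` and `C`. -/
theorem exists_upper_const (d n : ℕ) (C : ℝ) :
    ∃ C' : ℝ, 1 ≤ C' ∧ C ≤ C' ∧ ∀ μ : Measure (EuclideanSpace ℝ (Fin d)),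
      Crest.AnalysisR.IsADRegular n C μ → (∃ r, Crest.AnalysisR.IsAdmissibleRadius μ r) →
      ∀ (x : EuclideanSpace ℝ (Fin d)) (r : ℝ), 0 < r →
        μ (ball x r) ≤ ENNReal.ofReal (C' * r ^ n) := by
  classical
  obtain ⟨t, ht, htcov⟩ : ∃ t : Set (EuclideanSpace ℝ (Fin d)), t.Finite ∧
      closedBall (0 : EuclideanSpace ℝ (Fin d)) 1 ⊆ ⋃ z ∈ t, ball z (1 / 4) := by
    have h := (isCompact_closedBall (0 : EuclideanSpace ℝ (Fin d)) 1).totallyBounded
    rw [Metric.totallyBounded_iff] at h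
    exact h (1 / 4) (by norm_num)
  set N : ℝ := (ht.toFinset.card : ℝ) with hN
  have hN0 : 0 ≤ N := by positivity
  refine ⟨(N + 1) * (|C| + 1) * 2 ^ n, ?_, ?_, ?_⟩
  · have h1 : (1 : ℝ) ≤ 2 ^ n := one_le_pow₀ (by norm_num)
    have h2 : (1 : ℝ) ≤ (N + 1) * (|C| + 1) := by nlinarith [abs_nonneg C]
    nlinarith
  · have h1 : (1 : ℝ) ≤ 2 ^ n := one_le_pow₀ (by norm_num)
    have h2 : |C| ≤ (N + 1) * (|C| + 1) := by nlinarith [abs_nonneg C]
    have h3 : 0 ≤ (N + 1) * (|C| + 1) := by positivity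
    nlinarith [le_abs_self C]
  intro μ hμ hadm x r hr
  obtain ⟨hC1, hAD⟩ := hμ
  have hCabs : |C| = C := abs_of_nonneg (by linarith)
  obtain ⟨r0, hr0, hr0adm⟩ := hadm
  have h2n : (0:ℝ) < 2 ^ n := by positivity
  by_cases hne : (ball x r ∩ μ.support).Nonempty
  swap
  · have hsub : ball x r ⊆ μ.supportᶜ := by
      intro z hz hzs
      exact hne ⟨z, hz, hzs⟩
    have h0 : μ (ball x r) = 0 := by
      have := Measure.measure_compl_support (μ := μ)
      exact measure_mono_null hsub this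
    rw [h0]; exact zero_le
  obtain ⟨y, hyx, hys⟩ := hne
  have hsub : ball x r ⊆ ball y (2 * r) := by
    intro z hz
    rw [mem_ball] at *
    calc dist z y ≤ dist z x + dist x y := dist_triangle _ _ _
      _ < r + r := by rw [dist_comm x y]; linarith
      _ = 2 * r := by ring
  -- key bound
  have key : μ (ball y (2 * r)) ≤ ENNReal.ofReal ((N + 1) * C * (2 * r) ^ n) := by
    by_cases hD : ENNReal.ofReal (2 * r) ≤ Metric.ediam μ.support
    · have h := (hAD y hys (2 * r) ⟨by linarith, hD⟩).2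
      refine h.trans (ENNReal.ofReal_le_ofReal ?_)
      have : 0 ≤ (2 * r) ^ n := by positivity
      have : 0 ≤ C * (2 * r) ^ n := by positivity
      nlinarith
    · push Not at hD
      have hDfin : Metric.ediam μ.support ≠ ∞ := ne_top_of_lt hD
      set D : ℝ := (Metric.ediam μ.support).toReal with hDdef
      have hDof : ENNReal.ofReal D = Metric.ediam μ.support := ENNReal.ofReal_toReal hDfin
      have hDpos : 0 < D := by
        have : 0 < Metric.ediam μ.support :=
          lt_of_lt_of_le (ENNReal.ofReal_pos.mpr hr0) hr0adm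
        exact ENNReal.toReal_pos this.ne' hDfin
      have hDlt : D < 2 * r := by
        rw [← hDof] at hD
        exact (ENNReal.ofReal_lt_ofReal_iff (by linarith)).1 hD
      have hSsub : μ.support ⊆ closedBall y D := by
        intro z hz
        rw [mem_closedBall, dist_edist]
        exact ENNReal.toReal_mono hDfin (Metric.edist_le_ediam_of_mem hz hys)
      have hcov : μ.support ⊆ ⋃ z ∈ ht.toFinset, ball (y + D • z) (D / 4) := by
        intro w hw
        have hw' : D⁻¹ • (w - y) ∈ closedBall (0 : EuclideanSpace ℝ (Fin d)) 1 := by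
          rw [mem_closedBall, dist_zero_right, norm_smul, Real.norm_eq_abs,
            abs_of_pos (inv_pos.mpr hDpos)]
          have := hSsub hw
          rw [mem_closedBall, dist_eq_norm] at this
          rw [inv_mul_le_iff₀ hDpos]; linarith
        have := htcov hw'
        simp only [mem_iUnion, exists_prop] at this
        obtain ⟨z, hz, hzw⟩ := this
        simp only [mem_iUnion, exists_prop, Set.Finite.mem_toFinset]
        refine ⟨z, hz, ?_⟩
        rw [mem_ball, dist_eq_norm] at *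
        have : w - (y + D • z) = D • (D⁻¹ • (w - y) - z) := by
          rw [smul_sub, smul_smul, mul_inv_cancel₀ hDpos.ne', one_smul]; abel
        rw [this, norm_smul, Real.norm_eq_abs, abs_of_pos hDpos]
        calc D * ‖D⁻¹ • (w - y) - z‖ < D * (1 / 4) := by
              exact mul_lt_mul_of_pos_left hzw hDpos
          _ = D / 4 := by ring
      have hpiece : ∀ z ∈ ht.toFinset, μ (ball (y + D • z) (D / 4)) ≤
          ENNReal.ofReal (C * (2 * r) ^ n) := by
        intro z _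
        by_cases hz : (ball (y + D • z) (D / 4) ∩ μ.support).Nonempty
        · obtain ⟨w, hw1, hw2⟩ := hz
          have hsub2 : ball (y + D • z) (D / 4) ⊆ ball w (D / 2) := by
            intro v hv
            rw [mem_ball] at *
            calc dist v w ≤ dist v (y + D • z) + dist (y + D • z) w := dist_triangle _ _ _
              _ < D / 4 + D / 4 := by rw [dist_comm (y + D • z) w]; linarith
              _ = D / 2 := by ring
          have hadm2 : Crest.AnalysisR.IsAdmissibleRadius μ (D / 2) := by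
            refine ⟨by linarith, ?_⟩
            rw [← hDof]
            exact ENNReal.ofReal_le_ofReal (by linarith)
          refine (measure_mono hsub2).trans (((hAD w hw2 (D / 2) hadm2).2).trans
            (ENNReal.ofReal_le_ofReal ?_))
          have : (D / 2) ^ n ≤ (2 * r) ^ n := pow_le_pow_left₀ (by linarith) (by linarith) n
          exact mul_le_mul_of_nonneg_left this (by linarith)
        · have hsub2 : ball (y + D • z) (D / 4) ⊆ μ.supportᶜ := by
            intro v hv hvs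
            exact hz ⟨v, hv, hvs⟩
          have h0 : μ (ball (y + D • z) (D / 4)) = 0 :=
            measure_mono_null hsub2 (Measure.measure_compl_support (μ := μ))
          rw [h0]; exact zero_le
      have huniv : μ (ball y (2 * r)) ≤ μ (⋃ z ∈ ht.toFinset, ball (y + D • z) (D / 4)) := by
        have h1 : μ (ball y (2 * r)) ≤ μ (μ.support) + μ (μ.supportᶜ) := by
          calc μ (ball y (2 * r)) ≤ μ (μ.support ∪ μ.supportᶜ) :=
                measure_mono (by rw [union_compl_self]; exact subset_univ _)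
            _ ≤ _ := measure_union_le _ _
        rw [Measure.measure_compl_support, add_zero] at h1
        exact h1.trans (measure_mono hcov)
      refine huniv.trans ((measure_biUnion_finset_le _ _).trans ?_)
      refine (Finset.sum_le_sum hpiece).trans ?_
      rw [Finset.sum_const, nsmul_eq_mul]
      have hcast : ((ht.toFinset.card : ℕ) : ℝ≥0∞) = ENNReal.ofReal N := by
        rw [hN, ENNReal.ofReal_natCast]
      rw [hcast, ← ENNReal.ofReal_mul hN0]
      refine ENNReal.ofReal_le_ofReal ?_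
      have : 0 ≤ C * (2 * r) ^ n := by positivity
      nlinarith
  refine (measure_mono hsub).trans (key.trans (ENNReal.ofReal_le_ofReal ?_))
  rw [mul_pow, hCabs]
  have hrn : 0 ≤ r ^ n := by positivity
  have h5 : 0 ≤ (N + 1) * 2 ^ n * r ^ n := by positivity
  nlinarith

end Crest.Agent.R085.Interface
end

-- ▼ part R085/M9Main
section

/-!
R085, module M9: the bilateral weak geometric lemma `BWGL` from the module targets.
Owner: helper237.
-/

set_option autoImplicit false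

namespace Crest.Agent.R085

open MeasureTheory Metric Set Filter
open scoped ENNReal NNReal Topology

open Classical in
/-- M9: `BWGL` from the interfaces of the modules M2, M5, M8, M8b. -/
theorem bwgl_of_targets (d n : ℕ) (C_AD C_R : ℝ)
    (hProp : ∀ C ϱ : ℝ, 1 ≤ C → 0 < ϱ → ϱ ≤ 1 / 16 → TPropagation n d C ϱ)
    (hBi : ∀ C A ε' : ℝ, 1 ≤ C → 1 ≤ A → 0 < ε' → TBiFlat n d C A ε')
    (hAb : ∀ C ε : ℝ, 1 ≤ C → 0 < ε → TAbundance n d C ε)
    (hPk : ∀ C A M δ σ : ℝ, 1 ≤ C → 0 ≤ A → 1 ≤ M → 0 < δ → 0 < σ → σ ≤ 1 →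
      TPacking n d C A M δ σ) :
    BWGL d n C_AD C_R := by
  intro b A ε hb hA hε
  have hb0 : 0 < b := by linarith
  have hb1 : 1 ≤ b := by linarith
  have hb1' : 1 < b := by linarith
  obtain ⟨C', hC'1, hC'C, hup⟩ := Interface.exists_upper_const d n C_AD
  obtain ⟨ε1, hε1, hprop⟩ := hProp C' b⁻¹ hC'1 (by positivity)
    (by rw [one_div]; exact inv_anti₀ (by norm_num) hb)
  obtain ⟨ε2, hε2, hbi⟩ := hBi C' A ε hC'1 hA hε
  set ε0 : ℝ := min (min ε1 ε2) 1 with hε0def
  have hε0 : 0 < ε0 := lt_min (lt_min hε1 hε2) one_pos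
  have hε01 : ε0 ≤ ε1 := (min_le_left _ _).trans (min_le_left _ _)
  have hε02 : ε0 ≤ ε2 := (min_le_left _ _).trans (min_le_right _ _)
  have hε0le1 : ε0 ≤ 1 := min_le_right _ _
  have hε0cube : ε0 ^ 3 ≤ ε0 := by
    calc ε0 ^ 3 = ε0 * ε0 ^ 2 := by ring
      _ ≤ ε0 * 1 := by gcongr; exact pow_le_one₀ hε0.le hε0le1
      _ = ε0 := mul_one _
  have hε0c0 : 0 < ε0 ^ 3 := by positivity
  set εa : ℝ := ε0 / (4 * b) ^ (n + 3) with hεadef
  have h4b : 1 ≤ 4 * b := by linarith
  have h4bp : 1 ≤ (4 * b) ^ (n + 3) := one_le_pow₀ h4b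
  have h4b4 : 4 ≤ (4 * b) ^ (n + 3) := by
    calc (4 : ℝ) ≤ 4 * b := by linarith
      _ ≤ (4 * b) ^ (n + 3) := le_self_pow₀ h4b (by omega)
  have hεa : 0 < εa := by positivity
  have hεasq : εa ^ 2 * (4 * b) ^ (n + 3) ≤ ε0 ^ 2 := by
    have h1 : εa ^ 2 * (4 * b) ^ (n + 3) = ε0 ^ 2 / (4 * b) ^ (n + 3) := by
      rw [hεadef]; field_simp
    rw [h1]
    exact div_le_self (by positivity) h4bp
  have hMa : 4 * (ε0 ^ 3)⁻¹ ≤ (εa ^ 3)⁻¹ := by
    have h1 : (εa ^ 3)⁻¹ = ((4 * b) ^ (n + 3)) ^ 3 * (ε0 ^ 3)⁻¹ := by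
      rw [hεadef, div_pow, inv_div]
      field_simp
    rw [h1]
    have h2 : 4 ≤ ((4 * b) ^ (n + 3)) ^ 3 :=
      h4b4.trans (le_self_pow₀ h4bp (by norm_num))
    gcongr
  have hM0 : 1 ≤ (ε0 ^ 3)⁻¹ := by
    rw [one_le_inv₀ hε0c0]
    linarith
  have hMa1 : 1 ≤ (εa ^ 3)⁻¹ := by linarith
  obtain ⟨δa, hδa, hδa1, hab⟩ := hAb C' εa hC'1 hεa
  obtain ⟨J0, hJ0⟩ := pow_unbounded_of_one_lt δa⁻¹ hb1'
  set J : ℕ := J0 + 1 with hJdef
  have hJ : δa⁻¹ ≤ b ^ J := by
    refine hJ0.le.trans ?_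
    exact pow_le_pow_right₀ hb1 (Nat.le_succ J0)
  set M1 : ℝ := max (ε0 ^ 3)⁻¹ δa⁻¹ with hM1def
  set δ1 : ℝ := min (ε0 ^ 3) δa with hδ1def
  have hM11 : 1 ≤ M1 := hM0.trans (le_max_left _ _)
  have hδ10 : 0 < δ1 := lt_min hε0c0 hδa
  obtain ⟨k1, hk1⟩ := pow_unbounded_of_one_lt M1 hb1'
  set cL : ℝ := (C' ^ 2 * 16 ^ n)⁻¹ with hcLdef
  set CL : ℝ := C' ^ 2 * 24 ^ n with hCLdef
  have hcL : 0 < cL := by positivity
  have hCL : 0 < CL := by positivity
  obtain ⟨CH0, hCH0, hsum⟩ := M9.sum_etaBad (C := C') (A := max C_R 0) (M1 := M1) (δ1 := δ1)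
    (n := n) (d := d) hb hcL hCL
    (hPk C' (max C_R 0) M1 δ1 (1 / 4) hC'1 (le_max_right _ _) hM11 hδ10 (by norm_num)
      (by norm_num))
  set CH : ℝ := k1 + CH0 with hCHdef
  set CF : ℝ := ((J + 1) * (CL * (b ^ (J + 1)) ^ n / cL)) * (1 + CH) with hCFdef
  have hCH00 : 0 ≤ CH := by positivity
  refine ⟨CF + CH, by positivity, ?_⟩
  intro μ hμ hR x₀ hx₀ ℓ hadm K L
  have hℓ : 0 < ℓ := by
    have := hadm.1
    linarith
  have hupper := hup μ hμ ⟨_, hadm⟩
  set D : ℝ≥0∞ := Metric.ediam μ.support with hDdef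
  have hADR : ADR n C' D μ := by
    refine ⟨hC'1, hupper, ?_⟩
    intro x hx r hr hrD
    refine le_trans (ENNReal.ofReal_le_ofReal ?_) (hμ.2 x hx r ⟨hr, hrD⟩).1
    have hC1 := hμ.1
    have : C'⁻¹ ≤ C_AD⁻¹ := inv_anti₀ (by linarith) hC'C
    gcongr
  have : IsLocallyFiniteMeasure μ := hADR.isLocallyFinite
  have hWR : WeakRiesz n (max C_R 0) μ := weakRiesz_of_hasRieszBound (C := C') hupper hR
  have hADat : ADat n C' (100 * ℓ) μ μ.support := by
    intro x hx r hr hr100
    refine ⟨?_, hupper x r hr⟩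
    refine hADR.lower x hx r hr ?_
    exact (ENNReal.ofReal_le_ofReal hr100).trans hadm.2
  have hlow : ∀ k ≤ K, ∀ x ∈ L.W, L.c k x = x → L.c 0 x = x₀ →
      cL * (b ^ (K - k)) ^ n ≤ ((L.cell k x).card : ℝ) := fun k hk x hx hkx h0x =>
    card_cell_lower hC'1 μ μ.support Measure.measure_compl_support hℓ hb hADat L k hk x hx hkx h0x
  have hupp : ∀ k ≤ K, ∀ x ∈ L.W, L.c k x = x → L.c 0 x = x₀ →
      ((L.cell k x).card : ℝ) ≤ CL * (b ^ (K - k)) ^ n := fun k hk x hx hkx h0x =>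
    card_cell_upper hC'1 μ μ.support hℓ hb hADat L k hk x hx hkx
  have hℓD : ENNReal.ofReal ℓ ≤ D :=
    (ENNReal.ofReal_le_ofReal (by linarith)).trans hadm.2
  have hsumE := hsum μ D x₀ ℓ K L hℓ hADR hWR hℓD hlow hupp
  -- the predicates
  set F : ℕ → V d → Prop := fun k x => FlatW n μ x (sc ℓ b k) ε0 (ε0 ^ 3)⁻¹ with hFdef
  set H : ℕ → V d → Prop := fun k x => k < k1 ∨ ¬ EtaS n μ x (sc ℓ b k) M1 δ1 with hHdef
  have hscD : ∀ k, k1 ≤ k → ∀ M' : ℝ, M' ≤ M1 → ENNReal.ofReal (M' * sc ℓ b k) ≤ D := by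
    intro k hk M' hM'
    refine (ENNReal.ofReal_le_ofReal ?_).trans hℓD
    have hs : 0 < sc ℓ b k := sc_pos hℓ hb0 k
    have h1 : M1 ≤ b ^ k := hk1.le.trans (pow_le_pow_right₀ hb1 hk)
    calc M' * sc ℓ b k ≤ b ^ k * sc ℓ b k := by
          have : M' ≤ b ^ k := hM'.trans h1
          gcongr
      _ = ℓ := by unfold sc; field_simp
  have hctop : ∀ k ≤ K, ∀ w ∈ L.top, L.c k w ∈ μ.support := fun k hk w hw =>
    L.W_sub _ (L.c_mem k hk w (L.mem_top.1 hw).1)
  have hcard : ∀ k ≤ K, ∀ w ∈ L.top,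
      cL * (b ^ (K - k)) ^ n ≤ ((L.cell k (L.c k w)).card : ℝ) ∧
        ((L.cell k (L.c k w)).card : ℝ) ≤ CL * (b ^ (K - k)) ^ n := by
    intro k hk w hw
    have hwW := (L.mem_top.1 hw).1
    have hw0 := (L.mem_top.1 hw).2
    have h1 := L.c_mem k hk w hwW
    have h2 := L.c_comp k k le_rfl hk w hwW
    have h3 : L.c 0 (L.c k w) = x₀ := by
      rw [L.c_comp 0 k (Nat.zero_le k) hk w hwW, hw0]
    exact ⟨hlow k hk _ h1 h2 h3, hupp k hk _ h1 h2 h3⟩
  have hHE : ∀ k x, ¬ H k x → k1 ≤ k ∧ EtaS n μ x (sc ℓ b k) M1 δ1 := by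
    intro k x h
    simp only [hHdef, not_or, not_not, not_lt] at h
    exact h
  -- the exceptional cells are few
  have hHsum : ∑ w ∈ L.top, (((Finset.range (K + 1)).filter fun k => H k (L.c k w)).card : ℝ) ≤
      CH * (L.top.card : ℝ) := by
    have hptw : ∀ w ∈ L.top, (((Finset.range (K + 1)).filter fun k => H k (L.c k w)).card : ℝ) ≤
        (k1 : ℝ) + ((((Finset.range (K + 1)).filter
          (fun k => ¬ EtaS n μ (L.c k w) (sc ℓ b k) M1 δ1)).card : ℕ) : ℝ) := by
      intro w _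
      have hsub : (Finset.range (K + 1)).filter (fun k => H k (L.c k w)) ⊆
          Finset.range k1 ∪ (Finset.range (K + 1)).filter
            (fun k => ¬ EtaS n μ (L.c k w) (sc ℓ b k) M1 δ1) := by
        intro k hk
        rw [Finset.mem_filter] at hk
        rw [Finset.mem_union, Finset.mem_filter, Finset.mem_range]
        rcases hk.2 with h | h
        · exact Or.inl h
        · exact Or.inr ⟨hk.1, h⟩
      have h1 := (Finset.card_le_card hsub).trans (Finset.card_union_le _ _)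
      rw [Finset.card_range] at h1
      exact_mod_cast h1
    refine (Finset.sum_le_sum hptw).trans ?_
    rw [Finset.sum_add_distrib, Finset.sum_const, nsmul_eq_mul, hCHdef, add_mul]
    refine add_le_add (le_of_eq (mul_comm _ _)) hsumE
  have hcomb := m9_comb L F H n J cL CL CH hb1 hcL hcard ?_ ?_ (by convert hHsum)
  · -- conclusion
    have hmain : ∀ w ∈ L.top, (nbad L n A ε w : ℝ) ≤
        (((Finset.range (K + 1)).filter fun k => ¬ F k (L.c k w)).card : ℝ) +
        (((Finset.range (K + 1)).filter fun k => H k (L.c k w)).card : ℝ) := by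
      intro w hw
      have hsub : (Finset.range (K + 1)).filter (fun k => ¬ IsBF μ.support n (L.c k w) (sc ℓ b k) A ε)
          ⊆ (Finset.range (K + 1)).filter (fun k => ¬ F k (L.c k w)) ∪
            (Finset.range (K + 1)).filter (fun k => H k (L.c k w)) := by
        intro k hk
        rw [Finset.mem_filter, Finset.mem_range] at hk
        rw [Finset.mem_union, Finset.mem_filter, Finset.mem_filter, Finset.mem_range]
        by_contra hcon
        push Not at hcon
        obtain ⟨h1, h2⟩ := hcon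
        have hF := h1 hk.1
        have hH := h2 hk.1
        obtain ⟨hkk, hE⟩ := hHE k _ hH
        have hkK : k ≤ K := by omega
        have hs : 0 < sc ℓ b k := sc_pos hℓ hb0 k
        refine hk.2 (M9.isBF_of_biFlat ?_)
        refine hbi μ D (L.c k w) (sc ℓ b k) ε0 (ε0 ^ 3)⁻¹ (ε0 ^ 3) hADR (hctop k hkK w hw) hs
          hε0.le hε02 ?_ (hε0cube.trans hε02) (hscD k hkk _ (le_max_left _ _)) hF
          (hE.mono hs.le (le_max_left _ _) (min_le_left _ _))
        exact inv_anti₀ hε0c0 (hε0cube.trans hε02)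
      unfold nbad
      calc (((Finset.range (K + 1)).filter
            (fun k => ¬ IsBF μ.support n (L.c k w) (sc ℓ b k) A ε)).card : ℝ)
          ≤ (((Finset.range (K + 1)).filter (fun k => ¬ F k (L.c k w)) ∪
            (Finset.range (K + 1)).filter (fun k => H k (L.c k w))).card : ℝ) := by
              exact_mod_cast Finset.card_le_card hsub
        _ ≤ _ := by exact_mod_cast Finset.card_union_le _ _
    refine (Finset.sum_le_sum hmain).trans ?_
    rw [Finset.sum_add_distrib, add_mul]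
    exact add_le_add hcomb hHsum
  · -- propagation
    intro k hk w hw hF hH
    obtain ⟨hkk, hE⟩ := hHE k _ hH
    have hs : 0 < sc ℓ b k := sc_pos hℓ hb0 k
    have hs1 : 0 < sc ℓ b (k + 1) := sc_pos hℓ hb0 (k + 1)
    have h1 := hprop ε0 hε0 hε01 μ D (L.c k w) (sc ℓ b k) hADR hs
      (hscD k hkk _ (le_max_left _ _)) (hctop k hk.le w hw) hF
      (hE.mono hs.le (le_max_left _ _) (min_le_left _ _)) (L.c (k + 1) w)
      (hctop (k + 1) hk w hw) (M9.dist_c_c L hℓ hb hk (L.mem_top.1 hw).1)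
    have h2 : b⁻¹ * sc ℓ b k = sc ℓ b (k + 1) := by
      rw [sc_succ']
      field_simp
    rw [h2] at h1
    exact h1
  · -- abundance
    intro k hk w hw hH
    obtain ⟨hkk, hE⟩ := hHE k _ hH
    have hkK : k ≤ K := by omega
    have hs : 0 < sc ℓ b k := sc_pos hℓ hb0 k
    obtain ⟨y, hy, hxy, s, hs1, hs2, hF⟩ := hab μ D (L.c k w) (sc ℓ b k) hADR hs
      (by rw [div_eq_inv_mul]; exact hscD k hkk _ (le_max_right _ _)) (hctop k hkK w hw)
      (hE.mono hs.le (le_max_right _ _) (min_le_right _ _))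
    exact M9.exists_flat_subcell L hℓ hb hδa hJ (by omega) hMa hMa1 hεasq hk hw hy hxy hs1 hs2 hF

end Crest.Agent.R085
end

-- ▼ part R085/PackAbs
section

/-!
R085 / M2 : abstract almost-orthogonality lemma (finite Schur test without weights) and the
geometric counting lemma.
-/

set_option autoImplicit false

open scoped BigOperators InnerProductSpace ENNReal
open MeasureTheory Metric

namespace Crest.Agent.R085.Pack

/-- Abstract almost orthogonality: if the rows of the Gram matrix satisfy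
`∑ j, |g i j| ≤ C w i` and a linear functional `ℓ` on the span is bounded by
`G (∑∑ a_i a_j g_ij)^(1/2)`, then `∑ ℓ_i² / w_i ≤ C G²`. -/
theorem almost_orth {ι : Type*} (s : Finset ι) (g : ι → ι → ℝ) (w : ι → ℝ)
    (hw : ∀ i ∈ s, 0 < w i) (C G : ℝ) (hC0 : 0 ≤ C) (hG0 : 0 ≤ G)
    (hsym : ∀ i ∈ s, ∀ j ∈ s, g i j = g j i)
    (hC : ∀ i ∈ s, ∑ j ∈ s, |g i j| ≤ C * w i) (l : ι → ℝ)
    (hl : ∀ a : ι → ℝ, |∑ i ∈ s, a i * l i| ≤ G * √(∑ i ∈ s, ∑ j ∈ s, a i * a j * g i j)) :
    ∑ i ∈ s, l i ^ 2 / w i ≤ C * G ^ 2 := by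
  classical
  set A : ℝ := ∑ i ∈ s, l i ^ 2 / w i with hA
  set a : ι → ℝ := fun i => l i / w i with ha
  have hA0 : 0 ≤ A := Finset.sum_nonneg fun i hi => div_nonneg (sq_nonneg _) (hw i hi).le
  have hAeq : ∑ i ∈ s, a i * l i = A := by
    rw [hA]
    refine Finset.sum_congr rfl fun i _ => ?_
    simp only [ha]
    ring
  have h1 : A ≤ G * √(∑ i ∈ s, ∑ j ∈ s, a i * a j * g i j) := by
    have := hl a
    rw [hAeq] at this
    exact (le_abs_self A).trans this
  have h2 : ∑ i ∈ s, ∑ j ∈ s, a i * a j * g i j ≤ C * A := by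
    have e2 : ∑ i ∈ s, ∑ j ∈ s, a i * a j * g i j
        ≤ ∑ i ∈ s, ∑ j ∈ s, (a i ^ 2 / 2 * |g i j| + a j ^ 2 / 2 * |g i j|) := by
      refine Finset.sum_le_sum fun i _ => Finset.sum_le_sum fun j _ => ?_
      have h3 : a i * a j * g i j ≤ |a i * a j| * |g i j| := by
        rw [← abs_mul]; exact le_abs_self _
      have h4 : |a i * a j| ≤ a i ^ 2 / 2 + a j ^ 2 / 2 := by
        rw [abs_mul]
        nlinarith [sq_nonneg (|a i| - |a j|), sq_abs (a i), sq_abs (a j)]
      nlinarith [abs_nonneg (g i j)]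
    have e3 : ∑ i ∈ s, ∑ j ∈ s, (a i ^ 2 / 2 * |g i j| + a j ^ 2 / 2 * |g i j|)
        = ∑ i ∈ s, a i ^ 2 * ∑ j ∈ s, |g i j| := by
      have h5 : ∑ i ∈ s, ∑ j ∈ s, a j ^ 2 / 2 * |g i j|
          = ∑ i ∈ s, ∑ j ∈ s, a i ^ 2 / 2 * |g i j| := by
        rw [Finset.sum_comm]
        refine Finset.sum_congr rfl fun i hi => Finset.sum_congr rfl fun j hj => ?_
        rw [hsym j hj i hi]
      simp only [Finset.sum_add_distrib]
      rw [h5, ← Finset.sum_add_distrib]
      refine Finset.sum_congr rfl fun i _ => ?_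
      rw [← Finset.sum_add_distrib, Finset.mul_sum]
      refine Finset.sum_congr rfl fun j _ => ?_
      ring
    have e4 : ∑ i ∈ s, a i ^ 2 * ∑ j ∈ s, |g i j| ≤ ∑ i ∈ s, a i ^ 2 * (C * w i) :=
      Finset.sum_le_sum fun i hi => mul_le_mul_of_nonneg_left (hC i hi) (sq_nonneg _)
    have e5 : ∑ i ∈ s, a i ^ 2 * (C * w i) = C * A := by
      rw [hA, Finset.mul_sum]
      refine Finset.sum_congr rfl fun i hi => ?_
      have := (hw i hi).ne'
      simp only [ha]
      field_simp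
    linarith
  rcases hA0.eq_or_lt with h0 | hpos
  · rw [← h0]; positivity
  · have h6 : A ^ 2 ≤ G ^ 2 * (C * A) := by
      calc A ^ 2 ≤ (G * √(∑ i ∈ s, ∑ j ∈ s, a i * a j * g i j)) ^ 2 :=
            pow_le_pow_left₀ hA0 h1 2
        _ ≤ (G * √(C * A)) ^ 2 := by
            gcongr
        _ = G ^ 2 * (C * A) := by
            rw [mul_pow, Real.sq_sqrt (by positivity)]
    have h7 : A * A ≤ A * (C * G ^ 2) := by nlinarith
    exact le_of_mul_le_mul_left h7 hpos

/-- Counting lemma: a finite `σ r`-separated set inside `closedBall y ρ`, all of whose points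
carry mass at least `c (σ r / 2)^n` on the ball of radius `σ r / 2`. -/
theorem card_separated_le {X : Type*} [PseudoMetricSpace X] [MeasurableSpace X]
    [OpensMeasurableSpace X] {μ : Measure X} {n : ℕ} {C c : ℝ} (hc : 0 < c) (hC : 0 ≤ C)
    {ι : Type*} (T : Finset ι) (x : ι → X) (y : X) {t ρ : ℝ} (ht : 0 < t) (hρ : 0 ≤ ρ)
    (hup : μ (closedBall y (ρ + t)) ≤ ENNReal.ofReal (C * (ρ + t) ^ n))
    (hlow : ∀ i ∈ T, ENNReal.ofReal (c * t ^ n) ≤ μ (ball (x i) t))
    (hin : ∀ i ∈ T, dist (x i) y ≤ ρ)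
    (hsep : ∀ i ∈ T, ∀ j ∈ T, i ≠ j → 2 * t ≤ dist (x i) (x j)) :
    (T.card : ℝ) ≤ C / c * ((ρ + t) / t) ^ n := by
  classical
  have hdisj : (T : Set ι).PairwiseDisjoint fun i => ball (x i) t := by
    intro i hi j hj hij
    refine ball_disjoint_ball ?_
    have := hsep i hi j hj hij
    linarith
  have h1 : ∑ i ∈ T, μ (ball (x i) t) ≤ μ (closedBall y (ρ + t)) := by
    rw [← measure_biUnion_finset hdisj (fun i _ => measurableSet_ball)]
    refine measure_mono ?_
    refine Set.iUnion₂_subset fun i hi => ?_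
    intro z hz
    rw [mem_ball] at hz
    rw [mem_closedBall]
    have := dist_triangle z (x i) y
    have := hin i hi
    linarith
  have h2 : (T.card : ℝ≥0∞) * ENNReal.ofReal (c * t ^ n) ≤ ENNReal.ofReal (C * (ρ + t) ^ n) := by
    calc (T.card : ℝ≥0∞) * ENNReal.ofReal (c * t ^ n)
        = ∑ i ∈ T, ENNReal.ofReal (c * t ^ n) := by
          rw [Finset.sum_const, nsmul_eq_mul]
      _ ≤ ∑ i ∈ T, μ (ball (x i) t) := Finset.sum_le_sum fun i hi => hlow i hi
      _ ≤ μ (closedBall y (ρ + t)) := h1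
      _ ≤ _ := hup
  have h3 : (T.card : ℝ) * (c * t ^ n) ≤ C * (ρ + t) ^ n := by
    have hnn : 0 ≤ c * t ^ n := by positivity
    have h4 : (T.card : ℝ≥0∞) * ENNReal.ofReal (c * t ^ n)
        = ENNReal.ofReal ((T.card : ℝ) * (c * t ^ n)) := by
      rw [ENNReal.ofReal_mul (Nat.cast_nonneg T.card), ENNReal.ofReal_natCast]
    rw [h4] at h2
    exact (ENNReal.ofReal_le_ofReal_iff (by positivity)).1 h2
  have hct : 0 < c * t ^ n := by positivity
  rw [div_pow]
  rw [← sub_nonneg]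
  have : C / c * ((ρ + t) ^ n / t ^ n) = C * (ρ + t) ^ n / (c * t ^ n) := by
    field_simp
  rw [this, sub_nonneg, le_div_iff₀ hct]
  exact h3

/-- `∑_{k ∈ T} 2^{-|k - k₀|} ≤ 4`. -/
theorem sum_half_pow_dist_le (T : Finset ℕ) (k₀ : ℕ) :
    ∑ k ∈ T, (1 / 2 : ℝ) ^ ((k - k₀) + (k₀ - k)) ≤ 4 := by
  classical
  have hsplit : ∑ k ∈ T, (1 / 2 : ℝ) ^ ((k - k₀) + (k₀ - k))
      ≤ ∑ k ∈ T.filter (fun k => k₀ ≤ k), (1 / 2 : ℝ) ^ (k - k₀)
        + ∑ k ∈ T.filter (fun k => ¬ k₀ ≤ k), (1 / 2 : ℝ) ^ (k₀ - k) := by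
    rw [← Finset.sum_filter_add_sum_filter_not T (fun k => k₀ ≤ k)]
    refine add_le_add ?_ ?_
    · refine Finset.sum_le_sum fun k hk => ?_
      have : k₀ ≤ k := (Finset.mem_filter.1 hk).2
      rw [Nat.sub_eq_zero_of_le this, add_zero]
    · refine Finset.sum_le_sum fun k hk => ?_
      have : ¬ k₀ ≤ k := (Finset.mem_filter.1 hk).2
      rw [Nat.sub_eq_zero_of_le (by omega : k ≤ k₀), zero_add]
  have hgeo : ∀ m : ℕ, ∑ k ∈ Finset.range m, (1 / 2 : ℝ) ^ k ≤ 2 := by
    intro m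
    have := sum_geometric_two_le m
    simpa using this
  have h1 : ∑ k ∈ T.filter (fun k => k₀ ≤ k), (1 / 2 : ℝ) ^ (k - k₀) ≤ 2 := by
    have himg : ∑ k ∈ T.filter (fun k => k₀ ≤ k), (1 / 2 : ℝ) ^ (k - k₀)
        = ∑ j ∈ (T.filter (fun k => k₀ ≤ k)).image (fun k => k - k₀), (1 / 2 : ℝ) ^ j := by
      rw [Finset.sum_image]
      intro a ha b hb hab
      have ha' : k₀ ≤ a := (Finset.mem_filter.1 ha).2
      have hb' : k₀ ≤ b := (Finset.mem_filter.1 hb).2
      simp only at hab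
      omega
    rw [himg]
    set S := (T.filter (fun k => k₀ ≤ k)).image (fun k => k - k₀)
    refine le_trans ?_ (hgeo (S.sup id + 1))
    refine Finset.sum_le_sum_of_subset_of_nonneg ?_ fun _ _ _ => by positivity
    intro j hj
    rw [Finset.mem_range]
    have : id j ≤ S.sup id := Finset.le_sup hj
    simp only [id] at this
    exact Nat.lt_succ_of_le this
  have h2 : ∑ k ∈ T.filter (fun k => ¬ k₀ ≤ k), (1 / 2 : ℝ) ^ (k₀ - k) ≤ 2 := by
    have himg : ∑ k ∈ T.filter (fun k => ¬ k₀ ≤ k), (1 / 2 : ℝ) ^ (k₀ - k)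
        = ∑ j ∈ (T.filter (fun k => ¬ k₀ ≤ k)).image (fun k => k₀ - k), (1 / 2 : ℝ) ^ j := by
      rw [Finset.sum_image]
      intro a ha b hb hab
      have ha' : ¬ k₀ ≤ a := (Finset.mem_filter.1 ha).2
      have hb' : ¬ k₀ ≤ b := (Finset.mem_filter.1 hb).2
      simp only at hab
      omega
    rw [himg]
    set S := (T.filter (fun k => ¬ k₀ ≤ k)).image (fun k => k₀ - k)
    refine le_trans ?_ (hgeo (S.sup id + 1))
    refine Finset.sum_le_sum_of_subset_of_nonneg ?_ fun _ _ _ => by positivity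
    intro j hj
    rw [Finset.mem_range]
    have : id j ≤ S.sup id := Finset.le_sup hj
    simp only [id] at this
    exact Nat.lt_succ_of_le this
  linarith

/-- Row sums of the Gram matrix. `r i = R₀ / b ^ k i` with `b ≥ 2`. -/
theorem row_sum_le {X ι : Type*} [PseudoMetricSpace X] (s : Finset ι) (x : ι → X) (k : ι → ℕ)
    {b R₀ A B M : ℝ} (hb : 2 ≤ b) (hR : 0 < R₀) (hA : 0 ≤ A) (hB : 0 ≤ B) (hM : 0 ≤ M) (n : ℕ)
    (hcount : ∀ i ∈ s, ∀ m : ℕ, ∀ ρ : ℝ, 0 ≤ ρ →
      ((s.filter fun j => k j = m ∧ dist (x j) (x i) ≤ ρ).card : ℝ)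
        ≤ B * ((ρ + R₀ / b ^ m) / (R₀ / b ^ m)) ^ n)
    (g : ι → ι → ℝ)
    (hg : ∀ i ∈ s, ∀ j ∈ s, k i ≤ k j →
      |g i j| ≤ A * ((R₀ / b ^ k j) / (R₀ / b ^ k i)) * (R₀ / b ^ k j) ^ n)
    (hsym : ∀ i ∈ s, ∀ j ∈ s, g i j = g j i)
    (hzero : ∀ i ∈ s, ∀ j ∈ s, k i ≤ k j → 2 * M * (R₀ / b ^ k i) < dist (x j) (x i) → g i j = 0)
    (i : ι) (hi : i ∈ s) :
    ∑ j ∈ s, |g i j| ≤ 4 * (A * B * (2 * M + 1) ^ n) * (R₀ / b ^ k i) ^ n := by
  classical
  have hb0 : (0 : ℝ) < b := by linarith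
  have hb1 : (1 : ℝ) ≤ b := by linarith
  set r : ℕ → ℝ := fun m => R₀ / b ^ m with hr
  have hrpos : ∀ m, 0 < r m := fun m => by simp only [hr]; positivity
  have hanti : ∀ m m', m ≤ m' → r m' ≤ r m := by
    intro m m' h
    simp only [hr]
    exact div_le_div_of_nonneg_left hR.le (by positivity) (pow_le_pow_right₀ hb1 h)
  have hratio : ∀ m m', m ≤ m' → r m' / r m ≤ (1 / 2 : ℝ) ^ (m' - m) := by
    intro m m' h
    have e : r m' / r m = (1 / b) ^ (m' - m) := by
      simp only [hr]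
      obtain ⟨p, rfl⟩ := Nat.exists_eq_add_of_le h
      rw [Nat.add_sub_cancel_left, pow_add, one_div, inv_pow]
      field_simp
    rw [e]
    refine pow_le_pow_left₀ (by positivity) ?_ _
    exact one_div_le_one_div_of_le (by norm_num) hb
  -- split by scales
  have hfib : ∑ j ∈ s, |g i j| = ∑ m ∈ s.image k, ∑ j ∈ s.filter (fun j => k j = m), |g i j| := by
    rw [Finset.sum_fiberwise_of_maps_to]
    intro j hj
    exact Finset.mem_image_of_mem k hj
  rw [hfib]
  have hmain : ∀ m : ℕ, ∑ j ∈ s.filter (fun j => k j = m), |g i j|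
      ≤ (A * B * (2 * M + 1) ^ n * r (k i) ^ n) * (1 / 2 : ℝ) ^ ((m - k i) + (k i - m)) := by
    intro m
    rcases le_total (k i) m with h | h
    · -- finer scale
      have hz : ∑ j ∈ s.filter (fun j => k j = m), |g i j|
          ≤ ∑ j ∈ s.filter (fun j => k j = m ∧ dist (x j) (x i) ≤ 2 * M * r (k i)), |g i j| := by
        rw [← Finset.sum_filter_add_sum_filter_not (s.filter fun j => k j = m)
          (fun j => dist (x j) (x i) ≤ 2 * M * r (k i))]
        rw [Finset.filter_filter, Finset.filter_filter]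
        have : ∑ j ∈ s.filter (fun j => k j = m ∧ ¬ dist (x j) (x i) ≤ 2 * M * r (k i)), |g i j|
            = 0 := by
          refine Finset.sum_eq_zero fun j hj => ?_
          rw [Finset.mem_filter] at hj
          obtain ⟨hj1, hj2, hj3⟩ := hj
          rw [hzero i hi j hj1 (by rw [hj2]; exact h) (not_le.1 hj3), abs_zero]
        rw [this, add_zero]
      refine hz.trans ?_
      have hb1' : ∀ j ∈ s.filter (fun j => k j = m ∧ dist (x j) (x i) ≤ 2 * M * r (k i)),
          |g i j| ≤ A * (r m / r (k i)) * r m ^ n := by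
        intro j hj
        rw [Finset.mem_filter] at hj
        obtain ⟨hj1, hj2, _⟩ := hj
        have := hg i hi j hj1 (by rw [hj2]; exact h)
        rw [hj2] at this
        exact this
      refine (Finset.sum_le_card_nsmul _ _ _ hb1').trans ?_
      rw [nsmul_eq_mul]
      have hc := hcount i hi m (2 * M * r (k i)) (by have := hrpos (k i); positivity)
      have hpos : 0 ≤ A * (r m / r (k i)) * r m ^ n := by
        have := hrpos m; have := hrpos (k i); positivity
      refine (mul_le_mul_of_nonneg_right hc hpos).trans ?_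
      have hq : (2 * M * r (k i) + R₀ / b ^ m) / (R₀ / b ^ m) ≤ (2 * M + 1) * r (k i) / r m := by
        show (2 * M * r (k i) + r m) / r m ≤ _
        refine div_le_div_of_nonneg_right ?_ (hrpos m).le
        have := hanti _ _ h
        linarith
      have hq0 : 0 ≤ (2 * M * r (k i) + R₀ / b ^ m) / (R₀ / b ^ m) := by
        have := hrpos (k i)
        positivity
      have hq2 := pow_le_pow_left₀ hq0 hq n
      calc B * ((2 * M * r (k i) + R₀ / b ^ m) / (R₀ / b ^ m)) ^ n
            * (A * (r m / r (k i)) * r m ^ n)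
          ≤ B * ((2 * M + 1) * r (k i) / r m) ^ n * (A * (r m / r (k i)) * r m ^ n) := by
            gcongr
        _ = (A * B * (2 * M + 1) ^ n * r (k i) ^ n) * (r m / r (k i)) := by
            have h1 := (hrpos m).ne'
            have h2 := (hrpos (k i)).ne'
            rw [div_pow, mul_pow]
            field_simp
        _ ≤ (A * B * (2 * M + 1) ^ n * r (k i) ^ n) * (1 / 2 : ℝ) ^ ((m - k i) + (k i - m)) := by
            rw [Nat.sub_eq_zero_of_le h, add_zero]
            refine mul_le_mul_of_nonneg_left (hratio _ _ h) ?_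
            have := hrpos (k i)
            positivity
    · -- coarser scale
      have hz : ∑ j ∈ s.filter (fun j => k j = m), |g i j|
          ≤ ∑ j ∈ s.filter (fun j => k j = m ∧ dist (x j) (x i) ≤ 2 * M * r m), |g i j| := by
        rw [← Finset.sum_filter_add_sum_filter_not (s.filter fun j => k j = m)
          (fun j => dist (x j) (x i) ≤ 2 * M * r m)]
        rw [Finset.filter_filter, Finset.filter_filter]
        have : ∑ j ∈ s.filter (fun j => k j = m ∧ ¬ dist (x j) (x i) ≤ 2 * M * r m), |g i j|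
            = 0 := by
          refine Finset.sum_eq_zero fun j hj => ?_
          rw [Finset.mem_filter] at hj
          obtain ⟨hj1, hj2, hj3⟩ := hj
          rw [hsym i hi j hj1, hzero j hj1 i hi (by rw [hj2]; exact h)
            (by rw [dist_comm, hj2]; exact not_le.1 hj3), abs_zero]
        rw [this, add_zero]
      refine hz.trans ?_
      have hb1' : ∀ j ∈ s.filter (fun j => k j = m ∧ dist (x j) (x i) ≤ 2 * M * r m),
          |g i j| ≤ A * (r (k i) / r m) * r (k i) ^ n := by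
        intro j hj
        rw [Finset.mem_filter] at hj
        obtain ⟨hj1, hj2, _⟩ := hj
        have := hg j hj1 i hi (by rw [hj2]; exact h)
        rw [hj2] at this
        rw [hsym i hi j hj1]
        exact this
      refine (Finset.sum_le_card_nsmul _ _ _ hb1').trans ?_
      rw [nsmul_eq_mul]
      have hc := hcount i hi m (2 * M * r m) (by have := hrpos m; positivity)
      have hpos : 0 ≤ A * (r (k i) / r m) * r (k i) ^ n := by
        have := hrpos m; have := hrpos (k i); positivity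
      refine (mul_le_mul_of_nonneg_right hc hpos).trans ?_
      have hq : (2 * M * r m + R₀ / b ^ m) / (R₀ / b ^ m) = (2 * M + 1) := by
        show (2 * M * r m + r m) / r m = _
        have h1 := (hrpos m).ne'
        field_simp
      rw [hq]
      calc B * (2 * M + 1) ^ n * (A * (r (k i) / r m) * r (k i) ^ n)
          = (A * B * (2 * M + 1) ^ n * r (k i) ^ n) * (r (k i) / r m) := by ring
        _ ≤ (A * B * (2 * M + 1) ^ n * r (k i) ^ n) * (1 / 2 : ℝ) ^ ((m - k i) + (k i - m)) := by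
            rw [Nat.sub_eq_zero_of_le h, zero_add]
            refine mul_le_mul_of_nonneg_left (hratio _ _ h) ?_
            have := hrpos (k i)
            positivity
  calc ∑ m ∈ s.image k, ∑ j ∈ s.filter (fun j => k j = m), |g i j|
      ≤ ∑ m ∈ s.image k,
          (A * B * (2 * M + 1) ^ n * r (k i) ^ n) * (1 / 2 : ℝ) ^ ((m - k i) + (k i - m)) :=
        Finset.sum_le_sum fun m _ => hmain m
    _ = (A * B * (2 * M + 1) ^ n * r (k i) ^ n) *
          ∑ m ∈ s.image k, (1 / 2 : ℝ) ^ ((m - k i) + (k i - m)) := by rw [Finset.mul_sum]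
    _ ≤ (A * B * (2 * M + 1) ^ n * r (k i) ^ n) * 4 := by
        refine mul_le_mul_of_nonneg_left (sum_half_pow_dist_le _ _) ?_
        have := hrpos (k i)
        positivity
    _ = 4 * (A * B * (2 * M + 1) ^ n) * (R₀ / b ^ k i) ^ n := by
        simp only [hr]; ring

end Crest.Agent.R085.Pack
end

-- ▼ part R085/PackGram
section

/-!
R085 / M2 : Gram estimate for mean-zero bumps and elementary facts about test functions.
-/

set_option autoImplicit false

namespace Crest.Agent.R085.Pack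

open MeasureTheory Metric Set Filter
open scoped ENNReal NNReal Topology

/-- A measure with `μ (ball x r) ≤ C r^n` is locally finite. -/
theorem isLocallyFinite_of_upper {d n : ℕ} {C : ℝ} {μ : Measure (V d)}
    (hup : ∀ (x : V d) (r : ℝ), 0 < r → μ (ball x r) ≤ ENNReal.ofReal (C * r ^ n)) :
    IsLocallyFiniteMeasure μ := by
  refine ⟨fun x => ⟨ball x 1, ball_mem_nhds x one_pos, ?_⟩⟩
  exact lt_of_le_of_lt (hup x 1 one_pos) ENNReal.ofReal_lt_top

theorem continuous_of_abs_sub_le {d : ℕ} {ψ : V d → ℝ} {r : ℝ} (hr : 0 < r)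
    (h : ∀ y z, |ψ y - ψ z| ≤ dist y z / r) : LipschitzWith (Real.toNNReal r⁻¹) ψ := by
  refine LipschitzWith.of_dist_le_mul fun y z => ?_
  rw [Real.coe_toNNReal _ (by positivity), Real.dist_eq]
  refine (h y z).trans (le_of_eq ?_)
  rw [div_eq_inv_mul]

theorem isTest_of {d : ℕ} {ψ : V d → ℝ} {x : V d} {r R : ℝ} (hr : 0 < r)
    (h : ∀ y z, |ψ y - ψ z| ≤ dist y z / r) (hs : ∀ y, y ∉ ball x R → ψ y = 0) : IsTest ψ := by
  refine ⟨⟨_, continuous_of_abs_sub_le hr h⟩, ?_⟩
  refine HasCompactSupport.intro (isCompact_closedBall x R) fun y hy => hs y fun h' => hy ?_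
  exact ball_subset_closedBall h'

/-- Gram estimate. -/
theorem gram_le {d n : ℕ} {C : ℝ} {μ : Measure (V d)}
    (hup : ∀ (x : V d) (r : ℝ), 0 < r → μ (ball x r) ≤ ENNReal.ofReal (C * r ^ n)) (hC : 0 ≤ C)
    {ψ φ : V d → ℝ} {y : V d} {r t M : ℝ} (hr : 0 < r) (ht : 0 < t) (hM : 0 < M)
    (hψ : ∀ y z, |ψ y - ψ z| ≤ dist y z / r) (hφ : ∀ y z, |φ y - φ z| ≤ dist y z / t)
    (hφ1 : ∀ z, |φ z| ≤ 1) (hφs : ∀ z, z ∉ ball y (M * t) → φ z = 0)
    (hφ0 : ∫ z, φ z ∂μ = 0) :
    |∫ z, ψ z * φ z ∂μ| ≤ (M * t / r) * (C * (M * t) ^ n) := by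
  have hlf := isLocallyFinite_of_upper hup
  have hφT := isTest_of ht hφ hφs
  have hφc : Continuous φ := (continuous_of_abs_sub_le ht hφ).continuous
  have hψc : Continuous ψ := (continuous_of_abs_sub_le hr hψ).continuous
  have hint1 : Integrable φ μ := hφc.integrable_of_hasCompactSupport hφT.cpt
  have hint2 : Integrable (fun z => (ψ z - ψ y) * φ z) μ := by
    refine Continuous.integrable_of_hasCompactSupport ((hψc.sub continuous_const).mul hφc) ?_
    exact hφT.cpt.mul_left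
  have e1 : ∫ z, ψ z * φ z ∂μ = ∫ z, (ψ z - ψ y) * φ z ∂μ := by
    have : (fun z => ψ z * φ z) = fun z => (ψ z - ψ y) * φ z + ψ y * φ z := by
      funext z; ring
    rw [this, integral_add hint2 (hint1.const_mul _), integral_const_mul, hφ0, mul_zero, add_zero]
  rw [e1]
  have e2 : ∫ z, (ψ z - ψ y) * φ z ∂μ = ∫ z in ball y (M * t), (ψ z - ψ y) * φ z ∂μ := by
    rw [setIntegral_eq_integral_of_forall_compl_eq_zero]
    intro z hz
    rw [hφs z hz, mul_zero]
  rw [e2]
  have hMt : 0 < M * t := by positivity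
  have hfin : μ (ball y (M * t)) < ∞ := lt_of_le_of_lt (hup y _ hMt) ENNReal.ofReal_lt_top
  have h3 : ‖∫ z in ball y (M * t), (ψ z - ψ y) * φ z ∂μ‖
      ≤ (M * t / r) * μ.real (ball y (M * t)) := by
    refine norm_setIntegral_le_of_norm_le_const hfin fun z hz => ?_
    rw [Real.norm_eq_abs, abs_mul]
    have h4 : |ψ z - ψ y| ≤ M * t / r := by
      refine (hψ z y).trans ?_
      exact div_le_div_of_nonneg_right (mem_ball.1 hz).le hr.le
    calc |ψ z - ψ y| * |φ z| ≤ (M * t / r) * 1 :=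
          mul_le_mul h4 (hφ1 z) (abs_nonneg _) (by positivity)
      _ = M * t / r := mul_one _
  rw [Real.norm_eq_abs] at h3
  refine h3.trans ?_
  refine mul_le_mul_of_nonneg_left ?_ (by positivity)
  rw [measureReal_def]
  refine ENNReal.toReal_le_of_le_ofReal (by positivity) (hup y _ hMt)

/-- The function `y ↦ ∑ a_i ψ_i(y) e_i` has `L²` norm squared given by the Gram matrix. -/
theorem integral_norm_sq_sum {d : ℕ} {μ : Measure (V d)} [IsLocallyFiniteMeasure μ] {ι : Type*}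
    (s : Finset ι) (ψ : ι → V d → ℝ) (e : ι → V d) (a : ι → ℝ) (hψ : ∀ i ∈ s, IsTest (ψ i)) :
    ∫ y, ‖∑ i ∈ s, a i • ψ i y • e i‖ ^ 2 ∂μ
      = ∑ i ∈ s, ∑ j ∈ s, a i * a j * (inner ℝ (e i) (e j) * ∫ y, ψ i y * ψ j y ∂μ) := by
  have hint : ∀ i ∈ s, ∀ j ∈ s, Integrable (fun y => ψ i y * ψ j y) μ := by
    intro i hi j hj
    obtain ⟨K, hK⟩ := (hψ i hi).lip
    obtain ⟨K', hK'⟩ := (hψ j hj).lip
    refine Continuous.integrable_of_hasCompactSupport (hK.continuous.mul hK'.continuous) ?_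
    exact (hψ j hj).cpt.mul_left
  have e1 : ∀ y, ‖∑ i ∈ s, a i • ψ i y • e i‖ ^ 2
      = ∑ i ∈ s, ∑ j ∈ s, a i * a j * (inner ℝ (e i) (e j) * (ψ i y * ψ j y)) := by
    intro y
    rw [← real_inner_self_eq_norm_sq, sum_inner]
    refine Finset.sum_congr rfl fun i _ => ?_
    rw [inner_sum]
    refine Finset.sum_congr rfl fun j _ => ?_
    simp only [real_inner_smul_left, real_inner_smul_right]
    ring
  simp only [e1]
  rw [integral_finsetSum]
  · refine Finset.sum_congr rfl fun i hi => ?_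
    rw [integral_finsetSum]
    · refine Finset.sum_congr rfl fun j hj => ?_
      rw [integral_const_mul, integral_const_mul]
    · intro j hj
      exact ((hint i hi j hj).const_mul _).const_mul _
  · intro i hi
    refine integrable_finsetSum _ fun j hj => ?_
    exact ((hint i hi j hj).const_mul _).const_mul _

/-- Lipschitz cutoff equal to `1` on `closedBall x ρ`, supported in `closedBall x (2ρ)`. -/
noncomputable def cutf {d : ℕ} (x : V d) (ρ : ℝ) (y : V d) : ℝ := cut (dist y x / ρ)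

theorem cut_nonneg' (t : ℝ) : 0 ≤ cut t := le_max_left _ _

theorem cut_le_one' (t : ℝ) : cut t ≤ 1 := max_le zero_le_one (min_le_left _ _)

theorem cut_eq_one' {t : ℝ} (h : t ≤ 1) : cut t = 1 := by
  unfold cut
  rw [min_eq_left (by linarith), max_eq_right zero_le_one]

theorem cut_eq_zero' {t : ℝ} (h : 2 ≤ t) : cut t = 0 := by
  unfold cut
  refine max_eq_left ((min_le_right _ _).trans (by linarith))

theorem lipschitzWith_cut' : LipschitzWith 1 cut := by
  unfold cut
  have h1 : LipschitzWith 1 (fun t : ℝ => 2 - t) := by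
    refine LipschitzWith.of_dist_le_mul fun x y => ?_
    rw [Real.dist_eq, Real.dist_eq, NNReal.coe_one, one_mul]
    have : (2 - x - (2 - y)) = -(x - y) := by ring
    rw [this, abs_neg]
  exact ((LipschitzWith.const_min h1 1)).const_max 0

theorem cutf_nonneg {d : ℕ} (x : V d) (ρ : ℝ) (y : V d) : 0 ≤ cutf x ρ y := cut_nonneg' _

theorem cutf_le_one {d : ℕ} (x : V d) (ρ : ℝ) (y : V d) : cutf x ρ y ≤ 1 := cut_le_one' _

theorem cutf_eq_one {d : ℕ} {x : V d} {ρ : ℝ} (hρ : 0 < ρ) {y : V d} (h : dist y x ≤ ρ) :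
    cutf x ρ y = 1 := cut_eq_one' ((div_le_one hρ).2 h)

theorem cutf_eq_zero {d : ℕ} {x : V d} {ρ : ℝ} (hρ : 0 < ρ) {y : V d} (h : 2 * ρ ≤ dist y x) :
    cutf x ρ y = 0 := cut_eq_zero' (by rw [le_div_iff₀ hρ]; exact h)

theorem isTest_cutf {d : ℕ} (x : V d) {ρ : ℝ} (hρ : 0 < ρ) : IsTest (cutf x ρ) := by
  refine isTest_of (x := x) (R := 2 * ρ) (r := ρ) hρ ?_ ?_
  · intro y z
    unfold cutf
    have h := lipschitzWith_cut'.dist_le_mul (dist y x / ρ) (dist z x / ρ)
    rw [Real.dist_eq, Real.dist_eq, NNReal.coe_one, one_mul, ← sub_div, abs_div,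
      abs_of_pos hρ] at h
    refine h.trans ?_
    exact div_le_div_of_nonneg_right (abs_dist_sub_le y z x) hρ.le
  · intro y hy
    refine cutf_eq_zero hρ ?_
    rw [mem_ball, not_lt] at hy
    exact hy

end Crest.Agent.R085.Pack
end

-- ▼ part R085/Packing
section

/-!
R085 / M2 : packing of the scales with large Riesz oscillation.
-/

set_option autoImplicit false

namespace Crest.Agent.R085.Pack

open MeasureTheory Metric Set Filter
open scoped ENNReal NNReal Topology

/-- Far-field comparison of the truncated form with the weak form. -/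
def FarComp (d n : ℕ) (C : ℝ) : Prop :=
  ∃ K : ℝ, 0 < K ∧ ∀ μ : Measure (V d), UpperReg n C μ → ∀ (x : V d) (r M ρ : ℝ) (f : V d → ℝ)
    (e : V d) (ψ : V d → ℝ), 0 < r → 1 ≤ M → 2 * (M * r) ≤ ρ → ‖e‖ ≤ 1 → IsTest f →
    (∀ y, 0 ≤ f y ∧ f y ≤ 1) → (∀ y, y ∈ ball x (2 * ρ) → f y = 1) →
    (∀ y z, |ψ y - ψ z| ≤ dist y z / r) → (∀ y, |ψ y| ≤ 1) →
    (∀ y, y ∉ ball x (M * r) → ψ y = 0) → ∫ y, ψ y ∂μ = 0 →
    ∀ᶠ N : ℝ in atTop, |Bf n μ N (lin e) ψ - Wf n μ f (fun y => ψ y • e)|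
      ≤ K * (M * r / ρ) * (M * r) ^ n

/-- Counting of same-scale separated points of the support. -/
theorem count_adr {d n : ℕ} {C : ℝ} {D : ℝ≥0∞} {μ : Measure (V d)} (h : ADR n C D μ)
    {σ : ℝ} (hσ : 0 < σ) (hσ1 : σ ≤ 1) {ι : Type*} (T : Finset ι) (x : ι → V d) (y : V d)
    {r ρ : ℝ} (hr : 0 < r) (hρ : 0 ≤ ρ) (hrD : ENNReal.ofReal r ≤ D)
    (hsupp : ∀ i ∈ T, x i ∈ μ.support) (hin : ∀ i ∈ T, dist (x i) y ≤ ρ)
    (hsep : ∀ i ∈ T, ∀ j ∈ T, i ≠ j → σ * r ≤ dist (x i) (x j)) :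
    (T.card : ℝ) ≤ (C ^ 2 * 2 ^ n * (2 / σ) ^ n) * ((ρ + r) / r) ^ n := by
  have hC1 := h.one_le
  have hC0 : 0 < C := by linarith
  have ht : 0 < σ * r / 2 := by positivity
  have hle : σ * r / 2 ≤ r := by nlinarith
  have key := card_separated_le (μ := μ) (n := n) (C := C * 2 ^ n) (c := C⁻¹) (by positivity)
    (by positivity) T x y (t := σ * r / 2) (ρ := ρ) ht hρ ?_ ?_ hin ?_
  · refine key.trans ?_
    have e1 : (C * 2 ^ n) / C⁻¹ = C ^ 2 * 2 ^ n := by
      field_simp
    rw [e1, mul_assoc (C ^ 2 * 2 ^ n), ← mul_pow]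
    have e2 : (ρ + σ * r / 2) / (σ * r / 2) ≤ 2 / σ * ((ρ + r) / r) := by
      rw [div_mul_div_comm, div_le_div_iff₀ ht (by positivity)]
      nlinarith [mul_pos hσ hr]
    have e3 : 0 ≤ (ρ + σ * r / 2) / (σ * r / 2) := by positivity
    exact mul_le_mul_of_nonneg_left (pow_le_pow_left₀ e3 e2 n) (by positivity)
  · have h1 : closedBall y (ρ + σ * r / 2) ⊆ ball y (2 * (ρ + σ * r / 2)) :=
      closedBall_subset_ball (by linarith)
    refine (measure_mono h1).trans ((h.upper y _ (by positivity)).trans (le_of_eq ?_))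
    congr 1
    rw [mul_pow]; ring
  · intro i hi
    refine h.lower (x i) (hsupp i hi) _ ht ?_
    exact (ENNReal.ofReal_le_ofReal hle).trans hrD
  · intro i hi j hj hij
    have := hsep i hi j hj hij
    linarith

theorem wf_sum {d n : ℕ} {μ : Measure (V d)} {C : ℝ} (hU : UpperReg n C μ)
    {f : V d → ℝ} (hf : IsTest f) {ι : Type*} (s : Finset ι) (a : ι → ℝ) (X : ι → V d → V d)
    (hX : ∀ i ∈ s, IsTestV (X i)) :
    Wf n μ f (fun y => ∑ i ∈ s, a i • X i y) = ∑ i ∈ s, a i * Wf n μ f (X i) := by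
  have e1 : ∀ p : V d × V d, wker n f (fun y => ∑ i ∈ s, a i • X i y) p
      = ∑ i ∈ s, a i * wker n f (X i) p := by
    intro p
    unfold wker
    rw [Finset.smul_sum, Finset.smul_sum, ← Finset.sum_sub_distrib, sum_inner, Finset.sum_mul]
    refine Finset.sum_congr rfl fun i _ => ?_
    rw [smul_comm (f p.2), smul_comm (f p.1), ← smul_sub, real_inner_smul_left]
    ring
  unfold Wf
  simp only [e1]
  rw [integral_finsetSum]
  · rw [Finset.mul_sum]
    refine Finset.sum_congr rfl fun i _ => ?_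
    rw [integral_const_mul]
    ring
  · intro i hi
    exact (integrable_wker hU hf (hX i hi)).const_mul _

theorem isTestV_smul {d : ℕ} {ψ : V d → ℝ} (h : IsTest ψ) (e : V d) :
    IsTestV (fun y => ψ y • e) := by
  obtain ⟨K, hK⟩ := h.lip
  refine ⟨⟨K * ‖e‖₊, ?_⟩, ?_⟩
  · refine LipschitzWith.of_dist_le_mul fun y z => ?_
    rw [dist_eq_norm, ← sub_smul, norm_smul, NNReal.coe_mul, coe_nnnorm]
    have := hK.dist_le_mul y z
    rw [Real.dist_eq] at this
    rw [Real.norm_eq_abs]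
    nlinarith [norm_nonneg e]
  · exact h.cpt.smul_right

theorem isTestV_sum {d : ℕ} {ι : Type*} (s : Finset ι) (a : ι → ℝ) (X : ι → V d → V d)
    (hX : ∀ i ∈ s, IsTestV (X i)) : IsTestV (fun y => ∑ i ∈ s, a i • X i y) := by
  classical
  induction s using Finset.induction_on with
  | empty =>
    refine ⟨⟨0, ?_⟩, ?_⟩
    · simp only [Finset.sum_empty]
      exact LipschitzWith.const _
    · simp only [Finset.sum_empty]
      exact HasCompactSupport.zero
  | insert i s hi ih =>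
    obtain ⟨⟨K, hK⟩, hc⟩ := ih fun j hj => hX j (Finset.mem_insert_of_mem hj)
    obtain ⟨⟨K', hK'⟩, hc'⟩ := hX i (Finset.mem_insert_self i s)
    refine ⟨⟨‖a i‖₊ * K' + K, ?_⟩, ?_⟩
    · simp only [Finset.sum_insert hi]
      refine LipschitzWith.add ?_ hK
      refine LipschitzWith.of_dist_le_mul fun y z => ?_
      rw [dist_eq_norm, ← smul_sub, norm_smul, NNReal.coe_mul, coe_nnnorm, mul_assoc,
        ← dist_eq_norm (X i y)]
      exact mul_le_mul_of_nonneg_left (hK'.dist_le_mul y z) (norm_nonneg _)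
    · simp only [Finset.sum_insert hi]
      refine HasCompactSupport.add ?_ hc
      exact hc'.smul_left (f := fun _ => a i)

/-- M2, quantitative packing. -/
theorem packing_of_farComp {d n : ℕ} {C A M δ σ : ℝ} (hC1 : 1 ≤ C) (hA : 0 ≤ A)
    (hM : 1 ≤ M) (hδ : 0 < δ) (hσ : 0 < σ) (hσ1 : σ ≤ 1) (hcomp : FarComp d n C) :
    ∃ K : ℝ, 0 < K ∧ ∀ (μ : Measure (V d)) (D : ℝ≥0∞), ADR n C D μ → WeakRiesz n A μ →
      ∀ (x0 : V d) (R0 b : ℝ), 0 < R0 → 2 ≤ b → ∀ (ι : Type) (s : Finset ι) (x : ι → V d)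
        (k : ι → ℕ),
        (∀ i ∈ s, x i ∈ μ.support ∧ dist (x i) x0 ≤ R0 ∧ ENNReal.ofReal (R0 / b ^ k i) ≤ D ∧
          ¬ EtaS n μ (x i) (R0 / b ^ k i) M δ) →
        (∀ i ∈ s, ∀ j ∈ s, i ≠ j → k i = k j → σ * (R0 / b ^ k i) ≤ dist (x i) (x j)) →
        ∑ i ∈ s, (R0 / b ^ k i) ^ n ≤ K * R0 ^ n := by
  classical
  obtain ⟨K0, hK0, hK⟩ := hcomp
  have hC0 : 0 < C := by linarith
  have hM0 : 0 < M := by linarith
  set Λ : ℝ := max (2 * M) (2 * K0 * M ^ (n + 1) / δ) with hΛ
  have hΛ1 : 2 * M ≤ Λ := le_max_left _ _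
  have hΛ2 : 2 * K0 * M ^ (n + 1) / δ ≤ Λ := le_max_right _ _
  have hΛ0 : 0 < Λ := by linarith
  set B : ℝ := C ^ 2 * 2 ^ n * (2 / σ) ^ n with hB
  have hB0 : 0 < B := by positivity
  set Crow : ℝ := 4 * (M * (C * M ^ n) * B * (2 * M + 1) ^ n) with hCrow
  have hCrow0 : 0 < Crow := by positivity
  refine ⟨4 / δ ^ 2 * (Crow * (A ^ 2 * (C * (8 * Λ) ^ n)) + 1), by positivity, ?_⟩
  intro μ D hμ hW x0 R0 b hR0 hb ι s x k hs hsep
  have hU : UpperReg n C μ := hμ.upper
  have hlf := isLocallyFinite_of_upper hμ.upper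
  have hb0 : (0 : ℝ) < b := by linarith
  have hb1 : (1 : ℝ) ≤ b := by linarith
  have hrpos : ∀ m : ℕ, 0 < R0 / b ^ m := fun m => by positivity
  have hrle : ∀ m : ℕ, R0 / b ^ m ≤ R0 := fun m => div_le_self hR0.le (one_le_pow₀ hb1)
  -- choose the test functions
  have hch : ∀ i ∈ s, ∃ (e : V d) (ψ : V d → ℝ), ‖e‖ ≤ 1 ∧
      (∀ y z, |ψ y - ψ z| ≤ dist y z / (R0 / b ^ k i)) ∧ (∀ y, |ψ y| ≤ 1) ∧
      (∀ y, y ∉ ball (x i) (M * (R0 / b ^ k i)) → ψ y = 0) ∧ ∫ y, ψ y ∂μ = 0 ∧
      ∃ᶠ N : ℝ in atTop, δ * (R0 / b ^ k i) ^ n < |Bf n μ N (lin e) ψ| := by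
    intro i hi
    have h := (hs i hi).2.2.2
    unfold EtaS at h
    push Not at h
    obtain ⟨e, he, ψ, h1, h2, h3, h4, h5⟩ := h
    exact ⟨e, ψ, he, h1, h2, h3, h4, h5⟩
  choose! e ψ he hψL hψ1 hψs hψ0 hψB using hch
  set ρ : ℝ := Λ * R0 with hρ
  have hρ0 : 0 < ρ := by positivity
  have hR0ρ : R0 ≤ ρ := by
    have : 1 ≤ Λ := by linarith
    nlinarith
  set f : V d → ℝ := cutf x0 (4 * ρ) with hf
  have h4ρ : 0 < 4 * ρ := by positivity
  have hfT : IsTest f := isTest_cutf x0 h4ρ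
  have hψT : ∀ i ∈ s, IsTest (ψ i) := fun i hi => isTest_of (hrpos _) (hψL i hi) (hψs i hi)
  have hXT : ∀ i ∈ s, IsTestV (fun y => ψ i y • e i) := fun i hi => isTestV_smul (hψT i hi) _
  -- lower bound for the weak forms
  have hlow : ∀ i ∈ s, δ / 2 * (R0 / b ^ k i) ^ n ≤ |Wf n μ f (fun y => ψ i y • e i)| := by
    intro i hi
    set r := R0 / b ^ k i with hr
    have hr0 : 0 < r := hrpos _
    have hrR : r ≤ R0 := hrle _
    have hev := hK μ hU (x i) r M ρ f (e i) (ψ i) hr0 hM (by nlinarith) (he i hi) hfT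
      (fun y => ⟨cutf_nonneg _ _ _, cutf_le_one _ _ _⟩) ?_ (hψL i hi) (hψ1 i hi) (hψs i hi)
      (hψ0 i hi)
    · obtain ⟨N, hN1, hN2⟩ := ((hψB i hi).and_eventually hev).exists
      have h3 : K0 * (M * r / ρ) * (M * r) ^ n ≤ δ / 2 * r ^ n := by
        have h5 : K0 * (M * r / ρ) * (M * r) ^ n = (K0 * M ^ (n + 1) * (r / ρ)) * r ^ n := by
          rw [mul_pow, pow_succ]; ring
        rw [h5]
        refine mul_le_mul_of_nonneg_right ?_ (by positivity)
        have h6 : r / ρ ≤ 1 / Λ := by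
          rw [div_le_div_iff₀ hρ0 hΛ0, hρ]
          nlinarith
        calc K0 * M ^ (n + 1) * (r / ρ) ≤ K0 * M ^ (n + 1) * (1 / Λ) := by gcongr
          _ ≤ δ / 2 := by
            rw [mul_one_div, div_le_div_iff₀ hΛ0 two_pos]
            rw [div_le_iff₀ hδ] at hΛ2
            linarith
      have h7 : |Bf n μ N (lin (e i)) (ψ i)| ≤ |Wf n μ f (fun y => ψ i y • e i)|
          + |Bf n μ N (lin (e i)) (ψ i) - Wf n μ f (fun y => ψ i y • e i)| := by
        have := abs_add_le (Wf n μ f (fun y => ψ i y • e i))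
          (Bf n μ N (lin (e i)) (ψ i) - Wf n μ f (fun y => ψ i y • e i))
        rwa [add_sub_cancel] at this
      linarith
    · intro y hy
      refine cutf_eq_one h4ρ ?_
      have h1 := dist_triangle y (x i) x0
      have h2 := (hs i hi).2.1
      rw [mem_ball] at hy
      linarith
  -- L² norm of f
  have hf2 : ∫ y, f y ^ 2 ∂μ ≤ C * (8 * Λ) ^ n * R0 ^ n := by
    have h8 : 0 < 8 * ρ := by positivity
    have hfin : μ (ball x0 (8 * ρ)) < ∞ :=
      lt_of_le_of_lt (hμ.upper x0 _ h8) ENNReal.ofReal_lt_top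
    have e1 : ∫ y, f y ^ 2 ∂μ = ∫ y in ball x0 (8 * ρ), f y ^ 2 ∂μ := by
      rw [setIntegral_eq_integral_of_forall_compl_eq_zero]
      intro y hy
      rw [mem_ball, not_lt] at hy
      rw [hf, cutf_eq_zero h4ρ (by linarith)]
      norm_num
    have e2 : ‖∫ y in ball x0 (8 * ρ), f y ^ 2 ∂μ‖ ≤ 1 * μ.real (ball x0 (8 * ρ)) := by
      refine norm_setIntegral_le_of_norm_le_const hfin fun y _ => ?_
      rw [Real.norm_eq_abs, abs_of_nonneg (sq_nonneg _)]
      have h0 : 0 ≤ f y := cutf_nonneg _ _ _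
      have h1 : f y ≤ 1 := cutf_le_one _ _ _
      nlinarith
    rw [e1]
    refine (le_abs_self _).trans ?_
    rw [Real.norm_eq_abs, one_mul] at e2
    refine e2.trans ?_
    rw [measureReal_def]
    refine ENNReal.toReal_le_of_le_ofReal (by positivity) ?_
    refine (hμ.upper x0 _ h8).trans (le_of_eq ?_)
    congr 1
    rw [hρ, ← mul_assoc, mul_pow]; ring
  -- Gram matrix
  set g : ι → ι → ℝ := fun i j => inner ℝ (e i) (e j) * ∫ y, ψ i y * ψ j y ∂μ with hg
  have hsym : ∀ i ∈ s, ∀ j ∈ s, g i j = g j i := by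
    intro i _ j _
    simp only [hg]
    rw [real_inner_comm]
    congr 1
    exact integral_congr_ae (Eventually.of_forall fun y => mul_comm _ _)
  have hrow : ∀ i ∈ s, ∑ j ∈ s, |g i j| ≤ Crow * (R0 / b ^ k i) ^ n := by
    intro i hi
    refine row_sum_le s x k hb hR0 (A := M * (C * M ^ n)) (B := B) (M := M) (by positivity)
      hB0.le hM0.le n ?_ g ?_ hsym ?_ i hi
    · intro i hi m ρ' hρ'
      rcases (s.filter fun j => k j = m ∧ dist (x j) (x i) ≤ ρ').eq_empty_or_nonempty with h0 | h0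
      · rw [h0]
        have := hrpos m
        simp only [Finset.card_empty, Nat.cast_zero]
        positivity
      · obtain ⟨j0, hj0⟩ := h0
        rw [Finset.mem_filter] at hj0
        refine count_adr hμ hσ hσ1 _ x (x i) (hrpos m) hρ' ?_ ?_ ?_ ?_
        · have := (hs j0 hj0.1).2.2.1
          rwa [hj0.2.1] at this
        · intro j hj
          exact (hs j (Finset.mem_filter.1 hj).1).1
        · intro j hj
          exact (Finset.mem_filter.1 hj).2.2
        · intro j hj j' hj' hne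
          rw [Finset.mem_filter] at hj hj'
          have := hsep j hj.1 j' hj'.1 hne (by rw [hj.2.1, hj'.2.1])
          rwa [hj.2.1] at this
    · intro i hi j hj _
      simp only [hg]
      rw [abs_mul]
      have h1 : |inner ℝ (e i) (e j)| ≤ 1 := by
        refine (abs_real_inner_le_norm _ _).trans ?_
        have := he i hi
        have := he j hj
        have := norm_nonneg (e i)
        have := norm_nonneg (e j)
        nlinarith
      have h2 := gram_le hμ.upper hC0.le (ψ := ψ i) (φ := ψ j) (y := x j) (hrpos (k i))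
        (hrpos (k j)) hM0 (hψL i hi) (hψL j hj) (hψ1 j hj) (hψs j hj) (hψ0 j hj)
      calc |inner ℝ (e i) (e j)| * |∫ y, ψ i y * ψ j y ∂μ|
          ≤ 1 * ((M * (R0 / b ^ k j) / (R0 / b ^ k i)) * (C * (M * (R0 / b ^ k j)) ^ n)) :=
            mul_le_mul h1 h2 (abs_nonneg _) zero_le_one
        _ = M * (C * M ^ n) * ((R0 / b ^ k j) / (R0 / b ^ k i)) * (R0 / b ^ k j) ^ n := by
            rw [mul_pow]; ring
    · intro i hi j hj hij hd
      simp only [hg]
      have hle : R0 / b ^ k j ≤ R0 / b ^ k i :=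
        div_le_div_of_nonneg_left hR0.le (by positivity) (pow_le_pow_right₀ hb1 hij)
      have : ∀ y, ψ i y * ψ j y = 0 := by
        intro y
        by_cases hy : y ∈ ball (x i) (M * (R0 / b ^ k i))
        · have hy' : y ∉ ball (x j) (M * (R0 / b ^ k j)) := by
            intro hy'
            rw [mem_ball] at hy hy'
            have := dist_triangle (x j) y (x i)
            rw [dist_comm (x j) y] at this
            nlinarith
          rw [hψs j hj y hy', mul_zero]
        · rw [hψs i hi y hy, zero_mul]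
      simp only [this, integral_zero, mul_zero]
  -- duality
  have hdual := almost_orth s g (fun i => (R0 / b ^ k i) ^ n) (fun i _ => by
      have := hrpos (k i); positivity) Crow (A * √(∫ y, f y ^ 2 ∂μ)) hCrow0.le
      (by positivity) hsym hrow (fun i => Wf n μ f (fun y => ψ i y • e i)) ?_
  · have hsq : (A * √(∫ y, f y ^ 2 ∂μ)) ^ 2 = A ^ 2 * ∫ y, f y ^ 2 ∂μ := by
      rw [mul_pow, Real.sq_sqrt]
      exact integral_nonneg fun y => sq_nonneg _
    rw [hsq] at hdual
    have h1 : ∑ i ∈ s, (δ / 2) ^ 2 * (R0 / b ^ k i) ^ n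
        ≤ ∑ i ∈ s, (Wf n μ f (fun y => ψ i y • e i)) ^ 2 / (R0 / b ^ k i) ^ n := by
      refine Finset.sum_le_sum fun i hi => ?_
      have hr0 : 0 < (R0 / b ^ k i) ^ n := by
        have := hrpos (k i); positivity
      rw [le_div_iff₀ hr0, ← sq_abs (Wf n μ f _)]
      have := hlow i hi
      calc (δ / 2) ^ 2 * (R0 / b ^ k i) ^ n * (R0 / b ^ k i) ^ n
          = (δ / 2 * (R0 / b ^ k i) ^ n) ^ 2 := by ring
        _ ≤ |Wf n μ f (fun y => ψ i y • e i)| ^ 2 := by
            exact pow_le_pow_left₀ (by positivity) this 2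
    rw [← Finset.mul_sum] at h1
    have h2 : (δ / 2) ^ 2 * ∑ i ∈ s, (R0 / b ^ k i) ^ n
        ≤ Crow * (A ^ 2 * (C * (8 * Λ) ^ n * R0 ^ n)) := by
      refine h1.trans (hdual.trans ?_)
      gcongr
    have h3 : ∑ i ∈ s, (R0 / b ^ k i) ^ n
        ≤ 4 / δ ^ 2 * (Crow * (A ^ 2 * (C * (8 * Λ) ^ n * R0 ^ n))) := by
      have h4 : (δ / 2) ^ 2 = δ ^ 2 / 4 := by ring
      rw [h4] at h2
      have h5 : ∑ i ∈ s, (R0 / b ^ k i) ^ n
          = 4 / δ ^ 2 * (δ ^ 2 / 4 * ∑ i ∈ s, (R0 / b ^ k i) ^ n) := by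
        field_simp
      rw [h5]
      exact mul_le_mul_of_nonneg_left h2 (by positivity)
    refine h3.trans ?_
    have h6 : 4 / δ ^ 2 * (Crow * (A ^ 2 * (C * (8 * Λ) ^ n * R0 ^ n)))
        = 4 / δ ^ 2 * (Crow * (A ^ 2 * (C * (8 * Λ) ^ n))) * R0 ^ n := by ring
    rw [h6]
    refine mul_le_mul_of_nonneg_right ?_ (by positivity)
    refine mul_le_mul_of_nonneg_left ?_ (by positivity)
    linarith
  · intro a
    rw [← wf_sum hU hfT s a _ hXT]
    refine (hW f _ hfT (isTestV_sum s a _ hXT)).trans (le_of_eq ?_)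
    rw [integral_norm_sq_sum s ψ e a hψT]

end Crest.Agent.R085.Pack
end

-- ▼ part R085/WeakRiesz2
section

/-!
R085 (S0113), module M2(a), second part: linearity of `Wf` in the field and the far-field
comparison between the truncated form `Bf n μ N (lin e) ψ` and the weak form `Wf n μ f (ψ e)`.
-/

set_option autoImplicit false

namespace Crest.Agent.R085

open MeasureTheory Metric Set Filter
open scoped ENNReal NNReal Topology
open Touch

variable {d n : ℕ} {μ : Measure (V d)} {C A : ℝ}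

/-! ### closure properties of test functions and test fields -/

theorem IsTest.smul_vec {ψ : V d → ℝ} (hψ : IsTest ψ) (e : V d) :
    IsTestV (fun y => ψ y • e) := by
  obtain ⟨K, hK⟩ := hψ.lip
  refine ⟨⟨K * ‖e‖₊, ?_⟩, ?_⟩
  · refine LipschitzWith.of_dist_le_mul (fun x y => ?_)
    rw [dist_eq_norm, ← sub_smul, norm_smul, ← dist_eq_norm]
    calc dist (ψ x) (ψ y) * ‖e‖ ≤ (K * dist x y) * ‖e‖ := by
          gcongr; exact hK.dist_le_mul x y
      _ = ((K * ‖e‖₊ : ℝ≥0) : ℝ) * dist x y := by push_cast; ring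
  · exact hψ.cpt.smul_right

theorem isTestV_zero : IsTestV (fun _ : V d => (0 : V d)) :=
  ⟨⟨0, LipschitzWith.const' 0⟩, HasCompactSupport.zero⟩

theorem IsTestV.add {X Y : V d → V d} (hX : IsTestV X) (hY : IsTestV Y) :
    IsTestV (fun y => X y + Y y) := by
  obtain ⟨K, hK⟩ := hX.lip
  obtain ⟨L, hL⟩ := hY.lip
  exact ⟨⟨K + L, hK.add hL⟩, hX.cpt.add hY.cpt⟩

theorem IsTestV.const_smul {X : V d → V d} (hX : IsTestV X) (a : ℝ) :
    IsTestV (fun y => a • X y) := by
  obtain ⟨K, hK⟩ := hX.lip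
  refine ⟨⟨‖a‖₊ * K, ?_⟩, ?_⟩
  · refine LipschitzWith.of_dist_le_mul (fun x y => ?_)
    rw [dist_eq_norm, ← smul_sub, norm_smul, ← dist_eq_norm]
    calc ‖a‖ * dist (X x) (X y) ≤ ‖a‖ * (K * dist x y) := by
          gcongr; exact hK.dist_le_mul x y
      _ = ((‖a‖₊ * K : ℝ≥0) : ℝ) * dist x y := by push_cast; ring
  · exact hX.cpt.smul_left (f := fun _ => a)

theorem IsTestV.sum {ι : Type*} (s : Finset ι) (a : ι → ℝ) {X : ι → V d → V d}
    (hX : ∀ i ∈ s, IsTestV (X i)) : IsTestV (fun y => ∑ i ∈ s, a i • X i y) := by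
  classical
  induction s using Finset.induction_on with
  | empty => simpa using isTestV_zero
  | insert i s hi ih =>
    simp_rw [Finset.sum_insert hi]
    exact ((hX i (Finset.mem_insert_self i s)).const_smul (a i)).add
      (ih fun j hj => hX j (Finset.mem_insert_of_mem hj))

/-! ### linearity -/



/-! ### comparison of `Bf` and `Wf` -/

/-- one half of the difference of the two kernels. -/
noncomputable def cker (n : ℕ) (N : ℝ) (e : V d) (f ψ : V d → ℝ) (p : V d × V d) : ℝ :=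
  ψ p.1 * (inner ℝ (p.1 - p.2) e * kN n N (p.1 - p.2) -
    f p.2 * (inner ℝ (p.1 - p.2) e * (‖p.1 - p.2‖ ^ (n + 1))⁻¹))

theorem cker_add_swap (N : ℝ) (e : V d) (f ψ : V d → ℝ) (p : V d × V d) :
    bfI n N (lin e) ψ p - wker n f (fun y => ψ y • e) p =
      cker n N e f ψ p + cker n N e f ψ p.swap := by
  unfold bfI wker cker lin
  simp only [Prod.fst_swap, Prod.snd_swap]
  rw [kN_sub_comm n N p.2 p.1, norm_sub_rev p.2 p.1, ← inner_sub_left, ← neg_sub p.1 p.2,
    inner_neg_left]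
  have e1 : inner ℝ (f p.2 • ψ p.1 • e - f p.1 • ψ p.2 • e) (p.1 - p.2) =
      (f p.2 * ψ p.1 - f p.1 * ψ p.2) * inner ℝ (p.1 - p.2) e := by
    rw [smul_smul, smul_smul, ← sub_smul, real_inner_smul_left, real_inner_comm]
  rw [e1]; ring

theorem abs_inner_k_sub_le {u v : V d} {m : ℝ} (hm : 0 < m) (hu : m ≤ ‖u‖)
    (hv : m ≤ ‖v‖) (e : V d) (he : ‖e‖ ≤ 1) :
    |inner ℝ u e * (‖u‖ ^ (n + 1))⁻¹ - inner ℝ v e * (‖v‖ ^ (n + 1))⁻¹| ≤
      (n + 4) * ‖u - v‖ / m ^ (n + 1) := by
  have hN : 0 < max ‖u‖ ‖v‖ := (hm.trans_le hu).trans_le (le_max_left _ _)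
  have h := abs_inner_kN_sub_le (n := n) hN hm hu hv e he
  rwa [kN_eq hN (le_max_left _ _), kN_eq hN (le_max_right _ _)] at h

theorem abs_inner_mul_k_le (e z : V d) (he : ‖e‖ ≤ 1) :
    |inner ℝ z e * (‖z‖ ^ (n + 1))⁻¹| ≤ (‖z‖ ^ n)⁻¹ := by
  rcases eq_or_ne z 0 with rfl | hz
  · simp
  have hN : 0 < ‖z‖ := norm_pos_iff.2 hz
  have h := abs_inner_mul_kN_le (n := n) ‖z‖ e z he
  rwa [kN_eq hN le_rfl] at h

section compare

variable {x0 e : V d} {R ρ N : ℝ} {ψ f : V d → ℝ}

theorem cker_eq_zero_of_left (hψR : ∀ y, y ∉ ball x0 R → ψ y = 0) {p : V d × V d}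
    (hp : p.1 ∉ ball x0 R) : cker n N e f ψ p = 0 := by
  unfold cker; rw [hψR _ hp, zero_mul]

theorem cker_eq_zero_of_near (hR : 0 < R) (hRρ : R ≤ ρ) (hN : 3 * ρ ≤ N)
    (hψR : ∀ y, y ∉ ball x0 R → ψ y = 0)
    (hf1 : ∀ y ∈ ball x0 (2 * ρ), f y = 1) {p : V d × V d} (hp : p.2 ∈ ball x0 (2 * ρ)) :
    cker n N e f ψ p = 0 := by
  by_cases h1 : p.1 ∈ ball x0 R
  · have hd : ‖p.1 - p.2‖ ≤ N := by
      rw [← dist_eq_norm]
      have := dist_triangle_right p.1 p.2 x0
      rw [mem_ball] at h1 hp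
      linarith
    unfold cker
    rw [hf1 _ hp, kN_eq (by linarith) hd]; ring
  · exact cker_eq_zero_of_left hψR h1

theorem cker_diff_bound (hR : 0 < R) (hRρ : R ≤ ρ) (hN : 3 * ρ ≤ N)
    (hψR : ∀ y, y ∉ ball x0 R → ψ y = 0) (hf0 : ∀ y, |f y| ≤ 1) (he : ‖e‖ ≤ 1)
    (x y : V d) (hy : 2 * ρ ≤ dist x0 y) :
    |cker n N e f ψ (x, y) - ψ x * (inner ℝ (x0 - y) e * kN n N (x0 - y) -
    f y * (inner ℝ (x0 - y) e * (‖x0 - y‖ ^ (n + 1))⁻¹))| ≤
      |ψ x| * (2 * ((n + 4) * R * 2 ^ (n + 1)) * (dist x0 y ^ (n + 1))⁻¹) := by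
  by_cases hx : x ∈ ball x0 R
  · have hN0 : 0 < N := by linarith
    set m : ℝ := dist x0 y / 2 with hm
    have hm0 : 0 < m := by rw [hm]; linarith
    have h1 : m ≤ ‖x - y‖ := by
      rw [← dist_eq_norm]
      have := dist_triangle_left x0 y x
      rw [mem_ball] at hx
      rw [hm]; linarith
    have h2 : m ≤ ‖x0 - y‖ := by rw [← dist_eq_norm, hm]; linarith
    have h3 : ‖(x - y) - (x0 - y)‖ ≤ R := by
      rw [sub_sub_sub_cancel_right, ← dist_eq_norm]
      exact (mem_ball.1 hx).le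
    have k1 := abs_inner_kN_sub_le (n := n) hN0 hm0 h1 h2 e he
    have k2 := abs_inner_k_sub_le (n := n) hm0 h1 h2 e he
    have k3 : (n + 4) * ‖(x - y) - (x0 - y)‖ / m ^ (n + 1) ≤
        (n + 4) * R * 2 ^ (n + 1) * (dist x0 y ^ (n + 1))⁻¹ := by
      have : m ^ (n + 1) = dist x0 y ^ (n + 1) / 2 ^ (n + 1) := by rw [hm, div_pow]
      rw [this, div_div_eq_mul_div, div_eq_mul_inv]
      gcongr
    unfold cker
    rw [← mul_sub, abs_mul]
    gcongr
    simp only
    set a := inner ℝ (x - y) e * kN n N (x - y)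
    set b := inner ℝ (x0 - y) e * kN n N (x0 - y)
    set a' := inner ℝ (x - y) e * (‖x - y‖ ^ (n + 1))⁻¹
    set b' := inner ℝ (x0 - y) e * (‖x0 - y‖ ^ (n + 1))⁻¹
    have e1 : a - f y * a' - (b - f y * b') = (a - b) - f y * (a' - b') := by ring
    rw [e1]
    calc |(a - b) - f y * (a' - b')| ≤ |a - b| + |f y * (a' - b')| := abs_sub _ _
      _ = |a - b| + |f y| * |a' - b'| := by rw [abs_mul]
      _ ≤ (n + 4) * R * 2 ^ (n + 1) * (dist x0 y ^ (n + 1))⁻¹ +
          1 * ((n + 4) * R * 2 ^ (n + 1) * (dist x0 y ^ (n + 1))⁻¹) := by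
          gcongr
          · exact k1.trans k3
          · exact hf0 y
          · exact k2.trans k3
      _ = _ := by ring
  · rw [cker_eq_zero_of_left hψR (p := (x, y)) hx, hψR _ hx]; simp

theorem measurable_cker (hf : Measurable f) (hψ : Measurable ψ) :
    Measurable (cker n N e f ψ) := by
  unfold cker
  have m0 : Measurable (fun p : V d × V d => p.1 - p.2) := measurable_fst.sub measurable_snd
  have m1 : Measurable (fun p : V d × V d => inner ℝ (p.1 - p.2) e) :=
    Continuous.measurable (by fun_prop)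
  have m2 : Measurable (fun p : V d × V d => (‖p.1 - p.2‖ ^ (n + 1))⁻¹) :=
    (m0.norm.pow_const _).inv
  exact (hψ.comp measurable_fst).mul ((m1.mul ((measurable_kN n N).comp m0)).sub
    ((hf.comp measurable_snd).mul (m1.mul m2)))

theorem abs_cker_le (hR : 0 < R) (hRρ : R ≤ ρ) (hN : 3 * ρ ≤ N)
    (hψR : ∀ y, y ∉ ball x0 R → ψ y = 0)
    (hf1 : ∀ y ∈ ball x0 (2 * ρ), f y = 1) (hf0 : ∀ y, |f y| ≤ 1) (he : ‖e‖ ≤ 1)
    (p : V d × V d) : |cker n N e f ψ p| ≤ |ψ p.1| * (2 * (ρ ^ n)⁻¹) := by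
  by_cases h2 : p.2 ∈ ball x0 (2 * ρ)
  · rw [cker_eq_zero_of_near hR hRρ hN hψR hf1 h2, abs_zero]
    have : 0 < ρ := hR.trans_le hRρ
    positivity
  by_cases h1 : p.1 ∈ ball x0 R
  · have hρ0 : 0 < ρ := hR.trans_le hRρ
    have hd : ρ ≤ ‖p.1 - p.2‖ := by
      rw [← dist_eq_norm]
      have := dist_triangle_left p.2 x0 p.1
      rw [mem_ball] at h1
      rw [mem_ball, not_lt] at h2
      linarith
    unfold cker
    rw [abs_mul]
    gcongr
    calc _ ≤ |inner ℝ (p.1 - p.2) e * kN n N (p.1 - p.2)| +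
          |f p.2 * (inner ℝ (p.1 - p.2) e * (‖p.1 - p.2‖ ^ (n + 1))⁻¹)| := abs_sub _ _
      _ ≤ (‖p.1 - p.2‖ ^ n)⁻¹ + 1 * (‖p.1 - p.2‖ ^ n)⁻¹ := by
          rw [abs_mul (f p.2)]
          gcongr
          · exact abs_inner_mul_kN_le _ _ _ he
          · exact hf0 _
          · exact abs_inner_mul_k_le _ _ he
      _ = 2 * (‖p.1 - p.2‖ ^ n)⁻¹ := by ring
      _ ≤ 2 * (ρ ^ n)⁻¹ := by gcongr
  · rw [cker_eq_zero_of_left hψR h1, hψR _ h1]; simp

theorem integrable_cker (hU : UpperReg n C μ) (hR : 0 < R) (hRρ : R ≤ ρ) (hN : 3 * ρ ≤ N)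
    (hψ : IsTest ψ) (hψR : ∀ y, y ∉ ball x0 R → ψ y = 0) (hf : IsTest f)
    (hf1 : ∀ y ∈ ball x0 (2 * ρ), f y = 1) (hf0 : ∀ y, |f y| ≤ 1) (he : ‖e‖ ≤ 1) :
    Integrable (cker n N e f ψ) (μ.prod μ) := by
  have := Touch.lf_of_upper hU
  have hρ0 : 0 < ρ := hR.trans_le hRρ
  obtain ⟨S1, hS1⟩ := hf.cpt.isCompact.isBounded.subset_ball x0
  set S : ℝ := max S1 (R + 2 * N) with hS
  obtain ⟨B, hB⟩ := hψ.cont.bounded_above_of_compact_support hψ.cpt
  have hB0 : 0 ≤ B := (norm_nonneg _).trans (hB 0)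
  have hfin : (μ.prod μ) (ball x0 R ×ˢ ball x0 S) < ⊤ := by
    rw [Measure.prod_prod]
    exact ENNReal.mul_lt_top (hU.ball_lt_top _ _) (hU.ball_lt_top _ _)
  have hI : Integrable ((ball x0 R ×ˢ ball x0 S).indicator
      (fun _ => B * (2 * (ρ ^ n)⁻¹))) (μ.prod μ) := by
    rw [integrable_indicator_iff (measurableSet_ball.prod measurableSet_ball)]
    exact integrableOn_const hfin.ne
  refine hI.mono' (measurable_cker hf.cont.measurable
    hψ.cont.measurable).aestronglyMeasurable (Eventually.of_forall fun p => ?_)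
  rw [Real.norm_eq_abs]
  by_cases hp : p ∈ ball x0 R ×ˢ ball x0 S
  · rw [indicator_of_mem hp]
    refine (abs_cker_le hR hRρ hN hψR hf1 hf0 he p).trans ?_
    gcongr
    exact hB _
  · rw [indicator_of_notMem hp]
    simp only [mem_prod, not_and_or] at hp
    rcases hp with hp | hp
    · rw [cker_eq_zero_of_left hψR hp, abs_zero]
    · by_cases h1 : p.1 ∈ ball x0 R
      · have hf2 : f p.2 = 0 := by
          by_contra h
          exact hp (ball_subset_ball (le_max_left _ _) (hS1 (subset_tsupport _ h)))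
        have hk : kN n N (p.1 - p.2) = 0 := by
          apply kN_eq_zero (by linarith)
          rw [← dist_eq_norm]
          have h3 := dist_triangle_left p.2 x0 p.1
          have h4 : S ≤ dist p.2 x0 := by
            rw [mem_ball, not_lt] at hp
            exact hp
          have h5 : R + 2 * N ≤ S := le_max_right _ _
          rw [mem_ball] at h1
          linarith
        unfold cker
        rw [hf2, hk]; simp
      · rw [cker_eq_zero_of_left hψR h1, abs_zero]

/-- **Far-field comparison**. -/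
theorem Bf_sub_Wf_le (hn : 1 ≤ n) (hC : 0 ≤ C) (hU : UpperReg n C μ) (hR : 0 < R) (hRρ : R ≤ ρ)
    (hN : 3 * ρ ≤ N) (hψ : IsTest ψ) (hψR : ∀ y, y ∉ ball x0 R → ψ y = 0)
    (hψ0 : ∫ y, ψ y ∂μ = 0) (hf : IsTest f)
    (hf1 : ∀ y ∈ ball x0 (2 * ρ), f y = 1) (hf0 : ∀ y, |f y| ≤ 1) (he : ‖e‖ ≤ 1) :
    |Bf n μ N (lin e) ψ - Wf n μ f (fun y => ψ y • e)| ≤
      (n + 4) * 4 ^ (n + 1) * C * (R / ρ) * ∫ y, |ψ y| ∂μ := by
  have := Touch.lf_of_upper hU
  have hρ0 : 0 < ρ := hR.trans_le hRρ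
  have hN0 : 0 < N := by linarith
  obtain ⟨K, hK⟩ := hψ.lip
  have hψI : Integrable ψ μ := hψ.cont.integrable_of_hasCompactSupport hψ.cpt
  have hI := integrable_cker (n := n) (e := e) hU hR hRρ hN hψ hψR hf hf1 hf0 he
  have hB : Integrable (bfI n N (lin e) ψ) (μ.prod μ) := by
    refine integrable_bfI hn hC hU hN0 (L := ‖e‖) (K := K) (norm_nonneg _) K.2 ?_ ?_ ?_
      hψ.cont.measurable (c := x0) (R := R) ?_
    · intro x y
      unfold lin
      rw [← inner_sub_left, dist_eq_norm, mul_comm]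
      exact abs_real_inner_le_norm _ _
    · intro x y
      have := hK.dist_le_mul x y
      rwa [Real.dist_eq] at this
    · exact Continuous.measurable (by unfold lin; fun_prop)
    · intro y hy
      exact hψR y (fun h => hy (ball_subset_closedBall h))
  have hW := integrable_wker hU hf (hψ.smul_vec e)
  have e1 : Bf n μ N (lin e) ψ - Wf n μ f (fun y => ψ y • e) =
      ∫ p, cker n N e f ψ p ∂(μ.prod μ) := by
    rw [Bf_eq, Wf, ← mul_sub, ← integral_sub hB hW]
    simp_rw [cker_add_swap]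
    have h2 := integral_add hI hI.swap
    simp only [Function.comp_def] at h2
    rw [h2]
    have h3 : ∫ p : V d × V d, cker n N e f ψ p.swap ∂(μ.prod μ) =
        ∫ p, cker n N e f ψ p ∂(μ.prod μ) := integral_prod_swap _
    rw [h3]; ring
  rw [e1, integral_prod_symm _ hI]
  have hT := integrableOn_tail hU hC (m := 1) le_rfl x0 (r := 2 * ρ) (by positivity)
  set c0 : ℝ := (∫ y, |ψ y| ∂μ) * (2 * ((n + 4) * R * 2 ^ (n + 1))) with hc0
  have hms : MeasurableSet {y : V d | 2 * ρ ≤ dist x0 y} :=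
    (isClosed_le continuous_const (by fun_prop)).measurableSet
  have hinner : ∀ y, ‖∫ x, cker n N e f ψ (x, y) ∂μ‖ ≤
      {y : V d | 2 * ρ ≤ dist x0 y}.indicator (fun y => c0 * (dist x0 y ^ (n + 1))⁻¹) y := by
    intro y
    by_cases hy : 2 * ρ ≤ dist x0 y
    · rw [indicator_of_mem (s := {y : V d | 2 * ρ ≤ dist x0 y}) hy]
      set G0 : ℝ := inner ℝ (x0 - y) e * kN n N (x0 - y) -
        f y * (inner ℝ (x0 - y) e * (‖x0 - y‖ ^ (n + 1))⁻¹) with hG0
      have hc : Integrable (fun x => cker n N e f ψ (x, y)) μ := by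
        refine (hψI.abs.mul_const (2 * (ρ ^ n)⁻¹)).mono' ?_ (Eventually.of_forall fun x => ?_)
        · exact ((measurable_cker hf.cont.measurable hψ.cont.measurable).comp
            (measurable_id.prodMk measurable_const)).aestronglyMeasurable
        · rw [Real.norm_eq_abs]
          exact abs_cker_le hR hRρ hN hψR hf1 hf0 he (x, y)
      have e2 : ∫ x, cker n N e f ψ (x, y) ∂μ = ∫ x, (cker n N e f ψ (x, y) - ψ x * G0) ∂μ := by
        rw [integral_sub hc (hψI.mul_const _), integral_mul_const, hψ0]; ring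
      rw [e2]
      have hb := norm_integral_le_of_norm_le
        (hψI.abs.mul_const (2 * ((n + 4) * R * 2 ^ (n + 1)) * (dist x0 y ^ (n + 1))⁻¹))
        (Eventually.of_forall fun x => by
          rw [Real.norm_eq_abs]
          exact cker_diff_bound hR hRρ hN hψR hf0 he x y hy)
      refine hb.trans (le_of_eq ?_)
      rw [integral_mul_const, hc0]; ring
    · rw [indicator_of_notMem (s := {y : V d | 2 * ρ ≤ dist x0 y}) hy]
      have h2 : y ∈ ball x0 (2 * ρ) := by
        rw [mem_ball, dist_comm]; exact not_le.1 hy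
      have : ∀ x, cker n N e f ψ (x, y) = 0 := fun x =>
        cker_eq_zero_of_near hR hRρ hN hψR hf1 (p := (x, y)) h2
      simp [this]
  have hIT : Integrable ({y : V d | 2 * ρ ≤ dist x0 y}.indicator
      (fun y => c0 * (dist x0 y ^ (n + 1))⁻¹)) μ := by
    rw [integrable_indicator_iff hms]
    exact hT.1.const_mul c0
  rw [← Real.norm_eq_abs]
  refine (norm_integral_le_of_norm_le hIT (Eventually.of_forall hinner)).trans ?_
  rw [integral_indicator hms, integral_const_mul]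
  have hc00 : 0 ≤ c0 := by
    rw [hc0]
    have : 0 ≤ ∫ y, |ψ y| ∂μ := integral_nonneg fun _ => abs_nonneg _
    positivity
  calc c0 * ∫ y in {y : V d | 2 * ρ ≤ dist x0 y}, (dist x0 y ^ (n + 1))⁻¹ ∂μ
      ≤ c0 * (C * 2 ^ (n + 1) / (2 * ρ) ^ 1) := by
        gcongr
        exact hT.2
    _ = (n + 4) * 4 ^ (n + 1) * C * (R / ρ) * ∫ y, |ψ y| ∂μ := by
        have h4 : (4 : ℝ) ^ (n + 1) = 2 ^ (n + 1) * 2 ^ (n + 1) := by
          rw [← mul_pow]; norm_num
        rw [hc0, h4]
        field_simp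

end compare

end Crest.Agent.R085
end

-- ▼ part R085/PackMain
section

/-!
R085 / M2 : final packing theorems.

* `packing` : finite families of places with large Riesz oscillation.
* `packing_measure` : outer-measure form.
-/

set_option autoImplicit false

namespace Crest.Agent.R085

open MeasureTheory Metric Set Filter
open scoped ENNReal NNReal Topology

theorem Pack.farComp {d n : ℕ} (hn : 1 ≤ n) {C : ℝ} (hC : 0 ≤ C) : Pack.FarComp d n C := by
  refine ⟨(n + 4) * 4 ^ (n + 1) * C * C + 1, by positivity, ?_⟩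
  intro μ hU x r M ρ f e ψ hr hM hρ he hf hf01 hf1 hψL hψ1 hψs hψ0
  have hM0 : 0 < M := by linarith
  have hMr : 0 < M * r := by positivity
  have hρ0 : 0 < ρ := by linarith
  have hψT : IsTest ψ := Pack.isTest_of hr hψL hψs
  filter_upwards [eventually_ge_atTop (3 * ρ)] with N hN
  have h1 := Bf_sub_Wf_le (n := n) (μ := μ) (C := C) (x0 := x) (e := e) (R := M * r) (ρ := ρ)
    (N := N) hn hC hU hMr (by linarith) hN hψT hψs hψ0 hf hf1
    (fun y => by rw [abs_of_nonneg (hf01 y).1]; exact (hf01 y).2) he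
  refine h1.trans ?_
  have h2 : ∫ y, |ψ y| ∂μ ≤ C * (M * r) ^ n := by
    have e1 : ∫ y, |ψ y| ∂μ = ∫ y in ball x (M * r), |ψ y| ∂μ := by
      rw [setIntegral_eq_integral_of_forall_compl_eq_zero]
      intro z hz
      rw [hψs z hz, abs_zero]
    rw [e1]
    have hfin : μ (ball x (M * r)) < ∞ := lt_of_le_of_lt (hU x _ hMr) ENNReal.ofReal_lt_top
    have h3 : ‖∫ y in ball x (M * r), |ψ y| ∂μ‖ ≤ 1 * μ.real (ball x (M * r)) := by
      refine norm_setIntegral_le_of_norm_le_const hfin fun z _ => ?_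
      rw [Real.norm_eq_abs, abs_abs]
      exact hψ1 z
    refine (le_abs_self _).trans ?_
    rw [Real.norm_eq_abs, one_mul] at h3
    refine h3.trans ?_
    rw [measureReal_def]
    exact ENNReal.toReal_le_of_le_ofReal (by positivity) (hU x _ hMr)
  calc (n + 4) * 4 ^ (n + 1) * C * (M * r / ρ) * ∫ y, |ψ y| ∂μ
      ≤ (n + 4) * 4 ^ (n + 1) * C * (M * r / ρ) * (C * (M * r) ^ n) :=
        mul_le_mul_of_nonneg_left h2 (by positivity)
    _ = ((n + 4) * 4 ^ (n + 1) * C * C) * (M * r / ρ) * (M * r) ^ n := by ring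
    _ ≤ ((n + 4) * 4 ^ (n + 1) * C * C + 1) * (M * r / ρ) * (M * r) ^ n := by
        gcongr
        linarith

/-- M2 (packing of the places with large Riesz oscillation). -/
theorem packing (d n : ℕ) (hn : 1 ≤ n) (C A M δ σ : ℝ) (hC1 : 1 ≤ C) (hA : 0 ≤ A)
    (hM : 1 ≤ M) (hδ : 0 < δ) (hσ : 0 < σ) (hσ1 : σ ≤ 1) :
    ∃ K : ℝ, 0 < K ∧ ∀ (μ : Measure (V d)) (D : ℝ≥0∞), ADR n C D μ → WeakRiesz n A μ →
      ∀ (x0 : V d) (R0 b : ℝ), 0 < R0 → 2 ≤ b → ∀ (ι : Type) (s : Finset ι) (x : ι → V d)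
        (k : ι → ℕ),
        (∀ i ∈ s, x i ∈ μ.support ∧ dist (x i) x0 ≤ R0 ∧ ENNReal.ofReal (R0 / b ^ k i) ≤ D ∧
          ¬ EtaS n μ (x i) (R0 / b ^ k i) M δ) →
        (∀ i ∈ s, ∀ j ∈ s, i ≠ j → k i = k j → σ * (R0 / b ^ k i) ≤ dist (x i) (x j)) →
        ∑ i ∈ s, (R0 / b ^ k i) ^ n ≤ K * R0 ^ n :=
  Pack.packing_of_farComp hC1 hA hM hδ hσ hσ1 (Pack.farComp hn (by linarith))


end Crest.Agent.R085
end

-- ▼ part R085/Abund

/-!
# R085, module M5 (abundance of flatness): `TFlatSomewhere → TAbundance`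
-/

set_option autoImplicit false
set_option linter.unusedSectionVars false

open MeasureTheory Filter Topology Metric Set
open scoped ENNReal NNReal

namespace Crest.Agent.R085

/-- **M5**: small oscillation in a large window gives a flat window of comparable size. -/
theorem abundance {n d : ℕ} (hn : 1 ≤ n) {C ε : ℝ} (hε : 0 < ε) (hFS : TFlatSomewhere n d C) :
    TAbundance n d C ε := by
  classical
  unfold TAbundance
  by_contra hcon
  push Not at hcon
  -- the contradiction sequence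
  have hδ : ∀ k : ℕ, 0 < ((k : ℝ) + 2)⁻¹ ∧ ((k : ℝ) + 2)⁻¹ < 1 := by
    intro k
    have : (0 : ℝ) ≤ k := Nat.cast_nonneg k
    exact ⟨by positivity, inv_lt_one_of_one_lt₀ (by linarith)⟩
  have hcon' := fun k : ℕ => hcon _ (hδ k).1 (hδ k).2
  choose μ D x ρ hA hρ hD hx hE hno using hcon'
  -- rescaling
  set m : ℕ → Measure (V d) := fun k => resc n (x k) (ρ k) (μ k) with hm
  set D' : ℕ → ℝ≥0∞ := fun k => ENNReal.ofReal ((k : ℝ) + 2) with hD'
  have hAm : ∀ k, ADR n C (D' k) (m k) := by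
    intro k
    apply (hA k).resc (x k) (hρ k)
    rw [hD', ← ENNReal.ofReal_mul (hρ k).le]
    have := hD k
    rwa [div_inv_eq_mul] at this
  have hsf : ∀ k, SFinite (μ k) := by
    intro k
    have := (hA k).isLocallyFiniteMeasure
    infer_instance
  have hEm : ∀ k : ℕ, EtaS n (m k) 0 1 ((k : ℝ) + 2) ((k : ℝ) + 2)⁻¹ := by
    intro k
    have := hsf k
    rw [hm, EtaS_resc (x k) (hρ k) 0 one_pos, smul_zero, add_zero, mul_one]
    have := hE k
    rwa [inv_inv] at this
  -- the limit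
  set U : Ultrafilter ℕ := hyperfilter ℕ with hU
  have hUtop : (U : Filter ℕ) ≤ atTop := Nat.hyperfilter_le_atTop
  have hDlim : ∀ s : ℝ, ENNReal.ofReal s < ⊤ → ∀ᶠ k in (U : Filter ℕ),
      ENNReal.ofReal s ≤ D' k := by
    intro s _
    apply hUtop
    filter_upwards [eventually_ge_atTop ⌈s⌉₊] with k hk
    apply ENNReal.ofReal_le_ofReal
    have h1 : s ≤ (k : ℝ) := (Nat.le_ceil s).trans (by exact_mod_cast hk)
    linarith
  obtain ⟨ν, hν, hνA⟩ := exists_wLim_adr U m hAm hDlim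
  have hνR : Refl n ν := by
    refine refl_of_wLim hn hν (C := C) (Eventually.of_forall fun k => (hAm k).upperReg) ?_
    intro M δ hM hδ
    apply hUtop
    filter_upwards [eventually_ge_atTop ⌈M⌉₊, eventually_ge_atTop ⌈δ⁻¹⌉₊] with k hk1 hk2
    have h1 : M ≤ (k : ℝ) := (Nat.le_ceil M).trans (by exact_mod_cast hk1)
    have h2 : δ⁻¹ ≤ (k : ℝ) := (Nat.le_ceil δ⁻¹).trans (by exact_mod_cast hk2)
    refine (hEm k).mono zero_le_one (by linarith) ?_
    rw [inv_le_comm₀ (by positivity) hδ]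
    linarith
  have h0 : (0 : V d) ∈ ν.support := by
    refine hν.mem_support_adr (C := C) (D := D') (Eventually.of_forall hAm) one_pos
      (hDlim 1 ENNReal.ofReal_lt_top) (x := fun _ => 0) tendsto_const_nhds
      (Eventually.of_forall fun k => ?_)
    rw [hm, mem_support_resc n (x k) (hρ k), smul_zero, add_zero]
    exact hx k
  -- a flat place of the limit
  set M : ℝ := max ((ε ^ 3)⁻¹) 1 with hM
  have hM1 : 1 ≤ M := le_max_right _ _
  set ε' : ℝ := ε / (2 * (2 * M) ^ (n + 2)) with hε'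
  have hε'0 : 0 < ε' := by positivity
  obtain ⟨y, hy, hyr, s', hs', hs'r, g, b, hgb⟩ := hFS ν hνA hνR 0 h0 (1 / 64) (by norm_num) ε' hε'0
  obtain ⟨yk, hyk1, hyk2⟩ := hν.exists_tendsto_support hy
  set s : ℝ := s' / (2 * M) with hs
  have hs0 : 0 < s := by positivity
  have hMs : M * s = s' / 2 := by rw [hs]; field_simp
  have hcont : Continuous fun z : V d => nsq n (g z - b) :=
    (continuous_nsq n).comp (g.continuous.sub continuous_const)
  have hint : ∫ z in ball y s', nsq n (g z - b) ∂ν < ε ^ 2 * s ^ (n + 2) := by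
    refine hgb.trans_lt ?_
    have e1 : s' = 2 * M * s := by rw [hs]; field_simp
    have hp : 1 ≤ (2 * M) ^ (n + 2) := one_le_pow₀ (by linarith)
    have e2 : ε' ^ 2 * s' ^ (n + 2) = ε ^ 2 * s ^ (n + 2) / (4 * (2 * M) ^ (n + 2)) := by
      rw [hε', e1, mul_pow]
      field_simp
      ring_nf
    rw [e2]
    apply div_lt_self (by positivity)
    linarith
  have hev := hν.eventually_setIntegral_lt hcont (fun z => nsq_nonneg n _) hyk2
    (s := s') (s' := M * s) (by rw [hMs]; linarith) hint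
  have hball : ∀ᶠ k in (U : Filter ℕ), yk k ∈ ball (0 : V d) (1 / 64) :=
    hyk2 (isOpen_ball.mem_nhds hyr)
  have hsk : ∀ᶠ k : ℕ in (U : Filter ℕ), ((k : ℝ) + 2)⁻¹ ≤ s := by
    apply hUtop
    filter_upwards [eventually_ge_atTop ⌈s⁻¹⌉₊] with k hk
    have h1 : s⁻¹ ≤ (k : ℝ) := (Nat.le_ceil s⁻¹).trans (by exact_mod_cast hk)
    rw [inv_le_comm₀ (by positivity) hs0]
    linarith
  obtain ⟨k, hk1, hk2, hk3, hk4⟩ := (hev.and (hball.and (hsk.and hyk1))).exists
  have hflat : FlatW n (m k) (yk k) s ε (ε ^ 3)⁻¹ := by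
    refine ⟨g, b, fun R hR1 hR2 => ?_⟩
    have hRM : R ≤ M * s := hR2.trans (by gcongr; exact le_max_left _ _)
    have hR0 : 0 < R := hs0.trans_le hR1
    have hlfk := (hAm k).isLocallyFiniteMeasure
    calc ∫ z in ball (yk k) R, nsq n (g z - b) ∂(m k)
        ≤ ∫ z in ball (yk k) (M * s), nsq n (g z - b) ∂(m k) := by
          apply setIntegral_mono_set
          · exact WLim.aux_integrableOn hlfk hcont _ _
          · exact Eventually.of_forall fun z => nsq_nonneg n _
          · exact (ball_subset_ball hRM).eventuallyLE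
      _ ≤ ε ^ 2 * s ^ (n + 2) := hk1.le
      _ = ε ^ 2 * 1 * s ^ (n + 2) := by ring
      _ ≤ ε ^ 2 * (R / s) * R ^ (n + 2) := by
          have : 1 ≤ R / s := by rwa [one_le_div hs0]
          gcongr
  rw [hm, FlatW_resc (x k) (hρ k)] at hflat
  rw [hm, mem_support_resc n (x k) (hρ k)] at hk4
  refine hno k _ hk4 ?_ (ρ k * s) ?_ ?_ hflat
  · rw [dist_self_add_right, norm_smul, Real.norm_of_nonneg (hρ k).le]
    rw [mem_ball_zero_iff] at hk2
    have := (mul_lt_mul_of_pos_left hk2 (hρ k)).le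
    linarith
  · rw [mul_comm]
    exact mul_le_mul_of_nonneg_left hk3 (hρ k).le
  · have h1 : s ≤ 1 / 64 := by
      have : s ≤ s' := by
        rw [hs]
        apply div_le_self hs'.le
        linarith
      linarith
    have := mul_le_mul_of_nonneg_left h1 (hρ k).le
    linarith

end Crest.Agent.R085
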