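import Mathlib
import Crest.Agent.R085.Defs

/-!
# R085: the standard `n`-plane: `inc`, `prj`, `nsq`

* `nrm n z` : the part of `z` normal to the standard `n`-plane; `z = inc (prj z) + nrm z`,
  `‖nrm z‖ ^ 2 = nsq n z`.
* `incL (h : n ≤ d) : V n →ₗᵢ[ℝ] V d`.
* `exists_ref_plane`: the plane `{y | nsq n (g y - b) = 0}` is `g⁻¹ b + range (g⁻¹ ∘ inc)`.
-/

set_option autoImplicit false

namespace Crest.Agent.R085

open MeasureTheory Metric Set Filter
open scoped ENNReal NNReal Topology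

variable {d : ℕ}

/-- normal part of a vector -/
noncomputable def nrm (n : ℕ) (z : V d) : V d :=
  WithLp.toLp 2 fun i : Fin d => if n ≤ (i : ℕ) then z i else 0

lemma nrm_apply (n : ℕ) (z : V d) (i : Fin d) : nrm n z i = if n ≤ (i : ℕ) then z i else 0 := rfl

lemma inc_apply (n : ℕ) (z : V n) (i : Fin d) :
    inc n d z i = if h : (i : ℕ) < n then z ⟨i, h⟩ else 0 := rfl

lemma prj_apply (n : ℕ) (z : V d) (j : Fin n) :
    prj n z j = if h : (j : ℕ) < d then z ⟨j, h⟩ else 0 := rfl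

lemma norm_nrm_sq (n : ℕ) (z : V d) : ‖nrm n z‖ ^ 2 = nsq n z := by
  rw [EuclideanSpace.norm_sq_eq]
  unfold nsq
  refine Finset.sum_congr rfl fun i _ => ?_
  rw [nrm_apply]
  split_ifs <;> simp

lemma norm_nrm (n : ℕ) (z : V d) : ‖nrm n z‖ = Real.sqrt (nsq n z) := by
  rw [← norm_nrm_sq, Real.sqrt_sq (norm_nonneg _)]

lemma nrm_add (n : ℕ) (z w : V d) : nrm n (z + w) = nrm n z + nrm n w := by
  ext i
  rw [PiLp.add_apply, nrm_apply, nrm_apply, nrm_apply]
  split_ifs <;> simp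

lemma nrm_sub (n : ℕ) (z w : V d) : nrm n (z - w) = nrm n z - nrm n w := by
  ext i
  rw [PiLp.sub_apply, nrm_apply, nrm_apply, nrm_apply]
  split_ifs <;> simp


lemma norm_nrm_le (n : ℕ) (z : V d) : ‖nrm n z‖ ≤ ‖z‖ := by
  refine le_of_sq_le_sq ?_ (norm_nonneg _)
  rw [EuclideanSpace.norm_sq_eq, EuclideanSpace.norm_sq_eq]
  refine Finset.sum_le_sum fun i _ => ?_
  rw [nrm_apply]
  split_ifs
  · exact le_rfl
  · simp only [norm_zero, ne_eq, OfNat.ofNat_ne_zero, not_false_eq_true, zero_pow]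
    positivity

lemma inc_prj_add_nrm (n : ℕ) (z : V d) : inc n d (prj n z) + nrm n z = z := by
  ext i
  rw [PiLp.add_apply, nrm_apply, inc_apply]
  by_cases h : (i : ℕ) < n
  · rw [dif_pos h, if_neg (not_le.mpr h), prj_apply, dif_pos i.2, add_zero]
  · rw [dif_neg h, if_pos (not_lt.mp h), zero_add]

lemma sub_inc_prj (n : ℕ) (z : V d) : z - inc n d (prj n z) = nrm n z := by
  rw [sub_eq_iff_eq_add', inc_prj_add_nrm]

lemma nrm_inc (n : ℕ) (z : V n) : nrm n (inc n d z) = 0 := by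
  ext i
  rw [nrm_apply, inc_apply]
  by_cases h : (i : ℕ) < n
  · rw [if_neg (not_le.mpr h)]; rfl
  · rw [dif_neg h]; simp

lemma inc_add (n : ℕ) (z w : V n) : inc n d (z + w) = inc n d z + inc n d w := by
  ext i
  rw [PiLp.add_apply, inc_apply, inc_apply, inc_apply]
  split_ifs <;> simp

lemma inc_smul (n : ℕ) (a : ℝ) (z : V n) : inc n d (a • z) = a • inc n d z := by
  ext i
  rw [PiLp.smul_apply, inc_apply, inc_apply]
  split_ifs <;> simp

lemma prj_add (n : ℕ) (z w : V d) : prj n (z + w) = prj n z + prj n w := by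
  ext i
  rw [PiLp.add_apply, prj_apply, prj_apply, prj_apply]
  split_ifs <;> simp

lemma prj_smul (n : ℕ) (a : ℝ) (z : V d) : prj n (a • z) = a • prj n z := by
  ext i
  rw [PiLp.smul_apply, prj_apply, prj_apply]
  split_ifs <;> simp

lemma prj_inc {n : ℕ} (h : n ≤ d) (z : V n) : prj n (inc n d z) = z := by
  ext j
  have hj : (j : ℕ) < d := lt_of_lt_of_le j.2 h
  rw [prj_apply, dif_pos hj, inc_apply, dif_pos j.2]

lemma norm_inc {n : ℕ} (h : n ≤ d) (z : V n) : ‖inc n d z‖ = ‖z‖ := by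
  refine (sq_eq_sq₀ (norm_nonneg _) (norm_nonneg _)).mp ?_
  rw [EuclideanSpace.norm_sq_eq, EuclideanSpace.norm_sq_eq]
  obtain ⟨m, rfl⟩ := Nat.exists_eq_add_of_le h
  rw [Fin.sum_univ_add]
  have h2 : ∑ i : Fin m, ‖inc n (n + m) z (Fin.natAdd n i)‖ ^ 2 = 0 := by
    refine Finset.sum_eq_zero fun i _ => ?_
    rw [inc_apply, dif_neg (by simp)]
    simp
  rw [h2, add_zero]
  refine Finset.sum_congr rfl fun i _ => ?_
  rw [inc_apply, dif_pos (by simp)]
  rfl

/-- the inclusion of the standard `n`-plane as a linear isometry -/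
noncomputable def incL {n : ℕ} (h : n ≤ d) : V n →ₗᵢ[ℝ] V d where
  toFun := inc n d
  map_add' := inc_add n
  map_smul' := inc_smul n
  norm_map' := norm_inc h

@[simp] lemma incL_apply {n : ℕ} (h : n ≤ d) (z : V n) : incL h z = inc n d z := rfl

/-- The plane of a flatness window, as `p + range ι`. -/
theorem dist_ref_plane {n : ℕ} (h : n ≤ d) (g : V d ≃ₗᵢ[ℝ] V d) (b y : V d) :
    dist y (g.symm b + (g.symm.toLinearIsometry.comp (incL h)) (prj n (g y - b))) =
      Real.sqrt (nsq n (g y - b)) := by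
  rw [← norm_nrm, ← sub_inc_prj, dist_eq_norm, ← g.norm_map]
  congr 1
  simp [map_sub, map_add, sub_sub]


lemma sqrt_nsq_triangle (n : ℕ) (g : V d ≃ₗᵢ[ℝ] V d) (b y z : V d) :
    Real.sqrt (nsq n (g y - b)) ≤ Real.sqrt (nsq n (g z - b)) + dist y z := by
  rw [← norm_nrm, ← norm_nrm]
  have h1 : g y - b = (g z - b) + (g y - g z) := by abel
  rw [h1, nrm_add]
  refine (norm_add_le _ _).trans ?_
  gcongr
  refine (norm_nrm_le n _).trans (le_of_eq ?_)
  rw [← map_sub, g.norm_map, dist_eq_norm]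

end Crest.Agent.R085
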