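import Crest.Agent.R085.LiouDefs
import Crest.Agent.R085.AdrInt2

/-!
R085 (S0113), module M6 (linear Liouville lemma): facts on the operators `Lam`, `LamN`.
-/

set_option autoImplicit false

namespace Crest.Agent.R085

open MeasureTheory Metric Set Filter
open scoped ENNReal NNReal Topology ContDiff

namespace Liou

/-! ### the kernel -/

theorem cut_nonneg (t : ℝ) : 0 ≤ cut t := le_max_left _ _

theorem cut_le_one (t : ℝ) : cut t ≤ 1 := max_le (by norm_num) (min_le_left _ _)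

theorem cut_lip (s t : ℝ) : |cut s - cut t| ≤ |s - t| := by
  have h1 : |cut s - cut t| ≤ |min 1 (2 - s) - min 1 (2 - t)| := by
    have := abs_max_sub_max_le_abs (min 1 (2 - s)) (min 1 (2 - t)) 0
    simpa [cut, max_comm] using this
  have h2 : |min 1 (2 - s) - min 1 (2 - t)| ≤ |(2 - s) - (2 - t)| := by
    have := abs_min_sub_min_le_max 1 (2 - s) 1 (2 - t)
    simpa using this
  have h3 : |(2 - s) - (2 - t)| = |s - t| := by
    rw [show (2 - s) - (2 - t) = -(s - t) by ring, abs_neg]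
  linarith

theorem cut_eq_one {t : ℝ} (h : t ≤ 1) : cut t = 1 := by
  unfold cut
  rw [min_eq_left (by linarith)]
  norm_num

theorem cut_eq_zero {t : ℝ} (h : 2 ≤ t) : cut t = 0 := by
  unfold cut
  rw [max_eq_left]
  exact (min_le_right _ _).trans (by linarith)

theorem continuous_cut : Continuous cut := by
  unfold cut
  fun_prop

variable {n : ℕ}

theorem kN_nonneg (N : ℝ) (z : V n) : 0 ≤ kN n N z :=
  mul_nonneg (cut_nonneg _) (by positivity)

theorem kN_le (N : ℝ) (z : V n) : kN n N z ≤ (‖z‖ ^ (n + 1))⁻¹ := by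
  unfold kN
  have h : (0 : ℝ) ≤ (‖z‖ ^ (n + 1))⁻¹ := by positivity
  calc cut (‖z‖ / N) * (‖z‖ ^ (n + 1))⁻¹ ≤ 1 * (‖z‖ ^ (n + 1))⁻¹ :=
        mul_le_mul_of_nonneg_right (cut_le_one _) h
    _ = _ := one_mul _

theorem kN_neg (N : ℝ) (z : V n) : kN n N (-z) = kN n N z := by
  unfold kN
  rw [norm_neg]

theorem kN_eq_zero {N : ℝ} (hN : 0 < N) {z : V n} (h : 2 * N ≤ ‖z‖) : kN n N z = 0 := by
  unfold kN
  rw [cut_eq_zero, zero_mul]
  rw [le_div_iff₀ hN]
  exact h

theorem kN_eq {N : ℝ} (hN : 0 < N) {z : V n} (h : ‖z‖ ≤ N) : kN n N z = (‖z‖ ^ (n + 1))⁻¹ := by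
  unfold kN
  rw [cut_eq_one, one_mul]
  rw [div_le_iff₀ hN]
  linarith

theorem kN_eventually (z : V n) : ∀ᶠ N : ℝ in atTop, kN n N z = (‖z‖ ^ (n + 1))⁻¹ := by
  filter_upwards [eventually_ge_atTop ‖z‖, eventually_gt_atTop 0] with N h1 h2
  exact kN_eq h2 h1

theorem measurable_kN (N : ℝ) : Measurable (kN n N : V n → ℝ) := by
  unfold kN
  exact ((continuous_cut.measurable).comp (measurable_norm.div_const N)).mul
    ((measurable_norm.pow_const (n + 1)).inv)

theorem kN_diff {N : ℝ} (hN : 0 < N) {x y : V n} (hx : x ≠ 0) (hy : ‖y‖ ≤ ‖x‖ / 2) :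
    |kN n N (x - y) - kN n N x| ≤ ((n + 5) * 2 ^ (n + 1)) * ‖y‖ * (‖x‖ ^ (n + 2))⁻¹ := by
  have hb : 0 < ‖x‖ := norm_pos_iff.2 hx
  set a := ‖x - y‖ with ha
  set b := ‖x‖ with hbdef
  have hab : |a - b| ≤ ‖y‖ := by
    have := abs_norm_sub_norm_le (x - y) x
    simpa using this
  have ha2 : b / 2 ≤ a := by
    have := abs_le.1 hab
    linarith [this.1]
  have hapos : 0 < a := by linarith
  have hinv : a⁻¹ ≤ 2 / b := by
    rw [inv_le_comm₀ hapos (by positivity), inv_div]
    linarith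
  have hinvb : b⁻¹ ≤ 2 / b := by
    rw [inv_eq_one_div]
    gcongr
    norm_num
  -- first term
  have h1 : |cut (a / N) - cut (b / N)| ≤ 4 * ‖y‖ / b := by
    by_cases hc : 4 * N ≤ b
    · rw [cut_eq_zero, cut_eq_zero]
      · simp
        positivity
      · rw [le_div_iff₀ hN]; linarith
      · rw [le_div_iff₀ hN]; linarith
    · rw [not_le] at hc
      calc |cut (a / N) - cut (b / N)| ≤ |a / N - b / N| := cut_lip _ _
        _ = |a - b| / N := by rw [← sub_div, abs_div, abs_of_pos hN]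
        _ ≤ ‖y‖ / N := by gcongr
        _ ≤ ‖y‖ / (b / 4) := by
            gcongr
            linarith
        _ = 4 * ‖y‖ / b := by
            field_simp
  have h2 : (a ^ (n + 1))⁻¹ ≤ (2 / b) ^ (n + 1) := by
    rw [← inv_pow]
    gcongr
  have h3 : |(a ^ (n + 1))⁻¹ - (b ^ (n + 1))⁻¹| ≤ (2 * ‖y‖ / b ^ 2) * (n + 1) * (2 / b) ^ n := by
    rw [← inv_pow, ← inv_pow]
    have := abs_pow_sub_pow_le a⁻¹ b⁻¹ (n + 1)
    refine this.trans ?_
    have e1 : |a⁻¹ - b⁻¹| ≤ 2 * ‖y‖ / b ^ 2 := by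
      rw [inv_sub_inv hapos.ne' hb.ne', abs_div, abs_mul, abs_of_pos hapos, abs_of_pos hb, abs_sub_comm]
      calc |a - b| / (a * b) ≤ ‖y‖ / ((b / 2) * b) := by gcongr
        _ = 2 * ‖y‖ / b ^ 2 := by field_simp
    have e2 : max |a⁻¹| |b⁻¹| ≤ 2 / b := by
      rw [abs_of_pos (by positivity), abs_of_pos (by positivity)]
      exact max_le hinv hinvb
    have e3 : (0:ℝ) ≤ max |a⁻¹| |b⁻¹| := le_max_of_le_left (abs_nonneg _)
    push_cast
    gcongr
  have key : kN n N (x - y) - kN n N x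
      = (cut (a / N) - cut (b / N)) * (a ^ (n + 1))⁻¹
        + cut (b / N) * ((a ^ (n + 1))⁻¹ - (b ^ (n + 1))⁻¹) := by
    unfold kN
    rw [← ha, ← hbdef]
    ring
  rw [key]
  calc |(cut (a / N) - cut (b / N)) * (a ^ (n + 1))⁻¹
        + cut (b / N) * ((a ^ (n + 1))⁻¹ - (b ^ (n + 1))⁻¹)|
      ≤ |cut (a / N) - cut (b / N)| * (a ^ (n + 1))⁻¹
        + cut (b / N) * |(a ^ (n + 1))⁻¹ - (b ^ (n + 1))⁻¹| := by
        refine (abs_add_le _ _).trans ?_
        rw [abs_mul, abs_mul, abs_of_nonneg (cut_nonneg _), abs_of_nonneg (by positivity : (0:ℝ) ≤ (a ^ (n + 1))⁻¹)]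
    _ ≤ (4 * ‖y‖ / b) * (2 / b) ^ (n + 1) + 1 * ((2 * ‖y‖ / b ^ 2) * (n + 1) * (2 / b) ^ n) := by
        gcongr
        exact cut_le_one _
    _ = ((n + 5) * 2 ^ (n + 1)) * ‖y‖ * (b ^ (n + 2))⁻¹ := by
        rw [div_pow, div_pow]
        field_simp
        ring

/-! ### volume on `ℝⁿ` -/

theorem upperReg_volume (hn : 0 < n) : ∃ C : ℝ, 0 ≤ C ∧ UpperReg n C (volume : Measure (V n)) := by
  refine ⟨(volume (ball (0 : V n) 1)).toReal, ENNReal.toReal_nonneg, fun x r hr => ?_⟩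
  have : Nonempty (Fin n) := ⟨⟨0, hn⟩⟩
  rw [Measure.addHaar_ball volume x hr.le, finrank_euclideanSpace_fin, mul_comm,
    ENNReal.ofReal_mul ENNReal.toReal_nonneg, ENNReal.ofReal_toReal measure_ball_lt_top.ne]

/-- the model weight `min(|h|²,1) |h|^{-n-1}`. -/
noncomputable def wt (n : ℕ) (h : V n) : ℝ := min (‖h‖ ^ 2) 1 * (‖h‖ ^ (n + 1))⁻¹

theorem measurable_wt : Measurable (wt n) := by
  unfold wt
  exact ((measurable_norm.pow_const 2).min measurable_const).mul
    ((measurable_norm.pow_const (n + 1)).inv)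

theorem wt_nonneg (h : V n) : 0 ≤ wt n h := by
  unfold wt
  positivity

theorem integrable_wt (hn : 0 < n) : Integrable (wt n) := by
  obtain ⟨C, hC, hU⟩ := upperReg_volume hn
  have h1 := (integrableOn_tail hU hC (m := 1) le_rfl 0 one_pos).1
  have h2 := (integrableOn_near hU hC (k := n - 1) (by omega) 0 one_pos).1
  have hun : (univ : Set (V n)) = closedBall 0 1 ∪ {y | 1 ≤ dist 0 y} := by
    ext y
    simp only [mem_univ, mem_union, mem_closedBall, mem_ofPred_eq, true_iff]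
    rw [dist_comm y 0]
    exact le_total _ _
  rw [← integrableOn_univ, hun]
  refine IntegrableOn.union ?_ ?_
  · refine h2.mono' measurable_wt.aestronglyMeasurable ?_
    refine Filter.Eventually.of_forall fun h => ?_
    rw [Real.norm_of_nonneg (wt_nonneg h), dist_zero_left]
    unfold wt
    by_cases h0 : ‖h‖ = 0
    · rw [h0]
      simp
    · have hpos : 0 < ‖h‖ := lt_of_le_of_ne (norm_nonneg _) (Ne.symm h0)
      calc min (‖h‖ ^ 2) 1 * (‖h‖ ^ (n + 1))⁻¹ ≤ ‖h‖ ^ 2 * (‖h‖ ^ (n + 1))⁻¹ := by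
            gcongr
            exact min_le_left _ _
        _ = (‖h‖ ^ (n - 1))⁻¹ := by
            have : n + 1 = (n - 1) + 2 := by omega
            rw [this, pow_add]
            field_simp
  · refine h1.mono' measurable_wt.aestronglyMeasurable ?_
    refine Filter.Eventually.of_forall fun h => ?_
    rw [Real.norm_of_nonneg (wt_nonneg h), dist_zero_left]
    unfold wt
    calc min (‖h‖ ^ 2) 1 * (‖h‖ ^ (n + 1))⁻¹ ≤ 1 * (‖h‖ ^ (n + 1))⁻¹ := by
          gcongr
          exact min_le_right _ _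
      _ = _ := one_mul _

/-! ### second differences -/

/-- second difference -/
def sd (ψ : V n → ℝ) (x h : V n) : ℝ := 2 * ψ x - ψ (x + h) - ψ (x - h)

theorem sd_bound {ψ : V n → ℝ} (h1 : ContDiff ℝ ∞ ψ) (h2 : HasCompactSupport ψ) :
    ∃ M : ℝ, 0 ≤ M ∧ ∀ x h : V n, |sd ψ x h| ≤ M * min (‖h‖ ^ 2) 1 := by
  obtain ⟨M0, hM0⟩ := h2.exists_bound_of_continuous h1.continuous
  have hM0' : 0 ≤ M0 := (norm_nonneg _).trans (hM0 0)
  have hf1 : ContDiff ℝ 1 (fderiv ℝ ψ) := h1.fderiv_right (by norm_cast)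
  obtain ⟨L, hL⟩ := hf1.lipschitzWith_of_hasCompactSupport (h2.fderiv (𝕜 := ℝ)) (by norm_num)
  have hdiff : Differentiable ℝ ψ := h1.differentiable (by norm_num)
  have htay : ∀ x h : V n, |ψ (x + h) - ψ x - fderiv ℝ ψ x h| ≤ L * ‖h‖ ^ 2 := by
    intro x h
    have hseg := Convex.norm_image_sub_le_of_norm_hasFDerivWithin_le
      (f := fun y => ψ y - fderiv ℝ ψ x y) (f' := fun y => fderiv ℝ ψ y - fderiv ℝ ψ x)
      (s := closedBall x ‖h‖) (C := L * ‖h‖) (x := x) (y := x + h)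
      (fun y _ => ((hdiff y).hasFDerivAt.sub (fderiv ℝ ψ x).hasFDerivAt).hasFDerivWithinAt)
      (fun y hy => by
        have := hL.dist_le_mul y x
        rw [dist_eq_norm] at this
        refine this.trans ?_
        gcongr
        exact hy)
      (convex_closedBall _ _) (mem_closedBall_self (norm_nonneg _)) (by simp)
    have e : (ψ (x + h) - fderiv ℝ ψ x (x + h)) - (ψ x - fderiv ℝ ψ x x)
        = ψ (x + h) - ψ x - fderiv ℝ ψ x h := by
      rw [map_add]; ring
    rw [e, Real.norm_eq_abs] at hseg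
    refine hseg.trans (le_of_eq ?_)
    rw [add_sub_cancel_left]; ring
  refine ⟨2 * L + 4 * M0, by positivity, fun x h => ?_⟩
  have hA : |sd ψ x h| ≤ 2 * L * ‖h‖ ^ 2 := by
    have e1 := htay x h
    have e2 := htay x (-h)
    rw [map_neg, norm_neg, ← sub_eq_add_neg] at e2
    have : sd ψ x h = -((ψ (x + h) - ψ x - fderiv ℝ ψ x h) + (ψ (x - h) - ψ x - -fderiv ℝ ψ x h)) := by
      unfold sd; ring
    rw [this, abs_neg]
    refine (abs_add_le _ _).trans ?_
    linarith
  have hB : |sd ψ x h| ≤ 4 * M0 := by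
    have e1 := hM0 x
    have e2 := hM0 (x + h)
    have e3 := hM0 (x - h)
    rw [Real.norm_eq_abs, abs_le] at e1 e2 e3
    unfold sd
    rw [abs_le]
    constructor <;> linarith [e1.1, e1.2, e2.1, e2.2, e3.1, e3.2]
  rcases le_total (‖h‖ ^ 2) 1 with h3 | h3
  · rw [min_eq_left h3]
    refine hA.trans ?_
    have : 0 ≤ ‖h‖ ^ 2 := by positivity
    nlinarith
  · rw [min_eq_right h3]
    have : (0:ℝ) ≤ L := L.2
    linarith

theorem continuous_sd {ψ : V n → ℝ} (h1 : Continuous ψ) :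
    Continuous (fun p : V n × V n => sd ψ p.1 p.2) := by
  unfold sd
  fun_prop

theorem sd_bound_wt {ψ : V n → ℝ} {M : ℝ} (hM0 : 0 ≤ M)
    (hM : ∀ x h : V n, |sd ψ x h| ≤ M * min (‖h‖ ^ 2) 1) (N : ℝ) (x h : V n) :
    ‖sd ψ x h * kN n N h‖ ≤ M * wt n h := by
  rw [norm_mul, Real.norm_eq_abs, Real.norm_of_nonneg (kN_nonneg _ _)]
  unfold wt
  rw [← mul_assoc]
  exact mul_le_mul (hM x h) (kN_le N h) (kN_nonneg _ _) (by positivity)

theorem integrable_LamN {ψ : V n → ℝ} (hn : 0 < n) (h1 : ContDiff ℝ ∞ ψ)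
    (h2 : HasCompactSupport ψ) (N : ℝ) (x : V n) :
    Integrable (fun h => sd ψ x h * kN n N h) := by
  obtain ⟨M, hM0, hM⟩ := sd_bound h1 h2
  refine ((integrable_wt hn).const_mul M).mono' ?_ (Filter.Eventually.of_forall fun h => sd_bound_wt hM0 hM N x h)
  refine (Continuous.aestronglyMeasurable ?_).mul (measurable_kN N).aestronglyMeasurable
  exact (continuous_sd h1.continuous).comp (by fun_prop : Continuous fun h : V n => (x, h))

/-- pointwise convergence `Λ_N ψ → Λ ψ`. -/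
theorem LamN_tendsto (hn : 0 < n) {ψ : V n → ℝ} (h1 : ContDiff ℝ ∞ ψ)
    (h2 : HasCompactSupport ψ) (x : V n) :
    Tendsto (fun N : ℝ => LamN N ψ x) atTop (𝓝 (Lam ψ x)) := by
  obtain ⟨M, hM0, hM⟩ := sd_bound h1 h2
  refine tendsto_integral_filter_of_dominated_convergence (fun h => M * wt n h) ?_ ?_ ?_ ?_
  · exact Filter.Eventually.of_forall fun N => (integrable_LamN hn h1 h2 N x).aestronglyMeasurable
  · exact Filter.Eventually.of_forall fun N => Filter.Eventually.of_forall fun h =>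
      sd_bound_wt hM0 hM N x h
  · exact (integrable_wt hn).const_mul M
  · refine Filter.Eventually.of_forall fun h => ?_
    refine tendsto_const_nhds.congr' ?_
    filter_upwards [kN_eventually (n := n) h] with N hN
    rw [hN]

theorem measurable_LamN {ψ : V n → ℝ} (h1 : Continuous ψ) (N : ℝ) :
    StronglyMeasurable (LamN N ψ) := by
  have : StronglyMeasurable (fun p : V n × V n => sd ψ p.1 p.2 * kN n N p.2) :=
    (continuous_sd h1).stronglyMeasurable.mul
      ((measurable_kN N).comp measurable_snd).stronglyMeasurable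
  exact this.integral_prod_right'


/-! ### decay -/

/-- uniform decay of `Λ_N ψ`. -/
theorem LamN_bound (hn : 0 < n) {ψ : V n → ℝ} (hψ : SmTest ψ) :
    ∃ C : ℝ, 0 ≤ C ∧ ∀ N : ℝ, 0 < N → ∀ x : V n, |LamN N ψ x| ≤ C * ((1 + ‖x‖) ^ (n + 2))⁻¹ := by
  obtain ⟨M, hM0, hM⟩ := sd_bound hψ.smooth hψ.cpt
  obtain ⟨ρ, hρ1, hρ⟩ := hψ.cpt.isCompact.isBounded.subset_ball_lt 1 0
  have hρ0 : 0 < ρ := by linarith
  have hsupp : ∀ y, ρ ≤ ‖y‖ → ψ y = 0 := by
    intro y hy
    by_contra h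
    have := hρ (subset_tsupport _ h)
    rw [mem_ball_zero_iff] at this
    linarith
  have hψc := hψ.smooth.continuous
  have hψi : Integrable ψ := hψc.integrable_of_hasCompactSupport hψ.cpt
  set C0 : ℝ := M * ∫ h, wt n h with hC0
  have hC00 : 0 ≤ C0 := mul_nonneg hM0 (integral_nonneg wt_nonneg)
  have hnear : ∀ (N : ℝ) (x : V n), |LamN N ψ x| ≤ C0 := by
    intro N x
    rw [hC0, ← integral_const_mul, ← Real.norm_eq_abs]
    exact norm_integral_le_of_norm_le ((integrable_wt hn).const_mul M)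
      (Filter.Eventually.of_forall fun h => sd_bound_wt hM0 hM N x h)
  set A : ℝ := ∫ y, |ψ y| with hA
  have hA0 : 0 ≤ A := integral_nonneg fun _ => abs_nonneg _
  set D : ℝ := (n + 5) * 2 ^ (n + 1) with hD
  have hD0 : 0 ≤ D := by positivity
  have hfar : ∀ N : ℝ, 0 < N → ∀ x : V n, 2 * ρ ≤ ‖x‖ →
      |LamN N ψ x| ≤ 2 * (D * ρ * (‖x‖ ^ (n + 2))⁻¹ * A) := by
    intro N hN x hx
    have hx0 : x ≠ 0 := by
      intro h
      rw [h, norm_zero] at hx
      linarith
    have hψx : ψ x = 0 := hsupp x (by linarith)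
    -- integrability
    have hki : Integrable (fun y => ψ y * kN n N (x - y)) := by
      refine hψi.norm.mono' ?_ (Filter.Eventually.of_forall fun y => ?_)
      · exact hψc.aestronglyMeasurable.mul
          ((measurable_kN N).comp (measurable_const.sub measurable_id)).aestronglyMeasurable
      · by_cases hy : ρ ≤ ‖y‖
        · rw [hsupp y hy]; simp
        · rw [not_le] at hy
          rw [norm_mul]
          have h1 : 1 ≤ ‖x - y‖ := by
            have := norm_sub_norm_le x y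
            linarith
          have h2 : ‖kN n N (x - y)‖ ≤ 1 := by
            rw [Real.norm_of_nonneg (kN_nonneg _ _)]
            refine (kN_le N _).trans ?_
            exact inv_le_one_of_one_le₀ (one_le_pow₀ h1)
          calc ‖ψ y‖ * ‖kN n N (x - y)‖ ≤ ‖ψ y‖ * 1 := by gcongr
            _ = _ := mul_one _
    set I : ℝ := ∫ y, ψ y * kN n N (x - y) with hI
    have e1 : ∫ h : V n, ψ (x - h) * kN n N h = I := by
      have := integral_sub_left_eq_self (fun y => ψ y * kN n N (x - y)) volume x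
      rw [hI, ← this]
      refine integral_congr_ae (Filter.Eventually.of_forall fun h => ?_)
      simp
    have i1 : Integrable (fun h : V n => ψ (x - h) * kN n N h) := by
      have := hki.comp_sub_left x
      refine this.congr (Filter.Eventually.of_forall fun h => ?_)
      simp
    have e2 : ∫ h : V n, ψ (x + h) * kN n N h = I := by
      rw [← e1, ← integral_neg_eq_self]
      refine integral_congr_ae (Filter.Eventually.of_forall fun h => ?_)
      simp [kN_neg, sub_eq_add_neg]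
    have i2 : Integrable (fun h : V n => ψ (x + h) * kN n N h) := by
      have := i1.comp_neg
      refine this.congr (Filter.Eventually.of_forall fun h => ?_)
      simp [kN_neg, sub_eq_add_neg]
    have e3 : LamN N ψ x = -(2 * I) := by
      have e30 : -(2 * I) = -((∫ h : V n, ψ (x + h) * kN n N h)
          + ∫ h : V n, ψ (x - h) * kN n N h) := by
        rw [e1, e2]; ring
      unfold LamN
      rw [e30, ← integral_add i2 i1, ← integral_neg]
      refine integral_congr_ae (Filter.Eventually.of_forall fun h => ?_)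
      simp only [hψx]
      ring
    have e4 : I = ∫ y, ψ y * (kN n N (x - y) - kN n N x) := by
      have : ∀ y, ψ y * (kN n N (x - y) - kN n N x) = ψ y * kN n N (x - y) - ψ y * kN n N x :=
        fun y => by ring
      simp_rw [this]
      rw [integral_sub hki (hψi.mul_const _), integral_mul_const, hψ.mean, zero_mul, sub_zero]
    have e5 : |I| ≤ D * ρ * (‖x‖ ^ (n + 2))⁻¹ * A := by
      rw [e4, hA, ← integral_const_mul, ← Real.norm_eq_abs]
      refine norm_integral_le_of_norm_le (hψi.abs.const_mul _)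
        (Filter.Eventually.of_forall fun y => ?_)
      by_cases hy : ρ ≤ ‖y‖
      · rw [hsupp y hy]; simp
      · rw [not_le] at hy
        rw [norm_mul, mul_comm]
        have h1 := kN_diff (n := n) hN hx0 (y := y) (by linarith)
        rw [Real.norm_eq_abs, Real.norm_eq_abs]
        refine mul_le_mul_of_nonneg_right (h1.trans ?_) (abs_nonneg _)
        rw [← hD]
        gcongr
    rw [e3, abs_neg, abs_mul, abs_two]
    gcongr
  refine ⟨C0 * (1 + 2 * ρ) ^ (n + 2) + 2 * (D * ρ * A) * 2 ^ (n + 2), by positivity,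
    fun N hN x => ?_⟩
  have hp : (0:ℝ) < (1 + ‖x‖) ^ (n + 2) := by positivity
  rw [← div_eq_mul_inv, le_div_iff₀ hp]
  rcases le_total (2 * ρ) ‖x‖ with hx | hx
  · have hxp : 0 < ‖x‖ := by linarith
    calc |LamN N ψ x| * (1 + ‖x‖) ^ (n + 2)
        ≤ (2 * (D * ρ * (‖x‖ ^ (n + 2))⁻¹ * A)) * (2 * ‖x‖) ^ (n + 2) := by
          gcongr
          · exact hfar N hN x hx
          · linarith
      _ = 2 * (D * ρ * A) * 2 ^ (n + 2) := by
          rw [mul_pow]
          field_simp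
      _ ≤ _ := by
          have : 0 ≤ C0 * (1 + 2 * ρ) ^ (n + 2) := by positivity
          linarith
  · calc |LamN N ψ x| * (1 + ‖x‖) ^ (n + 2) ≤ C0 * (1 + 2 * ρ) ^ (n + 2) := by
          gcongr
          exact hnear N x
      _ ≤ _ := by
          have : 0 ≤ 2 * (D * ρ * A) * 2 ^ (n + 2) := by positivity
          linarith


/-! ### growth and weights -/

theorem lintegral_weight_lt_top {f : V n → ℝ≥0∞} {K s a : ℝ} (ha0 : 0 ≤ a) (has : s < a)
    (hK : 0 ≤ K)
    (hf : ∀ R : ℝ, 1 ≤ R → ∫⁻ x in ball (0 : V n) R, f x ≤ ENNReal.ofReal (K * R ^ s)) :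
    ∫⁻ x, f x * ENNReal.ofReal ((1 + ‖x‖) ^ (-a)) < ⊤ := by
  have hcover : (univ : Set (V n)) ⊆
      ball 0 1 ∪ ⋃ j : ℕ, (ball 0 ((2:ℝ) ^ (j + 1)) \ ball 0 ((2:ℝ) ^ j)) := by
    intro x _
    rcases lt_or_ge ‖x‖ 1 with h | h
    · left; simpa using h
    · right
      obtain ⟨j, h1, h2⟩ := exists_nat_pow_near h (one_lt_two)
      exact mem_iUnion.2 ⟨j, by simpa using h2, by simpa using h1⟩
  have hq0 : (0:ℝ) < 2 ^ (s - a) := by positivity
  have hq1 : (2:ℝ) ^ (s - a) < 1 := Real.rpow_lt_one_of_one_lt_of_neg (by norm_num) (by linarith)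
  have hshell : ∀ j : ℕ, ∫⁻ x in ball (0 : V n) ((2:ℝ) ^ (j + 1)) \ ball 0 ((2:ℝ) ^ j),
      f x * ENNReal.ofReal ((1 + ‖x‖) ^ (-a)) ≤
        ENNReal.ofReal (K * 2 ^ s * ((2:ℝ) ^ (s - a)) ^ j) := by
    intro j
    have h2j : (0:ℝ) < 2 ^ j := by positivity
    calc ∫⁻ x in ball (0 : V n) ((2:ℝ) ^ (j + 1)) \ ball 0 ((2:ℝ) ^ j),
        f x * ENNReal.ofReal ((1 + ‖x‖) ^ (-a))
        ≤ ∫⁻ x in ball (0 : V n) ((2:ℝ) ^ (j + 1)) \ ball 0 ((2:ℝ) ^ j),
          f x * ENNReal.ofReal (((2:ℝ) ^ j) ^ (-a)) := by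
          refine setLIntegral_mono' (measurableSet_ball.diff measurableSet_ball) fun x hx => ?_
          refine mul_le_mul' le_rfl (ENNReal.ofReal_le_ofReal ?_)
          refine Real.rpow_le_rpow_of_nonpos h2j ?_ (by linarith)
          have : ¬ ‖x‖ < 2 ^ j := by simpa using hx.2
          linarith
      _ = (∫⁻ x in ball (0 : V n) ((2:ℝ) ^ (j + 1)) \ ball 0 ((2:ℝ) ^ j), f x)
          * ENNReal.ofReal (((2:ℝ) ^ j) ^ (-a)) := lintegral_mul_const' _ _ ENNReal.ofReal_ne_top
      _ ≤ (∫⁻ x in ball (0 : V n) ((2:ℝ) ^ (j + 1)), f x)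
          * ENNReal.ofReal (((2:ℝ) ^ j) ^ (-a)) := by
          gcongr
          exact sdiff_subset
      _ ≤ ENNReal.ofReal (K * ((2:ℝ) ^ (j + 1)) ^ s) * ENNReal.ofReal (((2:ℝ) ^ j) ^ (-a)) := by
          gcongr
          exact hf _ (one_le_pow₀ (by norm_num))
      _ = ENNReal.ofReal (K * 2 ^ s * ((2:ℝ) ^ (s - a)) ^ j) := by
          rw [← ENNReal.ofReal_mul (by positivity)]
          congr 1
          rw [pow_succ, Real.mul_rpow (by positivity) (by norm_num), sub_eq_add_neg,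
            Real.rpow_add (by norm_num), mul_pow, ← Real.rpow_natCast, ← Real.rpow_natCast,
            ← Real.rpow_natCast, ← Real.rpow_mul (by norm_num), ← Real.rpow_mul (by norm_num),
            ← Real.rpow_mul (by norm_num), ← Real.rpow_mul (by norm_num), mul_comm (j : ℝ) s,
            mul_comm (j : ℝ) (-a)]
          ring
  have hball : ∫⁻ x in ball (0 : V n) 1, f x * ENNReal.ofReal ((1 + ‖x‖) ^ (-a)) ≤
      ENNReal.ofReal K := by
    calc ∫⁻ x in ball (0 : V n) 1, f x * ENNReal.ofReal ((1 + ‖x‖) ^ (-a))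
        ≤ ∫⁻ x in ball (0 : V n) 1, f x := by
          refine lintegral_mono fun x => ?_
          calc f x * ENNReal.ofReal ((1 + ‖x‖) ^ (-a)) ≤ f x * 1 := by
                gcongr
                rw [ENNReal.ofReal_le_one]
                exact Real.rpow_le_one_of_one_le_of_nonpos (by linarith [norm_nonneg x]) (by linarith)
            _ = f x := mul_one _
      _ ≤ ENNReal.ofReal (K * 1 ^ s) := hf 1 le_rfl
      _ = _ := by simp
  calc ∫⁻ x, f x * ENNReal.ofReal ((1 + ‖x‖) ^ (-a))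
      = ∫⁻ x in univ, f x * ENNReal.ofReal ((1 + ‖x‖) ^ (-a)) := by rw [Measure.restrict_univ]
    _ ≤ ∫⁻ x in ball (0 : V n) 1 ∪ ⋃ j : ℕ, (ball 0 ((2:ℝ) ^ (j + 1)) \ ball 0 ((2:ℝ) ^ j)),
        f x * ENNReal.ofReal ((1 + ‖x‖) ^ (-a)) := lintegral_mono_set hcover
    _ ≤ _ := lintegral_union_le _ _ _
    _ ≤ ENNReal.ofReal K + ∑' j : ℕ, ENNReal.ofReal (K * 2 ^ s * ((2:ℝ) ^ (s - a)) ^ j) := by
        gcongr
        refine (lintegral_iUnion_le _ _).trans ?_
        exact ENNReal.tsum_le_tsum hshell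
    _ < ⊤ := by
        rw [← ENNReal.ofReal_tsum_of_nonneg]
        · exact ENNReal.add_lt_top.2 ⟨ENNReal.ofReal_lt_top, ENNReal.ofReal_lt_top⟩
        · intro j; positivity
        · exact (summable_geometric_of_lt_one hq0.le hq1).mul_left _

theorem aestronglyMeasurable_of_memLp {T : V n → ℝ}
    (hT : ∀ R : ℝ, MemLp T 2 (volume.restrict (ball (0 : V n) R))) :
    AEStronglyMeasurable T volume := by
  have h : (univ : Set (V n)) = ⋃ k : ℕ, ball 0 (k : ℝ) := by
    refine (iUnion_eq_univ_iff.2 fun x => ?_).symm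
    obtain ⟨k, hk⟩ := exists_nat_gt ‖x‖
    exact ⟨k, by simpa using hk⟩
  rw [← Measure.restrict_univ (μ := (volume : Measure (V n))), h, aestronglyMeasurable_iUnion_iff]
  exact fun k => (hT k).aestronglyMeasurable

theorem gr_nonneg {T : V n → ℝ} {K s : ℝ} (hG : Gr K s T) : 0 ≤ K := by
  have := hG 1 le_rfl
  rw [Real.one_rpow, mul_one] at this
  exact (integral_nonneg fun _ => by positivity).trans this

theorem lintegral_sq_le {T : V n → ℝ} {K s : ℝ}
    (hT : ∀ R : ℝ, MemLp T 2 (volume.restrict (ball (0 : V n) R))) (hG : Gr K s T) (R : ℝ)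
    (hR : 1 ≤ R) :
    ∫⁻ x in ball (0 : V n) R, ENNReal.ofReal ((T x) ^ 2) ≤ ENNReal.ofReal (K * R ^ s) := by
  rw [← ofReal_integral_eq_lintegral_ofReal (hT R).integrable_sq
    (Filter.Eventually.of_forall fun _ => by positivity)]
  exact ENNReal.ofReal_le_ofReal (hG R hR)

/-- a function with `L²` growth exponent `s < n + 4` is integrable against `(1+|x|)^{-n-2}`. -/
theorem integrable_weight {T : V n → ℝ} {K s : ℝ} (hs : s < n + 4)
    (hT : ∀ R : ℝ, MemLp T 2 (volume.restrict (ball (0 : V n) R))) (hG : Gr K s T) :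
    Integrable (fun x => T x * ((1 + ‖x‖) ^ (n + 2))⁻¹) := by
  obtain ⟨a, ha0, has, han⟩ : ∃ a : ℝ, 0 ≤ a ∧ s < a ∧ a < n + 4 := by
    refine ⟨max 0 ((s + n + 4) / 2), le_max_left _ _, lt_max_of_lt_right (by linarith), ?_⟩
    refine max_lt (by positivity) (by linarith)
  have hTm := aestronglyMeasurable_of_memLp hT
  have h1 := lintegral_weight_lt_top ha0 has (gr_nonneg hG) (lintegral_sq_le hT hG)
  have hwm : Measurable fun x : V n => (1 + ‖x‖) ^ (-a) := by fun_prop
  have i1 : Integrable (fun x => (T x) ^ 2 * (1 + ‖x‖) ^ (-a)) := by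
    refine ⟨(hTm.pow 2).mul hwm.aestronglyMeasurable, ?_⟩
    rw [hasFiniteIntegral_iff_ofReal (Filter.Eventually.of_forall fun x => by positivity)]
    refine lt_of_le_of_lt (le_of_eq ?_) h1
    refine lintegral_congr fun x => ?_
    rw [ENNReal.ofReal_mul (by positivity)]
  have i2 : Integrable (fun x : V n => (1 + ‖x‖) ^ (-(2 * n + 4 - a))) := by
    refine integrable_one_add_norm ?_
    rw [finrank_euclideanSpace_fin]
    linarith
  refine (i1.add i2).mono' (hTm.mul ?_) (Filter.Eventually.of_forall fun x => ?_)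
  · exact Measurable.aestronglyMeasurable (by fun_prop)
  · have hp : 0 < 1 + ‖x‖ := by positivity
    have e1 : ((1 + ‖x‖) ^ (n + 2))⁻¹ = (1 + ‖x‖) ^ (-a / 2) * (1 + ‖x‖) ^ (-(2 * n + 4 - a) / 2) := by
      rw [← Real.rpow_add hp, ← Real.rpow_natCast, ← Real.rpow_neg hp.le]
      congr 1
      push_cast
      ring
    have e2 : (1 + ‖x‖) ^ (-a) = ((1 + ‖x‖) ^ (-a / 2)) ^ 2 := by
      rw [← Real.rpow_natCast, ← Real.rpow_mul hp.le]
      congr 1
      push_cast
      ring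
    have e3 : (1 + ‖x‖) ^ (-(2 * n + 4 - a)) = ((1 + ‖x‖) ^ (-(2 * n + 4 - a) / 2)) ^ 2 := by
      rw [← Real.rpow_natCast, ← Real.rpow_mul hp.le]
      congr 1
      push_cast
      ring
    simp only [Pi.add_apply]
    rw [norm_mul, e1, e2, e3, Real.norm_of_nonneg (by positivity : (0:ℝ) ≤ (1 + ‖x‖) ^ (-a / 2) * (1 + ‖x‖) ^ (-(2 * n + 4 - a) / 2)), Real.norm_eq_abs]
    set p := (1 + ‖x‖) ^ (-a / 2)
    set q := (1 + ‖x‖) ^ (-(2 * (n:ℝ) + 4 - a) / 2)
    have h := two_mul_le_add_sq (|T x| * p) q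
    have h0 : 0 ≤ (|T x| * p) * q := by positivity
    have h2 : (|T x| * p) ^ 2 = T x ^ 2 * p ^ 2 := by rw [mul_pow, sq_abs]
    nlinarith

theorem tendsto_integral_LamN (hn : 0 < n) {T : V n → ℝ} {K s : ℝ} (hs : s < n + 4)
    (hT : ∀ R : ℝ, MemLp T 2 (volume.restrict (ball (0 : V n) R))) (hG : Gr K s T)
    {ψ : V n → ℝ} (hψ : SmTest ψ) :
    Tendsto (fun N : ℝ => ∫ x, T x * LamN N ψ x) atTop (𝓝 (∫ x, T x * Lam ψ x)) := by
  obtain ⟨C, hC0, hC⟩ := LamN_bound hn hψ
  have hTm := aestronglyMeasurable_of_memLp hT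
  refine tendsto_integral_filter_of_dominated_convergence
    (fun x => C * ‖T x * ((1 + ‖x‖) ^ (n + 2))⁻¹‖) ?_ ?_ ?_ ?_
  · exact Filter.Eventually.of_forall fun N =>
      hTm.mul (measurable_LamN hψ.smooth.continuous N).aestronglyMeasurable
  · filter_upwards [eventually_gt_atTop 0] with N hN
    refine Filter.Eventually.of_forall fun x => ?_
    rw [norm_mul, norm_mul, Real.norm_eq_abs (LamN N ψ x),
      Real.norm_of_nonneg (by positivity : (0:ℝ) ≤ ((1 + ‖x‖) ^ (n + 2))⁻¹)]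
    calc ‖T x‖ * |LamN N ψ x| ≤ ‖T x‖ * (C * ((1 + ‖x‖) ^ (n + 2))⁻¹) := by
          gcongr
          exact hC N hN x
      _ = _ := by ring
  · exact (integrable_weight hs hT hG).norm.const_mul C
  · exact Filter.Eventually.of_forall fun x =>
      (LamN_tendsto hn hψ.smooth hψ.cpt x).const_mul (T x)

end Liou

end Crest.Agent.R085
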