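import Crest.Agent.R085.Cacc
import Crest.Agent.R085.LimRefl
import Crest.Agent.R085.Lim2
import Crest.Agent.R085.M8Tilt
import Crest.Agent.R085.M8SL2
import Mathlib
import Crest.Agent.R085.Defs
import Crest.Agent.R085.CutBasic
import Crest.Agent.R085.LiouLam
import Crest.Agent.R085.Lim1

-- ▼ part R085/M8Far
section

/-!
R085, M8: estimates for the shell integral `farI`.
-/

set_option autoImplicit false

namespace Crest.Agent.R085.M8

open MeasureTheory Metric Set Filter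
open scoped ENNReal NNReal Topology

variable {d : ℕ}

theorem far_bdd {w : V d → ℝ} (hw : Continuous w) (x : V d) (R : ℝ) :
    ∃ M : ℝ, 0 ≤ M ∧ ∀ y ∈ ball x R, |w y| ≤ M := by
  obtain ⟨M, hM⟩ := (isCompact_closedBall x R).exists_bound_of_continuousOn hw.continuousOn
  refine ⟨max M 0, le_max_right _ _, fun y hy => ?_⟩
  have := hM y (ball_subset_closedBall hy)
  rw [Real.norm_eq_abs] at this
  exact this.trans (le_max_left _ _)

theorem far_measSet (x : V d) (r R : ℝ) : MeasurableSet (ball x R \ ball x r) :=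
  measurableSet_ball.diff measurableSet_ball

theorem far_integrand_meas {w : V d → ℝ} (hw : Continuous w) (n : ℕ) (x : V d) :
    Measurable fun y => |w y| * (dist y x ^ (n + 2))⁻¹ :=
  hw.abs.measurable.mul
    (((continuous_id.dist continuous_const).measurable.pow_const (n + 2)).inv)

theorem far_integrableOn {n : ℕ} {C : ℝ} {μ : Measure (V d)} (hμ : UpperReg n C μ) {w : V d → ℝ}
    (hw : Continuous w) (x : V d) {r : ℝ} (hr : 0 < r) (R : ℝ) :
    IntegrableOn (fun y => |w y| * (dist y x ^ (n + 2))⁻¹) (ball x R \ ball x r) μ := by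
  obtain ⟨M, hM0, hM⟩ := far_bdd hw x R
  refine IntegrableOn.of_bound ((measure_mono sdiff_subset).trans_lt (hμ.ball_lt_top x R))
    (far_integrand_meas hw n x).aestronglyMeasurable (M * (r ^ (n + 2))⁻¹) ?_
  rw [ae_restrict_iff' (far_measSet x r R)]
  refine Eventually.of_forall fun y hy => ?_
  have h1 : r ≤ dist y x := by simpa using hy.2
  rw [Real.norm_eq_abs, abs_of_nonneg (by positivity)]
  gcongr
  exact hM y hy.1


theorem farI_split {n : ℕ} {C : ℝ} {μ : Measure (V d)} (hμ : UpperReg n C μ) {w : V d → ℝ}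
    (hw : Continuous w) (x : V d) {r s : ℝ} (hr : 0 < r) (hrs : r ≤ s) (R : ℝ) :
    farI n μ w x r R ≤ farI n μ w x r s + farI n μ w x s R := by
  unfold farI
  have h1 := far_integrableOn hμ hw x hr s (n := n)
  have h2 := far_integrableOn hμ hw x (hr.trans_le hrs) R (n := n)
  have hdisj : Disjoint (ball x s \ ball x r) (ball x R \ ball x s) := by
    rw [Set.disjoint_left]
    intro y hy hy'
    exact hy'.2 hy.1
  rw [← setIntegral_union hdisj (far_measSet x s R) h1 h2]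
  refine setIntegral_mono_set (h1.union h2) (Eventually.of_forall fun y => by positivity) ?_
  refine LE.le.eventuallyLE ?_
  intro y hy
  by_cases hs : y ∈ ball x s
  · exact Or.inl ⟨hs, hy.2⟩
  · exact Or.inr ⟨hy.1, hs⟩

theorem farI_eq_zero (n : ℕ) (μ : Measure (V d)) (w : V d → ℝ) (x : V d) {r R : ℝ} (h : R ≤ r) :
    farI n μ w x r R = 0 := by
  unfold farI
  rw [sdiff_eq_empty.2 (ball_subset_ball h), Measure.restrict_empty, integral_zero_measure]

/-- one shell. -/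
theorem farI_shell {n : ℕ} {C : ℝ} (hC : 0 ≤ C) {μ : Measure (V d)} (hμ : UpperReg n C μ)
    {w : V d → ℝ} (hw : Continuous w) (x : V d) {G r R : ℝ} (hG : 0 ≤ G) (hr : 0 < r)
    (hR : r ≤ R) (hR2 : R ≤ 2 * r)
    (h : ∫ y in ball x R, (w y) ^ 2 ∂μ ≤ G ^ 2 * R ^ (n + 3)) :
    farI n μ w x r R ≤ (C + 1) * 2 ^ (n + 3) * G / Real.sqrt r := by
  have hR0 : 0 < R := hr.trans_le hR
  obtain ⟨M, hM0, hM⟩ := far_bdd hw x R
  have hfin : IsFiniteMeasure (μ.restrict (ball x R)) :=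
    ⟨by rw [Measure.restrict_apply_univ]; exact hμ.ball_lt_top x R⟩
  have hint1 : IntegrableOn (fun y => |w y|) (ball x R) μ := by
    refine IntegrableOn.of_bound (hμ.ball_lt_top x R) hw.abs.aestronglyMeasurable M ?_
    rw [ae_restrict_iff' measurableSet_ball]
    exact Eventually.of_forall fun y hy => by simpa using hM y hy
  have hint2 : IntegrableOn (fun y => (w y) ^ 2) (ball x R) μ := by
    refine IntegrableOn.of_bound (hμ.ball_lt_top x R) (hw.pow 2).aestronglyMeasurable (M ^ 2) ?_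
    rw [ae_restrict_iff' measurableSet_ball]
    refine Eventually.of_forall fun y hy => ?_
    rw [Real.norm_eq_abs, abs_pow]
    exact pow_le_pow_left₀ (abs_nonneg _) (hM y hy) 2
  -- volume
  have hvol : (μ.restrict (ball x R)).real univ ≤ C * R ^ n := by
    rw [Measure.real, Measure.restrict_apply_univ]
    exact ENNReal.toReal_le_of_le_ofReal (by positivity) (hμ x R hR0)
  -- first reduction
  have hA : farI n μ w x r R ≤ (r ^ (n + 2))⁻¹ * ∫ y in ball x R, |w y| ∂μ := by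
    unfold farI
    rw [← integral_const_mul]
    calc ∫ y in ball x R \ ball x r, |w y| * (dist y x ^ (n + 2))⁻¹ ∂μ
        ≤ ∫ y in ball x R \ ball x r, (r ^ (n + 2))⁻¹ * |w y| ∂μ := by
          apply integral_mono_of_nonneg (Eventually.of_forall fun y => by positivity)
            ((hint1.mono_set sdiff_subset).const_mul _)
          rw [EventuallyLE, ae_restrict_iff' (far_measSet x r R)]
          refine Eventually.of_forall fun y hy => ?_
          have h1 : r ≤ dist y x := by simpa using hy.2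
          show |w y| * (dist y x ^ (n + 2))⁻¹ ≤ (r ^ (n + 2))⁻¹ * |w y|
          rw [mul_comm]
          gcongr
      _ ≤ ∫ y in ball x R, (r ^ (n + 2))⁻¹ * |w y| ∂μ := by
          refine setIntegral_mono_set (hint1.const_mul _)
            (Eventually.of_forall fun y => by positivity) ?_
          exact LE.le.eventuallyLE sdiff_subset
  -- AM-GM for any t > 0
  have hB : ∀ t : ℝ, 0 < t → ∫ y in ball x R, |w y| ∂μ
      ≤ (t⁻¹ * (G ^ 2 * R ^ (n + 3)) + t * (C * R ^ n)) / 2 := by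
    intro t ht
    have h1 : ∫ y in ball x R, |w y| ∂μ
        ≤ ∫ y in ball x R, (t⁻¹ * (w y) ^ 2 + t) / 2 ∂μ := by
      refine integral_mono hint1 (((hint2.const_mul _).add (integrable_const t)).div_const 2) ?_
      intro y
      show |w y| ≤ (t⁻¹ * (w y) ^ 2 + t) / 2
      have h2 : 0 ≤ t⁻¹ * (|w y| - t) ^ 2 := by positivity
      have h3 : t⁻¹ * (|w y| - t) ^ 2 = t⁻¹ * (w y) ^ 2 - 2 * |w y| + t := by
        rw [sub_sq, sq_abs]; field_simp
      linarith
    refine h1.trans ?_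
    rw [integral_div, integral_add (hint2.const_mul _) (integrable_const t), integral_const_mul,
      integral_const, smul_eq_mul, mul_comm _ t]
    gcongr
  have hB' : ∫ y in ball x R, |w y| ∂μ ≤ (C + 1) / 2 * (G * (R ^ (n + 1) * Real.sqrt R)) := by
    rcases hG.eq_or_lt with hG0 | hG0
    · rw [← hG0]
      have h2 : ∀ t : ℝ, 0 < t → ∫ y in ball x R, |w y| ∂μ ≤ t * (C * R ^ n) / 2 := by
        intro t ht
        have := hB t ht
        rw [← hG0] at this
        simpa using this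
      rw [zero_mul, mul_zero]
      refine le_of_forall_pos_le_add fun ε hε => ?_
      have h3 := h2 (ε / (C * R ^ n + 1)) (by positivity)
      refine h3.trans ?_
      rw [zero_add]
      have h4 : C * R ^ n / (C * R ^ n + 1) ≤ 1 := by
        rw [div_le_one (by positivity)]; linarith
      calc ε / (C * R ^ n + 1) * (C * R ^ n) / 2
          = ε * (C * R ^ n / (C * R ^ n + 1)) / 2 := by ring
        _ ≤ ε * 1 / 2 := by gcongr
        _ ≤ ε := by linarith
    · have hs : 0 < Real.sqrt R := Real.sqrt_pos.2 hR0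
      have hss : Real.sqrt R * Real.sqrt R = R := Real.mul_self_sqrt hR0.le
      refine (hB (G * (R * Real.sqrt R)) (by positivity)).trans (le_of_eq ?_)
      have h5 : (G * (R * Real.sqrt R))⁻¹ * (G ^ 2 * R ^ (n + 3))
          = G * (R ^ (n + 1) * Real.sqrt R) := by
        rw [inv_mul_eq_div, div_eq_iff (by positivity)]
        calc G ^ 2 * R ^ (n + 3) = G ^ 2 * (R ^ (n + 2) * R) := by ring
          _ = G ^ 2 * (R ^ (n + 2) * (Real.sqrt R * Real.sqrt R)) := by rw [hss]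
          _ = _ := by ring
      rw [h5]
      ring
  have hsr : 0 < Real.sqrt r := Real.sqrt_pos.2 hr
  have hsrr : Real.sqrt r * Real.sqrt r = r := Real.mul_self_sqrt hr.le
  have hsR : Real.sqrt R ≤ 2 * Real.sqrt r := by
    rw [Real.sqrt_le_left (by positivity)]
    calc R ≤ 2 * r := hR2
      _ ≤ 4 * r := by linarith
      _ = (2 * Real.sqrt r) ^ 2 := by rw [mul_pow, Real.sq_sqrt hr.le]; norm_num
  calc farI n μ w x r R ≤ (r ^ (n + 2))⁻¹ * ∫ y in ball x R, |w y| ∂μ := hA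
    _ ≤ (r ^ (n + 2))⁻¹ * ((C + 1) / 2 * (G * (R ^ (n + 1) * Real.sqrt R))) := by gcongr
    _ ≤ (r ^ (n + 2))⁻¹ * ((C + 1) / 2 * (G * ((2 * r) ^ (n + 1) * (2 * Real.sqrt r)))) := by
        gcongr
    _ = (C + 1) * 2 ^ (n + 1) * G * (Real.sqrt r / r) := by
        rw [mul_pow, pow_succ r (n + 1)]
        field_simp
    _ = (C + 1) * 2 ^ (n + 1) * G / Real.sqrt r := by
        have : Real.sqrt r / r = (Real.sqrt r)⁻¹ := by
          rw [div_eq_iff hr.ne', eq_comm, inv_mul_eq_iff_eq_mul₀ hsr.ne', hsrr]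
        rw [this]; rfl
    _ ≤ (C + 1) * 2 ^ (n + 3) * G / Real.sqrt r := by
        gcongr
        · norm_num
        · omega

theorem farI_growth (n d : ℕ) (C : ℝ) (hC : 0 ≤ C) :
    ∃ K : ℝ, 0 < K ∧ ∀ μ : Measure (V d), UpperReg n C μ → ∀ w : V d → ℝ, Continuous w →
      ∀ (x : V d) (G r R : ℝ), 0 ≤ G → 0 < r →
        (∀ s : ℝ, r ≤ s → s ≤ R → ∫ y in ball x s, (w y) ^ 2 ∂μ ≤ G ^ 2 * s ^ (n + 3)) →
        farI n μ w x r R ≤ K * G / Real.sqrt r := by
  set K0 : ℝ := (C + 1) * 2 ^ (n + 3) with hK0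
  have hK0pos : 0 < K0 := by positivity
  set K : ℝ := 4 * K0 with hK
  refine ⟨K, by positivity, fun μ hμ w hw x G r R hG hr => ?_⟩
  have key : ∀ m : ℕ, ∀ r : ℝ, 0 < r → R ≤ 2 ^ m * r →
      (∀ s : ℝ, r ≤ s → s ≤ R → ∫ y in ball x s, (w y) ^ 2 ∂μ ≤ G ^ 2 * s ^ (n + 3)) →
      farI n μ w x r R ≤ K * G / Real.sqrt r := by
    intro m
    induction m with
    | zero =>
      intro r hr hR _
      rw [pow_zero, one_mul] at hR
      rw [farI_eq_zero n μ w x hR]
      positivity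
    | succ m ih =>
      intro r hr hR h
      rcases le_or_gt R r with h0 | h0
      · rw [farI_eq_zero n μ w x h0]
        positivity
      rcases le_or_gt R (2 * r) with h1 | h1
      · refine (farI_shell hC hμ hw x hG hr h0.le h1 (h R h0.le le_rfl)).trans ?_
        gcongr
        rw [hK]; linarith
      · have h2 := farI_split hμ hw x hr (by linarith : r ≤ 2 * r) R (n := n)
        have h3 := farI_shell hC hμ hw x hG hr (by linarith : r ≤ 2 * r) le_rfl
          (h (2 * r) (by linarith) h1.le)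
        have h4 := ih (2 * r) (by positivity) (by rw [pow_succ] at hR; linarith)
          (fun s hs hs' => h s (by linarith) hs')
        have hsr : 0 < Real.sqrt r := Real.sqrt_pos.2 hr
        have h5 : Real.sqrt (2 * r) = Real.sqrt 2 * Real.sqrt r := Real.sqrt_mul (by norm_num) r
        have h6 : (4 / 3 : ℝ) ≤ Real.sqrt 2 := by
          rw [Real.le_sqrt' (by norm_num)]; norm_num
        have h7 : K * G / Real.sqrt (2 * r) ≤ (3 / 4) * (K * G / Real.sqrt r) := by
          rw [h5, ← div_div]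
          have h8 : K * G / Real.sqrt 2 ≤ K * G * (3 / 4) := by
            rw [div_le_iff₀ (by positivity)]
            have : 0 ≤ K * G := by positivity
            nlinarith
          calc K * G / Real.sqrt 2 / Real.sqrt r ≤ K * G * (3 / 4) / Real.sqrt r := by gcongr
            _ = _ := by ring
        calc farI n μ w x r R ≤ farI n μ w x r (2 * r) + farI n μ w x (2 * r) R := h2
          _ ≤ K0 * G / Real.sqrt r + (3 / 4) * (K * G / Real.sqrt r) := by
              linarith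
          _ = K * G / Real.sqrt r := by rw [hK]; ring
  intro h
  obtain ⟨m, hm⟩ := pow_unbounded_of_one_lt (R / r) (by norm_num : (1 : ℝ) < 2)
  refine key m r hr ?_ h
  rw [div_lt_iff₀ hr] at hm
  exact hm.le

theorem farI_lin (n d : ℕ) (C : ℝ) (hC : 0 ≤ C) :
    ∃ K : ℝ, 0 < K ∧ ∀ μ : Measure (V d), UpperReg n C μ → ∀ w : V d → ℝ, Continuous w →
      ∀ (x : V d) (L r R : ℝ), 0 ≤ L → 0 < r →
        (∀ y, r ≤ dist y x → |w y| ≤ L * dist y x) →
        farI n μ w x r R ≤ K * L / r := by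
  refine ⟨(C + 1) * 2 ^ (n + 1), by positivity, fun μ hμ w hw x L r R hL hr h => ?_⟩
  unfold farI
  obtain ⟨ht1, ht2⟩ := integrableOn_tail hμ hC le_rfl x hr (m := 1)
  have hsub : ball x R \ ball x r ⊆ {y | r ≤ dist x y} := by
    intro y hy
    have := hy.2
    rw [mem_ball, not_lt, dist_comm] at this
    exact this
  calc ∫ y in ball x R \ ball x r, |w y| * (dist y x ^ (n + 2))⁻¹ ∂μ
      ≤ ∫ y in ball x R \ ball x r, L * ((dist x y) ^ (n + 1))⁻¹ ∂μ := by
        apply integral_mono_of_nonneg (Eventually.of_forall fun y => by positivity)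
          ((ht1.mono_set hsub).const_mul _)
        rw [EventuallyLE, ae_restrict_iff' (far_measSet x r R)]
        refine Eventually.of_forall fun y hy => ?_
        have hy1 : r ≤ dist x y := hsub hy
        have hy2 : 0 < dist y x := by rw [dist_comm]; linarith
        rw [dist_comm x y] at hy1 ⊢
        calc |w y| * (dist y x ^ (n + 2))⁻¹
            ≤ (L * dist y x) * (dist y x ^ (n + 2))⁻¹ := by
              gcongr
              exact h y hy1
          _ = L * (dist y x ^ (n + 1))⁻¹ := by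
              rw [pow_succ _ (n + 1)]; field_simp
    _ = L * ∫ y in ball x R \ ball x r, ((dist x y) ^ (n + 1))⁻¹ ∂μ :=
        integral_const_mul _ _
    _ ≤ L * ∫ y in {y | r ≤ dist x y}, ((dist x y) ^ (n + 1))⁻¹ ∂μ := by
        refine mul_le_mul_of_nonneg_left (setIntegral_mono_set ht1 ?_ ?_) hL
        · exact Eventually.of_forall fun y => by positivity
        · exact hsub.eventuallyLE
    _ ≤ L * (C * 2 ^ (n + 1) / r ^ 1) := by gcongr
    _ ≤ (C + 1) * 2 ^ (n + 1) * L / r := by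
        rw [pow_one]
        have : C * 2 ^ (n + 1) ≤ (C + 1) * 2 ^ (n + 1) := by gcongr; linarith
        calc L * (C * 2 ^ (n + 1) / r) = (C * 2 ^ (n + 1)) * L / r := by ring
          _ ≤ _ := by gcongr

end Crest.Agent.R085.M8
end

-- ▼ part R085/M8Energy
section

/-!
R085, M8 (propagation): energy bound and uniform smallness of the form for the normalised
coordinate functions `A = (y_i - b_i) / ε`.
-/

set_option autoImplicit false

open MeasureTheory Metric Set Filter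
open scoped ENNReal NNReal Topology

namespace Crest.Agent.R085

/-- normalised datum for one measure -/
structure Dat (n : ℕ) {d : ℕ} (C : ℝ) (D : ℝ≥0∞) (μ : Measure (V d)) (ε : ℝ) (b : V d) : Prop where
  adr : ADR n C D μ
  eps : 0 < ε
  eps1 : ε ≤ 1
  hD : ENNReal.ofReal (ε ^ 3)⁻¹ ≤ D
  mem : (0 : V d) ∈ μ.support
  flat : ∀ R : ℝ, 1 ≤ R → R ≤ (ε ^ 3)⁻¹ →
    ∫ y in ball (0 : V d) R, nsq n (y - b) ∂μ ≤ ε ^ 2 * R * R ^ (n + 2)
  eta : EtaS n μ 0 1 (ε ^ 3)⁻¹ (ε ^ 3)

/-- the normalised coordinate -/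
noncomputable def Ac {d : ℕ} (ε : ℝ) (b : V d) (i : Fin d) (y : V d) : ℝ := (y i - b i) / ε

namespace Dat

variable {n d : ℕ} {C : ℝ} {D : ℝ≥0∞} {μ : Measure (V d)} {ε : ℝ} {b : V d}

theorem M1 (h : Dat n C D μ ε b) : 1 ≤ (ε ^ 3)⁻¹ := by
  have := h.eps
  rw [one_le_inv₀ (by positivity)]
  exact pow_le_one₀ h.eps.le h.eps1

theorem continuous_Ac (ε : ℝ) (b : V d) (i : Fin d) : Continuous (Ac ε b i) := by
  unfold Ac
  fun_prop

theorem lipschitz_Ac (h : Dat n C D μ ε b) (i : Fin d) :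
    LipschitzWith (Real.toNNReal ε⁻¹) (Ac ε b i) := by
  have he := h.eps
  apply LipschitzWith.of_dist_le_mul
  intro y z
  rw [Real.dist_eq, Real.coe_toNNReal _ (by positivity)]
  unfold Ac
  have h1 : (y i - b i) / ε - (z i - b i) / ε = ε⁻¹ * ((y - z) i) := by
    simp only [PiLp.sub_apply]
    field_simp
    ring
  rw [h1, abs_mul, abs_of_pos (inv_pos.2 he), dist_eq_norm]
  gcongr
  have := PiLp.norm_apply_le (y - z) i
  rwa [Real.norm_eq_abs] at this

theorem locLip_Ac (h : Dat n C D μ ε b) (i : Fin d) : LocLip (Ac ε b i) :=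
  fun _ => ⟨_, (h.lipschitz_Ac i).lipschitzOnWith⟩

theorem sq_le_nsq {n d : ℕ} {i : Fin d} (hi : n ≤ (i : ℕ)) (z : V d) : (z i) ^ 2 ≤ nsq n z := by
  unfold nsq
  have h : ∀ j ∈ Finset.univ, 0 ≤ (if n ≤ ((j : Fin d) : ℕ) then (z j) ^ 2 else 0) := by
    intro j _
    split_ifs <;> positivity
  have := Finset.single_le_sum h (Finset.mem_univ i)
  simpa [hi] using this

/-- `L²` growth of the coordinate -/
theorem growth (h : Dat n C D μ ε b) {i : Fin d} (hi : n ≤ (i : ℕ)) {R : ℝ} (hR : 1 ≤ R)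
    (hRM : R ≤ (ε ^ 3)⁻¹) : ∫ y in ball (0 : V d) R, (Ac ε b i y) ^ 2 ∂μ ≤ R ^ (n + 3) := by
  have he := h.eps
  have : IsFiniteMeasureOnCompacts μ := M8.adr_finiteOnCompacts h.adr
  have h1 : ∫ y in ball (0 : V d) R, (Ac ε b i y) ^ 2 ∂μ
      ≤ ∫ y in ball (0 : V d) R, (ε ^ 2)⁻¹ * nsq n (y - b) ∂μ := by
    apply integral_mono
    · exact M8.integrableOn_ball_of_continuous ((continuous_Ac ε b i).pow 2) _ _
    · refine M8.integrableOn_ball_of_continuous ?_ _ _
      have := M8.continuous_nsq (n := n) (d := d)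
      fun_prop
    · intro y
      show (Ac ε b i y) ^ 2 ≤ (ε ^ 2)⁻¹ * nsq n (y - b)
      have := sq_le_nsq hi (y - b)
      unfold Ac
      rw [div_pow, div_eq_inv_mul]
      gcongr
      simpa using this
  refine h1.trans ?_
  rw [integral_const_mul]
  have h2 := h.flat R hR hRM
  calc (ε ^ 2)⁻¹ * ∫ y in ball (0 : V d) R, nsq n (y - b) ∂μ
      ≤ (ε ^ 2)⁻¹ * (ε ^ 2 * R * R ^ (n + 2)) := by gcongr
    _ = R ^ (n + 3) := by
        field_simp
        ring

theorem abs_b_le (h : Dat n C D μ ε b) {i : Fin d} (hi : n ≤ (i : ℕ)) : |b i| ≤ 2 * C := by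
  have he := h.eps
  have hC := h.adr.one_le
  have hfin : IsFiniteMeasureOnCompacts μ := M8.adr_finiteOnCompacts h.adr
  have hg := h.growth hi le_rfl h.M1
  have hlow : C⁻¹ ≤ μ.real (ball (0 : V d) 1) := by
    have := h.adr.le_real_ball h.mem one_pos
      (le_trans (ENNReal.ofReal_le_ofReal h.M1) h.hD)
    simpa using this
  have hup : μ.real (ball (0 : V d) 1) ≤ C := by
    have := h.adr.real_ball_le (0 : V d) one_pos
    simpa using this
  -- pointwise
  have h1 : (b i) ^ 2 * μ.real (ball (0 : V d) 1) ≤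
      ∫ y in ball (0 : V d) 1, (2 * ε ^ 2 * (Ac ε b i y) ^ 2 + 2) ∂μ := by
    have e1 : (b i) ^ 2 * μ.real (ball (0 : V d) 1) = ∫ _y in ball (0 : V d) 1, (b i) ^ 2 ∂μ := by
      rw [setIntegral_const, smul_eq_mul, mul_comm]
    rw [e1]
    refine setIntegral_mono_on ?_ ?_ measurableSet_ball fun y hy => ?_
    · exact M8.integrableOn_ball_of_continuous continuous_const _ _
    · refine M8.integrableOn_ball_of_continuous ?_ _ _
      have := continuous_Ac ε b i
      fun_prop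
    · have hy1 : |y i| ≤ 1 := by
        have h2 := PiLp.norm_apply_le y i
        rw [Real.norm_eq_abs] at h2
        rw [mem_ball_zero_iff] at hy
        linarith
      have hy2 : (y i) ^ 2 ≤ 1 := by
        rw [← sq_abs]
        exact pow_le_one₀ (abs_nonneg _) hy1
      have e2 : ε ^ 2 * (Ac ε b i y) ^ 2 = (y i - b i) ^ 2 := by
        unfold Ac
        field_simp
      nlinarith [sq_nonneg (2 * y i - b i)]
  have h3 : ∫ y in ball (0 : V d) 1, (2 * ε ^ 2 * (Ac ε b i y) ^ 2 + 2) ∂μ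
      = 2 * ε ^ 2 * (∫ y in ball (0 : V d) 1, (Ac ε b i y) ^ 2 ∂μ) + 2 * μ.real (ball (0 : V d) 1) := by
    rw [integral_add, integral_const_mul, setIntegral_const, smul_eq_mul]
    · ring
    · refine M8.integrableOn_ball_of_continuous ?_ _ _
      have := continuous_Ac ε b i
      fun_prop
    · exact M8.integrableOn_ball_of_continuous continuous_const _ _
  have he2 : ε ^ 2 ≤ 1 := pow_le_one₀ he.le h.eps1
  have h4 : ε ^ 2 * (∫ y in ball (0 : V d) 1, (Ac ε b i y) ^ 2 ∂μ) ≤ 1 := by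
    have h5 : (0 : ℝ) ≤ ∫ y in ball (0 : V d) 1, (Ac ε b i y) ^ 2 ∂μ :=
      integral_nonneg fun y => sq_nonneg _
    rw [one_pow] at hg
    nlinarith
  have hm : 0 < μ.real (ball (0 : V d) 1) := lt_of_lt_of_le (by positivity) hlow
  have hCC : 1 ≤ C * μ.real (ball (0 : V d) 1) := by
    have := mul_le_mul_of_nonneg_left hlow (by linarith : (0 : ℝ) ≤ C)
    rwa [mul_inv_cancel₀ (by linarith)] at this
  have h6 : (b i) ^ 2 * μ.real (ball (0 : V d) 1) ≤ (4 * C) * μ.real (ball (0 : V d) 1) := by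
    nlinarith
  have h7 : (b i) ^ 2 ≤ 4 * C := le_of_mul_le_mul_right h6 hm
  rw [← abs_of_pos (by linarith : (0 : ℝ) < 2 * C)]
  apply sq_le_sq.1
  nlinarith

theorem abs_Ac_le (h : Dat n C D μ ε b) {i : Fin d} (hi : n ≤ (i : ℕ)) {y : V d}
    (hy : 1 ≤ ‖y‖) : |Ac ε b i y| ≤ (1 + 2 * C) / ε * ‖y‖ := by
  have he := h.eps
  have hC := h.adr.one_le
  unfold Ac
  rw [abs_div, abs_of_pos he, div_mul_eq_mul_div]
  gcongr
  have h1 := h.abs_b_le hi
  have h2 := PiLp.norm_apply_le y i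
  rw [Real.norm_eq_abs] at h2
  calc |y i - b i| ≤ |y i| + |b i| := abs_sub _ _
    _ ≤ ‖y‖ + 2 * C * ‖y‖ := by nlinarith
    _ = (1 + 2 * C) * ‖y‖ := by ring

/-- the far integral of `A - a` is small at all large radii -/
theorem farI_le (n d : ℕ) (C : ℝ) : ∃ K : ℝ, 0 < K ∧
    ∀ (D : ℝ≥0∞) (μ : Measure (V d)) (ε : ℝ) (b : V d), Dat n C D μ ε b →
    ∀ (i : Fin d), n ≤ (i : ℕ) → ∀ (a r R : ℝ), 1 ≤ r → r ≤ (ε ^ 3)⁻¹ →
    farI n μ (fun y => Ac ε b i y - a) 0 r R ≤ K * (1 + |a|) * ((√r)⁻¹ + ε ^ 2) := by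
  rcases lt_or_ge C 0 with hC | hC
  · refine ⟨1, one_pos, fun D μ ε b h => ?_⟩
    have := h.adr.one_le
    linarith
  obtain ⟨K1, hK1, hK1'⟩ := M8.farI_growth n d C hC
  obtain ⟨K2, hK2, hK2'⟩ := M8.farI_lin n d C hC
  refine ⟨K1 * (2 + 2 * C) + K2 * (1 + 2 * C), by positivity, ?_⟩
  intro D μ ε b h i hi a r R hr hrM
  have he := h.eps
  have hC1 := h.adr.one_le
  have hfin : IsFiniteMeasureOnCompacts μ := M8.adr_finiteOnCompacts h.adr
  have hwc : Continuous (fun y => Ac ε b i y - a) := (continuous_Ac ε b i).sub continuous_const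
  have hM1 := h.M1
  have hs := M8.farI_split (R := R) (n := n) h.adr.upperReg hwc (0 : V d) (zero_lt_one.trans_le hr) hrM
  have h1 : farI n μ (fun y => Ac ε b i y - a) 0 r (ε ^ 3)⁻¹ ≤ K1 * ((2 + 2 * C) * (1 + |a|)) / √r := by
    refine hK1' μ h.adr.upperReg _ hwc 0 _ r _ (by positivity) (zero_lt_one.trans_le hr) ?_
    intro s hrs hsM
    have hs1 : 1 ≤ s := hr.trans hrs
    have hg := h.growth hi hs1 hsM
    have h2 : ∫ y in ball (0 : V d) s, (Ac ε b i y - a) ^ 2 ∂μ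
        ≤ ∫ y in ball (0 : V d) s, (2 * (Ac ε b i y) ^ 2 + 2 * a ^ 2) ∂μ := by
      apply integral_mono
      · exact M8.integrableOn_ball_of_continuous (hwc.pow 2) _ _
      · refine M8.integrableOn_ball_of_continuous ?_ _ _
        have := continuous_Ac ε b i
        fun_prop
      · intro y
        show (Ac ε b i y - a) ^ 2 ≤ 2 * (Ac ε b i y) ^ 2 + 2 * a ^ 2
        nlinarith [sq_nonneg (Ac ε b i y + a)]
    refine h2.trans ?_
    rw [integral_add, integral_const_mul, setIntegral_const, smul_eq_mul]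
    · have h3 : μ.real (ball (0 : V d) s) ≤ C * s ^ n := h.adr.real_ball_le _ (by linarith)
      have h4 : C * s ^ n ≤ C * s ^ (n + 3) := by
        gcongr
        omega
      have ha : 0 ≤ |a| := abs_nonneg a
      have hsn : 0 < s ^ (n + 3) := by positivity
      calc 2 * (∫ y in ball (0 : V d) s, (Ac ε b i y) ^ 2 ∂μ) + μ.real (ball (0 : V d) s) * (2 * a ^ 2)
          ≤ 2 * s ^ (n + 3) + (C * s ^ (n + 3)) * (2 * a ^ 2) := by
            gcongr
            exact h3.trans h4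
        _ = (2 + 2 * C * |a| ^ 2) * s ^ (n + 3) := by rw [sq_abs]; ring
        _ ≤ ((2 + 2 * C) * (1 + |a|)) ^ 2 * s ^ (n + 3) := by
            gcongr
            nlinarith [mul_nonneg ha ha, mul_nonneg hC ha, mul_nonneg (mul_nonneg hC ha) ha,
              mul_nonneg (mul_nonneg hC hC) (mul_nonneg ha ha), mul_nonneg (mul_nonneg hC hC) ha]
    · refine M8.integrableOn_ball_of_continuous ?_ _ _
      have := continuous_Ac ε b i
      fun_prop
    · exact M8.integrableOn_ball_of_continuous continuous_const _ _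
  have h2 : farI n μ (fun y => Ac ε b i y - a) 0 (ε ^ 3)⁻¹ R
      ≤ K2 * (((1 + 2 * C) * (1 + |a|)) / ε) / (ε ^ 3)⁻¹ := by
    refine hK2' μ h.adr.upperReg _ hwc 0 _ _ R (by positivity) (by positivity) ?_
    intro y hy
    rw [dist_zero_right] at hy ⊢
    have hy1 : 1 ≤ ‖y‖ := hM1.trans hy
    have h3 := h.abs_Ac_le hi hy1
    have h4 : |a| ≤ ((1 + 2 * C) * |a|) / ε * ‖y‖ := by
      have h5 : 1 ≤ (1 + 2 * C) / ε * ‖y‖ := by
        have : 1 ≤ (1 + 2 * C) / ε := by
          rw [le_div_iff₀ he]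
          linarith [h.eps1]
        nlinarith
      calc |a| = |a| * 1 := by ring
        _ ≤ |a| * ((1 + 2 * C) / ε * ‖y‖) := by gcongr
        _ = ((1 + 2 * C) * |a|) / ε * ‖y‖ := by ring
    calc |Ac ε b i y - a| ≤ |Ac ε b i y| + |a| := abs_sub _ _
      _ ≤ (1 + 2 * C) / ε * ‖y‖ + ((1 + 2 * C) * |a|) / ε * ‖y‖ := add_le_add h3 h4
      _ = ((1 + 2 * C) * (1 + |a|)) / ε * ‖y‖ := by ring
  refine (hs.trans (add_le_add h1 h2)).trans ?_
  have e1 : K2 * (((1 + 2 * C) * (1 + |a|)) / ε) / (ε ^ 3)⁻¹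
      = K2 * (1 + 2 * C) * (1 + |a|) * ε ^ 2 := by
    field_simp
  rw [e1, div_eq_mul_inv]
  have hr0 : 0 ≤ (√r)⁻¹ := by positivity
  have ha : 0 ≤ |a| := abs_nonneg a
  have he2 : 0 ≤ ε ^ 2 := by positivity
  have hx : 0 ≤ K1 * (2 + 2 * C) * (1 + |a|) := by positivity
  have hy : 0 ≤ K2 * (1 + 2 * C) * (1 + |a|) := by positivity
  nlinarith [mul_nonneg hx he2, mul_nonneg hy hr0]

/-- `Bf` of the normalised coordinate -/
theorem Bf_Ac (n : ℕ) {d : ℕ} (μ : Measure (V d)) (N ε : ℝ) (b : V d) (i : Fin d)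
    (ψ : V d → ℝ) :
    Bf n μ N (Ac ε b i) ψ = ε⁻¹ * Bf n μ N (lin (EuclideanSpace.single i 1)) ψ := by
  unfold Bf
  rw [mul_left_comm, ← integral_const_mul ε⁻¹]
  congr 1
  refine integral_congr_ae (Eventually.of_forall fun p => ?_)
  simp only [Ac, lin, EuclideanSpace.inner_single_right]
  simp
  ring

/-- sup bound for a compactly supported Lipschitz function -/
theorem abs_le_of_lip {ψ : V d → ℝ} (i : Fin d) {K0 ρ : ℝ} (hρ : 0 ≤ ρ)
    (hl : ∀ y z, |ψ y - ψ z| ≤ K0 * dist y z) (hs : ∀ y, y ∉ ball (0 : V d) ρ → ψ y = 0)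
    (y : V d) (hK0 : 0 ≤ K0) : |ψ y| ≤ 2 * ρ * K0 := by
  by_cases hy : y ∈ ball (0 : V d) ρ
  · rw [mem_ball_zero_iff] at hy
    set z : V d := y + (2 * ρ) • EuclideanSpace.single i (1 : ℝ) with hz
    have h1 : dist y z = 2 * ρ := by
      rw [hz, dist_eq_norm, sub_add_cancel_left, norm_neg, norm_smul]
      simp [abs_of_nonneg hρ]
    have h2 : z ∉ ball (0 : V d) ρ := by
      rw [mem_ball_zero_iff, not_lt]
      have h3 := norm_sub_norm_le ((2 * ρ) • EuclideanSpace.single i (1 : ℝ)) (-y)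
      rw [sub_neg_eq_add, norm_neg, norm_smul] at h3
      simp only [Real.norm_eq_abs, abs_mul, abs_two, abs_of_nonneg hρ, PiLp.norm_single,
        mul_one, norm_one] at h3
      rw [add_comm] at h3
      linarith
    have h4 := hl y z
    rw [hs z h2, sub_zero, h1] at h4
    linarith
  · rw [hs y hy, abs_zero]
    positivity

/-- large `N` bound from the oscillation hypothesis -/
theorem eta_bf (h : Dat n C D μ ε b) (i : Fin d) {ψ : V d → ℝ} {K1 ρ : ℝ} (hK1 : 0 ≤ K1)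
    (hρ : ρ ≤ (ε ^ 3)⁻¹)
    (hl : ∀ y z, |ψ y - ψ z| ≤ K1 * dist y z) (hb : ∀ y, |ψ y| ≤ K1)
    (hs : ∀ y, y ∉ ball (0 : V d) ρ → ψ y = 0) (hz : ∫ y, ψ y ∂μ = 0) :
    ∀ᶠ N : ℝ in atTop, |Bf n μ N (Ac ε b i) ψ| ≤ K1 * ε ^ 2 := by
  have he := h.eps
  rcases hK1.eq_or_lt with hK | hK
  · refine Eventually.of_forall fun N => ?_
    have h0 : ψ = fun _ => 0 := by
      ext y
      have := hb y
      rw [← hK] at this
      exact abs_nonpos_iff.1 this
    have : Bf n μ N (Ac ε b i) ψ = 0 := by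
      unfold Bf
      rw [h0]
      simp
    rw [this, abs_zero]
    positivity
  · have h1 := h.eta (EuclideanSpace.single i (1 : ℝ)) (by simp) (fun y => K1⁻¹ * ψ y)
      (fun y z => by
        rw [← mul_sub, abs_mul, abs_of_pos (inv_pos.2 hK), div_one, inv_mul_le_iff₀ hK]
        exact hl y z)
      (fun y => by
        rw [abs_mul, abs_of_pos (inv_pos.2 hK), inv_mul_le_iff₀ hK, mul_one]
        exact hb y)
      (fun y hy => by
        rw [hs y, mul_zero]
        intro hy'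
        exact hy (ball_subset_ball (by linarith) hy'))
      (by rw [integral_const_mul, hz, mul_zero])
    filter_upwards [h1] with N hN
    rw [LR.bf_smul_right, abs_mul, abs_of_pos (inv_pos.2 hK), inv_mul_le_iff₀ hK, one_pow,
      mul_one] at hN
    rw [Bf_Ac, abs_mul, abs_of_pos (inv_pos.2 he), inv_mul_le_iff₀ he]
    calc _ ≤ K1 * ε ^ 3 := hN
      _ = ε * (K1 * ε ^ 2) := by ring

theorem isTest_of (K0 ρ : ℝ) (hK0 : 0 ≤ K0) {ψ : V d → ℝ}
    (hl : ∀ y z, |ψ y - ψ z| ≤ K0 * dist y z)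
    (hs : ∀ y, y ∉ ball (0 : V d) ρ → ψ y = 0) : IsTest ψ := by
  refine ⟨⟨K0.toNNReal, ?_⟩, ?_⟩
  · apply LipschitzWith.of_dist_le_mul
    intro y z
    rw [Real.dist_eq, Real.coe_toNNReal _ hK0]
    exact hl y z
  · apply HasCompactSupport.of_support_subset_isCompact (isCompact_closedBall (0 : V d) ρ)
    intro y hy
    by_contra hy'
    exact hy (hs y fun h => hy' (ball_subset_closedBall h))

theorem integral_abs_le (h : Dat n C D μ ε b) {i : Fin d} (hi : n ≤ (i : ℕ)) {R : ℝ}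
    (hR : 1 ≤ R) (hRM : R ≤ (ε ^ 3)⁻¹) :
    ∫ y in ball (0 : V d) R, |Ac ε b i y| ∂μ ≤ C * R ^ (n + 3) := by
  have hC := h.adr.one_le
  have hfin : IsFiniteMeasureOnCompacts μ := M8.adr_finiteOnCompacts h.adr
  have hc := continuous_Ac ε b i
  have h1 : ∫ y in ball (0 : V d) R, |Ac ε b i y| ∂μ
      ≤ ∫ y in ball (0 : V d) R, ((1 / 2 : ℝ) * (Ac ε b i y) ^ 2 + 1 / 2) ∂μ := by
    apply integral_mono
    · exact M8.integrableOn_ball_of_continuous hc.abs _ _
    · exact M8.integrableOn_ball_of_continuous (by fun_prop) _ _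
    · intro y
      show |Ac ε b i y| ≤ (1 / 2 : ℝ) * (Ac ε b i y) ^ 2 + 1 / 2
      rw [← sq_abs]
      nlinarith [sq_nonneg (|Ac ε b i y| - 1)]
  refine h1.trans ?_
  rw [integral_add, integral_const_mul, setIntegral_const, smul_eq_mul]
  · have h2 := h.growth hi hR hRM
    have h3 : μ.real (ball (0 : V d) R) ≤ C * R ^ n := h.adr.real_ball_le _ (by linarith)
    have h4 : C * R ^ n ≤ C * R ^ (n + 3) := by
      gcongr
      omega
    have h5 : 0 < R ^ (n + 3) := by positivity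
    nlinarith
  · exact M8.integrableOn_ball_of_continuous (by fun_prop) _ _
  · exact M8.integrableOn_ball_of_continuous continuous_const _ _

/-- **uniform smallness of the form** -/
theorem bf_le (n d : ℕ) (C : ℝ) (hn : 1 ≤ n) : ∃ K : ℝ, 0 < K ∧
    ∀ (D : ℝ≥0∞) (μ : Measure (V d)) (ε : ℝ) (b : V d), Dat n C D μ ε b →
    ∀ (i : Fin d), n ≤ (i : ℕ) → ∀ (K0 ρ N : ℝ), 0 ≤ K0 → 1 ≤ ρ → 8 * ρ ≤ N → N ≤ (ε ^ 3)⁻¹ →
    ∀ ψ : V d → ℝ, (∀ y z, |ψ y - ψ z| ≤ K0 * dist y z) →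
    (∀ y, y ∉ ball (0 : V d) ρ → ψ y = 0) → ∫ y, ψ y ∂μ = 0 →
    |Bf n μ N (Ac ε b i) ψ| ≤ K * K0 * ρ ^ (n + 4) * ((√N)⁻¹ + ε ^ 2) := by
  rcases lt_or_ge C 0 with hC | hC
  · refine ⟨1, one_pos, fun D μ ε b h => ?_⟩
    have := h.adr.one_le
    linarith
  obtain ⟨K1, hK1, hK1'⟩ := tail n d C hC hn
  obtain ⟨K2, hK2, hK2'⟩ := farI_le n d C
  refine ⟨2 + K1 * (2 * C) + K1 * (2 * C) * (2 * K2), by positivity, ?_⟩
  intro D μ ε b h i hi K0 ρ N hK0 hρ hN hNM ψ hl hs hz
  have he := h.eps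
  have hC1 := h.adr.one_le
  have hfin : IsFiniteMeasureOnCompacts μ := M8.adr_finiteOnCompacts h.adr
  have hρ0 : 0 < ρ := by linarith
  have hN0 : 0 < N := by linarith
  have hbd := fun y => abs_le_of_lip i hρ0.le hl hs y hK0
  have htest := isTest_of K0 ρ hK0 hl hs
  have hMψ : 0 ≤ 2 * ρ * K0 := by positivity
  -- choose N'
  have hev := h.eta_bf i (ψ := ψ) (K1 := 2 * ρ * K0) (ρ := ρ) hMψ (by linarith)
    (fun y z => (hl y z).trans (by
      have := dist_nonneg (x := y) (y := z)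
      have : K0 ≤ 2 * ρ * K0 := by nlinarith
      gcongr)) hbd hs hz
  obtain ⟨N', hN'1, hN'2⟩ := (hev.and (eventually_ge_atTop N)).exists
  have ht := hK1' μ h.adr.upperReg (Ac ε b i) (h.locLip_Ac i) ψ htest hz 0 ρ N N' 0 hρ0 hs hN hN'2
  have hf := hK2' D μ ε b h i hi 0 (N / 2) (4 * N') (by linarith) (by linarith)
  simp only [abs_zero, add_zero, mul_one] at hf
  have e0 : farI n μ (fun y => Ac ε b i y - 0) 0 (N / 2) (4 * N')
    = farI n μ (fun y => Ac ε b i y - 0) 0 (N / 2) (4 * N') := rfl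
  -- integrals
  have hψc : Continuous ψ := htest.continuous
  have hsupp : ∀ f : V d → ℝ, ∫ y, |ψ y| * f y ∂μ = ∫ y in ball (0 : V d) ρ, |ψ y| * f y ∂μ := by
    intro f
    rw [← integral_indicator measurableSet_ball]
    congr 1
    ext y
    by_cases hy : y ∈ ball (0 : V d) ρ
    · rw [indicator_of_mem hy]
    · rw [indicator_of_notMem hy, hs y hy, abs_zero, zero_mul]
  have hi1 : ∫ y, |ψ y| * |Ac ε b i y - 0| ∂μ ≤ 2 * ρ * K0 * (C * ρ ^ (n + 3)) := by
    rw [hsupp]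
    calc ∫ y in ball (0 : V d) ρ, |ψ y| * |Ac ε b i y - 0| ∂μ
        ≤ ∫ y in ball (0 : V d) ρ, (2 * ρ * K0) * |Ac ε b i y| ∂μ := by
          have hc := continuous_Ac ε b i
          apply integral_mono
          · exact M8.integrableOn_ball_of_continuous (by fun_prop) _ _
          · exact M8.integrableOn_ball_of_continuous (by fun_prop) _ _
          · intro y
            show |ψ y| * |Ac ε b i y - 0| ≤ (2 * ρ * K0) * |Ac ε b i y|
            rw [sub_zero]
            gcongr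
            exact hbd y
      _ ≤ 2 * ρ * K0 * (C * ρ ^ (n + 3)) := by
          rw [integral_const_mul]
          gcongr
          exact h.integral_abs_le hi hρ (by linarith)
  have hi2 : ∫ y, |ψ y| ∂μ ≤ 2 * ρ * K0 * (C * ρ ^ n) := by
    have e1 : ∫ y, |ψ y| ∂μ = ∫ y, |ψ y| * 1 ∂μ := by simp
    rw [e1, hsupp]
    calc ∫ y in ball (0 : V d) ρ, |ψ y| * 1 ∂μ
        ≤ ∫ y in ball (0 : V d) ρ, (2 * ρ * K0) ∂μ := by
          apply integral_mono
          · exact M8.integrableOn_ball_of_continuous (by fun_prop) _ _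
          · exact M8.integrableOn_ball_of_continuous continuous_const _ _
          · intro y
            show |ψ y| * 1 ≤ 2 * ρ * K0
            rw [mul_one]
            exact hbd y
      _ ≤ 2 * ρ * K0 * (C * ρ ^ n) := by
          rw [setIntegral_const, smul_eq_mul, mul_comm]
          gcongr
          exact h.adr.real_ball_le _ hρ0
  -- square roots
  have hN1 : 1 ≤ N := by linarith
  have hsq1 : 1 ≤ √N := Real.one_le_sqrt.2 hN1
  have hsq : N⁻¹ ≤ (√N)⁻¹ := by
    apply inv_anti₀ (by positivity)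
    nth_rewrite 2 [← Real.mul_self_sqrt hN0.le]
    nlinarith
  have hsq2 : (√(N / 2))⁻¹ ≤ 2 * (√N)⁻¹ := by
    have h3 : √N ≤ 2 * √(N / 2) := by
      rw [Real.sqrt_le_left (by positivity), mul_pow, Real.sq_sqrt (by positivity)]
      linarith
    have h4 : 0 < √(N / 2) := Real.sqrt_pos.2 (by positivity)
    rw [← div_eq_mul_inv, le_div_iff₀ (by positivity), inv_mul_le_iff₀ h4]
    linarith
  set T : ℝ := (√N)⁻¹ + ε ^ 2 with hT
  have hT0 : 0 ≤ (√N)⁻¹ := by positivity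
  have he2 : 0 ≤ ε ^ 2 := by positivity
  have hf' : farI n μ (fun y => Ac ε b i y - 0) 0 (N / 2) (4 * N') ≤ K2 * (2 * T) := by
    refine hf.trans ?_
    gcongr
    rw [hT]
    linarith
  have hfar0 : 0 ≤ farI n μ (fun y => Ac ε b i y - 0) 0 (N / 2) (4 * N') :=
    integral_nonneg fun y => by positivity
  have hρn : 1 ≤ ρ ^ n := one_le_pow₀ hρ
  have hρ4 : ρ ≤ ρ ^ (n + 4) := by
    calc ρ = ρ ^ 1 := (pow_one ρ).symm
      _ ≤ ρ ^ (n + 4) := pow_le_pow_right₀ hρ (by omega)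
  have hstep1 : |Bf n μ N' (Ac ε b i) ψ| ≤ 2 * K0 * ρ ^ (n + 4) * T := by
    refine hN'1.trans ?_
    calc 2 * ρ * K0 * ε ^ 2 = 2 * K0 * ρ * ε ^ 2 := by ring
      _ ≤ 2 * K0 * ρ ^ (n + 4) * T := by
        gcongr
        rw [hT]
        linarith
  have hstep2 : N⁻¹ * (∫ y, |ψ y| * |Ac ε b i y - 0| ∂μ) ≤ 2 * C * K0 * ρ ^ (n + 4) * T := by
    calc N⁻¹ * (∫ y, |ψ y| * |Ac ε b i y - 0| ∂μ)
        ≤ T * (2 * ρ * K0 * (C * ρ ^ (n + 3))) := by
          have : N⁻¹ ≤ T := by rw [hT]; linarith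
          gcongr
      _ = 2 * C * K0 * ρ ^ (n + 4) * T := by ring
  have hstep3 : ρ * (∫ y, |ψ y| ∂μ) * farI n μ (fun y => Ac ε b i y - 0) 0 (N / 2) (4 * N')
      ≤ 2 * C * (2 * K2) * K0 * ρ ^ (n + 4) * T := by
    calc ρ * (∫ y, |ψ y| ∂μ) * farI n μ (fun y => Ac ε b i y - 0) 0 (N / 2) (4 * N')
        ≤ ρ * (2 * ρ * K0 * (C * ρ ^ n)) * (K2 * (2 * T)) := by gcongr
      _ = 2 * C * (2 * K2) * K0 * ρ ^ (n + 2) * T := by ring
      _ ≤ 2 * C * (2 * K2) * K0 * ρ ^ (n + 4) * T := by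
          gcongr
          norm_num
  have habs : |Bf n μ N (Ac ε b i) ψ| ≤ |Bf n μ N' (Ac ε b i) ψ|
      + |Bf n μ N' (Ac ε b i) ψ - Bf n μ N (Ac ε b i) ψ| := by
    have := abs_sub_abs_le_abs_sub (Bf n μ N (Ac ε b i) ψ) (Bf n μ N' (Ac ε b i) ψ)
    rw [abs_sub_comm] at this
    linarith
  calc |Bf n μ N (Ac ε b i) ψ| ≤ 2 * K0 * ρ ^ (n + 4) * T
        + K1 * (2 * C * K0 * ρ ^ (n + 4) * T + 2 * C * (2 * K2) * K0 * ρ ^ (n + 4) * T) := by
        refine habs.trans (add_le_add hstep1 (ht.trans ?_))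
        gcongr
    _ = (2 + K1 * (2 * C) + K1 * (2 * C) * (2 * K2)) * K0 * ρ ^ (n + 4) * T := by ring

/-- **energy bound** -/
theorem energy_le (n d : ℕ) (C : ℝ) (hn : 1 ≤ n) (R : ℝ) (hR : 1 ≤ R) : ∃ H : ℝ, 0 < H ∧
    ∀ (D : ℝ≥0∞) (μ : Measure (V d)) (ε : ℝ) (b : V d), Dat n C D μ ε b → 4 * R ≤ (ε ^ 3)⁻¹ →
    ∀ (i : Fin d), n ≤ (i : ℕ) → En n μ (Ac ε b i) 0 R ≤ H := by
  rcases lt_or_ge C 0 with hC | hC
  · refine ⟨1, one_pos, fun D μ ε b h => ?_⟩
    have := h.adr.one_le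
    linarith
  obtain ⟨K1, hK1, hK1'⟩ := cacc n d C hC hn
  obtain ⟨K2, hK2, hK2'⟩ := farI_le n d C
  set a0 : ℝ := C * (C * (2 * R) ^ (n + 3)) with ha0
  have ha00 : 0 ≤ a0 := by positivity
  set I0 : ℝ := 2 * (4 * R) ^ (n + 3) + 2 * a0 ^ 2 * (C * (4 * R) ^ n) with hI0
  have hI00 : 0 ≤ I0 := by positivity
  set I1 : ℝ := C * (2 * R) ^ (n + 3) + a0 * (C * (2 * R) ^ n) with hI1
  have hI10 : 0 ≤ I1 := by positivity
  set B0 : ℝ := 2 * R + 2 * C + a0 with hB0
  have hB00 : 0 ≤ B0 := by positivity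
  refine ⟨2 * (2 * B0 + 1) + K1 * (I0 + R * I1 * (K2 * (1 + a0) * 2)), by positivity, ?_⟩
  intro D μ ε b h hRM i hi
  have he := h.eps
  have he1 := h.eps1
  have hC1 := h.adr.one_le
  have hfin : IsFiniteMeasureOnCompacts μ := M8.adr_finiteOnCompacts h.adr
  have hR0 : 0 < R := by linarith
  have hAc := continuous_Ac ε b i
  -- the weight
  set q : V d → ℝ := fun y => cut (dist y 0 / R) ^ 2 with hq
  have hqc : Continuous q := by
    have := continuous_cut
    rw [hq]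
    fun_prop
  have hq0 : ∀ y, 0 ≤ q y := fun y => sq_nonneg _
  have hq1 : ∀ y, q y ≤ 1 := fun y => pow_le_one₀ (cut_nonneg _) (cut_le_one _)
  have hqs : ∀ y, y ∉ ball (0 : V d) (2 * R) → q y = 0 := by
    intro y hy
    rw [mem_ball, not_lt] at hy
    show cut (dist y 0 / R) ^ 2 = 0
    rw [cut_of_ge ((le_div_iff₀ hR0).2 hy)]
    norm_num
  have hqone : ∀ y, y ∈ ball (0 : V d) 1 → q y = 1 := by
    intro y hy
    rw [mem_ball] at hy
    show cut (dist y 0 / R) ^ 2 = 1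
    rw [cut_of_le ((div_le_one hR0).2 (by linarith))]
    norm_num
  have hql : ∀ y z, |q y - q z| ≤ 2 * dist y z := by
    intro y z
    have h1 := phi_lip (d := d) 0 hR0 y z
    have h2 : |cut (dist y 0 / R) + cut (dist z 0 / R)| ≤ 2 := by
      rw [abs_of_nonneg (add_nonneg (cut_nonneg _) (cut_nonneg _))]
      linarith [cut_le_one (dist y 0 / R), cut_le_one (dist z 0 / R)]
    have h3 : dist y z / R ≤ dist y z := div_le_self dist_nonneg hR
    calc |q y - q z| = |cut (dist y 0 / R) + cut (dist z 0 / R)|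
          * |cut (dist y 0 / R) - cut (dist z 0 / R)| := by
          rw [← abs_mul]
          congr 1
          show cut (dist y 0 / R) ^ 2 - cut (dist z 0 / R) ^ 2 = _
          ring
      _ ≤ 2 * dist y z := by
          gcongr
          exact h1.trans h3
  have hqsupp : HasCompactSupport q := by
    apply HasCompactSupport.of_support_subset_isCompact (isCompact_closedBall (0 : V d) (2 * R))
    intro y hy
    by_contra hy'
    exact hy (hqs y fun h => hy' (ball_subset_closedBall h))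
  have hqi : Integrable q μ := hqc.integrable_of_hasCompactSupport hqsupp
  have hAqi : Integrable (fun y => Ac ε b i y * q y) μ :=
    (hAc.mul hqc).integrable_of_hasCompactSupport hqsupp.mul_left
  have hQ : C⁻¹ ≤ ∫ y, q y ∂μ := by
    have h1 : C⁻¹ ≤ μ.real (ball (0 : V d) 1) := by
      have := h.adr.le_real_ball h.mem one_pos
        (le_trans (ENNReal.ofReal_le_ofReal h.M1) h.hD)
      simpa using this
    refine h1.trans ?_
    have h2 : μ.real (ball (0 : V d) 1) = ∫ y, (ball (0 : V d) 1).indicator (fun _ => (1 : ℝ)) y ∂μ := by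
      rw [integral_indicator measurableSet_ball, setIntegral_const, smul_eq_mul, mul_one]
    rw [h2]
    apply integral_mono
    · rw [integrable_indicator_iff measurableSet_ball]
      exact M8.integrableOn_ball_of_continuous continuous_const _ _
    · exact hqi
    · intro y
      by_cases hy : y ∈ ball (0 : V d) 1
      · simp only [indicator_of_mem hy]
        rw [hqone y hy]
      · simp only [indicator_of_notMem hy]
        exact hq0 y
  have hC0 : 0 < C := by linarith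
  have hQ0 : 0 < ∫ y, q y ∂μ := lt_of_lt_of_le (by positivity) hQ
  -- the mean
  set a : ℝ := (∫ y, Ac ε b i y * q y ∂μ) / (∫ y, q y ∂μ) with ha
  have hmean : ∫ y, (Ac ε b i y - a) * cut (dist y 0 / R) ^ 2 ∂μ = 0 := by
    have e1 : (fun y => (Ac ε b i y - a) * cut (dist y 0 / R) ^ 2)
        = fun y => Ac ε b i y * q y - a * q y := by
      ext y
      simp only [hq]
      ring
    rw [e1, integral_sub hAqi (hqi.const_mul a), integral_const_mul, ha,
      div_mul_cancel₀ _ hQ0.ne', sub_self]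
  have habs : |∫ y, Ac ε b i y * q y ∂μ| ≤ C * (2 * R) ^ (n + 3) := by
    calc |∫ y, Ac ε b i y * q y ∂μ| ≤ ∫ y, |Ac ε b i y * q y| ∂μ := abs_integral_le_integral_abs
      _ = ∫ y in ball (0 : V d) (2 * R), |Ac ε b i y * q y| ∂μ := by
          rw [← integral_indicator measurableSet_ball]
          congr 1
          ext y
          by_cases hy : y ∈ ball (0 : V d) (2 * R)
          · rw [indicator_of_mem hy]
          · rw [indicator_of_notMem hy, hqs y hy, mul_zero, abs_zero]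
      _ ≤ ∫ y in ball (0 : V d) (2 * R), |Ac ε b i y| ∂μ := by
          apply integral_mono
          · exact M8.integrableOn_ball_of_continuous (by fun_prop) _ _
          · exact M8.integrableOn_ball_of_continuous (by fun_prop) _ _
          · intro y
            show |Ac ε b i y * q y| ≤ |Ac ε b i y|
            rw [abs_mul, abs_of_nonneg (hq0 y)]
            exact mul_le_of_le_one_right (abs_nonneg _) (hq1 y)
      _ ≤ C * (2 * R) ^ (n + 3) := h.integral_abs_le hi (by linarith) (by linarith)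
  have haa : |a| ≤ a0 := by
    rw [ha, abs_div, abs_of_pos hQ0, div_le_iff₀ hQ0, ha0]
    calc |∫ y, Ac ε b i y * q y ∂μ| ≤ C * (2 * R) ^ (n + 3) := habs
      _ = C * (C * (2 * R) ^ (n + 3)) * C⁻¹ := by field_simp
      _ ≤ C * (C * (2 * R) ^ (n + 3)) * ∫ y, q y ∂μ := by gcongr
  -- the test function
  set p : V d → ℝ := fun y => y i - b i - ε * a with hp
  have hpl : ∀ y z, |p y - p z| ≤ dist y z := by
    intro y z
    have h1 : p y - p z = (y - z) i := by
      simp only [hp, PiLp.sub_apply]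
      ring
    rw [h1, dist_eq_norm]
    have := PiLp.norm_apply_le (y - z) i
    rwa [Real.norm_eq_abs] at this
  have hpb : ∀ y ∈ ball (0 : V d) (2 * R), |p y| ≤ B0 := by
    intro y hy
    rw [mem_ball_zero_iff] at hy
    have h1 := PiLp.norm_apply_le y i
    rw [Real.norm_eq_abs] at h1
    have h2 := h.abs_b_le hi
    have h3 : |ε * a| ≤ a0 := by
      rw [abs_mul, abs_of_pos he]
      calc ε * |a| ≤ 1 * a0 := by gcongr
        _ = a0 := one_mul _
    calc |p y| ≤ |y i - b i| + |ε * a| := abs_sub _ _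
      _ ≤ (|y i| + |b i|) + |ε * a| := by gcongr; exact abs_sub _ _
      _ ≤ (2 * R + 2 * C) + a0 := by gcongr; linarith
      _ = B0 := by rw [hB0]
  set ψ2 : V d → ℝ := fun y => p y * q y with hψ2
  have hψ2l : ∀ y z, |ψ2 y - ψ2 z| ≤ (2 * B0 + 1) * dist y z := by
    have key : ∀ y z, y ∈ ball (0 : V d) (2 * R) → |ψ2 y - ψ2 z| ≤ (2 * B0 + 1) * dist y z := by
      intro y z hy
      have h1 : ψ2 y - ψ2 z = p y * (q y - q z) + q z * (p y - p z) := by
        simp only [hψ2]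
        ring
      rw [h1]
      calc |p y * (q y - q z) + q z * (p y - p z)|
          ≤ |p y| * |q y - q z| + |q z| * |p y - p z| := by
            refine (abs_add_le _ _).trans ?_
            rw [abs_mul, abs_mul]
        _ ≤ B0 * (2 * dist y z) + 1 * dist y z := by
            gcongr
            · exact hpb y hy
            · exact hql y z
            · rw [abs_of_nonneg (hq0 z)]
              exact hq1 z
            · exact hpl y z
        _ = (2 * B0 + 1) * dist y z := by ring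
    intro y z
    by_cases hy : y ∈ ball (0 : V d) (2 * R)
    · exact key y z hy
    · by_cases hz : z ∈ ball (0 : V d) (2 * R)
      · rw [abs_sub_comm, dist_comm]
        exact key z y hz
      · simp only [hψ2]
        rw [hqs y hy, hqs z hz]
        simp only [mul_zero, sub_zero, abs_zero]
        positivity
  have hψ2b : ∀ y, |ψ2 y| ≤ 2 * B0 + 1 := by
    intro y
    by_cases hy : y ∈ ball (0 : V d) (2 * R)
    · show |p y * q y| ≤ _
      rw [abs_mul, abs_of_nonneg (hq0 y)]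
      have := hpb y hy
      have h3 := hq0 y
      have h4 := hq1 y
      nlinarith [abs_nonneg (p y)]
    · show |p y * q y| ≤ _
      rw [hqs y hy, mul_zero, abs_zero]
      positivity
  have hψ2s : ∀ y, y ∉ ball (0 : V d) (2 * R) → ψ2 y = 0 := by
    intro y hy
    show p y * q y = 0
    rw [hqs y hy, mul_zero]
  have hψeq : (fun y => (Ac ε b i y - a) * cut (dist y 0 / R) ^ 2) = fun y => ε⁻¹ * ψ2 y := by
    ext y
    simp only [hψ2, hp, hq, Ac]
    field_simp
  have hψ2z : ∫ y, ψ2 y ∂μ = 0 := by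
    rw [hψeq, integral_const_mul] at hmean
    rcases mul_eq_zero.1 hmean with h0 | h0
    · exact absurd h0 (inv_pos.2 he).ne'
    · exact h0
  have hev := h.eta_bf i (ψ := ψ2) (K1 := 2 * B0 + 1) (ρ := 2 * R) (by positivity) (by linarith)
    hψ2l hψ2b hψ2s hψ2z
  obtain ⟨N, hN1, hN2⟩ := (hev.and (eventually_ge_atTop (8 * R))).exists
  have hmain := hK1' μ h.adr.upperReg (Ac ε b i) (h.locLip_Ac i) 0 R N a hR0 hN2 hmean
  have hBf : |Bf n μ N (Ac ε b i) (fun y => (Ac ε b i y - a) * cut (dist y 0 / R) ^ 2)|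
      ≤ 2 * B0 + 1 := by
    rw [hψeq, LR.bf_smul_right, abs_mul, abs_of_pos (inv_pos.2 he), inv_mul_le_iff₀ he]
    refine hN1.trans ?_
    calc (2 * B0 + 1) * ε ^ 2 = (2 * B0 + 1) * ε * ε := by ring
      _ ≤ (2 * B0 + 1) * ε * 1 := by gcongr
      _ = ε * (2 * B0 + 1) := by ring
  have hwc : Continuous (fun y => Ac ε b i y - a) := hAc.sub continuous_const
  have hI : ∫ y in ball (0 : V d) (4 * R), (Ac ε b i y - a) ^ 2 ∂μ ≤ I0 := by
    have h2 : ∫ y in ball (0 : V d) (4 * R), (Ac ε b i y - a) ^ 2 ∂μ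
        ≤ ∫ y in ball (0 : V d) (4 * R), (2 * (Ac ε b i y) ^ 2 + 2 * a ^ 2) ∂μ := by
      apply integral_mono
      · exact M8.integrableOn_ball_of_continuous (hwc.pow 2) _ _
      · exact M8.integrableOn_ball_of_continuous (by fun_prop) _ _
      · intro y
        show (Ac ε b i y - a) ^ 2 ≤ 2 * (Ac ε b i y) ^ 2 + 2 * a ^ 2
        nlinarith [sq_nonneg (Ac ε b i y + a)]
    refine h2.trans ?_
    rw [integral_add, integral_const_mul, setIntegral_const, smul_eq_mul]
    · have h3 : μ.real (ball (0 : V d) (4 * R)) ≤ C * (4 * R) ^ n :=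
        h.adr.real_ball_le _ (by linarith)
      have h4 : a ^ 2 ≤ a0 ^ 2 := by
        rw [← sq_abs]
        gcongr
      have h6 := h.growth hi (R := 4 * R) (by linarith) hRM
      calc 2 * (∫ y in ball (0 : V d) (4 * R), (Ac ε b i y) ^ 2 ∂μ)
            + μ.real (ball (0 : V d) (4 * R)) * (2 * a ^ 2)
          ≤ 2 * (4 * R) ^ (n + 3) + (C * (4 * R) ^ n) * (2 * a0 ^ 2) := by gcongr
        _ = I0 := by rw [hI0]; ring
    · exact M8.integrableOn_ball_of_continuous (by fun_prop) _ _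
    · exact M8.integrableOn_ball_of_continuous continuous_const _ _
  have hJ : ∫ y in ball (0 : V d) (2 * R), |Ac ε b i y - a| ∂μ ≤ I1 := by
    have h2 : ∫ y in ball (0 : V d) (2 * R), |Ac ε b i y - a| ∂μ
        ≤ ∫ y in ball (0 : V d) (2 * R), (|Ac ε b i y| + |a|) ∂μ := by
      apply integral_mono
      · exact M8.integrableOn_ball_of_continuous hwc.abs _ _
      · exact M8.integrableOn_ball_of_continuous (by fun_prop) _ _
      · intro y
        exact abs_sub _ _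
    refine h2.trans ?_
    rw [integral_add, setIntegral_const, smul_eq_mul]
    · have h3 : μ.real (ball (0 : V d) (2 * R)) ≤ C * (2 * R) ^ n :=
        h.adr.real_ball_le _ (by linarith)
      have h6 := h.integral_abs_le hi (R := 2 * R) (by linarith) (by linarith)
      calc (∫ y in ball (0 : V d) (2 * R), |Ac ε b i y| ∂μ)
            + μ.real (ball (0 : V d) (2 * R)) * |a|
          ≤ C * (2 * R) ^ (n + 3) + (C * (2 * R) ^ n) * a0 := by gcongr
        _ = I1 := by rw [hI1]; ring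
    · exact M8.integrableOn_ball_of_continuous (by fun_prop) _ _
    · exact M8.integrableOn_ball_of_continuous continuous_const _ _
  have hF : farI n μ (fun y => Ac ε b i y - a) 0 (4 * R) (4 * N) ≤ K2 * (1 + a0) * 2 := by
    refine (hK2' D μ ε b h i hi a (4 * R) (4 * N) (by linarith) hRM).trans ?_
    have h7 : (√(4 * R))⁻¹ ≤ 1 := inv_le_one_of_one_le₀ (Real.one_le_sqrt.2 (by linarith))
    have h8 : ε ^ 2 ≤ 1 := pow_le_one₀ he.le he1
    gcongr
    linarith
  have hfar0 : 0 ≤ farI n μ (fun y => Ac ε b i y - a) 0 (4 * R) (4 * N) :=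
    integral_nonneg fun y => by positivity
  have hJ0 : 0 ≤ ∫ y in ball (0 : V d) (2 * R), |Ac ε b i y - a| ∂μ :=
    integral_nonneg fun y => abs_nonneg _
  have hII : R⁻¹ * ∫ y in ball (0 : V d) (4 * R), (Ac ε b i y - a) ^ 2 ∂μ ≤ I0 := by
    have h9 : R⁻¹ ≤ 1 := inv_le_one_of_one_le₀ hR
    have h10 : 0 ≤ ∫ y in ball (0 : V d) (4 * R), (Ac ε b i y - a) ^ 2 ∂μ :=
      integral_nonneg fun y => sq_nonneg _
    calc R⁻¹ * ∫ y in ball (0 : V d) (4 * R), (Ac ε b i y - a) ^ 2 ∂μ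
        ≤ 1 * I0 := by gcongr
      _ = I0 := one_mul _
  refine hmain.trans ?_
  gcongr

/-- energy bound in the form of `M8SL2` -/
theorem enr_le (n d : ℕ) (C : ℝ) (hn : 1 ≤ n) (R : ℝ) (hR : 1 ≤ R) : ∃ H : ℝ, 0 < H ∧
    ∀ (D : ℝ≥0∞) (μ : Measure (V d)) (ε : ℝ) (b : V d), Dat n C D μ ε b → 4 * R ≤ (ε ^ 3)⁻¹ →
    ∀ (i : Fin d), n ≤ (i : ℕ) → M8.enr n μ (Ac ε b i) R ≤ ENNReal.ofReal H := by
  obtain ⟨H, hH, hH'⟩ := energy_le n d C hn R hR
  refine ⟨H, hH, fun D μ ε b h hRM i hi => ?_⟩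
  have hC1 := h.adr.one_le
  have hC0 : 0 ≤ C := by linarith
  have hσ : SigmaFinite μ := h.adr.upperReg.sigmaFinite
  have hR0 : 0 < R := by linarith
  have hAc := continuous_Ac ε b i
  have hS : MeasurableSet (ball (0 : V d) R ×ˢ ball (0 : V d) R : Set (V d × V d)) :=
    measurableSet_ball.prod measurableSet_ball
  have hmeas : Measurable fun p : V d × V d =>
      (Ac ε b i p.1 - Ac ε b i p.2) ^ 2 * (‖p.1 - p.2‖ ^ (n + 1))⁻¹ := by
    have h1 : Measurable (fun p : V d × V d => (Ac ε b i p.1 - Ac ε b i p.2) ^ 2) := by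
      exact (by fun_prop : Continuous
        (fun p : V d × V d => (Ac ε b i p.1 - Ac ε b i p.2) ^ 2)).measurable
    have h2 : Measurable (fun p : V d × V d => (‖p.1 - p.2‖ ^ (n + 1))⁻¹) := by
      exact (by fun_prop : Continuous (fun p : V d × V d => ‖p.1 - p.2‖ ^ (n + 1))).measurable.inv
    exact h1.mul h2
  have hint : IntegrableOn (fun p : V d × V d =>
      (Ac ε b i p.1 - Ac ε b i p.2) ^ 2 * (‖p.1 - p.2‖ ^ (n + 1))⁻¹)
      (ball (0 : V d) R ×ˢ ball (0 : V d) R) (μ.prod μ) := by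
    rw [← integrable_indicator_iff hS]
    refine integrable_of_near h.adr.upperReg hC0 hn 0 hR0 (hmeas.indicator hS)
      (M := (ε⁻¹) ^ 2) (by positivity) ?_ ?_
    · intro p hp1 hp2
      rw [indicator_of_mem (mk_mem_prod hp1 hp2), abs_of_nonneg (by positivity)]
      have h3 := (h.lipschitz_Ac i).dist_le_mul p.1 p.2
      rw [Real.dist_eq, Real.coe_toNNReal _ (inv_nonneg.2 h.eps.le), dist_eq_norm] at h3
      have h4 : (Ac ε b i p.1 - Ac ε b i p.2) ^ 2 ≤ (ε⁻¹) ^ 2 * ‖p.1 - p.2‖ ^ 2 := by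
        rw [← sq_abs, ← mul_pow]
        gcongr
      calc (Ac ε b i p.1 - Ac ε b i p.2) ^ 2 * (‖p.1 - p.2‖ ^ (n + 1))⁻¹
          ≤ ((ε⁻¹) ^ 2 * ‖p.1 - p.2‖ ^ 2) * (‖p.1 - p.2‖ ^ (n + 1))⁻¹ := by gcongr
        _ = (ε⁻¹) ^ 2 * (‖p.1 - p.2‖ ^ 2 * (‖p.1 - p.2‖ ^ (n + 1))⁻¹) := by ring
        _ ≤ (ε⁻¹) ^ 2 * (‖p.1 - p.2‖ ^ (n - 1))⁻¹ := by
            gcongr
            exact norm_sq_mul_inv_le n hn _
    · intro p hp
      rw [indicator_of_notMem]
      rw [mem_prod]
      exact hp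
  have hen := hH' D μ ε b h hRM i hi
  unfold M8.enr
  rw [← ofReal_integral_eq_lintegral_ofReal hint]
  · exact ENNReal.ofReal_le_ofReal hen
  · exact Eventually.of_forall fun p => by positivity

end Dat

end Crest.Agent.R085
end

-- ▼ part R085/M8Weq1
section

/-!
R085, M8 (propagation), part (a1): splitting of the form `Bf` into a near part (controlled by the
`H^{1/2}`-energy) and a pairing with a Lipschitz compactly supported function.
-/

set_option autoImplicit false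

namespace Crest.Agent.R085.M8

open MeasureTheory Metric Set Filter
open scoped ENNReal NNReal Topology

section kernel

variable {n d : ℕ}

/-- the kernel `k_N - k_τ`, vanishing near the diagonal. -/
noncomputable def Kt (n : ℕ) (τ N : ℝ) (z : V d) : ℝ := kN n N z - kN n τ z

theorem Kt_eq_zero_near {τ N : ℝ} (hτ : 0 < τ) (hN : τ ≤ N) {z : V d} (h : ‖z‖ ≤ τ) :
    Kt n τ N z = 0 := by
  unfold Kt
  rw [kN_eq hτ h, kN_eq (hτ.trans_le hN) (h.trans hN), sub_self]

theorem Kt_eq_zero_far {τ N : ℝ} (hτ : 0 < τ) (hN : τ ≤ N) {z : V d} (h : 2 * N ≤ ‖z‖) :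
    Kt n τ N z = 0 := by
  unfold Kt
  rw [kN_eq_zero hτ (by linarith), kN_eq_zero (hτ.trans_le hN) h, sub_self]

theorem cut_anti {s t : ℝ} (h : s ≤ t) : cut t ≤ cut s := by
  unfold cut
  apply max_le_max le_rfl
  apply min_le_min le_rfl
  linarith

theorem kN_mono {τ N : ℝ} (hτ : 0 < τ) (hN : τ ≤ N) (z : V d) : kN n τ z ≤ kN n N z := by
  unfold kN
  apply mul_le_mul_of_nonneg_right _ (by positivity)
  apply cut_anti
  gcongr

theorem Kt_nonneg {τ N : ℝ} (hτ : 0 < τ) (hN : τ ≤ N) (z : V d) : 0 ≤ Kt n τ N z :=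
  sub_nonneg.2 (kN_mono hτ hN z)

theorem Kt_le {τ N : ℝ} (hτ : 0 < τ) (hN : τ ≤ N) (z : V d) :
    Kt n τ N z ≤ (τ ^ (n + 1))⁻¹ := by
  rcases le_or_gt ‖z‖ τ with h | h
  · rw [Kt_eq_zero_near hτ hN h]
    positivity
  · calc Kt n τ N z ≤ kN n N z := by
          unfold Kt
          have := Crest.Agent.R085.kN_nonneg n τ z
          linarith
      _ ≤ (‖z‖ ^ (n + 1))⁻¹ := Crest.Agent.R085.kN_le n N z
      _ ≤ (τ ^ (n + 1))⁻¹ := by gcongr

theorem Kt_abs_le {τ N : ℝ} (hτ : 0 < τ) (hN : τ ≤ N) (z : V d) :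
    |Kt n τ N z| ≤ (τ ^ (n + 1))⁻¹ := by
  rw [abs_of_nonneg (Kt_nonneg hτ hN z)]
  exact Kt_le hτ hN z

theorem Kt_neg (τ N : ℝ) (z : V d) : Kt n τ N (-z) = Kt n τ N z := by
  unfold Kt
  rw [Crest.Agent.R085.kN_neg, Crest.Agent.R085.kN_neg]

theorem Kt_sub_comm (τ N : ℝ) (x y : V d) : Kt n τ N (x - y) = Kt n τ N (y - x) := by
  rw [← Kt_neg, neg_sub]

/-- Lipschitz constant of `Kt`. -/
noncomputable def LK (n : ℕ) (τ : ℝ) : ℝ := 2 * (n + 3) * ((τ / 2) ^ (n + 2))⁻¹

theorem LK_nonneg {τ : ℝ} (hτ : 0 < τ) : 0 ≤ LK n τ := by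
  unfold LK
  positivity

theorem Kt_lip {τ N : ℝ} (hτ : 0 < τ) (hN : τ ≤ N) (z w : V d) :
    |Kt n τ N z - Kt n τ N w| ≤ LK n τ * ‖z - w‖ := by
  have hN0 : 0 < N := hτ.trans_le hN
  -- asymmetric case
  have key : ∀ z w : V d, ‖z‖ < τ / 2 → |Kt n τ N z - Kt n τ N w| ≤ LK n τ * ‖z - w‖ := by
    intro z w hz
    rw [Kt_eq_zero_near hτ hN (by linarith), zero_sub, abs_neg]
    rcases le_or_gt ‖w‖ τ with hw | hw
    · rw [Kt_eq_zero_near hτ hN hw, abs_zero]
      exact mul_nonneg (LK_nonneg hτ) (norm_nonneg _)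
    · have h1 : τ / 2 ≤ ‖z - w‖ := by
        have := norm_sub_norm_le w z
        rw [norm_sub_rev] at this
        linarith
      have h2 : LK n τ * (τ / 2) ≤ LK n τ * ‖z - w‖ :=
        mul_le_mul_of_nonneg_left h1 (LK_nonneg hτ)
      refine (Kt_abs_le hτ hN w).trans (le_trans ?_ h2)
      unfold LK
      have h3 : 2 * ((n : ℝ) + 3) * ((τ / 2) ^ (n + 2))⁻¹ * (τ / 2)
          = 2 * ((n : ℝ) + 3) * ((τ / 2) ^ (n + 1))⁻¹ := by
        rw [pow_succ (τ / 2) (n + 1)]
        field_simp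
      rw [h3]
      have h4 : (τ ^ (n + 1))⁻¹ ≤ ((τ / 2) ^ (n + 1))⁻¹ := by
        gcongr
        linarith
      have h5 : (0 : ℝ) ≤ ((τ / 2) ^ (n + 1))⁻¹ := by positivity
      have h6 : (1 : ℝ) ≤ 2 * ((n : ℝ) + 3) := by
        have : (0 : ℝ) ≤ n := Nat.cast_nonneg n
        linarith
      nlinarith
  rcases lt_or_ge ‖z‖ (τ / 2) with hz | hz
  · exact key z w hz
  rcases lt_or_ge ‖w‖ (τ / 2) with hw | hw
  · rw [abs_sub_comm, norm_sub_rev]
    exact key w z hw
  · have h1 := Crest.Agent.R085.kN_diff (n := n) hN0 (by positivity : 0 < τ / 2) hz hw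
    have h2 := Crest.Agent.R085.kN_diff (n := n) hτ (by positivity : 0 < τ / 2) hz hw
    have e : Kt n τ N z - Kt n τ N w = (kN n N z - kN n N w) - (kN n τ z - kN n τ w) := by
      unfold Kt; ring
    rw [e]
    refine (abs_sub _ _).trans ?_
    unfold LK
    linarith

theorem continuous_Kt {τ N : ℝ} (hτ : 0 < τ) (hN : τ ≤ N) :
    Continuous (Kt n τ N : V d → ℝ) := by
  have : LipschitzWith (LK n τ).toNNReal (Kt n τ N : V d → ℝ) := by
    apply LipschitzWith.of_dist_le_mul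
    intro x y
    rw [Real.dist_eq, Real.coe_toNNReal _ (LK_nonneg hτ), dist_eq_norm]
    exact Kt_lip hτ hN x y
  exact this.continuous

end kernel

section split

variable {n d : ℕ} {μ : Measure (V d)} {C : ℝ}

theorem upperReg_finiteOnCompacts (hμ : UpperReg n C μ) : IsFiniteMeasureOnCompacts μ := by
  constructor
  intro K hK
  obtain ⟨r, hKr⟩ := hK.isBounded.subset_ball (0 : V d)
  exact (measure_mono hKr).trans_lt (hμ.ball_lt_top 0 r)

theorem locLip_continuous {A : V d → ℝ} (hA : LocLip A) : Continuous A := by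
  rw [continuous_iff_continuousAt]
  intro x
  obtain ⟨K, hK⟩ := hA (‖x‖ + 1)
  have hx : x ∈ ball (0 : V d) (‖x‖ + 1) := by
    rw [mem_ball, dist_zero_right]; linarith
  exact hK.continuousOn.continuousAt (isOpen_ball.mem_nhds hx)

/-- the integrand of the truncated form -/
noncomputable def Fk (n : ℕ) (τ N : ℝ) (ψ : V d → ℝ) (x y : V d) : ℝ :=
  (ψ x - ψ y) * Kt n τ N (x - y)

/-- the function paired with `A` -/
noncomputable def Gk (n : ℕ) (μ : Measure (V d)) (τ N : ℝ) (ψ : V d → ℝ) (x : V d) : ℝ :=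
  ∫ y, Fk n τ N ψ x y ∂μ

theorem Fk_swap (τ N : ℝ) (ψ : V d → ℝ) (x y : V d) : Fk n τ N ψ y x = - Fk n τ N ψ x y := by
  unfold Fk
  rw [Kt_sub_comm]
  ring

theorem Fk_eq_zero_of_far {τ N : ℝ} (hτ : 0 < τ) (hN : τ ≤ N) {ψ : V d → ℝ} {x y : V d}
    (h : 2 * N ≤ ‖x - y‖) : Fk n τ N ψ x y = 0 := by
  unfold Fk
  rw [Kt_eq_zero_far hτ hN h, mul_zero]

theorem Fk_eq_zero_left {τ N ρ : ℝ} (hτ : 0 < τ) (hN : τ ≤ N) {ψ : V d → ℝ}
    (hρ : ∀ x, x ∉ ball (0 : V d) ρ → ψ x = 0) {x : V d}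
    (hx : x ∉ ball (0 : V d) (ρ + 2 * N)) (y : V d) : Fk n τ N ψ x y = 0 := by
  rw [mem_ball, dist_zero_right, not_lt] at hx
  rcases le_or_gt ρ ‖y‖ with hy | hy
  · have h1 : ψ x = 0 := hρ x (by rw [mem_ball, dist_zero_right, not_lt]; linarith)
    have h2 : ψ y = 0 := hρ y (by rw [mem_ball, dist_zero_right, not_lt]; exact hy)
    unfold Fk
    rw [h1, h2, sub_self, zero_mul]
  · apply Fk_eq_zero_of_far hτ hN
    have := norm_sub_norm_le x y
    linarith

theorem Fk_eq_zero_right {τ N ρ : ℝ} (hτ : 0 < τ) (hN : τ ≤ N) {ψ : V d → ℝ}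
    (hρ : ∀ x, x ∉ ball (0 : V d) ρ → ψ x = 0) (x : V d) {y : V d}
    (hy : y ∉ ball (0 : V d) (ρ + 2 * N)) : Fk n τ N ψ x y = 0 := by
  rw [← neg_eq_zero, ← Fk_swap]
  exact Fk_eq_zero_left hτ hN hρ hy x

theorem continuous_Fk {τ N : ℝ} (hτ : 0 < τ) (hN : τ ≤ N) {ψ : V d → ℝ} (hψ : Continuous ψ) :
    Continuous (fun p : V d × V d => Fk n τ N ψ p.1 p.2) := by
  unfold Fk
  exact ((hψ.comp continuous_fst).sub (hψ.comp continuous_snd)).mul
    ((continuous_Kt hτ hN).comp (continuous_fst.sub continuous_snd))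

theorem hasCompactSupport_Fk {τ N ρ : ℝ} (hτ : 0 < τ) (hN : τ ≤ N) {ψ : V d → ℝ}
    (hρ : ∀ x, x ∉ ball (0 : V d) ρ → ψ x = 0) :
    HasCompactSupport (fun p : V d × V d => Fk n τ N ψ p.1 p.2) := by
  apply HasCompactSupport.of_support_subset_isCompact
    ((isCompact_closedBall (0 : V d) (ρ + 2 * N)).prod (isCompact_closedBall (0 : V d) (ρ + 2 * N)))
  intro p hp
  rw [mem_prod]
  constructor
  · by_contra h
    apply hp
    exact Fk_eq_zero_left hτ hN hρ (fun h' => h (ball_subset_closedBall h')) _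
  · by_contra h
    apply hp
    exact Fk_eq_zero_right hτ hN hρ _ (fun h' => h (ball_subset_closedBall h'))



theorem integrable_Bf {N ρ : ℝ} (hN : 0 < N) (hμ : UpperReg n C μ) (hC : 0 ≤ C) (hn : 1 ≤ n)
    {A : V d → ℝ} (hA : LocLip A) {ψ : V d → ℝ} {Kψ : ℝ} (hψc : Continuous ψ) (hK : 0 ≤ Kψ)
    (hψ : ∀ x y, |ψ x - ψ y| ≤ Kψ * ‖x - y‖) (hρ0 : 0 < ρ)
    (hρ : ∀ x, x ∉ ball (0 : V d) ρ → ψ x = 0) :
    Integrable (fun p : V d × V d => (A p.1 - A p.2) * (ψ p.1 - ψ p.2) * kN n N (p.1 - p.2))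
      (μ.prod μ) := by
  obtain ⟨KA, hKA⟩ := hA (ρ + 2 * N)
  have hAc := locLip_continuous hA
  refine integrable_of_near hμ hC hn 0 (ρ := ρ + 2 * N) (by positivity)
    (M := KA * Kψ) ?_ (by positivity) ?_ ?_
  · have h1 : Measurable fun p : V d × V d => A p.1 - A p.2 :=
      (hAc.measurable.comp measurable_fst).sub (hAc.measurable.comp measurable_snd)
    have h2 : Measurable fun p : V d × V d => ψ p.1 - ψ p.2 :=
      (hψc.measurable.comp measurable_fst).sub (hψc.measurable.comp measurable_snd)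
    exact (h1.mul h2).mul ((measurable_kN n N).comp (measurable_fst.sub measurable_snd))
  · intro p hp1 hp2
    have h1 : |A p.1 - A p.2| ≤ KA * ‖p.1 - p.2‖ := by
      have := hKA.dist_le_mul _ hp1 _ hp2
      rwa [Real.dist_eq, dist_eq_norm] at this
    have h2 := hψ p.1 p.2
    have h3 : |kN n N (p.1 - p.2)| ≤ (‖p.1 - p.2‖ ^ (n + 1))⁻¹ := by
      rw [abs_of_nonneg (Crest.Agent.R085.kN_nonneg _ _ _)]
      exact Crest.Agent.R085.kN_le _ _ _
    rw [abs_mul, abs_mul]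
    calc |A p.1 - A p.2| * |ψ p.1 - ψ p.2| * |kN n N (p.1 - p.2)|
        ≤ (KA * ‖p.1 - p.2‖) * (Kψ * ‖p.1 - p.2‖) * (‖p.1 - p.2‖ ^ (n + 1))⁻¹ := by gcongr
      _ = KA * Kψ * (‖p.1 - p.2‖ ^ 2 * (‖p.1 - p.2‖ ^ (n + 1))⁻¹) := by ring
      _ ≤ KA * Kψ * (‖p.1 - p.2‖ ^ (n - 1))⁻¹ := by
          gcongr
          exact norm_sq_mul_inv_le n hn _
  · intro p hp
    -- off the product of balls the integrand vanishes
    have hgen : ∀ x y : V d, x ∉ ball (0 : V d) (ρ + 2 * N) →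
        (ψ x - ψ y) * kN n N (x - y) = 0 := by
      intro x y hx
      rw [mem_ball, dist_zero_right, not_lt] at hx
      rcases le_or_gt ρ ‖y‖ with hy | hy
      · have h1 : ψ x = 0 := hρ x (by rw [mem_ball, dist_zero_right, not_lt]; linarith)
        have h2 : ψ y = 0 := hρ y (by rw [mem_ball, dist_zero_right, not_lt]; exact hy)
        rw [h1, h2, sub_self, zero_mul]
      · rw [kN_eq_zero hN, mul_zero]
        have := norm_sub_norm_le x y
        linarith
    rw [not_and_or] at hp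
    rw [mul_assoc]
    rcases hp with hp | hp
    · rw [hgen _ _ hp, mul_zero]
    · have := hgen _ p.1 hp
      rw [Crest.Agent.R085.kN_sub_comm] at this
      have h2 : (ψ p.1 - ψ p.2) * kN n N (p.1 - p.2) = 0 := by linarith
      rw [h2, mul_zero]

theorem Bf_split {τ N ρ : ℝ} (hτ : 0 < τ) (hN : τ ≤ N) (hμ : UpperReg n C μ) (hC : 0 ≤ C)
    (hn : 1 ≤ n) {A : V d → ℝ} (hA : LocLip A) {ψ : V d → ℝ} {Kψ : ℝ} (hψc : Continuous ψ)
    (hK : 0 ≤ Kψ) (hψ : ∀ x y, |ψ x - ψ y| ≤ Kψ * ‖x - y‖) (hρ0 : 0 < ρ)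
    (hρ : ∀ x, x ∉ ball (0 : V d) ρ → ψ x = 0) :
    Bf n μ N A ψ = Bf n μ τ A ψ + ∫ x, A x * Gk n μ τ N ψ x ∂μ := by
  have hN0 : 0 < N := hτ.trans_le hN
  have hsig : SigmaFinite μ := hμ.sigmaFinite
  have hfin := upperReg_finiteOnCompacts hμ
  have hAc := locLip_continuous hA
  have iN := integrable_Bf hN0 hμ hC hn hA hψc hK hψ hρ0 hρ
  have iτ := integrable_Bf hτ hμ hC hn hA hψc hK hψ hρ0 hρ
  have hAF : Integrable (fun p : V d × V d => A p.1 * Fk n τ N ψ p.1 p.2) (μ.prod μ) := by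
    apply Continuous.integrable_of_hasCompactSupport
    · exact (hAc.comp continuous_fst).mul (continuous_Fk hτ hN hψc)
    · exact (hasCompactSupport_Fk hτ hN hρ).mul_left
  have hAF2 : Integrable (fun p : V d × V d => A p.2 * Fk n τ N ψ p.1 p.2) (μ.prod μ) := by
    apply Continuous.integrable_of_hasCompactSupport
    · exact (hAc.comp continuous_snd).mul (continuous_Fk hτ hN hψc)
    · exact (hasCompactSupport_Fk hτ hN hρ).mul_left
  have e1 : ∫ p : V d × V d, A p.1 * Fk n τ N ψ p.1 p.2 ∂(μ.prod μ) = ∫ x, A x * Gk n μ τ N ψ x ∂μ := by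
    rw [integral_prod _ hAF]
    congr 1
    ext x
    unfold Gk
    rw [← integral_const_mul]
  have e2 : ∫ p : V d × V d, A p.2 * Fk n τ N ψ p.1 p.2 ∂(μ.prod μ) = - ∫ x, A x * Gk n μ τ N ψ x ∂μ := by
    rw [← e1, ← integral_neg, ← integral_prod_swap]
    congr 1
    ext p
    simp only [Prod.fst_swap, Prod.snd_swap]
    rw [Fk_swap]
    ring
  have e3 : Bf n μ N A ψ - Bf n μ τ A ψ = ∫ x, A x * Gk n μ τ N ψ x ∂μ := by
    unfold Bf
    rw [← mul_sub, ← integral_sub iN iτ]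
    have : (fun p : V d × V d => (A p.1 - A p.2) * (ψ p.1 - ψ p.2) * kN n N (p.1 - p.2)
        - (A p.1 - A p.2) * (ψ p.1 - ψ p.2) * kN n τ (p.1 - p.2))
        = fun p => A p.1 * Fk n τ N ψ p.1 p.2 - A p.2 * Fk n τ N ψ p.1 p.2 := by
      ext p
      unfold Fk Kt
      ring
    rw [this, integral_sub hAF hAF2, e1, e2]
    ring
  linarith

theorem lintegral_diag_strip (hμ : UpperReg n C μ) (hC : 0 ≤ C) (hn : 1 ≤ n) {r τ : ℝ}
    (hτ : 0 < τ) (hr : 0 < r) :
    ∫⁻ p in ball (0 : V d) r ×ˢ ball (0 : V d) r,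
      ({p : V d × V d | dist p.1 p.2 ≤ τ}.indicator
        (fun p => ENNReal.ofReal ((‖p.1 - p.2‖ ^ (n - 1))⁻¹)) p) ∂(μ.prod μ)
      ≤ ENNReal.ofReal (C * r ^ n) * ENNReal.ofReal (C * 4 ^ n * τ) := by
  have hsig : SigmaFinite μ := hμ.sigmaFinite
  have hm1 : Measurable fun p : V d × V d => ENNReal.ofReal ((‖p.1 - p.2‖ ^ (n - 1))⁻¹) :=
    (((measurable_fst.sub measurable_snd).norm.pow_const _).inv).ennreal_ofReal
  have hset : MeasurableSet {p : V d × V d | dist p.1 p.2 ≤ τ} :=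
    (isClosed_le (continuous_fst.dist continuous_snd) continuous_const).measurableSet
  rw [setLIntegral_prod _ (hm1.indicator hset).aemeasurable]
  calc ∫⁻ x in ball (0 : V d) r, ∫⁻ y in ball (0 : V d) r,
        ({p : V d × V d | dist p.1 p.2 ≤ τ}.indicator
        (fun p => ENNReal.ofReal ((‖p.1 - p.2‖ ^ (n - 1))⁻¹)) (x, y)) ∂μ ∂μ
      ≤ ∫⁻ _x in ball (0 : V d) r, ENNReal.ofReal (C * 4 ^ n * τ) ∂μ := by
        apply lintegral_mono
        intro x
        have h1 := lintegral_near hμ hC (k := n - 1) (by omega) x (r := τ) hτ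
        have h2 : n - (n - 1) = 1 := by omega
        rw [h2, pow_one] at h1
        refine le_trans ?_ h1
        rw [← lintegral_indicator isClosed_closedBall.measurableSet]
        refine (setLIntegral_le_lintegral _ _).trans ?_
        apply lintegral_mono
        intro y
        by_cases hy : y ∈ closedBall x τ
        · have hy' : (x, y) ∈ {p : V d × V d | dist p.1 p.2 ≤ τ} := by
            rw [mem_closedBall, dist_comm] at hy
            exact hy
          rw [indicator_of_mem hy]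
          simp only
          rw [indicator_of_mem hy', dist_eq_norm]
        · have hy' : (x, y) ∉ {p : V d × V d | dist p.1 p.2 ≤ τ} := by
            intro h
            apply hy
            rw [mem_closedBall, dist_comm]
            exact h
          rw [indicator_of_notMem hy]
          simp only
          rw [indicator_of_notMem hy']
    _ = ENNReal.ofReal (C * 4 ^ n * τ) * μ (ball (0 : V d) r) := by
        rw [lintegral_const, Measure.restrict_apply_univ]
    _ ≤ _ := by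
        rw [mul_comm]
        gcongr
        exact hμ 0 r hr

theorem Bf_near_le {τ ρ : ℝ} (hτ : 0 < τ) (hτ2 : 2 * τ ≤ 1) (hμ : UpperReg n C μ) (hC : 0 ≤ C)
    (hn : 1 ≤ n) {A : V d → ℝ} (hA : Continuous A) {ψ : V d → ℝ} {Kψ : ℝ}
    (hψ : ∀ x y, |ψ x - ψ y| ≤ Kψ * ‖x - y‖) (hρ0 : 0 < ρ)
    (hρ : ∀ x, x ∉ ball (0 : V d) ρ → ψ x = 0) {H : ℝ} (hH0 : 0 ≤ H)
    (hH : enr n μ A (ρ + 1) ≤ ENNReal.ofReal H) :
    |Bf n μ τ A ψ| ≤ Real.sqrt τ * (H + Kψ ^ 2 * (C * (ρ + 1) ^ n) * (C * 4 ^ n)) := by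
  have hsig : SigmaFinite μ := hμ.sigmaFinite
  set s : ℝ := Real.sqrt τ with hs
  have hs0 : 0 < s := Real.sqrt_pos.2 hτ
  have hss : s * s = τ := Real.mul_self_sqrt hτ.le
  set B : Set (V d) := ball (0 : V d) (ρ + 1) with hB
  set F : V d × V d → ℝ := fun p => (A p.1 - A p.2) * (ψ p.1 - ψ p.2) * kN n τ (p.1 - p.2) with hF
  have hFzero : ∀ p, p ∉ B ×ˢ B → F p = 0 := by
    intro p hp
    have hgen : ∀ x y : V d, x ∉ B → (ψ x - ψ y) * kN n τ (x - y) = 0 := by
      intro x y hx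
      rw [hB, mem_ball, dist_zero_right, not_lt] at hx
      rcases le_or_gt ρ ‖y‖ with hy | hy
      · have h1 : ψ x = 0 := hρ x (by rw [mem_ball, dist_zero_right, not_lt]; linarith)
        have h2 : ψ y = 0 := hρ y (by rw [mem_ball, dist_zero_right, not_lt]; exact hy)
        rw [h1, h2, sub_self, zero_mul]
      · rw [kN_eq_zero hτ, mul_zero]
        have := norm_sub_norm_le x y
        linarith
    rw [mem_prod, not_and_or] at hp
    rw [hF]
    simp only
    rw [mul_assoc]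
    rcases hp with hp | hp
    · rw [hgen _ _ hp, mul_zero]
    · have := hgen _ p.1 hp
      rw [Crest.Agent.R085.kN_sub_comm] at this
      have h2 : (ψ p.1 - ψ p.2) * kN n τ (p.1 - p.2) = 0 := by linarith
      rw [h2, mul_zero]
  set g1 : V d × V d → ℝ≥0∞ := fun p =>
    ENNReal.ofReal ((A p.1 - A p.2) ^ 2 * (‖p.1 - p.2‖ ^ (n + 1))⁻¹) with hg1
  set g2 : V d × V d → ℝ≥0∞ := fun p => {p : V d × V d | dist p.1 p.2 ≤ 2 * τ}.indicator
        (fun p => ENNReal.ofReal ((‖p.1 - p.2‖ ^ (n - 1))⁻¹)) p with hg2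
  have hmS : MeasurableSet (B ×ˢ B) := measurableSet_ball.prod measurableSet_ball
  have hptw : ∀ p, ‖F p‖ₑ ≤ ENNReal.ofReal (s / 2) * g1 p + ENNReal.ofReal (Kψ ^ 2 / (2 * s)) * g2 p := by
    intro p
    by_cases hd : dist p.1 p.2 ≤ 2 * τ
    · have e2 : g2 p = ENNReal.ofReal ((‖p.1 - p.2‖ ^ (n - 1))⁻¹) := by
        rw [hg2]
        exact indicator_of_mem (s := {p : V d × V d | dist p.1 p.2 ≤ 2 * τ}) hd _
      rw [e2, hg1, ← ENNReal.ofReal_mul (by positivity), ← ENNReal.ofReal_mul (by positivity),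
        ← ENNReal.ofReal_add (by positivity) (by positivity), ← ofReal_norm]
      apply ENNReal.ofReal_le_ofReal
      rw [hF]
      simp only
      rw [Real.norm_eq_abs, abs_mul, abs_mul, abs_of_nonneg (Crest.Agent.R085.kN_nonneg n τ (p.1 - p.2))]
      set a := |A p.1 - A p.2| with ha
      set b := |ψ p.1 - ψ p.2| with hb
      set k := (‖p.1 - p.2‖ ^ (n + 1))⁻¹ with hk
      have hk0 : 0 ≤ k := by positivity
      have ha0 : 0 ≤ a := abs_nonneg _
      have hb0 : 0 ≤ b := abs_nonneg _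
      have h1 : a * b ≤ s / 2 * a ^ 2 + 1 / (2 * s) * b ^ 2 := by
        have : s / 2 * a ^ 2 + 1 / (2 * s) * b ^ 2 - a * b = (s * a - b) ^ 2 / (2 * s) := by
          field_simp
          ring
        have h2 : 0 ≤ (s * a - b) ^ 2 / (2 * s) := by positivity
        linarith
      have h3 : b ^ 2 * k ≤ Kψ ^ 2 * (‖p.1 - p.2‖ ^ (n - 1))⁻¹ := by
        calc b ^ 2 * k ≤ (Kψ * ‖p.1 - p.2‖) ^ 2 * k := by
              gcongr
              exact hψ p.1 p.2
          _ = Kψ ^ 2 * (‖p.1 - p.2‖ ^ 2 * k) := by ring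
          _ ≤ _ := by
              gcongr
              exact norm_sq_mul_inv_le n hn _
      calc a * b * kN n τ (p.1 - p.2) ≤ (s / 2 * a ^ 2 + 1 / (2 * s) * b ^ 2) * k :=
            mul_le_mul h1 (Crest.Agent.R085.kN_le n τ _) (Crest.Agent.R085.kN_nonneg n τ _)
              (by positivity)
        _ = s / 2 * (a ^ 2 * k) + 1 / (2 * s) * (b ^ 2 * k) := by ring
        _ ≤ s / 2 * (a ^ 2 * k) + 1 / (2 * s) * (Kψ ^ 2 * (‖p.1 - p.2‖ ^ (n - 1))⁻¹) := by gcongr
        _ = s / 2 * ((A p.1 - A p.2) ^ 2 * k) + Kψ ^ 2 / (2 * s) * (‖p.1 - p.2‖ ^ (n - 1))⁻¹ := by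
            rw [ha, sq_abs]
            ring
    · have : F p = 0 := by
        rw [hF]
        simp only
        rw [kN_eq_zero hτ, mul_zero]
        rw [not_le, dist_eq_norm] at hd
        exact hd.le
      rw [this]
      simp
  have hmg1 : Measurable g1 := measurable_enr_integrand n hA
  have hmg2 : Measurable g2 := by
    have hm1 : Measurable fun p : V d × V d => ENNReal.ofReal ((‖p.1 - p.2‖ ^ (n - 1))⁻¹) :=
      (((measurable_fst.sub measurable_snd).norm.pow_const _).inv).ennreal_ofReal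
    have hset : MeasurableSet {p : V d × V d | dist p.1 p.2 ≤ 2 * τ} :=
      (isClosed_le (continuous_fst.dist continuous_snd) continuous_const).measurableSet
    exact hm1.indicator hset
  have hmain : ENNReal.ofReal |∫ p, F p ∂(μ.prod μ)| ≤
      ENNReal.ofReal (s / 2) * ENNReal.ofReal H
        + ENNReal.ofReal (Kψ ^ 2 / (2 * s))
          * (ENNReal.ofReal (C * (ρ + 1) ^ n) * ENNReal.ofReal (C * 4 ^ n * (2 * τ))) := by
    calc ENNReal.ofReal |∫ p, F p ∂(μ.prod μ)| = ‖∫ p, F p ∂(μ.prod μ)‖ₑ := by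
          rw [← ofReal_norm, Real.norm_eq_abs]
      _ ≤ ∫⁻ p, ‖F p‖ₑ ∂(μ.prod μ) := enorm_integral_le_lintegral_enorm _
      _ = ∫⁻ p in B ×ˢ B, ‖F p‖ₑ ∂(μ.prod μ) := by
          rw [← lintegral_indicator hmS]
          congr 1
          ext p
          by_cases hp : p ∈ B ×ˢ B
          · rw [indicator_of_mem hp]
          · rw [indicator_of_notMem hp, hFzero p hp, enorm_zero]
      _ ≤ ∫⁻ p in B ×ˢ B, (ENNReal.ofReal (s / 2) * g1 p + ENNReal.ofReal (Kψ ^ 2 / (2 * s)) * g2 p)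
            ∂(μ.prod μ) := lintegral_mono hptw
      _ = ENNReal.ofReal (s / 2) * ∫⁻ p in B ×ˢ B, g1 p ∂(μ.prod μ)
            + ENNReal.ofReal (Kψ ^ 2 / (2 * s)) * ∫⁻ p in B ×ˢ B, g2 p ∂(μ.prod μ) := by
          rw [lintegral_add_left (hmg1.const_mul _), lintegral_const_mul _ hmg1,
            lintegral_const_mul _ hmg2]
      _ ≤ _ := by
          gcongr
          · exact hH
          · exact lintegral_diag_strip hμ hC hn (by positivity) (by positivity)
  have h2 : |∫ p, F p ∂(μ.prod μ)| ≤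
      s / 2 * H + Kψ ^ 2 / (2 * s) * ((C * (ρ + 1) ^ n) * (C * 4 ^ n * (2 * τ))) := by
    rw [← ENNReal.ofReal_le_ofReal_iff (by positivity)]
    refine hmain.trans (le_of_eq ?_)
    rw [← ENNReal.ofReal_mul (by positivity), ← ENNReal.ofReal_mul (by positivity),
      ← ENNReal.ofReal_mul (by positivity), ← ENNReal.ofReal_add (by positivity) (by positivity)]
  have h3 : s / 2 * H + Kψ ^ 2 / (2 * s) * ((C * (ρ + 1) ^ n) * (C * 4 ^ n * (2 * τ)))
      = s * (H / 2 + Kψ ^ 2 * (C * (ρ + 1) ^ n) * (C * 4 ^ n)) := by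
    rw [← hss]
    field_simp
  have h4 : |Bf n μ τ A ψ| = 1 / 2 * |∫ p, F p ∂(μ.prod μ)| := by
    unfold Bf
    rw [abs_mul, abs_of_pos (by norm_num : (0 : ℝ) < 1 / 2)]
  rw [h4]
  have h5 : 0 ≤ s * (Kψ ^ 2 * (C * (ρ + 1) ^ n) * (C * 4 ^ n)) := by positivity
  have h6 : 0 ≤ s * H := by positivity
  nlinarith

end split

end Crest.Agent.R085.M8
end

-- ▼ part R085/M8Weq2
section

/-!
R085, M8 (propagation), part (a2): passage to the limit in the far part.
-/

set_option autoImplicit false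

namespace Crest.Agent.R085.M8

open MeasureTheory Metric Set Filter
open scoped ENNReal NNReal Topology

section pairing

variable {d : ℕ}

/-- equi-Lipschitz, commonly supported, pointwise convergent functions converge uniformly -/
theorem unif_of_pointwise {ι : Type*} {l : Filter ι} [l.NeBot] {g : ι → V d → ℝ} {g0 : V d → ℝ}
    {R L : ℝ} (hL : 0 ≤ L)
    (hsupp : ∀ᶠ k in l, ∀ x, x ∉ ball (0 : V d) R → g k x = 0)
    (hlip : ∀ᶠ k in l, ∀ x y, |g k x - g k y| ≤ L * ‖x - y‖)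
    (hpt : ∀ x, Tendsto (fun k => g k x) l (𝓝 (g0 x))) {η : ℝ} (hη : 0 < η) :
    ∀ᶠ k in l, ∀ x, |g k x - g0 x| ≤ η := by
  have h0supp : ∀ x, x ∉ ball (0 : V d) R → g0 x = 0 := by
    intro x hx
    refine tendsto_nhds_unique (hpt x) ?_
    refine tendsto_const_nhds.congr' ?_
    filter_upwards [hsupp] with k hk
    rw [hk x hx]
  have h0lip : ∀ x y, |g0 x - g0 y| ≤ L * ‖x - y‖ := by
    intro x y
    have h1 : Tendsto (fun k => |g k x - g k y|) l (𝓝 |g0 x - g0 y|) :=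
      ((hpt x).sub (hpt y)).abs
    refine le_of_tendsto h1 ?_
    filter_upwards [hlip] with k hk
    exact hk x y
  set s : ℝ := η / (4 * (L + 1)) with hs
  have hs0 : 0 < s := by positivity
  have hLs : L * s ≤ η / 4 := by
    calc L * s ≤ (L + 1) * s := by gcongr; linarith
      _ = η / 4 := by rw [hs]; field_simp
  obtain ⟨Z, -, hZf, hZ⟩ :=
    (isCompact_closedBall (0 : V d) R).finite_cover_balls (e := s) hs0
  have hfin : ∀ᶠ k in l, ∀ z ∈ Z, |g k z - g0 z| ≤ η / 2 := by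
    rw [eventually_all_finite hZf]
    intro z _
    have h1 : Tendsto (fun k => |g k z - g0 z|) l (𝓝 0) := by
      have := ((hpt z).sub (tendsto_const_nhds (x := g0 z))).abs
      simpa using this
    filter_upwards [(tendsto_order.1 h1).2 (η / 2) (by positivity)] with k hk
    exact hk.le
  filter_upwards [hsupp, hlip, hfin] with k hk1 hk2 hk3 x
  by_cases hx : x ∈ ball (0 : V d) R
  · have := hZ (ball_subset_closedBall hx)
    simp only [mem_iUnion, exists_prop, mem_ball] at this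
    obtain ⟨z, hz, hxz⟩ := this
    rw [dist_eq_norm] at hxz
    have e1 := hk2 x z
    have e2 := hk3 z hz
    have e3 := h0lip z x
    have e4 : L * ‖x - z‖ ≤ η / 4 := (mul_le_mul_of_nonneg_left hxz.le hL).trans hLs
    rw [norm_sub_rev] at e3
    have e5 : g k x - g0 x = (g k x - g k z) + (g k z - g0 z) + (g0 z - g0 x) := by ring
    rw [e5]
    calc |(g k x - g k z) + (g k z - g0 z) + (g0 z - g0 x)|
        ≤ |g k x - g k z| + |g k z - g0 z| + |g0 z - g0 x| := abs_add_three _ _ _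
      _ ≤ η := by linarith
  · rw [hk1 x hx, h0supp x hx]
    simp
    exact hη.le

theorem pairing_tendsto {ι : Type*} {l : Filter ι} [l.NeBot] {μs : ι → Measure (V d)}
    (hfin : ∀ᶠ k in l, IsFiniteMeasureOnCompacts (μs k))
    {A : ι → V d → ℝ} (hA : ∀ᶠ k in l, Continuous (A k))
    {g : ι → V d → ℝ} {g0 : V d → ℝ} {R L H : ℝ} (hL : 0 ≤ L)
    (hA1 : ∀ᶠ k in l, ∫ y in ball (0 : V d) R, |A k y| ∂(μs k) ≤ H)
    (hsupp : ∀ᶠ k in l, ∀ x, x ∉ ball (0 : V d) R → g k x = 0)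
    (hlip : ∀ᶠ k in l, ∀ x y, |g k x - g k y| ≤ L * ‖x - y‖)
    (hpt : ∀ x, Tendsto (fun k => g k x) l (𝓝 (g0 x)))
    {a : ℝ} (hw : Continuous g0 → HasCompactSupport g0 →
      Tendsto (fun k => ∫ y, g0 y * A k y ∂(μs k)) l (𝓝 a)) :
    Tendsto (fun k => ∫ y, g k y * A k y ∂(μs k)) l (𝓝 a) := by
  have h0supp : ∀ x, x ∉ ball (0 : V d) R → g0 x = 0 := by
    intro x hx
    refine tendsto_nhds_unique (hpt x) ?_
    refine tendsto_const_nhds.congr' ?_
    filter_upwards [hsupp] with k hk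
    rw [hk x hx]
  have h0lip : ∀ x y, |g0 x - g0 y| ≤ L * ‖x - y‖ := by
    intro x y
    have h1 : Tendsto (fun k => |g k x - g k y|) l (𝓝 |g0 x - g0 y|) :=
      ((hpt x).sub (hpt y)).abs
    refine le_of_tendsto h1 ?_
    filter_upwards [hlip] with k hk
    exact hk x y
  have cont_of : ∀ f : V d → ℝ, (∀ x y, |f x - f y| ≤ L * ‖x - y‖) → Continuous f := by
    intro f hf
    refine LipschitzWith.continuous (K := L.toNNReal) (LipschitzWith.of_dist_le_mul ?_)
    intro x y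
    rw [Real.dist_eq, Real.coe_toNNReal _ hL, dist_eq_norm]
    exact hf x y
  have cpt_of : ∀ f : V d → ℝ, (∀ x, x ∉ ball (0 : V d) R → f x = 0) → HasCompactSupport f := by
    intro f hf
    apply HasCompactSupport.of_support_subset_isCompact (isCompact_closedBall (0 : V d) R)
    intro x hx
    by_contra h
    exact hx (hf x fun h' => h (ball_subset_closedBall h'))
  have hg0c := cont_of g0 h0lip
  have hg0s := cpt_of g0 h0supp
  have h1 := hw hg0c hg0s
  suffices h2 : Tendsto (fun k => ∫ y, g k y * A k y ∂(μs k) - ∫ y, g0 y * A k y ∂(μs k)) l (𝓝 0) by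
    have h3 := h2.add h1
    simpa using h3
  rw [Metric.tendsto_nhds]
  intro ε hε
  set H' : ℝ := max H 0 with hH'
  have hH'0 : 0 ≤ H' := le_max_right _ _
  set η : ℝ := ε / (2 * (H' + 1)) with hη
  have hη0 : 0 < η := by positivity
  have hu := unif_of_pointwise hL hsupp hlip hpt hη0
  filter_upwards [hfin, hA, hA1, hsupp, hlip, hu] with k hk1 hk2 hk3 hk4 hk5 hk6
  have := hk1
  rw [Real.dist_eq, sub_zero]
  have ig : Integrable (fun y => g k y * A k y) (μs k) :=
    ((cont_of _ hk5).mul hk2).integrable_of_hasCompactSupport (cpt_of _ hk4).mul_right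
  have ig0 : Integrable (fun y => g0 y * A k y) (μs k) :=
    (hg0c.mul hk2).integrable_of_hasCompactSupport hg0s.mul_right
  rw [← integral_sub ig ig0]
  have hb : ∀ y, ‖g k y * A k y - g0 y * A k y‖ ≤
      (ball (0 : V d) R).indicator (fun y => η * |A k y|) y := by
    intro y
    by_cases hy : y ∈ ball (0 : V d) R
    · rw [indicator_of_mem hy, ← sub_mul, norm_mul, Real.norm_eq_abs, Real.norm_eq_abs]
      exact mul_le_mul_of_nonneg_right (hk6 y) (abs_nonneg _)
    · rw [indicator_of_notMem hy, hk4 y hy, h0supp y hy]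
      simp
  have hi : Integrable ((ball (0 : V d) R).indicator (fun y => η * |A k y|)) (μs k) := by
    rw [integrable_indicator_iff measurableSet_ball]
    exact integrableOn_ball_of_continuous (by fun_prop) _ _
  calc |∫ y, (g k y * A k y - g0 y * A k y) ∂(μs k)|
      ≤ ∫ y, (ball (0 : V d) R).indicator (fun y => η * |A k y|) y ∂(μs k) := by
        rw [← Real.norm_eq_abs]
        exact norm_integral_le_of_norm_le hi (Eventually.of_forall hb)
    _ = η * ∫ y in ball (0 : V d) R, |A k y| ∂(μs k) := by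
        rw [integral_indicator measurableSet_ball, integral_const_mul]
    _ ≤ η * H' := by
        gcongr
        exact hk3.trans (le_max_left _ _)
    _ < ε := by
        rw [hη]
        calc ε / (2 * (H' + 1)) * H' ≤ ε / (2 * (H' + 1)) * (H' + 1) := by
              gcongr; linarith
          _ = ε / 2 := by field_simp
          _ < ε := by linarith

end pairing

section Gk

variable {n d : ℕ} {μ : Measure (V d)} {C : ℝ}

theorem Gk_eq_zero {τ N ρ : ℝ} (hτ : 0 < τ) (hN : τ ≤ N) {ψ : V d → ℝ}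
    (hρ : ∀ x, x ∉ ball (0 : V d) ρ → ψ x = 0) {x : V d}
    (hx : x ∉ ball (0 : V d) (ρ + 2 * N)) : Gk n μ τ N ψ x = 0 := by
  unfold Gk
  simp only [Fk_eq_zero_left hτ hN hρ hx, integral_zero]

theorem continuous_Fk_right {τ N : ℝ} (hτ : 0 < τ) (hN : τ ≤ N) {ψ : V d → ℝ}
    (hψ : Continuous ψ) (x : V d) : Continuous (Fk n τ N ψ x) :=
  (continuous_Fk hτ hN hψ).comp (by fun_prop : Continuous fun y : V d => (x, y))

theorem hasCompactSupport_Fk_right {τ N ρ : ℝ} (hτ : 0 < τ) (hN : τ ≤ N) {ψ : V d → ℝ}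
    (hρ : ∀ x, x ∉ ball (0 : V d) ρ → ψ x = 0) (x : V d) :
    HasCompactSupport (Fk n τ N ψ x) := by
  apply HasCompactSupport.of_support_subset_isCompact
    (isCompact_closedBall (0 : V d) (ρ + 2 * N))
  intro y hy
  by_contra h
  apply hy
  exact Fk_eq_zero_right hτ hN hρ x (fun h' => h (ball_subset_closedBall h'))

theorem Gk_lip {τ N ρ K S : ℝ} (hτ : 0 < τ) (hN : τ ≤ N) (hμ : UpperReg n C μ) (hC : 0 ≤ C)
    {ψ : V d → ℝ} (hψc : Continuous ψ) (hK : 0 ≤ K)
    (hψ : ∀ x y, |ψ x - ψ y| ≤ K * ‖x - y‖) (hS : ∀ x, |ψ x| ≤ S)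
    (hρ : ∀ x, x ∉ ball (0 : V d) ρ → ψ x = 0) (x x' : V d) :
    |Gk n μ τ N ψ x - Gk n μ τ N ψ x'| ≤
      ((K * (τ ^ (n + 1))⁻¹ + 2 * S * LK n τ) * (2 * (C * (2 * N) ^ n))) * ‖x - x'‖ := by
  have hfin := upperReg_finiteOnCompacts hμ
  have hN0 : 0 < N := hτ.trans_le hN
  have hS0 : 0 ≤ S := (abs_nonneg _).trans (hS 0)
  have i1 : ∀ x : V d, Integrable (Fk n τ N ψ x) μ := fun x =>
    (continuous_Fk_right hτ hN hψc x).integrable_of_hasCompactSupport
      (hasCompactSupport_Fk_right hτ hN hρ x)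
  unfold Gk
  rw [← integral_sub (i1 x) (i1 x')]
  set LF : ℝ := K * (τ ^ (n + 1))⁻¹ + 2 * S * LK n τ with hLF
  have hLF0 : 0 ≤ LF := by
    have := LK_nonneg (n := n) hτ
    positivity
  set U : Set (V d) := ball x (2 * N) ∪ ball x' (2 * N) with hU
  have hUm : MeasurableSet U := measurableSet_ball.union measurableSet_ball
  have hUfin : μ U < ⊤ := (measure_union_le _ _).trans_lt
    (ENNReal.add_lt_top.2 ⟨hμ.ball_lt_top _ _, hμ.ball_lt_top _ _⟩)
  have hUreal : μ.real U ≤ 2 * (C * (2 * N) ^ n) := by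
    apply ENNReal.toReal_le_of_le_ofReal (by positivity)
    calc μ U ≤ μ (ball x (2 * N)) + μ (ball x' (2 * N)) := measure_union_le _ _
      _ ≤ ENNReal.ofReal (C * (2 * N) ^ n) + ENNReal.ofReal (C * (2 * N) ^ n) :=
          add_le_add (hμ _ _ (by positivity)) (hμ _ _ (by positivity))
      _ = ENNReal.ofReal (2 * (C * (2 * N) ^ n)) := by
          rw [← ENNReal.ofReal_add (by positivity) (by positivity)]
          congr 1; ring
  have hptw : ∀ y, ‖Fk n τ N ψ x y - Fk n τ N ψ x' y‖ ≤ U.indicator (fun _ => LF * ‖x - x'‖) y := by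
    intro y
    by_cases hy : y ∈ U
    · rw [indicator_of_mem hy]
      have e : Fk n τ N ψ x y - Fk n τ N ψ x' y = (ψ x - ψ x') * Kt n τ N (x - y)
          + (ψ x' - ψ y) * (Kt n τ N (x - y) - Kt n τ N (x' - y)) := by
        unfold Fk; ring
      rw [e, Real.norm_eq_abs]
      have e1 : |(ψ x - ψ x') * Kt n τ N (x - y)| ≤ (K * ‖x - x'‖) * (τ ^ (n + 1))⁻¹ := by
        rw [abs_mul]
        exact mul_le_mul (hψ _ _) (Kt_abs_le hτ hN _) (abs_nonneg _) (by positivity)
      have e2 : |(ψ x' - ψ y) * (Kt n τ N (x - y) - Kt n τ N (x' - y))| ≤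
          (2 * S) * (LK n τ * ‖x - x'‖) := by
        rw [abs_mul]
        have e3 : |ψ x' - ψ y| ≤ 2 * S := by
          refine (abs_sub _ _).trans ?_
          linarith [hS x', hS y]
        have e4 := Kt_lip (n := n) hτ hN (x - y) (x' - y)
        rw [sub_sub_sub_cancel_right] at e4
        exact mul_le_mul e3 e4 (abs_nonneg _) (by positivity)
      calc |(ψ x - ψ x') * Kt n τ N (x - y)
          + (ψ x' - ψ y) * (Kt n τ N (x - y) - Kt n τ N (x' - y))|
          ≤ _ := abs_add_le _ _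
        _ ≤ (K * ‖x - x'‖) * (τ ^ (n + 1))⁻¹ + (2 * S) * (LK n τ * ‖x - x'‖) := add_le_add e1 e2
        _ = LF * ‖x - x'‖ := by rw [hLF]; ring
    · rw [indicator_of_notMem hy]
      rw [hU, mem_union, not_or, mem_ball, mem_ball, not_lt, not_lt, dist_comm, dist_comm y x',
        dist_eq_norm, dist_eq_norm] at hy
      rw [Fk_eq_zero_of_far hτ hN hy.1, Fk_eq_zero_of_far hτ hN hy.2]
      simp
  have hi : Integrable (U.indicator (fun _ : V d => LF * ‖x - x'‖)) μ := by
    rw [integrable_indicator_iff hUm]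
    exact integrableOn_const hUfin.ne
  calc |∫ y, (Fk n τ N ψ x y - Fk n τ N ψ x' y) ∂μ|
      ≤ ∫ y, U.indicator (fun _ => LF * ‖x - x'‖) y ∂μ := by
        rw [← Real.norm_eq_abs]
        exact norm_integral_le_of_norm_le hi (Eventually.of_forall hptw)
    _ = μ.real U * (LF * ‖x - x'‖) := by
        rw [integral_indicator hUm, setIntegral_const, smul_eq_mul]
    _ ≤ (2 * (C * (2 * N) ^ n)) * (LF * ‖x - x'‖) := by gcongr
    _ = _ := by ring

theorem Fk_sub_mul (τ N : ℝ) (ψ η : V d → ℝ) (m : ℝ) (x y : V d) :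
    Fk n τ N (fun y => ψ y - m * η y) x y = Fk n τ N ψ x y - m * Fk n τ N η x y := by
  unfold Fk
  ring

theorem Gk_sub_mul {τ N ρ : ℝ} (hτ : 0 < τ) (hN : τ ≤ N) [IsFiniteMeasureOnCompacts μ]
    {ψ η : V d → ℝ} (hψc : Continuous ψ) (hρ : ∀ x, x ∉ ball (0 : V d) ρ → ψ x = 0)
    (hηc : Continuous η) (hρη : ∀ x, x ∉ ball (0 : V d) ρ → η x = 0) (m : ℝ) (x : V d) :
    Gk n μ τ N (fun y => ψ y - m * η y) x = Gk n μ τ N ψ x - m * Gk n μ τ N η x := by
  have i1 : Integrable (Fk n τ N ψ x) μ :=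
    (continuous_Fk_right hτ hN hψc x).integrable_of_hasCompactSupport
      (hasCompactSupport_Fk_right hτ hN hρ x)
  have i2 : Integrable (Fk n τ N η x) μ :=
    (continuous_Fk_right hτ hN hηc x).integrable_of_hasCompactSupport
      (hasCompactSupport_Fk_right hτ hN hρη x)
  unfold Gk
  simp only [Fk_sub_mul]
  rw [integral_sub i1 (i2.const_mul m), integral_const_mul]

end Gk

section onplane

variable {n d : ℕ}

theorem Kt_inc (hnd : n ≤ d) (τ N : ℝ) (z z' : V n) :
    Kt n τ N (inc n d z - inc n d z') = Kt n τ N (z - z') := by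
  have h : ‖inc n d z - inc n d z'‖ = ‖z - z'‖ := by
    rw [← incL_apply hnd, ← incL_apply hnd, ← map_sub, LinearIsometry.norm_map]
  unfold Kt kN
  rw [h]


/-- on the plane the truncated form gives the truncated operators `LamN`. -/
theorem integral_Fk_plane (hn : 0 < n) {τ N : ℝ} (hτ : 0 < τ) (hN : τ ≤ N) {ψ : V n → ℝ}
    (h1 : ContDiff ℝ (⊤ : ℕ∞) ψ) (h2 : HasCompactSupport ψ) (z : V n) :
    ∫ z' : V n, (ψ z - ψ z') * Kt n τ N (z - z') = 1 / 2 * (LamN N ψ z - LamN τ ψ z) := by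
  have hψc : Continuous ψ := h1.continuous
  obtain ⟨ρ, hρ⟩ := h2.isCompact.isBounded.subset_ball (0 : V n)
  have hρ' : ∀ x, x ∉ ball (0 : V n) ρ → ψ x = 0 := by
    intro x hx
    by_contra h
    exact hx (hρ (subset_tsupport _ h))
  have i0 : Integrable (fun z' => (ψ z - ψ z') * Kt n τ N (z - z')) :=
    (continuous_Fk_right hτ hN hψc z).integrable_of_hasCompactSupport
      (hasCompactSupport_Fk_right hτ hN hρ' z)
  have e1 : ∫ z' : V n, (ψ z - ψ z') * Kt n τ N (z - z')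
      = ∫ h : V n, (ψ z - ψ (z + h)) * Kt n τ N h := by
    rw [← integral_add_left_eq_self (fun z' => (ψ z - ψ z') * Kt n τ N (z - z')) z]
    congr 1
    ext h
    rw [sub_add_cancel_left, Kt_neg]
  have e2 : ∫ z' : V n, (ψ z - ψ z') * Kt n τ N (z - z')
      = ∫ h : V n, (ψ z - ψ (z - h)) * Kt n τ N h := by
    rw [← integral_sub_left_eq_self (fun z' => (ψ z - ψ z') * Kt n τ N (z - z')) volume z]
    congr 1
    ext h
    rw [sub_sub_cancel]
  have i1 : Integrable (fun h : V n => (ψ z - ψ (z + h)) * Kt n τ N h) := by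
    have := i0.comp_add_left z
    refine this.congr (Eventually.of_forall fun h => ?_)
    simp only
    rw [sub_add_cancel_left, Kt_neg]
  have i2 : Integrable (fun h : V n => (ψ z - ψ (z - h)) * Kt n τ N h) := by
    have := i0.comp_sub_left z
    refine this.congr (Eventually.of_forall fun h => ?_)
    simp only
    rw [sub_sub_cancel]
  have e3 : LamN N ψ z - LamN τ ψ z = ∫ h : V n, (2 * ψ z - ψ (z + h) - ψ (z - h)) * Kt n τ N h := by
    unfold LamN
    have iN := Liou.integrable_LamN hn h1 h2 N z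
    have iτ := Liou.integrable_LamN hn h1 h2 τ z
    unfold Liou.sd at iN iτ
    rw [← integral_sub iN iτ]
    congr 1
    ext h
    unfold Kt
    ring
  have e4 : ∫ h : V n, (2 * ψ z - ψ (z + h) - ψ (z - h)) * Kt n τ N h
      = (∫ h : V n, (ψ z - ψ (z + h)) * Kt n τ N h) + ∫ h : V n, (ψ z - ψ (z - h)) * Kt n τ N h := by
    rw [← integral_add i1 i2]
    congr 1
    ext h
    ring
  rw [e3, e4, ← e1, ← e2]
  ring

end onplane

end Crest.Agent.R085.M8
end

-- ▼ part R085/M8Weq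
section

/-!
R085, M8 (propagation), part (a): the weak equation `∫ w Λψ = 0` of the limit of the rescaled
normal coordinates.
-/

set_option autoImplicit false

namespace Crest.Agent.R085.M8

open MeasureTheory Metric Set Filter
open scoped ENNReal NNReal Topology ContDiff

section ext

variable {n d : ℕ}

theorem prj_sub (x y : V d) : prj n (x - y) = prj n x - prj n y := by
  ext j
  unfold prj
  by_cases h : (j : ℕ) < d <;> simp [h]

/-- extension of a test function on the plane to the ambient space -/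
noncomputable def ext (ρ : ℝ) (ψ : V n → ℝ) (y : V d) : ℝ := ψ (prj n y) * cut (‖y‖ / ρ)

theorem ext_inc (hnd : n ≤ d) {ρ : ℝ} (hρ : 0 < ρ) {ψ : V n → ℝ}
    (hψ : ∀ x, x ∉ ball (0 : V n) ρ → ψ x = 0) (z : V n) :
    ext ρ ψ (inc n d z) = ψ z := by
  unfold ext
  rw [prj_inc hnd, norm_inc hnd]
  by_cases hz : z ∈ ball (0 : V n) ρ
  · rw [mem_ball, dist_zero_right] at hz
    rw [cut_of_le ((div_le_one hρ).2 hz.le), mul_one]
  · rw [hψ z hz, zero_mul]

theorem ext_eq_zero {ρ : ℝ} (hρ : 0 < ρ) {ψ : V n → ℝ} {y : V d}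
    (hy : y ∉ ball (0 : V d) (2 * ρ)) : ext ρ ψ y = 0 := by
  unfold ext
  rw [mem_ball, dist_zero_right, not_lt] at hy
  rw [cut_of_ge ((le_div_iff₀ hρ).2 hy), mul_zero]

theorem ext_abs_le {ρ S : ℝ} {ψ : V n → ℝ} (hS : ∀ x, |ψ x| ≤ S) (y : V d) :
    |ext ρ ψ y| ≤ S := by
  unfold ext
  rw [abs_mul, abs_of_nonneg (Crest.Agent.R085.cut_nonneg _)]
  calc |ψ (prj n y)| * cut (‖y‖ / ρ) ≤ S * 1 :=
        mul_le_mul (hS _) (Crest.Agent.R085.cut_le_one _) (Crest.Agent.R085.cut_nonneg _)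
          ((abs_nonneg _).trans (hS 0))
    _ = S := mul_one _

theorem ext_lip (hnd : n ≤ d) {ρ S K : ℝ} (hρ : 0 < ρ) {ψ : V n → ℝ} (hS : ∀ x, |ψ x| ≤ S)
    (hK0 : 0 ≤ K) (hK : ∀ x y, |ψ x - ψ y| ≤ K * ‖x - y‖) (x y : V d) :
    |ext ρ ψ x - ext ρ ψ y| ≤ (K + S / ρ) * ‖x - y‖ := by
  have hS0 : 0 ≤ S := (abs_nonneg _).trans (hS 0)
  have e : ext ρ ψ x - ext ρ ψ y = (ψ (prj n x) - ψ (prj n y)) * cut (‖x‖ / ρ)
      + ψ (prj n y) * (cut (‖x‖ / ρ) - cut (‖y‖ / ρ)) := by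
    unfold ext; ring
  have e1 : |(ψ (prj n x) - ψ (prj n y)) * cut (‖x‖ / ρ)| ≤ (K * ‖x - y‖) * 1 := by
    rw [abs_mul, abs_of_nonneg (Crest.Agent.R085.cut_nonneg _)]
    refine mul_le_mul ?_ (Crest.Agent.R085.cut_le_one _) (Crest.Agent.R085.cut_nonneg _)
      (by positivity)
    refine (hK _ _).trans ?_
    rw [← prj_sub]
    exact mul_le_mul_of_nonneg_left (norm_prj_le _ hnd) hK0
  have e2 : |ψ (prj n y) * (cut (‖x‖ / ρ) - cut (‖y‖ / ρ))| ≤ S * (‖x - y‖ / ρ) := by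
    rw [abs_mul]
    refine mul_le_mul (hS _) ?_ (abs_nonneg _) hS0
    refine (cut_lip _ _).trans ?_
    rw [← sub_div, abs_div, abs_of_pos hρ]
    gcongr
    exact abs_norm_sub_norm_le x y
  rw [e]
  refine (abs_add_le _ _).trans ((add_le_add e1 e2).trans (le_of_eq ?_))
  ring

theorem continuous_of_lip {f : V d → ℝ} {K : ℝ} (hK : ∀ x y, |f x - f y| ≤ K * ‖x - y‖) :
    Continuous f := by
  refine LipschitzWith.continuous (K := K.toNNReal) (LipschitzWith.of_dist_le_mul ?_)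
  intro x y
  rw [Real.dist_eq, dist_eq_norm]
  refine (hK x y).trans ?_
  gcongr
  exact Real.le_coe_toNNReal K

theorem hasCompactSupport_of_ball {f : V d → ℝ} {R : ℝ}
    (hf : ∀ x, x ∉ ball (0 : V d) R → f x = 0) : HasCompactSupport f := by
  apply HasCompactSupport.of_support_subset_isCompact (isCompact_closedBall (0 : V d) R)
  intro x hx
  by_contra h
  exact hx (hf x fun h' => h (ball_subset_closedBall h'))

/-- the correction bump -/
noncomputable def bmp (y : V d) : ℝ := cut ‖y‖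

theorem bmp_lip (x y : V d) : |bmp x - bmp y| ≤ 1 * ‖x - y‖ := by
  unfold bmp
  rw [one_mul]
  exact (cut_lip _ _).trans (abs_norm_sub_norm_le x y)

theorem bmp_eq_zero {y : V d} (hy : y ∉ ball (0 : V d) 2) : bmp y = 0 := by
  unfold bmp
  rw [mem_ball, dist_zero_right, not_lt] at hy
  exact cut_of_ge hy

theorem bmp_inc (hnd : n ≤ d) (z : V n) : bmp (inc n d z) = cut ‖z‖ := by
  unfold bmp
  rw [norm_inc hnd]

theorem integral_bmp_pos : 0 < ∫ z : V n, cut ‖z‖ := by
  have hc : Continuous fun z : V n => cut ‖z‖ :=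
    Crest.Agent.R085.continuous_cut.comp continuous_norm
  have hs : HasCompactSupport fun z : V n => cut ‖z‖ :=
    hasCompactSupport_of_ball (R := 2) fun x hx => bmp_eq_zero hx
  apply hc.integral_pos_of_hasCompactSupport_nonneg_nonzero hs
    (fun z => Crest.Agent.R085.cut_nonneg _) (x := 0)
  rw [norm_zero, cut_of_le (by norm_num)]
  norm_num

end ext

section smalltau

variable {n : ℕ}

theorem LamN_tendsto_zero (hn : 0 < n) {ψ : V n → ℝ} (h1 : ContDiff ℝ ∞ ψ)
    (h2 : HasCompactSupport ψ) (x : V n) :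
    Tendsto (fun τ : ℝ => LamN τ ψ x) (𝓝[>] 0) (𝓝 0) := by
  obtain ⟨M, hM0, hM⟩ := Liou.sd_bound h1 h2
  have h0 : ∫ _h : V n, (0 : ℝ) = 0 := by simp
  suffices h : Tendsto (fun τ : ℝ => LamN τ ψ x) (𝓝[>] 0) (𝓝 (∫ _h : V n, (0 : ℝ))) by
    rwa [h0] at h
  refine tendsto_integral_filter_of_dominated_convergence (fun h => M * Liou.wt n h) ?_ ?_ ?_ ?_
  · exact Filter.Eventually.of_forall fun N =>
      (Liou.integrable_LamN hn h1 h2 N x).aestronglyMeasurable
  · exact Filter.Eventually.of_forall fun N => Filter.Eventually.of_forall fun h =>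
      Liou.sd_bound_wt hM0 hM N x h
  · exact (Liou.integrable_wt hn).const_mul M
  · refine Filter.Eventually.of_forall fun h => ?_
    refine tendsto_const_nhds.congr' ?_
    by_cases hh : h = 0
    · refine Filter.Eventually.of_forall fun τ => ?_
      rw [hh]
      simp
      ring_nf
      simp
    · have hpos : 0 < ‖h‖ := norm_pos_iff.2 hh
      have : Ioo (0 : ℝ) (‖h‖ / 2) ∈ 𝓝[>] (0 : ℝ) := Ioo_mem_nhdsGT (by positivity)
      filter_upwards [this] with τ hτ
      rw [Crest.Agent.R085.kN_eq_zero hτ.1 (by linarith [hτ.2]), mul_zero]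

theorem integrable_mul_LamN (hn : 0 < n) {w : V n → ℝ} {K s : ℝ} (hs : s < n + 4)
    (hw : ∀ R : ℝ, MemLp w 2 (volume.restrict (ball (0 : V n) R))) (hG : Gr K s w)
    {ψ : V n → ℝ} (hψ : SmTest ψ) {N : ℝ} (hN : 0 < N) :
    Integrable (fun z => w z * LamN N ψ z) := by
  obtain ⟨C, hC0, hC⟩ := Liou.LamN_bound hn hψ
  have hwm := Liou.aestronglyMeasurable_of_memLp hw
  refine ((Liou.integrable_weight hs hw hG).norm.const_mul C).mono'
    (hwm.mul (Liou.measurable_LamN hψ.smooth.continuous N).aestronglyMeasurable)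
    (Filter.Eventually.of_forall fun x => ?_)
  rw [norm_mul, norm_mul, Real.norm_eq_abs (LamN N ψ x),
    Real.norm_of_nonneg (by positivity : (0:ℝ) ≤ ((1 + ‖x‖) ^ (n + 2))⁻¹)]
  calc ‖w x‖ * |LamN N ψ x| ≤ ‖w x‖ * (C * ((1 + ‖x‖) ^ (n + 2))⁻¹) := by
        gcongr
        exact hC N hN x
    _ = _ := by ring

theorem tendsto_integral_LamN_zero (hn : 0 < n) {w : V n → ℝ} {K s : ℝ} (hs : s < n + 4)
    (hw : ∀ R : ℝ, MemLp w 2 (volume.restrict (ball (0 : V n) R))) (hG : Gr K s w)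
    {ψ : V n → ℝ} (hψ : SmTest ψ) :
    Tendsto (fun τ : ℝ => ∫ z, w z * LamN τ ψ z) (𝓝[>] 0) (𝓝 0) := by
  obtain ⟨C, hC0, hC⟩ := Liou.LamN_bound hn hψ
  have hwm := Liou.aestronglyMeasurable_of_memLp hw
  have h0 : ∫ z : V n, w z * 0 = 0 := by simp
  suffices h : Tendsto (fun τ : ℝ => ∫ z, w z * LamN τ ψ z) (𝓝[>] 0) (𝓝 (∫ z : V n, w z * 0)) by
    rwa [h0] at h
  refine tendsto_integral_filter_of_dominated_convergence
    (fun x => C * ‖w x * ((1 + ‖x‖) ^ (n + 2))⁻¹‖) ?_ ?_ ?_ ?_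
  · exact Filter.Eventually.of_forall fun N =>
      hwm.mul (Liou.measurable_LamN hψ.smooth.continuous N).aestronglyMeasurable
  · filter_upwards [self_mem_nhdsWithin] with N hN
    refine Filter.Eventually.of_forall fun x => ?_
    rw [norm_mul, norm_mul, Real.norm_eq_abs (LamN N ψ x),
      Real.norm_of_nonneg (by positivity : (0:ℝ) ≤ ((1 + ‖x‖) ^ (n + 2))⁻¹)]
    calc ‖w x‖ * |LamN N ψ x| ≤ ‖w x‖ * (C * ((1 + ‖x‖) ^ (n + 2))⁻¹) := by
          gcongr
          exact hC N hN x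
      _ = _ := by ring
  · exact (Liou.integrable_weight hs hw hG).norm.const_mul C
  · exact Filter.Eventually.of_forall fun x =>
      (LamN_tendsto_zero hn hψ.smooth hψ.cpt x).const_mul (w x)

end smalltau

section main

variable {n d : ℕ}

/-- quantitative step: for fixed `0 < τ ≤ 1/2` and `N`, the truncated weak equation. -/
theorem weq_step (hn : 1 ≤ n) (hnd : n ≤ d) {ι : Type*} {l : Filter ι} [l.NeBot]
    {μs : ι → Measure (V d)} {C : ℝ} (hC : 0 ≤ C) (hμ : ∀ᶠ k in l, UpperReg n C (μs k))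
    {c : ℝ} (hc : 0 < c)
    (hν : ∀ f : V d → ℝ, Continuous f → HasCompactSupport f →
      Tendsto (fun k => ∫ y, f y ∂(μs k)) l (𝓝 (c * ∫ z : V n, f (inc n d z))))
    {A : ι → V d → ℝ} (hA : ∀ᶠ k in l, LocLip (A k))
    (hA1 : ∀ R : ℝ, ∃ H : ℝ, ∀ᶠ k in l, ∫ y in ball (0 : V d) R, |A k y| ∂(μs k) ≤ H)
    {w : V n → ℝ}
    (hw : ∀ f : V d → ℝ, Continuous f → HasCompactSupport f →
      Tendsto (fun k => ∫ y, f y * A k y ∂(μs k)) l (𝓝 (c * ∫ z : V n, f (inc n d z) * w z)))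
    (hE : ∀ R : ℝ, ∃ H : ℝ, ∀ᶠ k in l, enr n (μs k) (A k) R ≤ ENNReal.ofReal H)
    (hS : ∀ K0 ρ η : ℝ, 0 < η → ∀ᶠ N : ℝ in atTop, ∀ᶠ k in l, ∀ ψ : V d → ℝ,
      (∀ x y, |ψ x - ψ y| ≤ K0 * ‖x - y‖) → (∀ x, x ∉ ball (0 : V d) ρ → ψ x = 0) →
      ∫ y, ψ y ∂(μs k) = 0 → |Bf n (μs k) N (A k) ψ| ≤ η)
    {ψ : V n → ℝ} (hψ : SmTest ψ) :
    ∃ D : ℝ, 0 ≤ D ∧ ∀ η : ℝ, 0 < η → ∀ᶠ N : ℝ in atTop, ∀ τ : ℝ, 0 < τ → 2 * τ ≤ 1 →
      |c * ∫ z : V n, (c * (1 / 2 * (LamN N ψ z - LamN τ ψ z))) * w z| ≤ η + Real.sqrt τ * D := by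
  have hn0 : 0 < n := hn
  -- data of `ψ`
  have hψc : Continuous ψ := hψ.smooth.continuous
  obtain ⟨S, hS1⟩ := hψ.cpt.exists_bound_of_continuous hψc
  have hSb : ∀ x, |ψ x| ≤ S := fun x => by rw [← Real.norm_eq_abs]; exact hS1 x
  have hS0 : 0 ≤ S := (abs_nonneg _).trans (hSb 0)
  obtain ⟨L, hL⟩ := hψ.smooth.lipschitzWith_of_hasCompactSupport hψ.cpt (by norm_num)
  have hLip : ∀ x y, |ψ x - ψ y| ≤ L * ‖x - y‖ := by
    intro x y
    have := hL.dist_le_mul x y
    rwa [Real.dist_eq, dist_eq_norm] at this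
  obtain ⟨ρ, hρ1, hρ⟩ : ∃ ρ : ℝ, 1 ≤ ρ ∧ ∀ x, x ∉ ball (0 : V n) ρ → ψ x = 0 := by
    obtain ⟨r, hr⟩ := hψ.cpt.isCompact.isBounded.subset_ball (0 : V n)
    refine ⟨max r 1, le_max_right _ _, fun x hx => ?_⟩
    by_contra h
    apply hx
    exact ball_subset_ball (le_max_left _ _) (hr (subset_tsupport _ h))
  have hρ0 : 0 < ρ := by linarith
  -- the extension
  set Ψ : V d → ℝ := ext ρ ψ with hΨ
  set K1 : ℝ := L + S / ρ with hK1
  have hK10 : 0 ≤ K1 := by positivity
  have hΨlip : ∀ x y, |Ψ x - Ψ y| ≤ K1 * ‖x - y‖ := ext_lip hnd hρ0 hSb L.2 hLip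
  have hΨc : Continuous Ψ := continuous_of_lip hΨlip
  have hΨ0 : ∀ x, x ∉ ball (0 : V d) (2 * ρ) → Ψ x = 0 := fun x hx => ext_eq_zero hρ0 hx
  have hbc : Continuous (bmp : V d → ℝ) := continuous_of_lip bmp_lip
  have hb0 : ∀ x, x ∉ ball (0 : V d) (2 * ρ) → bmp x = 0 := fun x hx =>
    bmp_eq_zero fun h => hx (ball_subset_ball (by linarith) h)
  -- the corrections
  set m : ι → ℝ := fun k => (∫ y, Ψ y ∂(μs k)) / ∫ y, bmp y ∂(μs k) with hm
  have hb1 : Tendsto (fun k => ∫ y, bmp y ∂(μs k)) l (𝓝 (c * ∫ z : V n, cut ‖z‖)) := by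
    have := hν bmp hbc (hasCompactSupport_of_ball hb0)
    simpa only [bmp_inc hnd] using this
  have hbpos : 0 < c * ∫ z : V n, cut ‖z‖ := mul_pos hc integral_bmp_pos
  have hΨ1 : Tendsto (fun k => ∫ y, Ψ y ∂(μs k)) l (𝓝 0) := by
    have := hν Ψ hΨc (hasCompactSupport_of_ball hΨ0)
    have e : ∫ z : V n, Ψ (inc n d z) = 0 := by
      simp only [hΨ, ext_inc hnd hρ0 hρ]
      exact hψ.mean
    rwa [e, mul_zero] at this
  have hm0 : Tendsto m l (𝓝 0) := by
    have := hΨ1.div hb1 hbpos.ne'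
    rw [zero_div] at this
    exact this
  have hbne : ∀ᶠ k in l, ∫ y, bmp y ∂(μs k) ≠ 0 := by
    filter_upwards [(tendsto_order.1 hb1).1 0 hbpos] with k hk
    exact hk.ne'
  have hm1 : ∀ᶠ k in l, |m k| ≤ 1 := by
    have := hm0.abs
    rw [abs_zero] at this
    filter_upwards [(tendsto_order.1 this).2 1 one_pos] with k hk
    exact hk.le
  set Ψk : ι → V d → ℝ := fun k y => Ψ y - m k * bmp y with hΨk
  set K0 : ℝ := K1 + 1 with hK0
  have hΨklip : ∀ᶠ k in l, ∀ x y, |Ψk k x - Ψk k y| ≤ K0 * ‖x - y‖ := by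
    filter_upwards [hm1] with k hk x y
    have e : Ψk k x - Ψk k y = (Ψ x - Ψ y) - m k * (bmp x - bmp y) := by
      rw [hΨk]; ring
    rw [e]
    calc |(Ψ x - Ψ y) - m k * (bmp x - bmp y)| ≤ |Ψ x - Ψ y| + |m k * (bmp x - bmp y)| := abs_sub _ _
      _ ≤ K1 * ‖x - y‖ + 1 * (1 * ‖x - y‖) := by
          apply add_le_add (hΨlip x y)
          rw [abs_mul]
          exact mul_le_mul hk (bmp_lip x y) (abs_nonneg _) zero_le_one
      _ = K0 * ‖x - y‖ := by rw [hK0]; ring
  have hΨk0 : ∀ k, ∀ x, x ∉ ball (0 : V d) (2 * ρ) → Ψk k x = 0 := by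
    intro k x hx
    rw [hΨk]
    simp only
    rw [hΨ0 x hx, hb0 x hx]
    ring
  have hΨkS : ∀ᶠ k in l, ∀ x, |Ψk k x| ≤ S + 1 := by
    filter_upwards [hm1] with k hk x
    rw [hΨk]
    simp only
    calc |Ψ x - m k * bmp x| ≤ |Ψ x| + |m k * bmp x| := abs_sub _ _
      _ ≤ S + 1 * 1 := by
          apply add_le_add (ext_abs_le hSb x)
          rw [abs_mul]
          refine mul_le_mul hk ?_ (abs_nonneg _) zero_le_one
          unfold bmp
          rw [abs_of_nonneg (Crest.Agent.R085.cut_nonneg _)]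
          exact Crest.Agent.R085.cut_le_one _
      _ = S + 1 := by ring
  have hΨkmean : ∀ᶠ k in l, ∫ y, Ψk k y ∂(μs k) = 0 := by
    filter_upwards [hbne, hμ] with k hk hμk
    have := upperReg_finiteOnCompacts hμk
    have i1 : Integrable Ψ (μs k) :=
      hΨc.integrable_of_hasCompactSupport (hasCompactSupport_of_ball hΨ0)
    have i2 : Integrable bmp (μs k) :=
      hbc.integrable_of_hasCompactSupport (hasCompactSupport_of_ball hb0)
    rw [hΨk]
    simp only
    rw [integral_sub i1 (i2.const_mul _), integral_const_mul, hm]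
    simp only
    rw [div_mul_cancel₀ _ hk, sub_self]
  obtain ⟨H, hH⟩ := hE (2 * ρ + 1)
  set H' : ℝ := max H 0 with hH'
  have hH'0 : 0 ≤ H' := le_max_right _ _
  set D : ℝ := H' + K0 ^ 2 * (C * (2 * ρ + 1) ^ n) * (C * 4 ^ n) with hD
  have hD0 : 0 ≤ D := by positivity
  refine ⟨D, hD0, fun η hη => ?_⟩
  filter_upwards [hS K0 (2 * ρ) η hη, eventually_ge_atTop 1] with N hN hN1 τ hτ hτ2
  have hτN : τ ≤ N := by linarith
  obtain ⟨H1, hH1⟩ := hA1 (2 * ρ + 2 * N)
  -- limit of the far part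
  set LG : ℝ := (K0 * (τ ^ (n + 1))⁻¹ + 2 * (S + 1) * LK n τ) * (2 * (C * (2 * N) ^ n)) with hLG
  have hLG0 : 0 ≤ LG := by
    have := LK_nonneg (n := n) hτ
    positivity
  have hK00 : 0 ≤ K0 := by positivity
  have hlim : Tendsto (fun k => ∫ y, Gk n (μs k) τ N (Ψk k) y * A k y ∂(μs k)) l
      (𝓝 (c * ∫ z : V n, (c * (1 / 2 * (LamN N ψ z - LamN τ ψ z))) * w z)) := by
    have hAc : ∀ᶠ k in l, Continuous (A k) := by
      filter_upwards [hA] with k hk
      exact locLip_continuous hk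
    have hfin : ∀ᶠ k in l, IsFiniteMeasureOnCompacts (μs k) := by
      filter_upwards [hμ] with k hk
      exact upperReg_finiteOnCompacts hk
    refine pairing_tendsto (g0 := fun x => c * ∫ z : V n, Fk n τ N Ψ x (inc n d z))
      (R := 2 * ρ + 2 * N) (L := LG) hfin hAc hLG0 hH1 ?_ ?_ ?_ ?_
    · exact Eventually.of_forall fun k x hx => Gk_eq_zero hτ hτN (hΨk0 k) hx
    · filter_upwards [hΨklip, hΨkS, hμ] with k hk1 hk2 hk3 x y
      exact Gk_lip hτ hτN hk3 hC (continuous_of_lip hk1) hK00 hk1 hk2 (hΨk0 k) x y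
    · intro x
      have h1 := hν (Fk n τ N Ψ x) (continuous_Fk_right hτ hτN hΨc x)
        (hasCompactSupport_Fk_right hτ hτN hΨ0 x)
      have h2 := hν (Fk n τ N bmp x) (continuous_Fk_right hτ hτN hbc x)
        (hasCompactSupport_Fk_right hτ hτN hb0 x)
      have h3 := h1.sub (hm0.mul h2)
      rw [zero_mul, sub_zero] at h3
      refine h3.congr' ?_
      filter_upwards [hfin] with k hk
      exact (Gk_sub_mul hτ hτN hΨc hΨ0 hbc hb0 (m k) x).symm
    · intro hg1 hg2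
      have h1 := hw _ hg1 hg2
      have e : ∀ z : V n, (c * ∫ z' : V n, Fk n τ N Ψ (inc n d z) (inc n d z'))
          = c * (1 / 2 * (LamN N ψ z - LamN τ ψ z)) := by
        intro z
        rw [← integral_Fk_plane hn0 hτ hτN hψ.smooth hψ.cpt z]
        congr 1
        congr 1
        ext z'
        unfold Fk
        rw [Kt_inc hnd, hΨ, ext_inc hnd hρ0 hρ, ext_inc hnd hρ0 hρ]
      simp only [e] at h1
      exact h1
  refine le_of_tendsto hlim.abs ?_
  filter_upwards [hN, hμ, hA, hΨklip, hΨkmean, hH] with k hk1 hk2 hk3 hk4 hk5 hk6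
  have h1 := hk1 (Ψk k) hk4 (hΨk0 k) hk5
  have h2 := Bf_near_le (ρ := 2 * ρ) hτ hτ2 hk2 hC hn (locLip_continuous hk3) hk4
    (by positivity) (hΨk0 k) hH'0 (hk6.trans (ENNReal.ofReal_le_ofReal (le_max_left _ _)))
  have h3 := Bf_split (ρ := 2 * ρ) hτ hτN hk2 hC hn hk3 (continuous_of_lip hk4) hK00 hk4
    (by positivity) (hΨk0 k)
  have h4 : ∫ y, Gk n (μs k) τ N (Ψk k) y * A k y ∂(μs k)
      = Bf n (μs k) N (A k) (Ψk k) - Bf n (μs k) τ (A k) (Ψk k) := by
    rw [h3]
    simp only [mul_comm (A k _)]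
    ring
  rw [h4]
  exact (abs_sub _ _).trans (add_le_add h1 h2)

/-- **Weak equation of the limit.** -/
theorem weq (hn : 1 ≤ n) (hnd : n ≤ d) {ι : Type*} {l : Filter ι} [l.NeBot]
    {μs : ι → Measure (V d)} {C : ℝ} (hC : 0 ≤ C) (hμ : ∀ᶠ k in l, UpperReg n C (μs k))
    {c : ℝ} (hc : 0 < c)
    (hν : ∀ f : V d → ℝ, Continuous f → HasCompactSupport f →
      Tendsto (fun k => ∫ y, f y ∂(μs k)) l (𝓝 (c * ∫ z : V n, f (inc n d z))))
    {A : ι → V d → ℝ} (hA : ∀ᶠ k in l, LocLip (A k))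
    (hA1 : ∀ R : ℝ, ∃ H : ℝ, ∀ᶠ k in l, ∫ y in ball (0 : V d) R, |A k y| ∂(μs k) ≤ H)
    {w : V n → ℝ} (hwL : ∀ R : ℝ, MemLp w 2 (volume.restrict (ball (0 : V n) R)))
    {K s : ℝ} (hs : s < n + 4) (hG : Gr K s w)
    (hw : ∀ f : V d → ℝ, Continuous f → HasCompactSupport f →
      Tendsto (fun k => ∫ y, f y * A k y ∂(μs k)) l (𝓝 (c * ∫ z : V n, f (inc n d z) * w z)))
    (hE : ∀ R : ℝ, ∃ H : ℝ, ∀ᶠ k in l, enr n (μs k) (A k) R ≤ ENNReal.ofReal H)
    (hS : ∀ K0 ρ η : ℝ, 0 < η → ∀ᶠ N : ℝ in atTop, ∀ᶠ k in l, ∀ ψ : V d → ℝ,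
      (∀ x y, |ψ x - ψ y| ≤ K0 * ‖x - y‖) → (∀ x, x ∉ ball (0 : V d) ρ → ψ x = 0) →
      ∫ y, ψ y ∂(μs k) = 0 → |Bf n (μs k) N (A k) ψ| ≤ η)
    {ψ : V n → ℝ} (hψ : SmTest ψ) : ∫ z, w z * Liou.Lam ψ z = 0 := by
  have hn0 : 0 < n := hn
  obtain ⟨D, hD0, hD⟩ := weq_step hn hnd hC hμ hc hν hA hA1 hw hE hS hψ
  set b : ℝ := c * c / 2 with hb
  have hb0 : 0 < b := by positivity
  -- rewrite the integral
  have e : ∀ N τ : ℝ, 0 < N → 0 < τ →
      c * ∫ z : V n, (c * (1 / 2 * (LamN N ψ z - LamN τ ψ z))) * w z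
        = b * ((∫ z, w z * LamN N ψ z) - ∫ z, w z * LamN τ ψ z) := by
    intro N τ hN hτ
    rw [← integral_sub (integrable_mul_LamN hn0 hs hwL hG hψ hN)
      (integrable_mul_LamN hn0 hs hwL hG hψ hτ), ← integral_const_mul, ← integral_const_mul]
    congr 1
    ext z
    rw [hb]
    ring
  -- let `τ → 0`
  have h1 : ∀ η : ℝ, 0 < η → ∀ᶠ N : ℝ in atTop, |b * ∫ z, w z * LamN N ψ z| ≤ η := by
    intro η hη
    filter_upwards [hD η hη, eventually_gt_atTop 0] with N hN hN0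
    have t1 : Tendsto (fun τ : ℝ => |b * ((∫ z, w z * LamN N ψ z) - ∫ z, w z * LamN τ ψ z)|)
        (𝓝[>] 0) (𝓝 |b * ((∫ z, w z * LamN N ψ z) - 0)|) :=
      ((tendsto_const_nhds.sub (tendsto_integral_LamN_zero hn0 hs hwL hG hψ)).const_mul b).abs
    have t2 : Tendsto (fun τ : ℝ => η + Real.sqrt τ * D) (𝓝[>] 0) (𝓝 (η + Real.sqrt 0 * D)) := by
      apply Tendsto.mono_left _ nhdsWithin_le_nhds
      exact tendsto_const_nhds.add ((Real.continuous_sqrt.tendsto 0).mul_const D)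
    rw [Real.sqrt_zero, zero_mul, add_zero] at t2
    rw [sub_zero] at t1
    refine le_of_tendsto_of_tendsto t1 t2 ?_
    have : Ioo (0 : ℝ) (1 / 2) ∈ 𝓝[>] (0 : ℝ) := Ioo_mem_nhdsGT (by norm_num)
    filter_upwards [this] with τ hτ
    have := hN τ hτ.1 (by linarith [hτ.2])
    rwa [e N τ hN0 hτ.1] at this
  -- let `N → ∞`
  have h2 := Liou.tendsto_integral_LamN hn0 hs hwL hG hψ
  have h3 : ∀ η : ℝ, 0 < η → |b * ∫ z, w z * Liou.Lam ψ z| ≤ η := by
    intro η hη
    exact le_of_tendsto (h2.const_mul b).abs (h1 η hη)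
  have h4 : |b * ∫ z, w z * Liou.Lam ψ z| ≤ 0 := le_of_forall_pos_le_add fun η hη => by
    simpa using h3 η hη
  have h5 : b * ∫ z, w z * Liou.Lam ψ z = 0 := abs_nonpos_iff.1 h4
  rcases mul_eq_zero.1 h5 with h | h
  · exact absurd h hb0.ne'
  · exact h

end main

end Crest.Agent.R085.M8
end

-- ▼ part R085/LimDens

/-!
# R085, module M3 / L5: weak limits of L2-bounded densities

If `μ k → ν` vaguely along an ultrafilter and `u k : E → F` is bounded in `L²(μ k)` on balls, then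
`(u k) μ k` converges (along the same ultrafilter, against continuous compactly supported test
functions) to `w ν` with `w` locally in `L²(ν)`, with the same bounds.
-/

set_option autoImplicit false
set_option linter.unusedSectionVars false

open MeasureTheory Filter Topology Metric Set
open scoped ENNReal NNReal

namespace Crest.Agent.R085

/-- Riesz representation of a linear functional controlled by a Hilbert seminorm. -/
theorem hilbert_repr {M : Type*} [AddCommGroup M] [Module ℝ M] {H : Type*}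
    [NormedAddCommGroup H] [InnerProductSpace ℝ H] [CompleteSpace H] (e : M →ₗ[ℝ] H)
    (T : M →ₗ[ℝ] ℝ) (C : ℝ) (hC : 0 ≤ C) (h : ∀ m, |T m| ≤ C * ‖e m‖) :
    ∃ w : H, ‖w‖ ≤ C ∧ ∀ m, T m = inner ℝ w (e m) := by
  classical
  have hker : LinearMap.ker e ≤ LinearMap.ker T := by
    intro m hm
    rw [LinearMap.mem_ker] at hm ⊢
    have := h m
    rw [hm, norm_zero, mul_zero] at this
    exact abs_eq_zero.mp (le_antisymm this (abs_nonneg _))
  let T' : LinearMap.range e →ₗ[ℝ] ℝ :=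
    ((LinearMap.ker e).liftQ T hker).comp e.quotKerEquivRange.symm.toLinearMap
  have hT' : ∀ m, T' ⟨e m, LinearMap.mem_range_self e m⟩ = T m := by
    intro m
    simp only [T', LinearMap.comp_apply, LinearEquiv.coe_coe]
    rw [LinearMap.quotKerEquivRange_symm_apply_image]
    simp
  have hb : ∀ y : LinearMap.range e, ‖T' y‖ ≤ C * ‖y‖ := by
    rintro ⟨y, m, rfl⟩
    rw [hT' m]
    simpa using h m
  let T'' : StrongDual ℝ (LinearMap.range e) := T'.mkContinuous C hb
  obtain ⟨g, hg1, hg2⟩ := exists_extension_norm_eq (LinearMap.range e) T''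
  refine ⟨(InnerProductSpace.toDual ℝ H).symm g, ?_, fun m => ?_⟩
  · rw [LinearIsometryEquiv.norm_map, hg2]
    exact T'.mkContinuous_norm_le hC hb
  · rw [InnerProductSpace.toDual_symm_apply]
    have h1 := hg1 ⟨e m, LinearMap.mem_range_self e m⟩
    rw [h1]
    exact (hT' m).symm

section L2calc

variable {α : Type*} [MeasurableSpace α] {F : Type*} [NormedAddCommGroup F] [InnerProductSpace ℝ F]

theorem inner_toLp_eq {μ : Measure α} {f g : α → F} (hf : MemLp f 2 μ) (hg : MemLp g 2 μ) :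
    inner ℝ (hf.toLp f) (hg.toLp g) = ∫ x, inner ℝ (f x) (g x) ∂μ := by
  rw [L2.inner_def]
  refine integral_congr_ae ?_
  filter_upwards [hf.coeFn_toLp, hg.coeFn_toLp] with x h1 h2
  rw [h1, h2]

theorem norm_toLp_sq {μ : Measure α} {f : α → F} (hf : MemLp f 2 μ) :
    ‖hf.toLp f‖ ^ 2 = ∫ x, ‖f x‖ ^ 2 ∂μ := by
  rw [← real_inner_self_eq_norm_sq, inner_toLp_eq hf hf]
  simp

theorem integrable_inner_of_memLp {μ : Measure α} {f g : α → F} (hf : MemLp f 2 μ)
    (hg : MemLp g 2 μ) : Integrable (fun x => inner ℝ (f x) (g x)) μ := by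
  refine (L2.integrable_inner (𝕜 := ℝ) (hf.toLp f) (hg.toLp g)).congr ?_
  filter_upwards [hf.coeFn_toLp, hg.coeFn_toLp] with x h1 h2
  rw [h1, h2]

theorem abs_integral_inner_le_eLp {μ : Measure α} {f g : α → F} (hf : MemLp f 2 μ)
    (hg : MemLp g 2 μ) : |∫ x, inner ℝ (f x) (g x) ∂μ| ≤
      Real.sqrt (∫ x, ‖f x‖ ^ 2 ∂μ) * Real.sqrt (∫ x, ‖g x‖ ^ 2 ∂μ) := by
  rw [← inner_toLp_eq hf hg, ← norm_toLp_sq hf, ← norm_toLp_sq hg, Real.sqrt_sq (norm_nonneg _),
    Real.sqrt_sq (norm_nonneg _)]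
  exact abs_real_inner_le_norm _ _

end L2calc

section dens

variable {E : Type*} [NormedAddCommGroup E] [NormedSpace ℝ E] [FiniteDimensional ℝ E]
  [MeasurableSpace E] [BorelSpace E]
variable {F : Type*} [NormedAddCommGroup F] [InnerProductSpace ℝ F] [FiniteDimensional ℝ F]
variable {ι : Type*}

/-- continuous compactly supported functions vanishing off `G` -/
def ccOn (G : Set E) (F : Type*) [NormedAddCommGroup F] [InnerProductSpace ℝ F] :
    Submodule ℝ (E → F) where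
  carrier := {φ | Continuous φ ∧ HasCompactSupport φ ∧ ∀ x, x ∉ G → φ x = 0}
  add_mem' := by
    rintro a b ⟨h1, h2, h3⟩ ⟨g1, g2, g3⟩
    exact ⟨h1.add g1, h2.add g2, fun x hx => by simp [h3 x hx, g3 x hx]⟩
  zero_mem' := ⟨continuous_const, HasCompactSupport.zero, fun _ _ => rfl⟩
  smul_mem' := by
    rintro c a ⟨h1, h2, h3⟩
    exact ⟨h1.const_smul c, h2.smul_left (f := fun _ => c), fun x hx => by simp [h3 x hx]⟩

theorem ccOn_memLp {G : Set E} {μ : Measure E} [IsFiniteMeasureOnCompacts μ] (φ : ccOn G F) :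
    MemLp (φ : E → F) 2 μ :=
  φ.2.1.memLp_of_hasCompactSupport φ.2.2.1

/-- the embedding of the test functions into `L²(ν|G)` -/
noncomputable def ccToLp (G : Set E) (ν : Measure E) [IsFiniteMeasureOnCompacts ν] :
    ccOn G F →ₗ[ℝ] Lp F 2 (ν.restrict G) where
  toFun φ := ((ccOn_memLp φ (μ := ν)).restrict G).toLp _
  map_add' a b := by
    rw [← MemLp.toLp_add]
    rfl
  map_smul' c a := by
    rw [RingHom.id_apply, ← MemLp.toLp_const_smul]
    rfl

theorem integral_inner_eq_restrict {G : Set E} {μ : Measure E} (φ : ccOn G F) (u : E → F) :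
    ∫ x, inner ℝ ((φ : E → F) x) (u x) ∂μ = ∫ x in G, inner ℝ ((φ : E → F) x) (u x) ∂μ := by
  rw [setIntegral_eq_integral_of_forall_compl_eq_zero]
  intro x hx
  rw [φ.2.2.2 x hx, inner_zero_left]

/-- Local representation of the limit of `(u k) μ k` on an open set. -/
theorem exists_repr_open (U : Ultrafilter ι) {μ : ι → Measure E} {ν : Measure E}
    [∀ k, IsFiniteMeasureOnCompacts (μ k)] [IsFiniteMeasureOnCompacts ν]
    (h : VagueTendsto (U : Filter ι) μ ν) {G : Set E} (u : ι → E → F) (c : ℝ)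
    (hc : ∀ᶠ k in (U : Filter ι), MemLp (u k) 2 ((μ k).restrict G) ∧
      ∫ x in G, ‖u k x‖ ^ 2 ∂(μ k) ≤ c) :
    ∃ w : Lp F 2 (ν.restrict G), ‖w‖ ^ 2 ≤ c ∧ ∀ φ : ccOn G F,
      Tendsto (fun k => ∫ x, inner ℝ ((φ : E → F) x) (u k x) ∂(μ k)) U
        (𝓝 (∫ x in G, inner ℝ ((φ : E → F) x) (w x) ∂ν)) := by
  classical
  have hc0 : 0 ≤ c := by
    obtain ⟨k, hk⟩ := hc.exists
    exact (integral_nonneg fun x => by positivity).trans hk.2
  -- the basic estimate
  have hest : ∀ φ : ccOn G F, ∀ᶠ k in (U : Filter ι),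
      |∫ x, inner ℝ ((φ : E → F) x) (u k x) ∂(μ k)| ≤
        Real.sqrt (∫ x, ‖(φ : E → F) x‖ ^ 2 ∂(μ k)) * Real.sqrt c := by
    intro φ
    filter_upwards [hc] with k hk
    rw [integral_inner_eq_restrict]
    refine (abs_integral_inner_le_eLp ((ccOn_memLp φ (μ := μ k)).restrict G) hk.1).trans ?_
    refine mul_le_mul (Real.sqrt_le_sqrt ?_) (Real.sqrt_le_sqrt hk.2) (Real.sqrt_nonneg _)
      (Real.sqrt_nonneg _)
    refine setIntegral_le_integral ?_ (ae_of_all _ fun x => by positivity)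
    exact (ccOn_memLp φ (μ := μ k)).integrable_norm_pow (by norm_num)
  have hnsq : ∀ φ : ccOn G F, Continuous (fun x => ‖(φ : E → F) x‖ ^ 2) ∧
      HasCompactSupport (fun x => ‖(φ : E → F) x‖ ^ 2) := by
    intro φ
    refine ⟨φ.2.1.norm.pow 2, ?_⟩
    exact φ.2.2.1.comp_left (g := fun y => ‖y‖ ^ 2) (by simp)
  have hlimsq : ∀ φ : ccOn G F, Tendsto (fun k => Real.sqrt (∫ x, ‖(φ : E → F) x‖ ^ 2 ∂(μ k)) *
      Real.sqrt c) U (𝓝 (Real.sqrt (∫ x, ‖(φ : E → F) x‖ ^ 2 ∂ν) * Real.sqrt c)) := by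
    intro φ
    exact ((h _ (hnsq φ).1 (hnsq φ).2).sqrt).mul_const _
  have hex : ∀ φ : ccOn G F, ∃ a : ℝ,
      Tendsto (fun k => ∫ x, inner ℝ ((φ : E → F) x) (u k x) ∂(μ k)) U (𝓝 a) := by
    intro φ
    refine ultra_exists_lim U _
      (Real.sqrt (∫ x, ‖(φ : E → F) x‖ ^ 2 ∂ν) * Real.sqrt c + 1) ?_
    filter_upwards [hest φ, (hlimsq φ).eventually_lt_const (lt_add_one _)] with k h1 h2
    exact h1.trans h2.le
  choose L hL using hex
  have hint : ∀ φ : ccOn G F, ∀ᶠ k in (U : Filter ι),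
      Integrable (fun x => inner ℝ ((φ : E → F) x) (u k x)) (μ k) := by
    intro φ
    filter_upwards [hc] with k hk
    have h1 : IntegrableOn (fun x => inner ℝ ((φ : E → F) x) (u k x)) G (μ k) := by
      exact integrable_inner_of_memLp ((ccOn_memLp φ (μ := μ k)).restrict G) hk.1
    refine (integrableOn_iff_integrable_of_support_subset ?_).mp h1
    intro x hx
    by_contra hxG
    exact hx (by simp [φ.2.2.2 x hxG])
  let T : ccOn G F →ₗ[ℝ] ℝ :=
    { toFun := L
      map_add' := by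
        intro a b
        refine tendsto_nhds_unique (hL (a + b)) ?_
        refine ((hL a).add (hL b)).congr' ?_
        filter_upwards [hint a, hint b] with k ha hb
        rw [← integral_add ha hb]
        refine integral_congr_ae (ae_of_all _ fun x => ?_)
        simp [inner_add_left]
      map_smul' := by
        intro r a
        refine tendsto_nhds_unique (hL (r • a)) ?_
        refine ((hL a).const_mul r).congr fun k => ?_
        rw [← integral_const_mul]
        refine integral_congr_ae (ae_of_all _ fun x => ?_)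
        simp [inner_smul_left] }
  have hT : ∀ φ, |T φ| ≤ Real.sqrt c * ‖ccToLp G ν φ‖ := by
    intro φ
    have h1 : |L φ| ≤ Real.sqrt (∫ x, ‖(φ : E → F) x‖ ^ 2 ∂ν) * Real.sqrt c :=
      le_of_tendsto_of_tendsto ((hL φ).abs) (hlimsq φ) (hest φ)
    have h2 : ‖ccToLp G ν φ‖ ^ 2 = ∫ x, ‖(φ : E → F) x‖ ^ 2 ∂ν := by
      have h3 := norm_toLp_sq ((ccOn_memLp φ (μ := ν)).restrict G)
      have h4 : ∫ x in G, ‖(φ : E → F) x‖ ^ 2 ∂ν = ∫ x, ‖(φ : E → F) x‖ ^ 2 ∂ν := by
        refine setIntegral_eq_integral_of_forall_compl_eq_zero fun x hx => ?_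
        simp [φ.2.2.2 x hx]
      rw [h4] at h3
      exact h3
    rw [← h2, Real.sqrt_sq (norm_nonneg _), mul_comm] at h1
    exact h1
  obtain ⟨w, hw1, hw2⟩ := hilbert_repr (ccToLp G ν) T (Real.sqrt c) (Real.sqrt_nonneg _) hT
  refine ⟨w, ?_, fun φ => ?_⟩
  · calc ‖w‖ ^ 2 ≤ (Real.sqrt c) ^ 2 := pow_le_pow_left₀ (norm_nonneg _) hw1 2
      _ = c := Real.sq_sqrt hc0
  · have h5 : L φ = ∫ x in G, inner ℝ ((φ : E → F) x) (w x) ∂ν := by
      have h6 : L φ = inner ℝ w (ccToLp G ν φ) := hw2 φ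
      rw [h6, real_inner_comm, L2.inner_def]
      refine integral_congr_ae ?_
      have h7 := ((ccOn_memLp φ (μ := ν)).restrict G).coeFn_toLp
      filter_upwards [h7] with x hx
      have h8 : (ccToLp G ν φ : E → F) x = (φ : E → F) x := hx
      rw [h8]
    rw [← h5]
    exact hL φ

theorem ae_eq_of_forall_ccOn {G : Set E} (hG : IsOpen G) {ν : Measure E}
    [IsFiniteMeasureOnCompacts ν] {w₁ w₂ : E → F} (h1 : MemLp w₁ 2 (ν.restrict G))
    (h2 : MemLp w₂ 2 (ν.restrict G))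
    (h : ∀ φ : ccOn G F, ∫ x in G, inner ℝ ((φ : E → F) x) (w₁ x) ∂ν =
      ∫ x in G, inner ℝ ((φ : E → F) x) (w₂ x) ∂ν) :
    ∀ᵐ x ∂ν, x ∈ G → w₁ x = w₂ x := by
  have h12 : MemLp (fun x => w₁ x - w₂ x) 2 (ν.restrict G) := h1.sub h2
  have hloc : LocallyIntegrableOn (fun x => w₁ x - w₂ x) G ν :=
    locallyIntegrableOn_of_locallyIntegrable_restrict (h12.locallyIntegrable (by norm_num))
  have key := hG.ae_eq_zero_of_integral_contDiff_smul_eq_zero hloc ?_
  · filter_upwards [key] with x hx hxG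
    exact sub_eq_zero.mp (hx hxG)
  intro g hg hgc hgG
  have hg0 : ∀ x, x ∉ G → g x = 0 := fun x hx =>
    image_eq_zero_of_notMem_tsupport fun hx' => hx (hgG hx')
  have hgL : MemLp g 2 (ν.restrict G) :=
    (hg.continuous.memLp_of_hasCompactSupport hgc).restrict G
  have e1 : ∫ x, g x • (w₁ x - w₂ x) ∂ν = ∫ x in G, g x • (w₁ x - w₂ x) ∂ν := by
    rw [setIntegral_eq_integral_of_forall_compl_eq_zero]
    intro x hx
    rw [hg0 x hx, zero_smul]
  rw [e1]
  refine ext_inner_left ℝ fun v => ?_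
  rw [inner_zero_right]
  let φ : ccOn G F := ⟨fun x => g x • v, hg.continuous.smul continuous_const,
    hgc.smul_right, fun x hx => by simp [hg0 x hx]⟩
  have hφ := h φ
  have hφL : MemLp (φ : E → F) 2 (ν.restrict G) := (ccOn_memLp φ).restrict G
  have hi1 := integrable_inner_of_memLp hφL h1
  have hi2 := integrable_inner_of_memLp hφL h2
  have e2 : ∫ x in G, inner ℝ ((φ : E → F) x) (w₁ x - w₂ x) ∂ν = 0 := by
    simp_rw [inner_sub_right]
    rw [integral_sub hi1 hi2, hφ, sub_self]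
  have hi3 : Integrable (fun x => g x • (w₁ x - w₂ x)) (ν.restrict G) := by
    exact memLp_one_iff_integrable.mp (h12.smul hgL)
  rw [← integral_inner hi3 v, ← e2]
  refine integral_congr_ae (ae_of_all _ fun x => ?_)
  change inner ℝ v (g x • (w₁ x - w₂ x)) = inner ℝ (g x • v) (w₁ x - w₂ x)
  rw [inner_smul_left, inner_smul_right]
  simp

/-- **L5**: weak limit of densities, bounded in `L²` on the balls `ball 0 m`. -/
theorem exists_density_limit (U : Ultrafilter ι) {μ : ι → Measure E} {ν : Measure E}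
    [∀ k, IsFiniteMeasureOnCompacts (μ k)] [IsFiniteMeasureOnCompacts ν]
    (h : VagueTendsto (U : Filter ι) μ ν) (u : ι → E → F)
    (hc : ∀ m : ℕ, ∃ c : ℝ, ∀ᶠ k in (U : Filter ι), MemLp (u k) 2 ((μ k).restrict (ball 0 m)) ∧
      ∫ x in ball 0 m, ‖u k x‖ ^ 2 ∂(μ k) ≤ c) :
    ∃ w : E → F, StronglyMeasurable w ∧ (∀ R : ℝ, MemLp w 2 (ν.restrict (ball 0 R))) ∧
      (∀ φ : E → F, Continuous φ → HasCompactSupport φ →
        Tendsto (fun k => ∫ x, inner ℝ (φ x) (u k x) ∂(μ k)) U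
          (𝓝 (∫ x, inner ℝ (φ x) (w x) ∂ν))) := by
  classical
  choose c hc using hc
  have hrep := fun m : ℕ => exists_repr_open U h u (c m) (hc m)
  choose w hw1 hw2 using hrep
  -- consistency
  have hcons : ∀ m m' : ℕ, m ≤ m' → ∀ᵐ x ∂ν, x ∈ ball (0 : E) m → w m x = w m' x := by
    intro m m' hmm
    have hsub : ball (0 : E) m ⊆ ball (0 : E) m' := ball_subset_ball (by exact_mod_cast hmm)
    refine ae_eq_of_forall_ccOn isOpen_ball (Lp.memLp _)
      ((Lp.memLp (w m')).mono_measure (Measure.restrict_mono hsub le_rfl)) fun φ => ?_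
    let φ' : ccOn (ball (0 : E) (m' : ℝ)) F := ⟨(φ : E → F), φ.2.1, φ.2.2.1,
      fun x hx => φ.2.2.2 x fun hx' => hx (hsub hx')⟩
    have e1 := hw2 m φ
    have e2 := hw2 m' φ'
    have e3 := tendsto_nhds_unique e1 e2
    rw [e3, ← integral_inner_eq_restrict φ', ← integral_inner_eq_restrict φ]
  let w₀ : E → F := fun x => w (⌊‖x‖⌋₊ + 1) x
  have hall : ∀ᵐ x ∂ν, ∀ m m' : ℕ, m ≤ m' → x ∈ ball (0 : E) m → w m x = w m' x := by
    rw [ae_all_iff]; intro m
    rw [ae_all_iff]; intro m'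
    by_cases hmm : m ≤ m'
    · filter_upwards [hcons m m' hmm] with x hx _ using hx
    · exact ae_of_all _ fun x h' => absurd h' hmm
  have hw₀ : ∀ m : ℕ, ∀ᵐ x ∂ν, x ∈ ball (0 : E) m → w₀ x = w m x := by
    intro m
    filter_upwards [hall] with x hx hxm
    refine hx _ m ?_ ?_
    · rw [mem_ball_zero_iff] at hxm
      have : ⌊‖x‖⌋₊ < m := (Nat.floor_lt (norm_nonneg _)).mpr hxm
      omega
    · rw [mem_ball_zero_iff]
      exact_mod_cast Nat.lt_floor_add_one ‖x‖
  have hw₀' : ∀ m : ℕ, w₀ =ᵐ[ν.restrict (ball (0 : E) m)] w m := by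
    intro m
    rw [Filter.EventuallyEq, ae_restrict_iff' measurableSet_ball]
    exact hw₀ m
  have hun : (⋃ m : ℕ, ball (0 : E) (m : ℝ)) = univ := iUnion_ball_nat 0
  have hmeas : AEStronglyMeasurable w₀ ν := by
    have := (aestronglyMeasurable_iUnion_iff (μ := ν) (f := w₀)
      (s := fun m : ℕ => ball (0 : E) (m : ℝ))).mpr
      (fun m => (Lp.memLp (w m)).1.congr (hw₀' m).symm)
    rwa [hun, Measure.restrict_univ] at this
  refine ⟨hmeas.mk w₀, hmeas.stronglyMeasurable_mk, fun R => ?_, fun φ hφ hφc => ?_⟩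
  · obtain ⟨m, hm⟩ := exists_nat_ge R
    have h1 : MemLp w₀ 2 (ν.restrict (ball (0 : E) m)) := (memLp_congr_ae (hw₀' m)).mpr (Lp.memLp _)
    have h2 : MemLp w₀ 2 (ν.restrict (ball (0 : E) R)) :=
      h1.mono_measure (Measure.restrict_mono (ball_subset_ball hm) le_rfl)
    exact (memLp_congr_ae (ae_restrict_of_ae hmeas.ae_eq_mk)).mp h2
  · obtain ⟨R, hR⟩ := hφc.isBounded.subset_closedBall (0 : E)
    obtain ⟨m, hm⟩ := exists_nat_gt R
    have hsub : ∀ x, x ∉ ball (0 : E) m → φ x = 0 := by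
      intro x hx
      refine image_eq_zero_of_notMem_tsupport fun hx' => hx ?_
      exact closedBall_subset_ball hm (hR hx')
    let φ' : ccOn (ball (0 : E) (m : ℝ)) F := ⟨φ, hφ, hφc, hsub⟩
    have h3 := hw2 m φ'
    have h4 : ∫ x, inner ℝ (φ x) (hmeas.mk w₀ x) ∂ν =
        ∫ x in ball (0 : E) m, inner ℝ ((φ' : E → F) x) (w m x) ∂ν := by
      rw [show ∫ x, inner ℝ (φ x) (hmeas.mk w₀ x) ∂ν = ∫ x, inner ℝ ((φ' : E → F) x)
        (hmeas.mk w₀ x) ∂ν from rfl, integral_inner_eq_restrict]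
      refine integral_congr_ae ?_
      filter_upwards [hw₀' m, ae_restrict_of_ae hmeas.ae_eq_mk] with x h5 h6
      rw [← h6, h5]
    rw [h4]
    exact h3

/-- Lower semicontinuity of the `L²` norm on open sets. -/
theorem density_limit_le (U : Ultrafilter ι) {μ : ι → Measure E} {ν : Measure E}
    [∀ k, IsFiniteMeasureOnCompacts (μ k)] [IsFiniteMeasureOnCompacts ν]
    (h : VagueTendsto (U : Filter ι) μ ν) (u : ι → E → F) {w : E → F} {G : Set E} (hG : IsOpen G)
    (hw : MemLp w 2 (ν.restrict G))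
    (hlim : ∀ φ : E → F, Continuous φ → HasCompactSupport φ →
        Tendsto (fun k => ∫ x, inner ℝ (φ x) (u k x) ∂(μ k)) U
          (𝓝 (∫ x, inner ℝ (φ x) (w x) ∂ν))) {c : ℝ}
    (hc : ∀ᶠ k in (U : Filter ι), MemLp (u k) 2 ((μ k).restrict G) ∧
      ∫ x in G, ‖u k x‖ ^ 2 ∂(μ k) ≤ c) : ∫ x in G, ‖w x‖ ^ 2 ∂ν ≤ c := by
  obtain ⟨w', hw'1, hw'2⟩ := exists_repr_open U h u c hc
  have h1 : ∀ᵐ x ∂ν, x ∈ G → w x = w' x := by
    refine ae_eq_of_forall_ccOn hG hw (Lp.memLp _) fun φ => ?_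
    have e1 := hlim φ φ.2.1 φ.2.2.1
    rw [integral_inner_eq_restrict φ] at e1
    exact tendsto_nhds_unique e1 (hw'2 φ)
  have h2 : ∫ x in G, ‖w x‖ ^ 2 ∂ν = ‖w'‖ ^ 2 := by
    have e2 := norm_toLp_sq (Lp.memLp w')
    rw [Lp.toLp_coeFn] at e2
    rw [e2]
    refine integral_congr_ae ?_
    rw [Filter.EventuallyEq, ae_restrict_iff' hG.measurableSet]
    filter_upwards [h1] with x hx hxG
    rw [hx hxG]
  rw [h2]
  exact hw'1

/-- scalar test functions: `∫ f • u k dμ k → ∫ f • w dν`. -/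
theorem density_limit_smul (U : Ultrafilter ι) {μ : ι → Measure E} {ν : Measure E}
    [∀ k, IsFiniteMeasureOnCompacts (μ k)] [IsFiniteMeasureOnCompacts ν]
    (u : ι → E → F) {w : E → F}
    (hu : ∀ m : ℕ, ∀ᶠ k in (U : Filter ι), MemLp (u k) 2 ((μ k).restrict (ball 0 m)))
    (hw : ∀ R : ℝ, MemLp w 2 (ν.restrict (ball 0 R)))
    (hlim : ∀ φ : E → F, Continuous φ → HasCompactSupport φ →
        Tendsto (fun k => ∫ x, inner ℝ (φ x) (u k x) ∂(μ k)) U
          (𝓝 (∫ x, inner ℝ (φ x) (w x) ∂ν)))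
    {f : E → ℝ} (hf : Continuous f) (hfc : HasCompactSupport f) :
    Tendsto (fun k => ∫ x, f x • u k x ∂(μ k)) U (𝓝 (∫ x, f x • w x ∂ν)) := by
  obtain ⟨R, hR⟩ := hfc.isBounded.subset_closedBall (0 : E)
  obtain ⟨m, hm⟩ := exists_nat_gt R
  have hsub : ∀ x, x ∉ ball (0 : E) m → f x = 0 := by
    intro x hx
    refine image_eq_zero_of_notMem_tsupport fun hx' => hx ?_
    exact closedBall_subset_ball hm (hR hx')
  have hint : ∀ (μ' : Measure E) [IsFiniteMeasureOnCompacts μ'] (g : E → F),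
      MemLp g 2 (μ'.restrict (ball 0 m)) → Integrable (fun x => f x • g x) μ' := by
    intro μ' _ g hg
    have h1 : IntegrableOn (fun x => f x • g x) (ball 0 m) μ' := by
      have hfL : MemLp f 2 (μ'.restrict (ball 0 m)) :=
        (hf.memLp_of_hasCompactSupport hfc).restrict _
      exact memLp_one_iff_integrable.mp (hg.smul hfL)
    refine (integrableOn_iff_integrable_of_support_subset ?_).mp h1
    intro x hx
    by_contra hxG
    exact hx (by simp [hsub x hxG])
  -- test against an orthonormal basis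
  let b := stdOrthonormalBasis ℝ F
  have hcoord : ∀ i, Tendsto (fun k => inner ℝ (b i) (∫ x, f x • u k x ∂(μ k))) U
      (𝓝 (inner ℝ (b i) (∫ x, f x • w x ∂ν))) := by
    intro i
    have e1 := hlim (fun x => f x • b i) (hf.smul continuous_const) hfc.smul_right
    have e2 : ∫ x, inner ℝ (f x • b i) (w x) ∂ν = inner ℝ (b i) (∫ x, f x • w x ∂ν) := by
      rw [← integral_inner (hint ν w (hw m)) (b i)]
      refine integral_congr_ae (ae_of_all _ fun x => ?_)
      simp [inner_smul_left, inner_smul_right]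
    rw [e2] at e1
    refine e1.congr' ?_
    filter_upwards [hu m] with k hk
    rw [← integral_inner (hint (μ k) (u k) hk) (b i)]
    refine integral_congr_ae (ae_of_all _ fun x => ?_)
    simp [inner_smul_left, inner_smul_right]
  have hsum : Tendsto (fun k => ∑ i, (inner ℝ (b i) (∫ x, f x • u k x ∂(μ k))) • b i) U
      (𝓝 (∑ i, (inner ℝ (b i) (∫ x, f x • w x ∂ν)) • b i)) :=
    tendsto_finsetSum _ fun i _ => (hcoord i).smul_const _
  simpa [b.sum_repr'] using hsum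

end dens

end Crest.Agent.R085
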