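import Crest.Agent.R085.LiouDefs
import Crest.Agent.R085.LiouLam
import Crest.Agent.R085.Cacc

-- ▼ part R085/LiouEnd
section

/-!
R085 (S0113), module M6 (LL-A): abstract end of the Liouville theorem: iterated differences.
-/

set_option autoImplicit false

namespace Crest.Agent.R085

open MeasureTheory Metric Set Filter
open scoped ENNReal NNReal Topology

/-- finite difference `x ↦ u (x + h) - u x` -/
def Dif {n : ℕ} (h : V n) (u : V n → ℝ) : V n → ℝ := fun x => u (x + h) - u x

/-- iterated differences along a list -/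
def DifL {n : ℕ} : List (V n) → (V n → ℝ) → (V n → ℝ)
  | [], u => u
  | h :: l, u => DifL l (Dif h u)

section basic

variable {n : ℕ}

theorem continuous_Dif {h : V n} {u : V n → ℝ} (hu : Continuous u) : Continuous (Dif h u) := by
  unfold Dif
  exact (hu.comp (continuous_add_const h)).sub hu

theorem continuous_DifL (l : List (V n)) : ∀ {u : V n → ℝ}, Continuous u → Continuous (DifL l u) := by
  induction l with
  | nil => intro u hu; exact hu
  | cons h l ih => intro u hu; exact ih (continuous_Dif hu)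

theorem Dif_comm (h h' : V n) (u : V n → ℝ) : Dif h (Dif h' u) = Dif h' (Dif h u) := by
  funext x
  simp only [Dif]
  rw [add_right_comm x h h']
  ring

theorem DifL_Dif (l : List (V n)) : ∀ (h : V n) (u : V n → ℝ),
    DifL l (Dif h u) = Dif h (DifL l u) := by
  induction l with
  | nil => intro h u; rfl
  | cons a l ih =>
    intro h u
    simp only [DifL]
    rw [Dif_comm a h, ih]

theorem Dif_add (h h' : V n) (w : V n → ℝ) (hw : Dif h (Dif h' w) = 0) :
    Dif (h + h') w = Dif h w + Dif h' w := by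
  funext x
  have := congrFun hw x
  simp only [Dif, Pi.zero_apply, Pi.add_apply] at *
  rw [← add_assoc]
  linarith

theorem Dif_zero (w : V n → ℝ) : Dif (0 : V n) w = 0 := by
  funext x; simp [Dif]

theorem Dif_nsmul (h : V n) (w : V n → ℝ) (hw : ∀ h1 h2 : V n, Dif h1 (Dif h2 w) = 0) (N : ℕ) :
    Dif (N • h) w = (N : ℝ) • Dif h w := by
  induction N with
  | zero => simp [Dif_zero]
  | succ N ih =>
    rw [succ_nsmul, Dif_add _ _ _ (hw _ _), ih]
    push_cast
    rw [add_smul, one_smul]



/-- multi-additivity of the `k`-th difference when all `(k+1)`-st differences vanish -/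
theorem DifL_map_nsmul (N : ℕ) (l : List (V n)) : ∀ (u : V n → ℝ),
    (∀ l' : List (V n), l'.length = l.length + 1 → DifL l' u = 0) →
    DifL (l.map (fun h => N • h)) u = ((N : ℝ) ^ l.length) • DifL l u := by
  induction l with
  | nil => intro u _; simp [DifL]
  | cons h l ih =>
    intro u hu
    simp only [List.map_cons, DifL, List.length_cons]
    rw [ih (Dif (N • h) u) (fun l' hl' => hu ((N • h) :: l') (by simp [hl']))]
    have hw : ∀ h1 h2 : V n, Dif h1 (Dif h2 (DifL l u)) = 0 := by
      intro h1 h2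
      rw [← DifL_Dif, ← DifL_Dif]
      exact hu (h1 :: h2 :: l) (by simp) |>.symm ▸ by
        rw [Dif_comm]; rfl
    rw [DifL_Dif, Dif_nsmul h (DifL l u) hw N, smul_smul, ← pow_succ, ← DifL_Dif]

theorem intOn_ball {u : V n → ℝ} (hu : Continuous u) (x : V n) (R : ℝ) :
    IntegrableOn (fun y => u y ^ 2) (ball x R) volume :=
  ((hu.pow 2).continuousOn.integrableOn_compact (isCompact_closedBall x R)).mono_set
    ball_subset_closedBall

theorem int_Dif_sq_le {u : V n → ℝ} (hu : Continuous u) (h : V n) (R : ℝ) :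
    ∫ x in ball (0 : V n) R, (Dif h u x) ^ 2 ≤ 4 * ∫ x in ball (0 : V n) (R + ‖h‖), u x ^ 2 := by
  have h1 : ∫ x in ball (0 : V n) R, (Dif h u x) ^ 2 ≤
      ∫ x in ball (0 : V n) R, (2 * u (x + h) ^ 2 + 2 * u x ^ 2) := by
    apply integral_mono_of_nonneg
    · exact Eventually.of_forall fun x => sq_nonneg _
    · exact ((intOn_ball (u := fun x => u (x + h)) (hu.comp (continuous_add_const h)) 0 R).const_mul 2).add
        ((intOn_ball hu 0 R).const_mul 2)
    · refine Eventually.of_forall fun x => ?_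
      simp only [Dif]
      nlinarith [sq_nonneg (u (x + h) + u x)]
  have h2 : ∫ x in ball (0 : V n) R, u x ^ 2 ≤ ∫ x in ball (0 : V n) (R + ‖h‖), u x ^ 2 := by
    apply setIntegral_mono_set (intOn_ball hu 0 _)
    · exact Eventually.of_forall fun x => sq_nonneg _
    · exact (ball_subset_ball (by linarith [norm_nonneg h])).eventuallyLE
  have h3 : ∫ x in ball (0 : V n) R, u (x + h) ^ 2 ≤ ∫ x in ball (0 : V n) (R + ‖h‖), u x ^ 2 := by
    have e : ∫ x in ball (0 : V n) R, u (x + h) ^ 2 = ∫ x in ball h R, u x ^ 2 := by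
      have := (measurePreserving_add_right (volume : Measure (V n)) h).setIntegral_preimage_emb
        (measurableEmbedding_addRight h) (fun x => u x ^ 2) (ball h R)
      rw [← this]
      congr 2
      ext x
      simp [mem_ball, dist_eq_norm]
    rw [e]
    apply setIntegral_mono_set (intOn_ball hu 0 _)
    · exact Eventually.of_forall fun x => sq_nonneg _
    · apply LE.le.eventuallyLE
      intro x hx
      rw [mem_ball, dist_eq_norm] at hx
      rw [mem_ball, dist_zero_right]
      calc ‖x‖ = ‖(x - h) + h‖ := by simp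
        _ ≤ ‖x - h‖ + ‖h‖ := norm_add_le _ _
        _ < R + ‖h‖ := by linarith
  have h4 : ∫ x in ball (0 : V n) R, (2 * u (x + h) ^ 2 + 2 * u x ^ 2) =
      2 * (∫ x in ball (0 : V n) R, u (x + h) ^ 2) + 2 * ∫ x in ball (0 : V n) R, u x ^ 2 := by
    rw [integral_add, integral_const_mul, integral_const_mul]
    · exact ((intOn_ball (u := fun x => u (x + h)) (hu.comp (continuous_add_const h)) 0 R).const_mul 2)
    · exact ((intOn_ball hu 0 R).const_mul 2)
  linarith

theorem int_DifL_sq_le (l : List (V n)) : ∀ {u : V n → ℝ}, Continuous u → ∀ R : ℝ,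
    ∫ x in ball (0 : V n) R, (DifL l u x) ^ 2 ≤
      4 ^ l.length * ∫ x in ball (0 : V n) (R + (l.map (fun h => ‖h‖)).sum), u x ^ 2 := by
  induction l with
  | nil => intro u hu R; simp [DifL]
  | cons h l ih =>
    intro u hu R
    simp only [DifL, List.length_cons, List.map_cons, List.sum_cons]
    refine (ih (continuous_Dif hu) R).trans ?_
    have := int_Dif_sq_le hu h (R + (l.map (fun h => ‖h‖)).sum)
    calc (4:ℝ) ^ l.length * ∫ x in ball (0 : V n) (R + (l.map (fun h => ‖h‖)).sum), (Dif h u x) ^ 2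
        ≤ 4 ^ l.length * (4 * ∫ x in ball (0 : V n) (R + (l.map (fun h => ‖h‖)).sum + ‖h‖), u x ^ 2) := by
          gcongr
      _ = _ := by
          rw [pow_succ, mul_assoc]
          rw [add_assoc, add_comm (List.sum _) ‖h‖]

/-- a continuous function of negative growth vanishes -/
theorem eq_zero_of_Gr_neg {u : V n → ℝ} (hu : Continuous u) {K s : ℝ} (hs : s < 0)
    (hg : Gr K s u) : u = 0 := by
  funext x
  by_contra hx
  simp only [Pi.zero_apply] at hx
  -- `∫_{B(0,R0)} u² > 0`
  obtain ⟨R0, hR0⟩ : ∃ R0 : ℝ, ‖x‖ < R0 := exists_gt _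
  have hpos : 0 < ∫ y in ball (0 : V n) R0, u y ^ 2 := by
    rw [setIntegral_pos_iff_support_of_nonneg_ae]
    · have hopen : IsOpen (Function.support (fun y => u y ^ 2) ∩ ball (0 : V n) R0) :=
        (isOpen_ne_fun (hu.pow 2) continuous_const).inter isOpen_ball
      exact hopen.measure_pos volume ⟨x, by simp [hx], by simpa using hR0⟩
    · exact Eventually.of_forall fun x => sq_nonneg _
    · exact intOn_ball hu 0 _
  have hle : ∀ᶠ R : ℝ in atTop, ∫ y in ball (0 : V n) R0, u y ^ 2 ≤ K * R ^ s := by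
    filter_upwards [eventually_ge_atTop 1, eventually_ge_atTop R0] with R h1 h2
    refine le_trans ?_ (hg R h1)
    apply setIntegral_mono_set (intOn_ball hu 0 _)
    · exact Eventually.of_forall fun x => sq_nonneg _
    · exact (ball_subset_ball h2).eventuallyLE
  have hlim : Tendsto (fun R : ℝ => K * R ^ s) atTop (𝓝 (K * 0)) := by
    apply Tendsto.const_mul
    have := tendsto_rpow_neg_atTop (y := -s) (by linarith)
    simpa using this
  have := ge_of_tendsto hlim hle
  simp only [mul_zero] at this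
  linarith

theorem volume_real_ball (x : V n) {R : ℝ} (hR : 0 < R) :
    (volume : Measure (V n)).real (ball x R) = R ^ n * (volume : Measure (V n)).real (ball (0 : V n) 1) := by
  rw [measureReal_def, Measure.addHaar_ball_of_pos _ x hR, ENNReal.toReal_mul, ← measureReal_def,
    ENNReal.toReal_ofReal (by positivity)]
  simp

/-- descent: if all `(k+1)`-st differences vanish and the growth exponent is `< n + 2k`, then all
`k`-th differences vanish -/
theorem descent {u : V n → ℝ} (hu : Continuous u) {K s : ℝ} {l : List (V n)}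
    (hs : s < n + 2 * l.length) (hg : Gr K s u)
    (hall : ∀ l' : List (V n), l'.length = l.length + 1 → DifL l' u = 0) : DifL l u = 0 := by
  set k := l.length with hk
  set c := DifL l u 0 with hc
  have hconst : ∀ x, DifL l u x = c := by
    intro x
    have h0 : Dif x (DifL l u) = 0 := by
      rw [← DifL_Dif]
      exact hall (x :: l) (by simp [hk])
    have := congrFun h0 0
    simp only [Dif, Pi.zero_apply, zero_add] at this
    linarith
  set H := (l.map (fun h => ‖h‖)).sum with hH
  have hH0 : 0 ≤ H := List.sum_nonneg (by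
    intro a ha
    simp only [List.mem_map] at ha
    obtain ⟨b, _, rfl⟩ := ha
    exact norm_nonneg b)
  set v1 := (volume : Measure (V n)).real (ball (0 : V n) 1) with hv1
  have hv1pos : 0 < v1 := by
    rw [hv1, measureReal_def]
    exact ENNReal.toReal_pos (measure_ball_pos _ _ one_pos).ne' measure_ball_lt_top.ne
  have key : ∀ N : ℕ, 1 ≤ N → c ^ 2 * v1 ≤ 4 ^ k * K * (1 + H) ^ s * (N : ℝ) ^ (s - (n + 2 * k)) := by
    intro N hN
    have hN1 : (1 : ℝ) ≤ N := by exact_mod_cast hN
    have hN0 : (0 : ℝ) < N := by linarith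
    have e1 := DifL_map_nsmul N l u hall
    have e2 := int_DifL_sq_le (l.map (fun h => N • h)) hu (N : ℝ)
    rw [e1] at e2
    have e3 : ∫ x in ball (0 : V n) N, (((N : ℝ) ^ l.length) • DifL l u) x ^ 2 =
        (N : ℝ) ^ (2 * k) * c ^ 2 * ((N : ℝ) ^ n * v1) := by
      have : ∀ x, (((N : ℝ) ^ l.length) • DifL l u) x ^ 2 = (N : ℝ) ^ (2 * k) * c ^ 2 := by
        intro x
        rw [Pi.smul_apply, hconst, smul_eq_mul, mul_pow, ← pow_mul, mul_comm _ 2]
      simp only [this]
      rw [setIntegral_const, volume_real_ball _ hN0, smul_eq_mul]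
      ring
    have e4 : ((l.map (fun h => N • h)).map (fun h => ‖h‖)).sum = N * H := by
      rw [List.map_map, hH, ← List.sum_map_mul_left]
      congr 1
      apply List.map_congr_left
      intro a _
      simp only [Function.comp]
      rw [← Nat.cast_smul_eq_nsmul ℝ, norm_smul]
      simp
    rw [e3, e4, List.length_map] at e2
    have e5 := hg (N + N * H) (by nlinarith)
    have e6 : (N : ℝ) ^ (2 * k) * c ^ 2 * ((N : ℝ) ^ n * v1) ≤ 4 ^ k * (K * (N + N * H) ^ s) :=
      e2.trans (by gcongr)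
    have e7 : ((N : ℝ) + N * H) ^ s = (1 + H) ^ s * (N : ℝ) ^ s := by
      rw [show (N : ℝ) + N * H = (1 + H) * N by ring, Real.mul_rpow (by linarith) hN0.le]
    rw [e7] at e6
    have e8 : (N : ℝ) ^ (s - (n + 2 * k)) = (N : ℝ) ^ s / ((N : ℝ) ^ (2 * k) * (N : ℝ) ^ n) := by
      rw [Real.rpow_sub hN0, ← pow_add]
      congr 1
      rw [← Real.rpow_natCast]
      congr 1
      push_cast
      ring
    rw [e8]
    have hpos : 0 < (N : ℝ) ^ (2 * k) * (N : ℝ) ^ n := by positivity
    rw [← mul_div_assoc, le_div_iff₀ hpos]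
    nlinarith [e6]
  have hlim : Tendsto (fun N : ℕ => 4 ^ k * K * (1 + H) ^ s * (N : ℝ) ^ (s - (n + 2 * k))) atTop
      (𝓝 (4 ^ k * K * (1 + H) ^ s * 0)) := by
    apply Tendsto.const_mul
    have h1 := tendsto_rpow_neg_atTop (y := -(s - (n + 2 * k))) (by linarith)
    have h2 := h1.comp (tendsto_natCast_atTop_atTop (R := ℝ))
    rw [neg_neg] at h2
    exact h2
  have h0 := ge_of_tendsto hlim ((eventually_ge_atTop 1).mono key)
  rw [mul_zero] at h0
  have hc0 : c = 0 := by
    have : c ^ 2 = 0 := by nlinarith [sq_nonneg c]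
    simpa using this
  funext x
  rw [hconst, hc0]; rfl

/-- iterated differences of members of a class `P` with the one step gain -/
theorem Gr_DifL (P : (V n → ℝ) → Prop) (hdiff : ∀ u h, P u → P (Dif h u))
    (hgrow : ∀ u, P u → ∀ K s : ℝ, s < n + 4 → Gr K s u → ∀ h, ∃ K', Gr K' (s - 1) (Dif h u))
    (l : List (V n)) : ∀ u, P u → ∀ K s : ℝ, s < n + 4 → Gr K s u →
      ∃ K', Gr K' (s - l.length) (DifL l u) := by
  induction l with
  | nil => intro u _ K s _ hg; exact ⟨K, by simpa [DifL] using hg⟩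
  | cons h l ih =>
    intro u hu K s hs hg
    obtain ⟨K1, hK1⟩ := hgrow u hu K s hs hg h
    obtain ⟨K2, hK2⟩ := ih (Dif h u) (hdiff u h hu) K1 (s - 1) (by linarith) hK1
    refine ⟨K2, ?_⟩
    simp only [DifL, List.length_cons]
    push_cast
    convert hK2 using 1
    ring

theorem vanish_of_class (P : (V n → ℝ) → Prop) (hcont : ∀ u, P u → Continuous u)
    (hdiff : ∀ u h, P u → P (Dif h u))
    (hgrow : ∀ u, P u → ∀ K s : ℝ, s < n + 4 → Gr K s u → ∀ h, ∃ K', Gr K' (s - 1) (Dif h u))
    {u : V n → ℝ} (hu : P u) {K s : ℝ} (hs : s < n + 4) (hg : Gr K s u) (k : ℕ)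
    (hk : s < n + 2 * k) : ∀ l : List (V n), l.length = k → DifL l u = 0 := by
  have top : ∀ l : List (V n), s < l.length → DifL l u = 0 := by
    intro l hl
    obtain ⟨K', hK'⟩ := Gr_DifL P hdiff hgrow l u hu K s hs hg
    exact eq_zero_of_Gr_neg (continuous_DifL l (hcont u hu)) (by linarith) hK'
  obtain ⟨m, hm⟩ : ∃ m : ℕ, s < m := exists_nat_gt s
  have down : ∀ j : ℕ, ∀ i : ℕ, k ≤ i → i + j = max m k →
      ∀ l : List (V n), l.length = i → DifL l u = 0 := by
    intro j
    induction j with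
    | zero =>
      intro i hi hij l hl
      apply top
      have : m ≤ l.length := by rw [hl]; omega
      have : (m : ℝ) ≤ l.length := by exact_mod_cast this
      linarith
    | succ j ih =>
      intro i hi hij l hl
      apply descent (hcont u hu) (K := K) (s := s) _ hg
      · intro l' hl'
        exact ih (i + 1) (by omega) (by omega) l' (by rw [hl', hl])
      · have : (k : ℝ) ≤ l.length := by rw [hl]; exact_mod_cast hi
        linarith
  intro l hl
  exact down (max m k - k) k le_rfl (by omega) l hl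

/-- LL-A: functions of a difference-improving class of growth `s < n + 4` are affine. -/
theorem affine_of_class (P : (V n → ℝ) → Prop) (hcont : ∀ u, P u → Continuous u)
    (hdiff : ∀ u h, P u → P (Dif h u))
    (hgrow : ∀ u, P u → ∀ K s : ℝ, s < n + 4 → Gr K s u → ∀ h, ∃ K', Gr K' (s - 1) (Dif h u))
    {u : V n → ℝ} (hu : P u) {K s : ℝ} (hs : s < n + 4) (hg : Gr K s u) :
    ∃ (a : ℝ) (L : V n →L[ℝ] ℝ), ∀ x, u x = a + L x := by
  have h2 := vanish_of_class P hcont hdiff hgrow hu hs hg 2 (by push_cast; linarith)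
  have hadd : ∀ x y : V n, u (x + y) - u 0 = (u x - u 0) + (u y - u 0) := by
    intro x y
    have := congrFun (h2 [x, y] rfl) 0
    simp only [DifL, Dif, Pi.zero_apply, zero_add] at this
    rw [add_comm y x] at this
    linarith
  let f : V n →+ ℝ :=
    { toFun := fun x => u x - u 0
      map_zero' := by simp
      map_add' := hadd }
  have hf : Continuous f := (hcont u hu).sub continuous_const
  refine ⟨u 0, f.toRealLinearMap hf, fun x => ?_⟩
  simp [f]

/-- LL-A, constant version: growth `s < n + 2`. -/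
theorem const_of_class (P : (V n → ℝ) → Prop) (hcont : ∀ u, P u → Continuous u)
    (hdiff : ∀ u h, P u → P (Dif h u))
    (hgrow : ∀ u, P u → ∀ K s : ℝ, s < n + 4 → Gr K s u → ∀ h, ∃ K', Gr K' (s - 1) (Dif h u))
    {u : V n → ℝ} (hu : P u) {K s : ℝ} (hs : s < n + 2) (hg : Gr K s u) :
    ∀ x, u x = u 0 := by
  have h1 := vanish_of_class P hcont hdiff hgrow hu (by linarith) hg 1 (by push_cast; linarith)
  intro x
  have := congrFun (h1 [x] rfl) 0
  simp only [DifL, Dif, Pi.zero_apply, zero_add] at this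
  linarith

end basic

end Crest.Agent.R085
private theorem rz_24b45adcc7 : type_of% @_root_.Crest.Agent.R085.DifL.eq_def := @_root_.Crest.Agent.R085.DifL.eq_def -- L18
private theorem rz_e9e4bc6fb9 : type_of% @_root_.Crest.Agent.R085.DifL.eq_1 := @_root_.Crest.Agent.R085.DifL.eq_1 -- L18
end

-- ▼ part R085/LiouBf
section

/-!
R085 (S0113), module M6 (linear Liouville lemma): the form `Bf` on `ℝⁿ` in terms of `LamN`.
-/

set_option autoImplicit false

namespace Crest.Agent.R085

open MeasureTheory Metric Set Filter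
open scoped ENNReal NNReal Topology ContDiff

namespace Liou

variable {n : ℕ}

theorem cont_of_locLip {u : V n → ℝ}
    (hu : ∀ R : ℝ, ∃ L : ℝ≥0, LipschitzOnWith L u (ball (0 : V n) R)) : Continuous u := by
  rw [continuous_iff_continuousAt]
  intro x
  obtain ⟨L, hL⟩ := hu (‖x‖ + 1)
  exact hL.continuousOn.continuousAt (isOpen_ball.mem_nhds (by simp))

theorem continuous_of_isTest {ψ : V n → ℝ} (h : IsTest ψ) : Continuous ψ := by
  obtain ⟨K, hK⟩ := h.lip
  exact hK.continuous


theorem exists_supp {ψ : V n → ℝ} (h2 : HasCompactSupport ψ) :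
    ∃ ρ : ℝ, 1 < ρ ∧ ∀ y, ρ ≤ ‖y‖ → ψ y = 0 := by
  obtain ⟨ρ, hρ1, hρ⟩ := h2.isCompact.isBounded.subset_ball_lt 1 0
  refine ⟨ρ, hρ1, fun y hy => ?_⟩
  by_contra h
  have := hρ (subset_tsupport _ h)
  rw [mem_ball_zero_iff] at this
  linarith

/-- integrability of the translated integrand of `Bf` -/
theorem integrable_shear (hn : 0 < n) {u ψ : V n → ℝ}
    (hu : ∀ R : ℝ, ∃ L : ℝ≥0, LipschitzOnWith L u (ball (0 : V n) R)) (hψ : IsTest ψ)
    {N : ℝ} (hN : 0 < N) :
    Integrable (fun p : V n × V n =>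
      (u p.1 - u (p.1 + p.2)) * (ψ p.1 - ψ (p.1 + p.2)) * kN n N p.2)
      (volume.prod volume) := by
  obtain ⟨C, hC, hU⟩ := upperReg_volume hn
  obtain ⟨ρ, hρ1, hρ⟩ := exists_supp hψ.cpt
  obtain ⟨L, hL⟩ := hu (ρ + 4 * N)
  obtain ⟨L', hL'⟩ := hψ.lip
  have huc := cont_of_locLip hu
  have hψc := continuous_of_isTest hψ
  have h2 := (integrableOn_near hU hC (k := n - 1) (by omega) 0 (r := 2 * N) (by positivity)).1
  have h2' : Integrable (indicator (closedBall (0 : V n) (2 * N))
      fun y => ((dist 0 y) ^ (n - 1))⁻¹) volume :=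
    (integrable_indicator_iff measurableSet_closedBall).2 h2
  have h3 : Integrable (indicator (ball (0 : V n) (ρ + 2 * N)) fun _ => (1 : ℝ)) volume :=
    (integrable_indicator_iff measurableSet_ball).2
      (integrableOn_const measure_ball_lt_top.ne)
  have h4 := (h3.mul_prod h2').const_mul ((L : ℝ) * L')
  refine h4.mono' ?_ (Filter.Eventually.of_forall fun p => ?_)
  · refine AEStronglyMeasurable.mul ?_ ((measurable_kN N).comp measurable_snd).aestronglyMeasurable
    exact Continuous.aestronglyMeasurable (by fun_prop)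
  · obtain ⟨x, h⟩ := p
    simp only
    by_cases hh : 2 * N ≤ ‖h‖
    · rw [kN_eq_zero hN hh, mul_zero, norm_zero]
      refine mul_nonneg (by positivity) (mul_nonneg ?_ ?_)
      · exact indicator_nonneg (fun _ _ => zero_le_one) _
      · exact indicator_nonneg (fun _ _ => by positivity) _
    rw [not_le] at hh
    by_cases hx : ρ + 2 * N ≤ ‖x‖
    · have e1 : ψ x = 0 := hρ x (by linarith)
      have e2 : ψ (x + h) = 0 := hρ _ (by
        have := norm_sub_norm_le x (-h)
        rw [norm_neg, sub_neg_eq_add] at this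
        linarith)
      rw [e1, e2, sub_zero, mul_zero, zero_mul, norm_zero]
      refine mul_nonneg (by positivity) (mul_nonneg ?_ ?_)
      · exact indicator_nonneg (fun _ _ => zero_le_one) _
      · exact indicator_nonneg (fun _ _ => by positivity) _
    rw [not_le] at hx
    have m1 : x ∈ ball (0 : V n) (ρ + 2 * N) := by simpa using hx
    have m2 : h ∈ closedBall (0 : V n) (2 * N) := by simpa using hh.le
    rw [indicator_of_mem m1, indicator_of_mem m2, dist_zero_left, one_mul]
    have hA : ‖u x - u (x + h)‖ ≤ L * ‖h‖ := by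
      have a1 : x ∈ ball (0 : V n) (ρ + 4 * N) := by
        rw [mem_ball_zero_iff]; linarith
      have a2 : x + h ∈ ball (0 : V n) (ρ + 4 * N) := by
        rw [mem_ball_zero_iff]
        have := norm_add_le x h
        linarith
      have := hL.dist_le_mul x a1 (x + h) a2
      simpa [dist_eq_norm] using this
    have hB : ‖ψ x - ψ (x + h)‖ ≤ L' * ‖h‖ := by
      have := hL'.dist_le_mul x (x + h)
      simpa [dist_eq_norm] using this
    rw [norm_mul, norm_mul, Real.norm_of_nonneg (kN_nonneg _ _)]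
    calc ‖u x - u (x + h)‖ * ‖ψ x - ψ (x + h)‖ * kN n N h
        ≤ (L * ‖h‖) * (L' * ‖h‖) * (‖h‖ ^ (n + 1))⁻¹ := by
          gcongr
          · exact kN_nonneg _ _
          · exact kN_le _ _
      _ ≤ L * L' * (‖h‖ ^ (n - 1))⁻¹ := by
          by_cases h0 : ‖h‖ = 0
          · rw [h0]
            simp only [mul_zero, zero_mul]
            positivity
          · have hpos : 0 < ‖h‖ := lt_of_le_of_ne (norm_nonneg _) (Ne.symm h0)
            have : n + 1 = (n - 1) + 2 := by omega
            rw [this, pow_add]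
            refine le_of_eq ?_
            field_simp

/-- the form `Bf` on `ℝⁿ` by translation: only for `u` locally Lipschitz, `ψ` Lipschitz. -/
theorem Bf_eq_h (hn : 0 < n) {u ψ : V n → ℝ}
    (hu : ∀ R : ℝ, ∃ L : ℝ≥0, LipschitzOnWith L u (ball (0 : V n) R)) (hψ : IsTest ψ)
    {N : ℝ} (hN : 0 < N) :
    Bf n volume N u ψ =
      (1 / 2 : ℝ) * ∫ h : V n, (∫ x, u x * (2 * ψ x - ψ (x + h) - ψ (x - h))) * kN n N h := by
  have hint := integrable_shear hn hu hψ hN
  have huc := cont_of_locLip hu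
  have hψc := continuous_of_isTest hψ
  unfold Bf
  congr 1
  have hshear : ∫ p : V n × V n, (u p.1 - u p.2) * (ψ p.1 - ψ p.2) * kN n N (p.1 - p.2)
        ∂((volume : Measure (V n)).prod volume)
      = ∫ p : V n × V n, (u p.1 - u (p.1 + p.2)) * (ψ p.1 - ψ (p.1 + p.2)) * kN n N p.2
        ∂((volume : Measure (V n)).prod volume) := by
    have hmp : MeasurePreserving (fun z : V n × V n => (z.1, z.1 + z.2))
        ((volume : Measure (V n)).prod volume) ((volume : Measure (V n)).prod volume) :=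
      measurePreserving_prod_add _ _
    rw [← hmp.integral_comp (MeasurableEquiv.shearAddRight (V n)).measurableEmbedding]
    refine integral_congr_ae (Filter.Eventually.of_forall fun p => ?_)
    simp only
    rw [show p.1 - (p.1 + p.2) = -p.2 by abel, kN_neg]
  rw [hshear, integral_prod_symm _ hint]
  refine integral_congr_ae (Filter.Eventually.of_forall fun h => ?_)
  simp only
  rw [integral_mul_const]
  congr 1
  have c1 : HasCompactSupport (fun x => ψ x - ψ (x + h)) := by
    refine hψ.cpt.sub ?_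
    exact hψ.cpt.comp_homeomorph (Homeomorph.addRight h)
  have c2 : HasCompactSupport (fun x => ψ (x - h) - ψ x) := by
    refine HasCompactSupport.sub ?_ hψ.cpt
    have := hψ.cpt.comp_homeomorph (Homeomorph.addRight (-h))
    have e : (fun x => ψ (x - h)) = ψ ∘ (Homeomorph.addRight (-h)) := by
      funext x
      simp [sub_eq_add_neg]
    rw [e]
    exact this
  have i1 : Integrable (fun x => u x * (ψ x - ψ (x + h))) := by
    refine Continuous.integrable_of_hasCompactSupport (by fun_prop) ?_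
    exact c1.mul_left
  have i2 : Integrable (fun x => u x * (ψ (x - h) - ψ x)) := by
    refine Continuous.integrable_of_hasCompactSupport (by fun_prop) ?_
    exact c2.mul_left
  have i3 : Integrable (fun x => u (x + h) * (ψ x - ψ (x + h))) := by
    refine (i2.comp_add_right h).congr (Filter.Eventually.of_forall fun x => ?_)
    simp
  have e3 : ∫ x, u (x + h) * (ψ x - ψ (x + h)) = ∫ x, u x * (ψ (x - h) - ψ x) := by
    rw [← integral_add_right_eq_self (fun x => u x * (ψ (x - h) - ψ x)) h]
    refine integral_congr_ae (Filter.Eventually.of_forall fun x => ?_)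
    simp
  calc ∫ x, (u x - u (x + h)) * (ψ x - ψ (x + h))
      = ∫ x, (u x * (ψ x - ψ (x + h)) - u (x + h) * (ψ x - ψ (x + h))) := by
        refine integral_congr_ae (Filter.Eventually.of_forall fun x => ?_)
        simp only
        ring
    _ = (∫ x, u x * (ψ x - ψ (x + h))) - ∫ x, u x * (ψ (x - h) - ψ x) := by
        rw [integral_sub i1 i3, e3]
    _ = ∫ x, u x * (2 * ψ x - ψ (x + h) - ψ (x - h)) := by
        rw [← integral_sub i1 i2]
        refine integral_congr_ae (Filter.Eventually.of_forall fun x => ?_)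
        simp only
        ring

/-- for smooth `φ` and locally integrable `T`. -/
theorem integral_LamN_eq_h (hn : 0 < n) {T φ : V n → ℝ}
    (hT : LocallyIntegrable T volume) (h1 : ContDiff ℝ ∞ φ) (h2 : HasCompactSupport φ)
    {N : ℝ} (hN : 0 < N) :
    ∫ x, T x * LamN N φ x =
      ∫ h : V n, (∫ x, T x * (2 * φ x - φ (x + h) - φ (x - h))) * kN n N h := by
  obtain ⟨M, hM0, hM⟩ := sd_bound h1 h2
  obtain ⟨ρ, hρ1, hρ⟩ := exists_supp h2
  have hTi : Integrable (indicator (ball (0 : V n) (ρ + 2 * N)) T) := by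
    rw [integrable_indicator_iff measurableSet_ball]
    exact (hT.integrableOn_isCompact (isCompact_closedBall 0 (ρ + 2 * N))).mono_set
      ball_subset_closedBall
  have hint : Integrable (fun p : V n × V n => T p.1 * (sd φ p.1 p.2 * kN n N p.2))
      (volume.prod volume) := by
    have h4 := (hTi.norm.mul_prod (integrable_wt hn)).const_mul M
    refine h4.mono' ?_ (Filter.Eventually.of_forall fun p => ?_)
    · refine (hT.aestronglyMeasurable.comp_fst).mul ?_
      exact (continuous_sd h1.continuous).aestronglyMeasurable.mul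
        ((measurable_kN N).comp measurable_snd).aestronglyMeasurable
    · obtain ⟨x, h⟩ := p
      simp only
      have hwt := wt_nonneg (n := n) h
      by_cases hh : 2 * N ≤ ‖h‖
      · rw [kN_eq_zero hN hh, mul_zero, mul_zero, norm_zero]
        positivity
      rw [not_le] at hh
      by_cases hx : ρ + 2 * N ≤ ‖x‖
      · have e1 : φ x = 0 := hρ x (by linarith)
        have e2 : φ (x + h) = 0 := hρ _ (by
          have := norm_sub_norm_le x (-h)
          rw [norm_neg, sub_neg_eq_add] at this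
          linarith)
        have e3 : φ (x - h) = 0 := hρ _ (by
          have := norm_sub_norm_le x h
          linarith)
        have : sd φ x h = 0 := by
          unfold sd; rw [e1, e2, e3]; ring
        rw [this, zero_mul, mul_zero, norm_zero]
        positivity
      rw [not_le] at hx
      have m1 : x ∈ ball (0 : V n) (ρ + 2 * N) := by simpa using hx
      rw [indicator_of_mem m1, norm_mul]
      calc ‖T x‖ * ‖sd φ x h * kN n N h‖ ≤ ‖T x‖ * (M * wt n h) := by
            gcongr
            exact sd_bound_wt hM0 hM N x h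
        _ = _ := by ring
  calc ∫ x, T x * LamN N φ x = ∫ x, ∫ h, T x * (sd φ x h * kN n N h) := by
        refine integral_congr_ae (Filter.Eventually.of_forall fun x => ?_)
        simp only
        rw [integral_const_mul]
        rfl
    _ = ∫ h, ∫ x, T x * (sd φ x h * kN n N h) := integral_integral_swap hint
    _ = _ := by
        refine integral_congr_ae (Filter.Eventually.of_forall fun h => ?_)
        simp only
        rw [← integral_mul_const]
        refine integral_congr_ae (Filter.Eventually.of_forall fun x => ?_)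
        simp only [sd]
        ring


end Liou

end Crest.Agent.R085
end

-- ▼ part R085/LiouGr
section

/-!
R085 (S0113), module M6 (linear Liouville lemma): growth of the energy and of differences.
-/

set_option autoImplicit false

namespace Crest.Agent.R085

open MeasureTheory Metric Set Filter
open scoped ENNReal NNReal Topology ContDiff

namespace Liou

variable {n : ℕ}

/-- Cauchy–Schwarz -/
theorem cs {α : Type*} [MeasurableSpace α] {μ : Measure α} {f g : α → ℝ}
    (hf : Integrable (fun x => f x ^ 2) μ) (hg : Integrable (fun x => g x ^ 2) μ)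
    (hfg : Integrable (fun x => |f x| * |g x|) μ) :
    (∫ x, |f x| * |g x| ∂μ) ^ 2 ≤ (∫ x, f x ^ 2 ∂μ) * ∫ x, g x ^ 2 ∂μ := by
  have h : ∀ t : ℝ, 0 ≤ (∫ x, f x ^ 2 ∂μ) * (t * t) + (2 * ∫ x, |f x| * |g x| ∂μ) * t
      + ∫ x, g x ^ 2 ∂μ := by
    intro t
    have e : (∫ x, f x ^ 2 ∂μ) * (t * t) + (2 * ∫ x, |f x| * |g x| ∂μ) * t
      + ∫ x, g x ^ 2 ∂μ = ∫ x, (t * |f x| + |g x|) ^ 2 ∂μ := by
      have : ∀ x, (t * |f x| + |g x|) ^ 2
          = (f x ^ 2 * (t * t) + (|f x| * |g x|) * (2 * t)) + g x ^ 2 := by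
        intro x
        rw [← sq_abs (f x), ← sq_abs (g x)]
        ring
      simp_rw [this]
      have i1 := hf.mul_const (t * t)
      have i2 := hfg.mul_const (2 * t)
      have i3 : Integrable (fun x => f x ^ 2 * (t * t) + |f x| * |g x| * (2 * t)) μ := i1.add i2
      rw [integral_add i3 hg, integral_add i1 i2, integral_mul_const, integral_mul_const]
      ring
    rw [e]
    exact integral_nonneg fun x => by positivity
  have := discrim_le_zero h
  unfold discrim at this
  nlinarith

/-- dyadic bound of a weighted tail. -/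
theorem lintegral_tail_weight {f : V n → ℝ≥0∞} {K s a : ℝ} (ha0 : 0 ≤ a) (has : s < a)
    (hK : 0 ≤ K)
    (hf : ∀ R : ℝ, 1 ≤ R → ∫⁻ x in ball (0 : V n) R, f x ≤ ENNReal.ofReal (K * R ^ s))
    {R : ℝ} (hR : 1 ≤ R) :
    ∫⁻ x in {x : V n | R ≤ ‖x‖}, f x * ENNReal.ofReal (‖x‖ ^ (-a)) ≤
      ENNReal.ofReal (K * (2 ^ s / (1 - 2 ^ (s - a))) * R ^ (s - a)) := by
  have hR0 : 0 < R := by linarith
  have hcover : {x : V n | R ≤ ‖x‖} ⊆
      ⋃ j : ℕ, (ball 0 ((2:ℝ) ^ (j + 1) * R) \ ball 0 ((2:ℝ) ^ j * R)) := by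
    intro x hx
    rw [mem_ofPred_eq] at hx
    have h : 1 ≤ ‖x‖ / R := by rwa [le_div_iff₀ hR0, one_mul]
    obtain ⟨j, h1, h2⟩ := exists_nat_pow_near h (one_lt_two)
    rw [le_div_iff₀ hR0] at h1
    rw [div_lt_iff₀ hR0] at h2
    exact mem_iUnion.2 ⟨j, by simpa using h2, by simpa using h1⟩
  have hq0 : (0:ℝ) < 2 ^ (s - a) := by positivity
  have hq1 : (2:ℝ) ^ (s - a) < 1 := Real.rpow_lt_one_of_one_lt_of_neg (by norm_num) (by linarith)
  have hshell : ∀ j : ℕ, ∫⁻ x in ball (0 : V n) ((2:ℝ) ^ (j + 1) * R) \ ball 0 ((2:ℝ) ^ j * R),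
      f x * ENNReal.ofReal (‖x‖ ^ (-a)) ≤
        ENNReal.ofReal (K * 2 ^ s * R ^ (s - a) * ((2:ℝ) ^ (s - a)) ^ j) := by
    intro j
    have h2j : (0:ℝ) < 2 ^ j * R := by positivity
    calc ∫⁻ x in ball (0 : V n) ((2:ℝ) ^ (j + 1) * R) \ ball 0 ((2:ℝ) ^ j * R),
        f x * ENNReal.ofReal (‖x‖ ^ (-a))
        ≤ ∫⁻ x in ball (0 : V n) ((2:ℝ) ^ (j + 1) * R) \ ball 0 ((2:ℝ) ^ j * R),
          f x * ENNReal.ofReal (((2:ℝ) ^ j * R) ^ (-a)) := by
          refine setLIntegral_mono' (measurableSet_ball.diff measurableSet_ball) fun x hx => ?_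
          refine mul_le_mul' le_rfl (ENNReal.ofReal_le_ofReal ?_)
          refine Real.rpow_le_rpow_of_nonpos h2j ?_ (by linarith)
          have : ¬ ‖x‖ < 2 ^ j * R := by simpa using hx.2
          linarith
      _ = (∫⁻ x in ball (0 : V n) ((2:ℝ) ^ (j + 1) * R) \ ball 0 ((2:ℝ) ^ j * R), f x)
          * ENNReal.ofReal (((2:ℝ) ^ j * R) ^ (-a)) := lintegral_mul_const' _ _ ENNReal.ofReal_ne_top
      _ ≤ (∫⁻ x in ball (0 : V n) ((2:ℝ) ^ (j + 1) * R), f x)
          * ENNReal.ofReal (((2:ℝ) ^ j * R) ^ (-a)) := by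
          gcongr
          exact sdiff_subset
      _ ≤ ENNReal.ofReal (K * ((2:ℝ) ^ (j + 1) * R) ^ s)
          * ENNReal.ofReal (((2:ℝ) ^ j * R) ^ (-a)) := by
          gcongr
          refine hf _ ?_
          have : (1:ℝ) ≤ 2 ^ (j + 1) := one_le_pow₀ (by norm_num)
          nlinarith
      _ = ENNReal.ofReal (K * 2 ^ s * R ^ (s - a) * ((2:ℝ) ^ (s - a)) ^ j) := by
          rw [← ENNReal.ofReal_mul (by positivity)]
          congr 1
          rw [pow_succ, Real.mul_rpow (by positivity) hR0.le, Real.mul_rpow (by positivity) hR0.le,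
            Real.mul_rpow (by positivity) (by norm_num), sub_eq_add_neg,
            Real.rpow_add hR0, Real.rpow_add (by norm_num), mul_pow, ← Real.rpow_natCast,
            ← Real.rpow_natCast,
            ← Real.rpow_natCast, ← Real.rpow_mul (by norm_num), ← Real.rpow_mul (by norm_num),
            ← Real.rpow_mul (by norm_num), ← Real.rpow_mul (by norm_num), mul_comm (j : ℝ) s,
            mul_comm (j : ℝ) (-a)]
          ring
  calc ∫⁻ x in {x : V n | R ≤ ‖x‖}, f x * ENNReal.ofReal (‖x‖ ^ (-a))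
      ≤ ∫⁻ x in ⋃ j : ℕ, (ball 0 ((2:ℝ) ^ (j + 1) * R) \ ball 0 ((2:ℝ) ^ j * R)),
        f x * ENNReal.ofReal (‖x‖ ^ (-a)) := lintegral_mono_set hcover
    _ ≤ ∑' j : ℕ, ENNReal.ofReal (K * 2 ^ s * R ^ (s - a) * ((2:ℝ) ^ (s - a)) ^ j) := by
        refine (lintegral_iUnion_le _ _).trans ?_
        exact ENNReal.tsum_le_tsum hshell
    _ = _ := by
        rw [← ENNReal.ofReal_tsum_of_nonneg]
        · rw [tsum_mul_left, tsum_geometric_of_lt_one hq0.le hq1]
          congr 1
          rw [div_eq_mul_inv]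
          ring
        · intro j; positivity
        · exact (summable_geometric_of_lt_one hq0.le hq1).mul_left _

/-- tail bound of a function of growth `s`. -/
theorem tail_sq_le (hn : 0 < n) {T : V n → ℝ} {K s : ℝ} (hs : s < n + 4)
    (hT : ∀ R : ℝ, MemLp T 2 (volume.restrict (ball (0 : V n) R))) (hG : Gr K s T) :
    ∃ c : ℝ, 0 ≤ c ∧ ∀ R : ℝ, 1 ≤ R →
      IntegrableOn (fun y => |T y| * (‖y‖ ^ (n + 2))⁻¹) {y : V n | R ≤ ‖y‖} ∧
      (∫ y in {y : V n | R ≤ ‖y‖}, |T y| * (‖y‖ ^ (n + 2))⁻¹) ^ 2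
        ≤ c * (R ^ s * (R ^ (n + 4))⁻¹) := by
  obtain ⟨C, hC, hU⟩ := upperReg_volume hn
  obtain ⟨a, ha0, has, han⟩ : ∃ a : ℝ, 0 ≤ a ∧ s < a ∧ a < n + 4 := by
    refine ⟨max 0 ((s + n + 4) / 2), le_max_left _ _, lt_max_of_lt_right (by linarith), ?_⟩
    refine max_lt (by positivity) (by linarith)
  have hK := gr_nonneg hG
  have hTm := aestronglyMeasurable_of_memLp hT
  have hq1 : (2:ℝ) ^ (s - a) < 1 := Real.rpow_lt_one_of_one_lt_of_neg (by norm_num) (by linarith)
  have hb : (n : ℝ) < 2 * n + 4 - a := by linarith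
  have hq2 : (2:ℝ) ^ ((n:ℝ) - (2 * n + 4 - a)) < 1 :=
    Real.rpow_lt_one_of_one_lt_of_neg (by norm_num) (by linarith)
  set c1 : ℝ := 2 ^ s / (1 - 2 ^ (s - a)) with hc1
  have hc10 : 0 ≤ c1 := div_nonneg (by positivity) (by linarith)
  set c2 : ℝ := C * 2 ^ n / (1 - 2 ^ ((n:ℝ) - (2 * n + 4 - a))) with hc2
  have hc20 : 0 ≤ c2 := div_nonneg (by positivity) (by linarith)
  refine ⟨K * c1 * c2, by positivity, fun R hR => ?_⟩
  have hR0 : 0 < R := by linarith
  have hset : {y : V n | R ≤ dist 0 y} = {y : V n | R ≤ ‖y‖} := by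
    ext y; simp
  have hmset : MeasurableSet {y : V n | R ≤ ‖y‖} := measurableSet_le measurable_const measurable_norm
  -- the two squares
  have h1 := lintegral_tail_weight ha0 has hK (lintegral_sq_le hT hG) hR
  have hf2 : Integrable (fun y => (|T y| * ‖y‖ ^ (-a / 2)) ^ 2)
      (volume.restrict {y : V n | R ≤ ‖y‖}) ∧
      ∫ y in {y : V n | R ≤ ‖y‖}, (|T y| * ‖y‖ ^ (-a / 2)) ^ 2 ≤ K * c1 * R ^ (s - a) := by
    refine integrable_and_integral_le_of_lintegral ?_ (fun x => by positivity) (by positivity) ?_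
    · refine AEStronglyMeasurable.pow ?_ 2
      refine AEStronglyMeasurable.mul ?_ ?_
      · exact (hTm.restrict.norm).congr (Filter.Eventually.of_forall fun x => Real.norm_eq_abs _)
      · exact (measurable_norm.pow_const _).aestronglyMeasurable
    · refine le_trans (lintegral_mono_ae ?_) h1
      filter_upwards [ae_restrict_mem hmset] with y hy
      have hy0 : 0 < ‖y‖ := lt_of_lt_of_le hR0 hy
      rw [← ENNReal.ofReal_mul (by positivity)]
      refine ENNReal.ofReal_le_ofReal (le_of_eq ?_)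
      rw [mul_pow, sq_abs, ← Real.rpow_natCast (‖y‖ ^ (-a / 2)), ← Real.rpow_mul hy0.le]
      congr 2
      push_cast
      ring
  have hg2 : Integrable (fun y : V n => (‖y‖ ^ (a / 2 - n - 2)) ^ 2)
      (volume.restrict {y : V n | R ≤ ‖y‖}) ∧
      ∫ y in {y : V n | R ≤ ‖y‖}, (‖y‖ ^ (a / 2 - n - 2)) ^ 2 ≤ c2 * R ^ (a - n - 4) := by
    have h2 := integrableOn_tail_rpow hU hC hb (0 : V n) hR0
    rw [hset] at h2
    have e : ∀ y ∈ {y : V n | R ≤ ‖y‖}, dist (0 : V n) y ^ (-(2 * n + 4 - a))
        = (‖y‖ ^ (a / 2 - n - 2)) ^ 2 := by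
      intro y hy
      have hy0 : 0 < ‖y‖ := lt_of_lt_of_le hR0 hy
      rw [dist_zero_left, ← Real.rpow_natCast (‖y‖ ^ (a / 2 - n - 2)), ← Real.rpow_mul hy0.le]
      congr 1
      push_cast
      ring
    refine ⟨(h2.1.congr_fun e hmset), ?_⟩
    rw [← setIntegral_congr_fun hmset e]
    refine h2.2.trans (le_of_eq ?_)
    rw [hc2]
    congr 2
    ring
  have hprod : ∀ y ∈ {y : V n | R ≤ ‖y‖}, |(|T y| * ‖y‖ ^ (-a / 2))| * |‖y‖ ^ (a / 2 - n - 2)|
      = |T y| * (‖y‖ ^ (n + 2))⁻¹ := by
    intro y hy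
    have hy0 : 0 < ‖y‖ := lt_of_lt_of_le hR0 hy
    rw [abs_of_nonneg (by positivity : (0:ℝ) ≤ |T y| * ‖y‖ ^ (-a / 2)),
      abs_of_nonneg (by positivity : (0:ℝ) ≤ ‖y‖ ^ (a / 2 - n - 2)), mul_assoc,
      ← Real.rpow_add hy0, ← Real.rpow_natCast, ← Real.rpow_neg hy0.le]
    congr 2
    push_cast
    ring
  have hfg : Integrable (fun y : V n => |(|T y| * ‖y‖ ^ (-a / 2))| * |‖y‖ ^ (a / 2 - n - 2)|)
      (volume.restrict {y : V n | R ≤ ‖y‖}) := by
    refine (hf2.1.add hg2.1).mono' ?_ (Filter.Eventually.of_forall fun y => ?_)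
    · refine AEStronglyMeasurable.mul ?_ ?_
      · refine continuous_abs.comp_aestronglyMeasurable (AEStronglyMeasurable.mul ?_ ?_)
        · exact (hTm.restrict.norm).congr (Filter.Eventually.of_forall fun x => Real.norm_eq_abs _)
        · exact (measurable_norm.pow_const _).aestronglyMeasurable
      · exact continuous_abs.comp_aestronglyMeasurable
          (measurable_norm.pow_const _).aestronglyMeasurable
    · simp only [Pi.add_apply]
      rw [Real.norm_of_nonneg (by positivity)]
      have h := two_mul_le_add_sq |(|T y| * ‖y‖ ^ (-a / 2))| |‖y‖ ^ (a / 2 - n - 2)|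
      rw [sq_abs, sq_abs] at h
      have h0 : 0 ≤ |(|T y| * ‖y‖ ^ (-a / 2))| * |‖y‖ ^ (a / 2 - n - 2)| := by positivity
      nlinarith
  refine ⟨?_, ?_⟩
  · exact IntegrableOn.congr_fun hfg hprod hmset
  · rw [← setIntegral_congr_fun hmset hprod]
    refine (cs hf2.1 hg2.1 hfg).trans ?_
    calc (∫ y in {y : V n | R ≤ ‖y‖}, (|T y| * ‖y‖ ^ (-a / 2)) ^ 2)
          * ∫ y in {y : V n | R ≤ ‖y‖}, (‖y‖ ^ (a / 2 - n - 2)) ^ 2
        ≤ (K * c1 * R ^ (s - a)) * (c2 * R ^ (a - n - 4)) := by
          refine mul_le_mul hf2.2 hg2.2 (integral_nonneg fun _ => by positivity) (by positivity)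
      _ = K * c1 * c2 * (R ^ s * (R ^ (n + 4))⁻¹) := by
          have : R ^ (s - a) * R ^ (a - n - 4) = R ^ s * (R ^ (n + 4))⁻¹ := by
            rw [← Real.rpow_add hR0, ← Real.rpow_natCast, ← Real.rpow_neg hR0.le,
              ← Real.rpow_add hR0]
            congr 1
            push_cast
            ring
          rw [← this]
          ring

end Liou

end Crest.Agent.R085
end

-- ▼ part R085/LiouEnergy
section

/-!
R085 (S0113), module M6 (linear Liouville lemma): growth of the energy.
-/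

set_option autoImplicit false

namespace Crest.Agent.R085

open MeasureTheory Metric Set Filter
open scoped ENNReal NNReal Topology ContDiff

namespace Liou

variable {n : ℕ}

/-- locally Lipschitz times cutoff is a test function -/
theorem isTest_cutoff {u : V n → ℝ}
    (hu : ∀ R : ℝ, ∃ L : ℝ≥0, LipschitzOnWith L u (ball (0 : V n) R)) (a : ℝ) {R : ℝ}
    (hR : 0 < R) : IsTest (fun y => (u y - a) * cut (dist y 0 / R) ^ 2) := by
  have huc := cont_of_locLip hu
  obtain ⟨L, hL⟩ := hu (3 * R)
  obtain ⟨M, hM⟩ := (isCompact_closedBall (0 : V n) (3 * R)).exists_bound_of_continuousOn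
    ((huc.sub continuous_const).continuousOn (f := fun y => u y - a))
  have hM0 : 0 ≤ M := (norm_nonneg _).trans (hM 0 (by simp; linarith))
  have hzero : ∀ y : V n, 2 * R ≤ ‖y‖ → (u y - a) * cut (dist y 0 / R) ^ 2 = 0 := by
    intro y hy
    rw [cut_eq_zero]
    · ring
    · rw [le_div_iff₀ hR, dist_zero_right]; exact hy
  refine ⟨⟨Real.toNNReal (L + 3 * M / R), LipschitzWith.of_dist_le' ?_⟩, ?_⟩
  · have key : ∀ x y : V n, ‖x‖ ≤ ‖y‖ →
        dist ((u x - a) * cut (dist x 0 / R) ^ 2) ((u y - a) * cut (dist y 0 / R) ^ 2)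
          ≤ (L + 3 * M / R) * dist x y := by
      intro x y hxy
      rcases lt_or_ge ‖y‖ (3 * R) with h | h
      · have hx : x ∈ ball (0 : V n) (3 * R) := by simpa using lt_of_le_of_lt hxy h
        have hy : y ∈ ball (0 : V n) (3 * R) := by simpa using h
        have h1 := hL.dist_le_mul x hx y hy
        have h2 := hM y (ball_subset_closedBall hy)
        have h3 : |cut (dist x 0 / R) - cut (dist y 0 / R)| ≤ dist x y / R := by
          refine (cut_lip _ _).trans ?_
          rw [← sub_div, abs_div, abs_of_pos hR]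
          gcongr
          exact abs_dist_sub_le x y 0
        have c1 := cut_nonneg (dist x 0 / R)
        have c2 := cut_le_one (dist x 0 / R)
        have c3 := cut_nonneg (dist y 0 / R)
        have c4 := cut_le_one (dist y 0 / R)
        rw [Real.dist_eq] at h1 ⊢
        rw [Real.norm_eq_abs] at h2
        have e : (u x - a) * cut (dist x 0 / R) ^ 2 - (u y - a) * cut (dist y 0 / R) ^ 2
          = (u x - u y) * cut (dist x 0 / R) ^ 2
            + (u y - a) * ((cut (dist x 0 / R) + cut (dist y 0 / R))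
              * (cut (dist x 0 / R) - cut (dist y 0 / R))) := by ring
        rw [e]
        refine (abs_add_le _ _).trans ?_
        rw [abs_mul, abs_mul, abs_mul, abs_of_nonneg (by positivity : (0:ℝ) ≤ cut (dist x 0 / R) ^ 2),
          abs_of_nonneg (by positivity : (0:ℝ) ≤ cut (dist x 0 / R) + cut (dist y 0 / R))]
        have hd := dist_nonneg (x := x) (y := y)
        calc |u x - u y| * cut (dist x 0 / R) ^ 2
            + |u y - a| * ((cut (dist x 0 / R) + cut (dist y 0 / R))
              * |cut (dist x 0 / R) - cut (dist y 0 / R)|)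
            ≤ (L * dist x y) * 1 + M * ((1 + 1) * (dist x y / R)) := by
              gcongr
              exact pow_le_one₀ c1 c2
          _ ≤ (L + 3 * M / R) * dist x y := by
              have : 0 ≤ M * (dist x y / R) := by positivity
              have e2 : (L + 3 * M / R) * dist x y = L * dist x y + 3 * (M * (dist x y / R)) := by
                ring
              rw [e2]
              linarith
      · rw [hzero y (by linarith)]
        rcases lt_or_ge ‖x‖ (2 * R) with h' | h'
        · have hx : x ∈ closedBall (0 : V n) (3 * R) := by simp; linarith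
          have h2 := hM x hx
          have c1 := cut_nonneg (dist x 0 / R)
          have c2 := cut_le_one (dist x 0 / R)
          have hd : R ≤ dist x y := by
            have := norm_sub_norm_le y x
            rw [dist_comm, dist_eq_norm]
            linarith
          rw [Real.dist_eq, sub_zero, abs_mul, abs_of_nonneg (by positivity : (0:ℝ) ≤ cut (dist x 0 / R) ^ 2)]
          rw [Real.norm_eq_abs] at h2
          calc |u x - a| * cut (dist x 0 / R) ^ 2 ≤ M * 1 := by
                gcongr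
                exact pow_le_one₀ c1 c2
            _ = (M / R) * R := by field_simp
            _ ≤ (L + 3 * M / R) * dist x y := by
                have : M / R ≤ L + 3 * M / R := by
                  have h3 : 0 ≤ M / R := by positivity
                  have h4 : 3 * M / R = 3 * (M / R) := by ring
                  have h5 : (0:ℝ) ≤ L := L.2
                  rw [h4]
                  linarith
                gcongr
        · rw [hzero x h', dist_self]
          positivity
    intro x y
    rcases le_total ‖x‖ ‖y‖ with h | h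
    · exact key x y h
    · rw [dist_comm, dist_comm x y]
      exact key y x h
  · refine HasCompactSupport.intro (isCompact_closedBall (0 : V n) (2 * R)) fun y hy => ?_
    apply hzero
    rw [mem_closedBall_zero_iff, not_le] at hy
    exact hy.le

theorem volume_ball_eq (hn : 0 < n) {R : ℝ} (hR : 0 ≤ R) :
    (volume (ball (0 : V n) R)).toReal = (volume (ball (0 : V n) 1)).toReal * R ^ n := by
  have : Nonempty (Fin n) := ⟨⟨0, hn⟩⟩
  rw [Measure.addHaar_ball volume _ hR, finrank_euclideanSpace_fin, ENNReal.toReal_mul,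
    ENNReal.toReal_ofReal (by positivity)]
  ring

theorem volume_ball_pos : 0 < (volume (ball (0 : V n) 1)).toReal :=
  ENNReal.toReal_pos (measure_ball_pos volume 0 one_pos).ne' measure_ball_lt_top.ne

theorem memLp_of_cont {u : V n → ℝ} (huc : Continuous u) (R : ℝ) :
    MemLp u 2 (volume.restrict (ball (0 : V n) R)) := by
  have : IsFiniteMeasure (volume.restrict (ball (0 : V n) R)) :=
    ⟨by rw [Measure.restrict_apply_univ]; exact measure_ball_lt_top⟩
  obtain ⟨M, hM⟩ := (isCompact_closedBall (0 : V n) R).exists_bound_of_continuousOn huc.continuousOn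
  refine MemLp.of_bound huc.aestronglyMeasurable M ?_
  filter_upwards [ae_restrict_mem measurableSet_ball] with x hx
  exact hM x (ball_subset_closedBall hx)

theorem intOn_cont {f : V n → ℝ} (hf : Continuous f) (R : ℝ) :
    IntegrableOn f (ball (0 : V n) R) :=
  (hf.continuousOn.integrableOn_compact (isCompact_closedBall 0 R)).mono_set
      ball_subset_closedBall

theorem setIntegral_const_ball (hn : 0 < n) (c : ℝ) {R : ℝ} (hR : 0 ≤ R) :
    ∫ _y in ball (0 : V n) R, c = (volume (ball (0 : V n) 1)).toReal * R ^ n * c := by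
  rw [setIntegral_const, smul_eq_mul, Measure.real, volume_ball_eq hn hR]

/-- `L¹` bound on a ball -/
theorem abs_int_sq_le (hn : 0 < n) {v : V n → ℝ} (hv : Continuous v) {R : ℝ} (hR : 0 ≤ R) :
    (∫ y in ball (0 : V n) R, |v y|) ^ 2
      ≤ (∫ y in ball (0 : V n) R, v y ^ 2) * ((volume (ball (0 : V n) 1)).toReal * R ^ n) := by
  have h1 := cs (μ := volume.restrict (ball (0 : V n) R)) (f := v)
      (g := fun _ => (1:ℝ)) (intOn_cont (by fun_prop) _) (intOn_cont (by fun_prop) _)
      (intOn_cont (by fun_prop) _)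
  simp only [abs_one, mul_one, one_pow] at h1
  rw [setIntegral_const_ball hn _ hR, mul_one] at h1
  exact h1

/-- the mean and its bound -/
theorem mean_bound (hn : 0 < n) {u : V n → ℝ} (huc : Continuous u) {K s : ℝ}
    (hG : Gr K s u) : ∃ ca : ℝ, 0 ≤ ca ∧ ∀ R : ℝ, 1 ≤ R → ∃ a : ℝ,
      ∫ y : V n, (u y - a) * cut (dist y 0 / R) ^ 2 = 0 ∧ a ^ 2 ≤ ca * (R ^ s / R ^ n) := by
  have hK := gr_nonneg hG
  set om : ℝ := (volume (ball (0 : V n) 1)).toReal with hom
  have hom0 : 0 < om := volume_ball_pos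
  refine ⟨2 ^ s * 2 ^ n / om * K, by positivity, fun R hR => ?_⟩
  have hR0 : 0 < R := by linarith
  set φ : V n → ℝ := fun y => cut (dist y 0 / R) with hφ
  have hφc : Continuous φ := continuous_cut.comp (by fun_prop)
  have hφ0 : ∀ y, 0 ≤ φ y := fun y => cut_nonneg _
  have hφ1 : ∀ y, φ y ≤ 1 := fun y => cut_le_one _
  have hφs : ∀ y, y ∉ ball (0 : V n) (2 * R) → φ y = 0 := by
    intro y hy
    refine cut_eq_zero ?_
    rw [le_div_iff₀ hR0]
    rw [mem_ball, not_lt] at hy
    exact hy
  have hφcpt : HasCompactSupport (fun y => φ y ^ 2) := by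
    refine HasCompactSupport.intro (isCompact_closedBall (0 : V n) (2 * R)) fun y hy => ?_
    rw [hφs y fun h => hy (ball_subset_closedBall h)]
    norm_num
  have hφ2c : Continuous (fun y => φ y ^ 2) := hφc.pow 2
  have hφ2i : Integrable (fun y => φ y ^ 2) := hφ2c.integrable_of_hasCompactSupport hφcpt
  have huφi : Integrable (fun y => u y * φ y ^ 2) :=
    (huc.mul hφ2c).integrable_of_hasCompactSupport hφcpt.mul_left
  -- denominator
  have hden : om * R ^ n ≤ ∫ y, φ y ^ 2 := by
    calc om * R ^ n = ∫ _y in ball (0 : V n) R, (1:ℝ) := by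
          rw [setIntegral_const_ball hn _ hR0.le, mul_one]
      _ ≤ ∫ y in ball (0 : V n) R, φ y ^ 2 := by
          refine setIntegral_mono_on (integrableOn_const measure_ball_lt_top.ne)
            hφ2i.integrableOn measurableSet_ball fun y hy => ?_
          have : φ y = 1 := by
            refine cut_eq_one ?_
            rw [div_le_iff₀ hR0, one_mul]
            exact (mem_ball.1 hy).le
          rw [this]; norm_num
      _ ≤ ∫ y, φ y ^ 2 := setIntegral_le_integral hφ2i
          (Filter.Eventually.of_forall fun y => by positivity)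
  have hdpos : 0 < ∫ y, φ y ^ 2 := lt_of_lt_of_le (by positivity) hden
  refine ⟨(∫ y, u y * φ y ^ 2) / ∫ y, φ y ^ 2, ?_, ?_⟩
  · have : ∀ y : V n, (u y - (∫ y, u y * φ y ^ 2) / ∫ y, φ y ^ 2) * cut (dist y 0 / R) ^ 2
        = u y * φ y ^ 2 - ((∫ y, u y * φ y ^ 2) / ∫ y, φ y ^ 2) * φ y ^ 2 := by
      intro y; rw [hφ]; ring
    simp_rw [this]
    rw [integral_sub huφi (hφ2i.const_mul _), integral_const_mul,
      div_mul_cancel₀ _ hdpos.ne', sub_self]
  · have hA1 : (∫ y in ball (0 : V n) (2 * R), |u y|) ^ 2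
        ≤ (K * (2 * R) ^ s) * (om * (2 * R) ^ n) := by
      refine (abs_int_sq_le hn huc (by positivity)).trans ?_
      gcongr
      exact hG (2 * R) (by linarith)
    have hA2 : |∫ y, u y * φ y ^ 2| ≤ ∫ y in ball (0 : V n) (2 * R), |u y| := by
      have e : ∫ y, u y * φ y ^ 2 = ∫ y in ball (0 : V n) (2 * R), u y * φ y ^ 2 := by
        rw [setIntegral_eq_integral_of_forall_compl_eq_zero]
        intro y hy
        rw [hφs y hy]; ring
      rw [e, ← Real.norm_eq_abs]
      refine (norm_integral_le_integral_norm _).trans ?_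
      refine setIntegral_mono_on huφi.norm.integrableOn (intOn_cont (by fun_prop) _)
        measurableSet_ball fun y _ => ?_
      rw [norm_mul, Real.norm_eq_abs, Real.norm_of_nonneg (by positivity)]
      calc |u y| * φ y ^ 2 ≤ |u y| * 1 := by
            gcongr
            exact pow_le_one₀ (hφ0 y) (hφ1 y)
        _ = _ := mul_one _
    have h1 : (∫ y, u y * φ y ^ 2) ^ 2 ≤ (K * (2 * R) ^ s) * (om * (2 * R) ^ n) := by
      rw [← sq_abs]
      exact (pow_le_pow_left₀ (abs_nonneg _) hA2 2).trans hA1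
    rw [div_pow]
    calc (∫ y, u y * φ y ^ 2) ^ 2 / (∫ y, φ y ^ 2) ^ 2
        ≤ ((K * (2 * R) ^ s) * (om * (2 * R) ^ n)) / (om * R ^ n) ^ 2 := by gcongr
      _ = 2 ^ s * 2 ^ n / om * K * (R ^ s / R ^ n) := by
          rw [Real.mul_rpow (by norm_num) hR0.le, mul_pow, mul_pow]
          field_simp

/-- local `L²` bound -/
theorem sq_sub_bound (hn : 0 < n) {u : V n → ℝ} (huc : Continuous u) {K s : ℝ}
    (hG : Gr K s u) {ca : ℝ} (hca : 0 ≤ ca) : ∃ c1 : ℝ, 0 ≤ c1 ∧ ∀ R : ℝ, 1 ≤ R → ∀ a : ℝ,
      a ^ 2 ≤ ca * (R ^ s / R ^ n) → ∫ y in ball (0 : V n) (4 * R), (u y - a) ^ 2 ≤ c1 * R ^ s := by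
  have hK := gr_nonneg hG
  set om : ℝ := (volume (ball (0 : V n) 1)).toReal with hom
  have hom0 : 0 < om := volume_ball_pos
  refine ⟨2 * (K * 4 ^ s) + 2 * ca * om * 4 ^ n, by positivity, fun R hR a ha => ?_⟩
  have hR0 : 0 < R := by linarith
  calc ∫ y in ball (0 : V n) (4 * R), (u y - a) ^ 2
      ≤ ∫ y in ball (0 : V n) (4 * R), (2 * u y ^ 2 + 2 * a ^ 2) := by
        refine setIntegral_mono_on (intOn_cont (by fun_prop) _) (intOn_cont (by fun_prop) _)
          measurableSet_ball fun y _ => ?_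
        nlinarith [sq_nonneg (u y + a)]
    _ = 2 * (∫ y in ball (0 : V n) (4 * R), u y ^ 2) + om * (4 * R) ^ n * (2 * a ^ 2) := by
        rw [integral_add (intOn_cont (by fun_prop) _) (intOn_cont (by fun_prop) _),
          integral_const_mul, setIntegral_const_ball hn _ (by positivity)]
    _ ≤ 2 * (K * (4 * R) ^ s) + om * (4 * R) ^ n * (2 * (ca * (R ^ s / R ^ n))) := by
        gcongr
        exact hG (4 * R) (by linarith)
    _ = _ := by
        rw [Real.mul_rpow (by norm_num) hR0.le, mul_pow]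
        field_simp

/-- far integral -/
theorem far_bound (hn : 0 < n) {u : V n → ℝ} (huc : Continuous u) {K s : ℝ} (hs : s < n + 4)
    (hG : Gr K s u) {ca : ℝ} (hca : 0 ≤ ca) : ∃ c3 : ℝ, 0 ≤ c3 ∧ ∀ R : ℝ, 1 ≤ R → ∀ a : ℝ,
      a ^ 2 ≤ ca * (R ^ s / R ^ n) → ∃ F : ℝ, 0 ≤ F ∧ F ^ 2 ≤ c3 * (R ^ s / R ^ (n + 4)) ∧
        ∀ N : ℝ, farI n volume (fun y => u y - a) 0 (4 * R) (4 * N) ≤ F := by
  obtain ⟨C, hC, hU⟩ := upperReg_volume hn
  obtain ⟨cF, hcF, hF⟩ := tail_sq_le hn hs (memLp_of_cont huc) hG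
  have hK := gr_nonneg hG
  set cT : ℝ := C * 2 ^ (n + 1) with hcT
  have hcT0 : 0 ≤ cT := by positivity
  set c3 : ℝ := 2 * cF * 4 ^ s + 2 * ca * cT ^ 2 with hc3
  have hc30 : 0 ≤ c3 := by positivity
  refine ⟨c3, hc30, fun R hR a ha2 => ?_⟩
  have hR0 : 0 < R := by linarith
  set S : ℝ := R ^ s with hS
  have hS0 : 0 < S := by positivity
  have hmset : MeasurableSet {y : V n | 4 * R ≤ ‖y‖} :=
    measurableSet_le measurable_const measurable_norm
  obtain ⟨hFi, hFb⟩ := hF (4 * R) (by linarith)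
  have hset : {y : V n | 4 * R ≤ dist 0 y} = {y : V n | 4 * R ≤ ‖y‖} := by
    ext y; simp
  have ht := integrableOn_tail hU hC (m := 2) (by norm_num) (0 : V n) (r := 4 * R) (by positivity)
  rw [hset] at ht
  simp only [dist_zero_left] at ht
  set F1 : ℝ := ∫ y in {y : V n | 4 * R ≤ ‖y‖}, |u y| * (‖y‖ ^ (n + 2))⁻¹ with hF1def
  set F2 : ℝ := ∫ y in {y : V n | 4 * R ≤ ‖y‖}, (‖y‖ ^ (n + 2))⁻¹ with hF2def
  have hF10 : 0 ≤ F1 := integral_nonneg fun _ => by positivity
  have hF20 : 0 ≤ F2 := integral_nonneg fun _ => by positivity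
  have hF2 : F2 ≤ cT / R ^ 2 := by
    refine ht.2.trans ?_
    rw [hcT]
    gcongr
    linarith
  refine ⟨F1 + |a| * F2, by positivity, ?_, ?_⟩
  · have h1 : (F1 + |a| * F2) ^ 2 ≤ 2 * F1 ^ 2 + 2 * (|a| * F2) ^ 2 := by
      nlinarith [sq_nonneg (F1 - |a| * F2)]
    have h2 : F1 ^ 2 ≤ cF * 4 ^ s * (S / R ^ (n + 4)) := by
      refine hFb.trans ?_
      rw [Real.mul_rpow (by norm_num) hR0.le, ← hS]
      calc cF * (4 ^ s * S * ((4 * R) ^ (n + 4))⁻¹) ≤ cF * (4 ^ s * S * (R ^ (n + 4))⁻¹) := by
            gcongr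
            linarith
        _ = _ := by ring
    have h3 : (|a| * F2) ^ 2 ≤ ca * cT ^ 2 * (S / R ^ (n + 4)) := by
      rw [mul_pow, sq_abs]
      calc a ^ 2 * F2 ^ 2 ≤ (ca * (S / R ^ n)) * (cT / R ^ 2) ^ 2 := by gcongr
        _ = ca * cT ^ 2 * (S / R ^ (n + 4)) := by
            rw [pow_add, div_pow]
            field_simp
    have e : c3 * (S / R ^ (n + 4)) = 2 * (cF * 4 ^ s * (S / R ^ (n + 4)))
        + 2 * (ca * cT ^ 2 * (S / R ^ (n + 4))) := by
      rw [hc3]; ring
    rw [e]
    linarith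
  · intro N
    have hi1 : IntegrableOn (fun y : V n => |a| * (‖y‖ ^ (n + 2))⁻¹) {y : V n | 4 * R ≤ ‖y‖} :=
      ht.1.const_mul _
    have hi : IntegrableOn (fun y => |u y| * (‖y‖ ^ (n + 2))⁻¹ + |a| * (‖y‖ ^ (n + 2))⁻¹)
        {y : V n | 4 * R ≤ ‖y‖} := hFi.add hi1
    have e : F1 + |a| * F2 = ∫ y in {y : V n | 4 * R ≤ ‖y‖},
        (|u y| * (‖y‖ ^ (n + 2))⁻¹ + |a| * (‖y‖ ^ (n + 2))⁻¹) := by
      rw [integral_add hFi hi1, integral_const_mul]
    have hsub : ball (0 : V n) (4 * N) \ ball 0 (4 * R) ⊆ {y : V n | 4 * R ≤ ‖y‖} := by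
      intro y hy
      have := hy.2
      rw [mem_ball_zero_iff, not_lt] at this
      exact this
    unfold farI
    rw [e]
    calc ∫ y in ball (0 : V n) (4 * N) \ ball 0 (4 * R), |u y - a| * (dist y 0 ^ (n + 2))⁻¹
        ≤ ∫ y in ball (0 : V n) (4 * N) \ ball 0 (4 * R),
          (|u y| * (‖y‖ ^ (n + 2))⁻¹ + |a| * (‖y‖ ^ (n + 2))⁻¹) := by
          have hpt : ∀ y : V n, |u y - a| * (dist y 0 ^ (n + 2))⁻¹
              ≤ |u y| * (‖y‖ ^ (n + 2))⁻¹ + |a| * (‖y‖ ^ (n + 2))⁻¹ := by
            intro y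
            rw [dist_zero_right, ← add_mul]
            have := abs_sub (u y) a
            gcongr
          refine setIntegral_mono_on ?_ (hi.mono_set hsub)
            (measurableSet_ball.diff measurableSet_ball) fun y _ => hpt y
          refine (hi.mono_set hsub).mono' ?_ (Filter.Eventually.of_forall fun y => ?_)
          · refine AEStronglyMeasurable.mul ?_ ?_
            · exact Continuous.aestronglyMeasurable (by fun_prop)
            · exact (((continuous_id.dist continuous_const).measurable.pow_const _).inv).aestronglyMeasurable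
          · rw [Real.norm_of_nonneg (by positivity)]
            exact hpt y
      _ ≤ _ := setIntegral_mono_set hi (Filter.Eventually.of_forall fun y => by positivity)
          hsub.eventuallyLE

/-- growth of the energy -/
theorem energy_le (hn : 0 < n) {u : V n → ℝ} (hu : Sol u) {K s : ℝ} (hs : s < n + 4)
    (hG : Gr K s u) : ∃ C : ℝ, 0 ≤ C ∧ ∀ R : ℝ, 1 ≤ R → En n volume u 0 R ≤ C * R ^ (s - 1) := by
  obtain ⟨C, hC, hU⟩ := upperReg_volume hn
  obtain ⟨K1, hK1, hcacc⟩ := cacc n n C hC hn
  have huc := cont_of_locLip hu.lip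
  obtain ⟨ca, hca, hmean⟩ := mean_bound hn huc hG
  obtain ⟨c1, hc1, hI1⟩ := sq_sub_bound hn huc hG hca
  obtain ⟨c3, hc3, hF⟩ := far_bound hn huc hs hG hca
  set om : ℝ := (volume (ball (0 : V n) 1)).toReal with hom
  have hom0 : 0 < om := volume_ball_pos
  refine ⟨K1 * (c1 + (2 ^ n * om * c1 + c3)), by positivity, fun R hR => ?_⟩
  have hR0 : 0 < R := by linarith
  set S : ℝ := R ^ s with hS
  have hS0 : 0 < S := by positivity
  obtain ⟨a, ham, ha2⟩ := hmean R hR
  have h1 := hI1 R hR a ha2
  obtain ⟨F, hF0, hFsq, hfar⟩ := hF R hR a ha2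
  -- I₂
  set I2 : ℝ := ∫ y in ball (0 : V n) (2 * R), |u y - a| with hI2
  have hI20 : 0 ≤ I2 := integral_nonneg fun _ => abs_nonneg _
  have hI2' : I2 ^ 2 ≤ 2 ^ n * om * c1 * (S * R ^ n) := by
    refine (abs_int_sq_le hn (v := fun y => u y - a) (by fun_prop) (by positivity)).trans ?_
    have h2 : ∫ y in ball (0 : V n) (2 * R), (u y - a) ^ 2 ≤ c1 * S := by
      refine le_trans ?_ h1
      refine setIntegral_mono_set (intOn_cont (by fun_prop) _)
        (Filter.Eventually.of_forall fun y => by positivity) ?_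
      exact (ball_subset_ball (by linarith)).eventuallyLE
    calc (∫ y in ball (0 : V n) (2 * R), (u y - a) ^ 2) * (om * (2 * R) ^ n)
        ≤ (c1 * S) * (om * (2 * R) ^ n) := by gcongr
      _ = _ := by rw [mul_pow]; ring
  -- the product term
  have hprod : R * I2 * F ≤ (2 ^ n * om * c1 + c3) * (S / R) := by
    have h1 : I2 * F ≤ (R ^ (n + 2))⁻¹ * I2 ^ 2 + R ^ (n + 2) * F ^ 2 := by
      have hp : 0 < R ^ (n + 2) := by positivity
      have h2 : 0 ≤ ((R ^ (n + 2))⁻¹ * I2 - F) ^ 2 * R ^ (n + 2) := by positivity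
      have h3 : ((R ^ (n + 2))⁻¹ * I2 - F) ^ 2 * R ^ (n + 2)
          = (R ^ (n + 2))⁻¹ * I2 ^ 2 - 2 * (I2 * F) + R ^ (n + 2) * F ^ 2 := by
        field_simp
        ring
      have h4 : 0 ≤ I2 * F := by positivity
      linarith
    calc R * I2 * F = R * (I2 * F) := by ring
      _ ≤ R * ((R ^ (n + 2))⁻¹ * I2 ^ 2 + R ^ (n + 2) * F ^ 2) := by gcongr
      _ ≤ R * ((R ^ (n + 2))⁻¹ * (2 ^ n * om * c1 * (S * R ^ n))
          + R ^ (n + 2) * (c3 * (S / R ^ (n + 4)))) := by gcongr
      _ = (2 ^ n * om * c1 + c3) * (S / R) := by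
          rw [pow_add, pow_add]
          field_simp
  -- conclusion
  have hlim : Tendsto (fun N : ℝ => 2 * |Bf n volume N u (fun y => (u y - a) * cut (dist y 0 / R) ^ 2)|
      + K1 * (R⁻¹ * (c1 * S) + (2 ^ n * om * c1 + c3) * (S / R))) atTop
      (𝓝 (2 * |(0:ℝ)| + K1 * (R⁻¹ * (c1 * S) + (2 ^ n * om * c1 + c3) * (S / R)))) :=
    ((hu.weak _ (isTest_cutoff hu.lip a hR0) ham).abs.const_mul 2).add_const _
  have hle : En n volume u 0 R ≤ 2 * |(0:ℝ)| + K1 * (R⁻¹ * (c1 * S) + (2 ^ n * om * c1 + c3) * (S / R)) := by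
    refine ge_of_tendsto hlim ?_
    filter_upwards [eventually_ge_atTop (8 * R)] with N hN
    refine (hcacc volume hU u hu.lip 0 R N a hR0 hN ham).trans ?_
    have hN' := hfar N
    refine add_le_add le_rfl (mul_le_mul_of_nonneg_left (add_le_add ?_ ?_) hK1.le)
    · gcongr
    · refine le_trans ?_ hprod
      rw [← hI2]
      gcongr
  refine hle.trans (le_of_eq ?_)
  rw [abs_zero, Real.rpow_sub_one hR0.ne', ← hS]
  field_simp
  ring

end Liou

end Crest.Agent.R085
end

-- ▼ part R085/LiouDiff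
section

/-!
R085 (S0113), module M6 (linear Liouville lemma), part C: the class `Sol` is closed under
differences, and one difference lowers the growth exponent by one.
-/

set_option autoImplicit false

namespace Crest.Agent.R085

open MeasureTheory Metric Set Filter
open scoped ENNReal NNReal Topology ContDiff

namespace Liou

variable {n : ℕ}

theorem integrableOn_energy (hn : 0 < n) {u : V n → ℝ}
    (hu : ∀ R : ℝ, ∃ L : ℝ≥0, LipschitzOnWith L u (ball (0 : V n) R)) {R : ℝ} (hR : 0 < R) :
    IntegrableOn (fun p : V n × V n => (u p.1 - u p.2) ^ 2 * (‖p.1 - p.2‖ ^ (n + 1))⁻¹)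
      (ball 0 R ×ˢ ball 0 R) (volume.prod volume) := by
  obtain ⟨C, hC, hU⟩ := upperReg_volume hn
  have huc := cont_of_locLip hu
  obtain ⟨L, hL⟩ := hu R
  have hm : MeasurableSet (ball (0 : V n) R ×ˢ ball (0 : V n) R) :=
    measurableSet_ball.prod measurableSet_ball
  rw [← integrable_indicator_iff hm]
  refine integrable_of_near hU hC hn 0 hR ?_ (M := (L:ℝ) ^ 2) (by positivity) ?_ ?_
  · refine Measurable.indicator ?_ hm
    have h1 : Measurable fun p : V n × V n => (u p.1 - u p.2) ^ 2 :=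
      (by fun_prop : Continuous fun p : V n × V n => (u p.1 - u p.2) ^ 2).measurable
    exact h1.mul (((measurable_fst.sub measurable_snd).norm.pow_const _).inv)
  · intro p h1 h2
    rw [indicator_of_mem (show p ∈ ball (0 : V n) R ×ˢ ball (0 : V n) R from ⟨h1, h2⟩)]
    rw [abs_of_nonneg (by positivity)]
    have h3 := hL.dist_le_mul _ h1 _ h2
    rw [Real.dist_eq, dist_eq_norm] at h3
    calc (u p.1 - u p.2) ^ 2 * (‖p.1 - p.2‖ ^ (n + 1))⁻¹
        ≤ (L * ‖p.1 - p.2‖) ^ 2 * (‖p.1 - p.2‖ ^ (n + 1))⁻¹ := by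
          rw [← sq_abs]
          gcongr
      _ = (L:ℝ) ^ 2 * (‖p.1 - p.2‖ ^ 2 * (‖p.1 - p.2‖ ^ (n + 1))⁻¹) := by ring
      _ ≤ (L:ℝ) ^ 2 * (‖p.1 - p.2‖ ^ (n - 1))⁻¹ := by
          gcongr
          exact norm_sq_mul_inv_le n hn _
  · intro p hp
    rw [indicator_of_notMem]
    intro h
    exact hp ⟨h.1, h.2⟩

theorem diff_le_energy (hn : 0 < n) {u : V n → ℝ}
    (hu : ∀ R : ℝ, ∃ L : ℝ≥0, LipschitzOnWith L u (ball (0 : V n) R)) (h : V n) :
    ∃ c : ℝ, 0 ≤ c ∧ ∀ R : ℝ, 1 ≤ R →
      ∫ x in ball (0 : V n) R, (u (x + h) - u x) ^ 2 ≤ c * En n volume u 0 (R + ‖h‖) := by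
  have huc := cont_of_locLip hu
  by_cases hh : h = 0
  · refine ⟨0, le_rfl, fun R _ => ?_⟩
    simp [hh]
  have hδ : 0 < ‖h‖ := norm_pos_iff.2 hh
  set δ : ℝ := ‖h‖ with hδdef
  set v : ℝ := (volume (ball (0 : V n) δ)).toReal with hv
  have hv0 : 0 < v :=
    ENNReal.toReal_pos (measure_ball_pos volume 0 hδ).ne' measure_ball_lt_top.ne
  set D : ℝ := 2 * (2 * δ) ^ (n + 1) with hD
  have hD0 : 0 < D := by positivity
  refine ⟨2 * D / v, by positivity, fun R hR => ?_⟩
  have hR0 : 0 < R := by linarith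
  have hB0 : 0 < R + δ := by linarith
  set B : Set (V n) := ball (0 : V n) (R + δ) with hB
  have hBm : MeasurableSet B := measurableSet_ball
  set e : V n × V n → ℝ≥0∞ := fun p =>
    ENNReal.ofReal ((u p.1 - u p.2) ^ 2 * (‖p.1 - p.2‖ ^ (n + 1))⁻¹) with he
  have hem : Measurable e := by
    have h1 : Measurable fun p : V n × V n => (u p.1 - u p.2) ^ 2 :=
      (by fun_prop : Continuous fun p : V n × V n => (u p.1 - u p.2) ^ 2).measurable
    exact (h1.mul (((measurable_fst.sub measurable_snd).norm.pow_const _).inv)).ennreal_ofReal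
  set G : V n → ℝ≥0∞ := fun x => ∫⁻ z in B, e (x, z) with hG
  have hGm : Measurable G := hem.lintegral_prod_right'
  -- pointwise kernel bound
  have hker : ∀ x z : V n, ‖x - z‖ < 2 * δ →
      ENNReal.ofReal (2 * (u x - u z) ^ 2) ≤ ENNReal.ofReal D * e (x, z) := by
    intro x z hxz
    rw [he, ← ENNReal.ofReal_mul hD0.le]
    refine ENNReal.ofReal_le_ofReal ?_
    simp only
    by_cases h0 : x = z
    · rw [h0]; simp
    · have hp : 0 < ‖x - z‖ := norm_pos_iff.2 (sub_ne_zero.2 h0)
      have : 1 ≤ (2 * δ) ^ (n + 1) * (‖x - z‖ ^ (n + 1))⁻¹ := by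
        rw [← div_eq_mul_inv, one_le_div (by positivity)]
        gcongr
      calc 2 * (u x - u z) ^ 2 = 2 * (u x - u z) ^ 2 * 1 := by ring
        _ ≤ 2 * (u x - u z) ^ 2 * ((2 * δ) ^ (n + 1) * (‖x - z‖ ^ (n + 1))⁻¹) := by gcongr
        _ = _ := by rw [hD]; ring
  have hpt : ∀ x ∈ ball (0 : V n) R,
      ENNReal.ofReal v * ENNReal.ofReal ((u (x + h) - u x) ^ 2)
        ≤ ENNReal.ofReal D * (G (x + h) + G x) := by
    intro x hx
    have hx' : ‖x‖ < R := by simpa using hx
    have hsub : ball x δ ⊆ B := by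
      intro z hz
      rw [mem_ball, dist_eq_norm] at hz
      rw [hB, mem_ball_zero_iff]
      have := norm_add_le (z - x) x
      rw [sub_add_cancel] at this
      linarith
    have hvol : volume (ball x δ) = ENNReal.ofReal v := by
      rw [hv, ENNReal.ofReal_toReal measure_ball_lt_top.ne, Measure.addHaar_ball_center]
    calc ENNReal.ofReal v * ENNReal.ofReal ((u (x + h) - u x) ^ 2)
        = ∫⁻ _z in ball x δ, ENNReal.ofReal ((u (x + h) - u x) ^ 2) := by
          rw [setLIntegral_const, hvol, mul_comm]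
      _ ≤ ∫⁻ z in ball x δ, (ENNReal.ofReal D * e (x + h, z) + ENNReal.ofReal D * e (x, z)) := by
          refine setLIntegral_mono' measurableSet_ball fun z hz => ?_
          rw [mem_ball, dist_eq_norm] at hz
          have h1 : ‖x + h - z‖ < 2 * δ := by
            have : x + h - z = h - (z - x) := by abel
            rw [this]
            refine (norm_sub_le _ _).trans_lt ?_
            linarith
          have h2 : ‖x - z‖ < 2 * δ := by
            rw [norm_sub_rev]; linarith
          refine le_trans ?_ (add_le_add (hker _ _ h1) (hker _ _ h2))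
          rw [← ENNReal.ofReal_add (by positivity) (by positivity)]
          refine ENNReal.ofReal_le_ofReal ?_
          nlinarith [sq_nonneg ((u (x + h) - u z) + (u x - u z))]
      _ ≤ ∫⁻ z in B, (ENNReal.ofReal D * e (x + h, z) + ENNReal.ofReal D * e (x, z)) :=
          lintegral_mono_set hsub
      _ = ENNReal.ofReal D * (G (x + h) + G x) := by
          have m1 : Measurable fun z => e (x + h, z) := hem.comp measurable_prodMk_left
          have m2 : Measurable fun z => e (x, z) := hem.comp measurable_prodMk_left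
          rw [lintegral_add_left (m1.const_mul _), lintegral_const_mul _ m1,
            lintegral_const_mul _ m2, mul_add]
  have hGsum : ∫⁻ x in B, G x = ENNReal.ofReal (En n volume u 0 (R + δ)) := by
    unfold En
    rw [ofReal_integral_eq_lintegral_ofReal (integrableOn_energy hn hu hB0)
      (Filter.Eventually.of_forall fun p => by positivity)]
    rw [← Measure.prod_restrict, lintegral_prod _ hem.aemeasurable]
  have hshift : ∫⁻ x in ball (0 : V n) R, G (x + h) ≤ ∫⁻ x in B, G x := by
    rw [← lintegral_indicator measurableSet_ball, ← lintegral_indicator hBm]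
    rw [← lintegral_add_right_eq_self (fun x => B.indicator G x) h]
    refine lintegral_mono fun x => ?_
    by_cases hx : x ∈ ball (0 : V n) R
    · have hxB : x + h ∈ B := by
        rw [hB, mem_ball_zero_iff]
        rw [mem_ball_zero_iff] at hx
        have := norm_add_le x h
        linarith
      rw [indicator_of_mem hx, indicator_of_mem hxB]
    · rw [indicator_of_notMem hx]
      exact bot_le
  have hshift2 : ∫⁻ x in ball (0 : V n) R, G x ≤ ∫⁻ x in B, G x :=
    lintegral_mono_set (ball_subset_ball (by linarith))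
  have hmain : ENNReal.ofReal v * ENNReal.ofReal (∫ x in ball (0 : V n) R, (u (x + h) - u x) ^ 2)
      ≤ ENNReal.ofReal (2 * D * En n volume u 0 (R + δ)) := by
    have hcont : Continuous fun x => (u (x + h) - u x) ^ 2 := by fun_prop
    rw [ofReal_integral_eq_lintegral_ofReal (intOn_cont hcont R)
      (Filter.Eventually.of_forall fun p => by positivity),
      ← lintegral_const_mul _ (by fun_prop)]
    calc ∫⁻ x in ball (0 : V n) R, ENNReal.ofReal v * ENNReal.ofReal ((u (x + h) - u x) ^ 2)
        ≤ ∫⁻ x in ball (0 : V n) R, ENNReal.ofReal D * (G (x + h) + G x) :=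
          setLIntegral_mono' measurableSet_ball hpt
      _ = ENNReal.ofReal D * ((∫⁻ x in ball (0 : V n) R, G (x + h))
          + ∫⁻ x in ball (0 : V n) R, G x) := by
          have m1 : Measurable fun x => G (x + h) := hGm.comp (measurable_add_const h)
          have m2 : Measurable fun x => G (x + h) + G x := m1.add hGm
          rw [lintegral_const_mul _ m2, lintegral_add_left m1]
      _ ≤ ENNReal.ofReal D * ((∫⁻ x in B, G x) + ∫⁻ x in B, G x) := by gcongr
      _ = ENNReal.ofReal (2 * D * En n volume u 0 (R + δ)) := by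
          rw [hGsum, ← two_mul, mul_comm 2 D, mul_assoc, ENNReal.ofReal_mul hD0.le,
            ENNReal.ofReal_mul (by norm_num : (0:ℝ) ≤ 2)]
          norm_num
  have hEn0 : 0 ≤ En n volume u 0 (R + δ) := integral_nonneg fun p => by positivity
  rw [← ENNReal.ofReal_mul hv0.le] at hmain
  have := (ENNReal.ofReal_le_ofReal_iff (by positivity)).1 hmain
  rw [div_mul_eq_mul_div, le_div_iff₀ hv0]
  linarith

theorem Sol.gr_diff (hn : 0 < n) {u : V n → ℝ} (hu : Sol u) {K s : ℝ} (hs : s < n + 4)
    (hG : Gr K s u) (h : V n) : ∃ K' : ℝ, Gr K' (s - 1) (fun x => u (x + h) - u x) := by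
  obtain ⟨C, hC, hE⟩ := energy_le hn hu hs hG
  obtain ⟨c, hc, hd⟩ := diff_le_energy hn hu.lip h
  refine ⟨c * (C * (1 + ‖h‖) ^ |s - 1|), fun R hR => ?_⟩
  have hR0 : 0 < R := by linarith
  have hh := norm_nonneg h
  refine (hd R hR).trans ?_
  rw [mul_assoc]
  refine mul_le_mul_of_nonneg_left ((hE (R + ‖h‖) (by linarith)).trans ?_) hc
  rw [mul_assoc]
  refine mul_le_mul_of_nonneg_left ?_ hC
  rcases le_total 0 (s - 1) with h1 | h1
  · rw [abs_of_nonneg h1, ← Real.mul_rpow (by positivity) hR0.le]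
    refine Real.rpow_le_rpow (by positivity) ?_ h1
    nlinarith
  · calc (R + ‖h‖) ^ (s - 1) ≤ R ^ (s - 1) :=
          Real.rpow_le_rpow_of_nonpos hR0 (by linarith) h1
      _ = 1 * R ^ (s - 1) := (one_mul _).symm
      _ ≤ (1 + ‖h‖) ^ |s - 1| * R ^ (s - 1) := by
          gcongr
          exact Real.one_le_rpow (by linarith) (abs_nonneg _)

theorem Bf_eq_shear (N : ℝ) (u ψ : V n → ℝ) :
    Bf n volume N u ψ = (1 / 2 : ℝ) * ∫ p : V n × V n,
      (u p.1 - u (p.1 + p.2)) * (ψ p.1 - ψ (p.1 + p.2)) * kN n N p.2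
        ∂((volume : Measure (V n)).prod volume) := by
  unfold Bf
  congr 1
  have hmp : MeasurePreserving (fun z : V n × V n => (z.1, z.1 + z.2))
      ((volume : Measure (V n)).prod volume) ((volume : Measure (V n)).prod volume) :=
    measurePreserving_prod_add _ _
  rw [← hmp.integral_comp (MeasurableEquiv.shearAddRight (V n)).measurableEmbedding]
  refine integral_congr_ae (Filter.Eventually.of_forall fun p => ?_)
  simp only
  rw [show p.1 - (p.1 + p.2) = -p.2 by abel, kN_neg]

theorem locLip_shift {u : V n → ℝ}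
    (hu : ∀ R : ℝ, ∃ L : ℝ≥0, LipschitzOnWith L u (ball (0 : V n) R)) (h : V n) (R : ℝ) :
    ∃ L : ℝ≥0, LipschitzOnWith L (fun x => u (x + h)) (ball (0 : V n) R) := by
  obtain ⟨L, hL⟩ := hu (R + ‖h‖)
  refine ⟨L, LipschitzOnWith.of_dist_le_mul fun x hx y hy => ?_⟩
  have hmem : ∀ z ∈ ball (0 : V n) R, z + h ∈ ball (0 : V n) (R + ‖h‖) := by
    intro z hz
    rw [mem_ball_zero_iff] at hz ⊢
    exact (norm_add_le _ _).trans_lt (by linarith)
  have := hL.dist_le_mul _ (hmem x hx) _ (hmem y hy)
  rwa [dist_add_right] at this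

theorem Bf_sub_left (hn : 0 < n) {u v ψ : V n → ℝ}
    (hu : ∀ R : ℝ, ∃ L : ℝ≥0, LipschitzOnWith L u (ball (0 : V n) R))
    (hv : ∀ R : ℝ, ∃ L : ℝ≥0, LipschitzOnWith L v (ball (0 : V n) R)) (hψ : IsTest ψ)
    {N : ℝ} (hN : 0 < N) :
    Bf n volume N (fun x => u x - v x) ψ = Bf n volume N u ψ - Bf n volume N v ψ := by
  rw [Bf_eq_shear, Bf_eq_shear, Bf_eq_shear, ← mul_sub,
    ← integral_sub (integrable_shear hn hu hψ hN) (integrable_shear hn hv hψ hN)]
  congr 1
  refine integral_congr_ae (Filter.Eventually.of_forall fun p => ?_)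
  simp only
  ring

theorem Bf_shift (hn : 0 < n) {u ψ : V n → ℝ} {h : V n}
    (hu : ∀ R : ℝ, ∃ L : ℝ≥0, LipschitzOnWith L u (ball (0 : V n) R)) (hψ : IsTest ψ)
    (hψ' : IsTest (fun x => ψ (x - h))) {N : ℝ} (hN : 0 < N) :
    Bf n volume N (fun x => u (x + h)) ψ = Bf n volume N u (fun x => ψ (x - h)) := by
  rw [Bf_eq_h hn (locLip_shift hu h) hψ hN, Bf_eq_h hn hu hψ' hN]
  congr 1
  refine integral_congr_ae (Filter.Eventually.of_forall fun k => ?_)
  simp only
  congr 1
  rw [← integral_add_right_eq_self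
    (fun x => u x * (2 * ψ (x - h) - ψ (x + k - h) - ψ (x - k - h))) h]
  refine integral_congr_ae (Filter.Eventually.of_forall fun x => ?_)
  simp only
  rw [show x + h - h = x by abel, show x + h + k - h = x + k by abel,
    show x + h - k - h = x - k by abel]

theorem isTest_shift {ψ : V n → ℝ} (hψ : IsTest ψ) (h : V n) : IsTest (fun x => ψ (x - h)) := by
  obtain ⟨K, hK⟩ := hψ.lip
  refine ⟨⟨K, ?_⟩, ?_⟩
  · refine LipschitzWith.of_dist_le_mul fun x y => ?_
    have := hK.dist_le_mul (x - h) (y - h)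
    rwa [dist_sub_right] at this
  · have := hψ.cpt.comp_homeomorph (Homeomorph.addRight (-h))
    have e : (fun x => ψ (x - h)) = ψ ∘ (Homeomorph.addRight (-h)) := by
      funext x
      simp [sub_eq_add_neg]
    rw [e]
    exact this

theorem Sol.diff {n : ℕ} (hn : 0 < n) {u : V n → ℝ} (hu : Sol u) (h : V n) :
    Sol (fun x => u (x + h) - u x) := by
  refine ⟨fun R => ?_, fun ψ hψ h0 => ?_⟩
  · obtain ⟨L, hL⟩ := hu.lip R
    obtain ⟨L', hL'⟩ := locLip_shift hu.lip h R
    exact ⟨L' + L, hL'.sub hL⟩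
  · have hψ' := isTest_shift hψ h
    have h0' : ∫ x, ψ (x - h) = 0 := by
      rw [integral_sub_right_eq_self (fun x => ψ x) h]
      exact h0
    have h1 := (hu.weak _ hψ' h0').sub (hu.weak ψ hψ h0)
    rw [sub_zero] at h1
    refine h1.congr' ?_
    filter_upwards [eventually_gt_atTop 0] with N hN
    rw [Bf_sub_left hn (locLip_shift hu.lip h) hu.lip hψ hN, Bf_shift hn hu.lip hψ hψ' hN]

end Liou

end Crest.Agent.R085
end

-- ▼ part R085/LiouSol
section

/-!
R085 (S0113), module M6 (LL-A): locally Lipschitz solutions of growth `s < n + 4` are affine.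
-/

set_option autoImplicit false

namespace Crest.Agent.R085

open MeasureTheory Metric Set Filter
open scoped ENNReal NNReal Topology

namespace Liou

theorem continuous_of_locLip {n : ℕ} {u : V n → ℝ}
    (hu : ∀ R : ℝ, ∃ L : ℝ≥0, LipschitzOnWith L u (ball (0 : V n) R)) : Continuous u := by
  rw [continuous_iff_continuousAt]
  intro x
  obtain ⟨R, hR⟩ : ∃ R : ℝ, ‖x‖ < R := exists_gt _
  obtain ⟨L, hL⟩ := hu R
  exact hL.continuousOn.continuousAt (isOpen_ball.mem_nhds (by simpa using hR))

theorem Sol.affine {n : ℕ} (hn : 0 < n) {u : V n → ℝ} (hu : Sol u) {K s : ℝ} (hs : s < n + 4)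
    (hG : Gr K s u) : ∃ (ℓ : V n →L[ℝ] ℝ) (c : ℝ), ∀ x, u x = ℓ x + c := by
  obtain ⟨a, L, h⟩ := affine_of_class (fun u : V n → ℝ => Sol u)
    (fun u hu => continuous_of_locLip hu.lip)
    (fun u h hu => Liou.Sol.diff hn hu h)
    (fun u hu K s hs hG h => Liou.Sol.gr_diff hn hu hs hG h) hu hs hG
  exact ⟨L, a, fun x => by rw [h x, add_comm]⟩

theorem Sol.const {n : ℕ} (hn : 0 < n) {u : V n → ℝ} (hu : Sol u) {K s : ℝ} (hs : s < n + 2)
    (hG : Gr K s u) : ∀ x, u x = u 0 :=
  const_of_class (fun u : V n → ℝ => Sol u)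
    (fun u hu => continuous_of_locLip hu.lip)
    (fun u h hu => Liou.Sol.diff hn hu h)
    (fun u hu K s hs hG h => Liou.Sol.gr_diff hn hu hs hG h) hu hs hG

end Liou

end Crest.Agent.R085
end

-- ▼ part R085/LiouMoll

/-!
R085 (S0113), module M6 (LL-B): mollification, and the `L²_loc` form of the Liouville theorem.
-/

set_option autoImplicit false

namespace Crest.Agent.R085

open MeasureTheory Metric Set Filter ContinuousLinearMap
open scoped ENNReal NNReal Topology ContDiff Convolution

namespace Liou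

/-- mollifier -/
structure Moll {n : ℕ} (ρ : V n → ℝ) : Prop where
  smooth : ContDiff ℝ ∞ ρ
  cpt : HasCompactSupport ρ
  nonneg : ∀ x, 0 ≤ ρ x
  integral : ∫ x, ρ x = 1
  supp : ∀ x, 1 ≤ ‖x‖ → ρ x = 0
  even : ∀ x, ρ (-x) = ρ x

/-- convolution with a mollifier -/
noncomputable def mo {n : ℕ} (ρ T : V n → ℝ) (x : V n) : ℝ := ∫ t, ρ t * T (x - t)

variable {n : ℕ} {ρ T : V n → ℝ}

theorem mo_eq : mo ρ T = (ρ ⋆[lsmul ℝ ℝ, volume] T) := by
  funext x
  rw [convolution_def]
  rfl

theorem mo_smooth (hρ : Moll ρ) (hT : LocallyIntegrable T volume) : ContDiff ℝ ∞ (mo ρ T) := by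
  rw [mo_eq]
  exact hρ.cpt.contDiff_convolution_left _ hρ.smooth hT

theorem mo_integrable (hρ : Moll ρ) (hT : LocallyIntegrable T volume) (x : V n) :
    Integrable (fun t => ρ t * T (x - t)) :=
  (hρ.cpt.convolutionExists_left (lsmul ℝ ℝ) hρ.smooth.continuous hT) x

theorem locLip_of_smooth {u : V n → ℝ} (hu : ContDiff ℝ ∞ u) (R : ℝ) :
    ∃ L : ℝ≥0, LipschitzOnWith L u (ball (0 : V n) R) := by
  have h1 : Continuous (fun x => ‖fderiv ℝ u x‖) := (hu.continuous_fderiv (by simp)).norm
  obtain ⟨C, hC⟩ := (isCompact_closedBall (0 : V n) R).exists_bound_of_continuousOn h1.continuousOn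
  refine ⟨Real.toNNReal C, ?_⟩
  apply Convex.lipschitzOnWith_of_nnnorm_fderiv_le (𝕜 := ℝ)
  · intro x _
    exact (hu.differentiable (by simp)).differentiableAt
  · intro x hx
    have := hC x (ball_subset_closedBall hx)
    rw [← NNReal.coe_le_coe]
    simp only [norm_norm] at this
    exact this.trans (Real.le_coe_toNNReal C)
  · exact convex_ball _ _

theorem mo_sq_le (hρ : Moll ρ) (hT : LocallyIntegrable T volume)
    (hT2 : LocallyIntegrable (fun x => T x ^ 2) volume) (x : V n) :
    mo ρ T x ^ 2 ≤ mo ρ (fun x => T x ^ 2) x := by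
  set m := mo ρ T x with hm
  have i1 := mo_integrable hρ hT x
  have i2 := mo_integrable hρ hT2 x
  have i0 : Integrable ρ := hρ.smooth.continuous.integrable_of_hasCompactSupport hρ.cpt
  have h0 : 0 ≤ ∫ t, ρ t * (T (x - t) - m) ^ 2 :=
    integral_nonneg fun t => mul_nonneg (hρ.nonneg t) (sq_nonneg _)
  have h1 : ∫ t, ρ t * (T (x - t) - m) ^ 2 =
      (∫ t, ρ t * T (x - t) ^ 2) - 2 * m * (∫ t, ρ t * T (x - t)) + m ^ 2 * ∫ t, ρ t := by
    have i3 : Integrable (fun t => ρ t * T (x - t) ^ 2 - 2 * m * (ρ t * T (x - t))) :=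
      i2.sub (i1.const_mul _)
    rw [← integral_const_mul, ← integral_const_mul, ← integral_sub i2 (i1.const_mul _),
      ← integral_add i3 (i0.const_mul _)]
    congr 1
    funext t
    ring
  rw [h1, hρ.integral] at h0
  have h2 : ∫ t, ρ t * T (x - t) = m := hm.symm
  rw [h2] at h0
  simp only [mo]
  nlinarith

theorem mo_growth (hρ : Moll ρ) (hT2 : LocallyIntegrable (fun x => T x ^ 2) volume)
    (hT : LocallyIntegrable T volume) (R : ℝ) :
    ∫ x in ball (0 : V n) R, mo ρ T x ^ 2 ≤ ∫ x in ball (0 : V n) (R + 1), T x ^ 2 := by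
  set g : V n → ℝ := (ball (0 : V n) (R + 1)).indicator (fun x => T x ^ 2) with hg
  have hgi : Integrable g := by
    rw [hg, integrable_indicator_iff measurableSet_ball]
    exact (hT2.integrableOn_isCompact (isCompact_closedBall 0 (R + 1))).mono_set
      ball_subset_closedBall
  have i0 : Integrable ρ := hρ.smooth.continuous.integrable_of_hasCompactSupport hρ.cpt
  have hmo2 : Continuous (mo ρ (fun x => T x ^ 2)) := (mo_smooth hρ hT2).continuous
  have hmo1 : Continuous (mo ρ T) := (mo_smooth hρ hT).continuous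
  have a1 : ∫ x in ball (0 : V n) R, mo ρ T x ^ 2 ≤
      ∫ x in ball (0 : V n) R, mo ρ (fun x => T x ^ 2) x := by
    apply setIntegral_mono
    · exact ((hmo1.pow 2).continuousOn.integrableOn_compact (isCompact_closedBall 0 R)).mono_set
        ball_subset_closedBall
    · exact (hmo2.continuousOn.integrableOn_compact (isCompact_closedBall 0 R)).mono_set
        ball_subset_closedBall
    · exact fun x => mo_sq_le hρ hT hT2 x
  have a2 : ∫ x in ball (0 : V n) R, mo ρ (fun x => T x ^ 2) x =
      ∫ x in ball (0 : V n) R, mo ρ g x := by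
    apply setIntegral_congr_fun measurableSet_ball
    intro x hx
    simp only [mo]
    congr 1
    funext t
    by_cases ht : 1 ≤ ‖t‖
    · rw [hρ.supp t ht]; simp
    · push Not at ht
      congr 1
      rw [hg, indicator_of_mem]
      rw [mem_ball, dist_zero_right] at *
      calc ‖x - t‖ ≤ ‖x‖ + ‖t‖ := norm_sub_le _ _
        _ < R + 1 := by linarith
  have hgnn : ∀ x, 0 ≤ g x := fun x => indicator_nonneg (fun y _ => sq_nonneg _) x
  have a3 : ∫ x in ball (0 : V n) R, mo ρ g x ≤ ∫ x, mo ρ g x := by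
    apply setIntegral_le_integral
    · rw [mo_eq]
      exact i0.integrable_convolution _ hgi
    · exact Eventually.of_forall fun x =>
        integral_nonneg fun t => mul_nonneg (hρ.nonneg t) (hgnn _)
  have a4 : ∫ x, mo ρ g x = ∫ x in ball (0 : V n) (R + 1), T x ^ 2 := by
    rw [mo_eq, integral_convolution (lsmul ℝ ℝ) i0 hgi, hρ.integral, hg,
      integral_indicator measurableSet_ball]
    simp
  linarith

/-- duality: `∫ (ρ * T) g = ∫ T (ρ * g)` for even `ρ` and `g` continuous compactly supported -/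
theorem mo_dual (hρ : Moll ρ) (hT : LocallyIntegrable T volume) {g : V n → ℝ}
    (hg : Continuous g) (hgc : HasCompactSupport g) :
    ∫ x, mo ρ T x * g x = ∫ z, T z * mo ρ g z := by
  obtain ⟨R, hR⟩ := hgc.isCompact.isBounded.subset_closedBall (0 : V n)
  have hg0 : ∀ x, R < ‖x‖ → g x = 0 := by
    intro x hx
    apply image_eq_zero_of_notMem_tsupport
    intro h
    have := hR h
    rw [mem_closedBall, dist_zero_right] at this
    linarith
  obtain ⟨B, hB⟩ := hgc.exists_bound_of_continuous hg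
  set T' : V n → ℝ := (closedBall (0 : V n) (R + 1)).indicator T with hT'
  have hT'i : Integrable T' := by
    rw [hT', integrable_indicator_iff measurableSet_closedBall]
    exact hT.integrableOn_isCompact (isCompact_closedBall 0 (R + 1))
  have i0 : Integrable ρ := hρ.smooth.continuous.integrable_of_hasCompactSupport hρ.cpt
  -- replace `T` by `T'`
  have e1 : ∫ x, mo ρ T x * g x = ∫ x, ∫ t, ρ t * T' (x - t) * g x := by
    congr 1
    funext x
    by_cases hx : R < ‖x‖
    · simp [hg0 x hx]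
    · push Not at hx
      rw [mo, ← integral_mul_const]
      congr 1
      funext t
      by_cases ht : 1 ≤ ‖t‖
      · rw [hρ.supp t ht]; simp
      · push Not at ht
        congr 2
        rw [hT', indicator_of_mem]
        rw [mem_closedBall, dist_zero_right]
        calc ‖x - t‖ ≤ ‖x‖ + ‖t‖ := norm_sub_le _ _
          _ ≤ R + 1 := by linarith
  have hint : Integrable (fun p : V n × V n => ρ p.2 * T' (p.1 - p.2) * g p.1)
      (volume.prod volume) := by
    have h1 : Integrable (fun p : V n × V n => ρ p.2 * T' (p.1 - p.2)) (volume.prod volume) :=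
      i0.convolution_integrand (lsmul ℝ ℝ) hT'i
    exact h1.mul_bdd (c := B) (hg.comp continuous_fst).aestronglyMeasurable
      (Eventually.of_forall fun p => hB p.1)
  have e2 : ∫ x, ∫ t, ρ t * T' (x - t) * g x = ∫ t, ∫ x, ρ t * T' (x - t) * g x :=
    integral_integral_swap hint
  have e3 : ∀ t, ∫ x, ρ t * T' (x - t) * g x = ∫ z, ρ t * T' z * g (z + t) := by
    intro t
    rw [← integral_add_right_eq_self (fun x => ρ t * T' (x - t) * g x) t]
    simp
  have hint2 : Integrable (fun p : V n × V n => ρ p.1 * T' p.2 * g (p.2 + p.1))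
      (volume.prod volume) := by
    have h1 : Integrable (fun p : V n × V n => ρ p.1 * T' p.2) (volume.prod volume) :=
      i0.mul_prod hT'i
    exact h1.mul_bdd (c := B) (hg.comp (continuous_snd.add continuous_fst)).aestronglyMeasurable
      (Eventually.of_forall fun p => hB _)
  have e4 : ∫ t, ∫ z, ρ t * T' z * g (z + t) = ∫ z, ∫ t, ρ t * T' z * g (z + t) :=
    integral_integral_swap hint2
  rw [e1, e2]
  simp_rw [e3]
  rw [e4]
  congr 1
  funext z
  by_cases hz : ‖z‖ ≤ R + 1
  · have hT'z : T' z = T z := by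
      rw [hT', indicator_of_mem]
      rwa [mem_closedBall, dist_zero_right]
    rw [hT'z, mo, ← integral_const_mul, ← integral_neg_eq_self (fun t => ρ t * T z * g (z + t))]
    congr 1
    funext t
    rw [hρ.even, ← sub_eq_add_neg]
    ring
  · push Not at hz
    have h1 : T' z = 0 := by
      rw [hT', indicator_of_notMem]
      rw [mem_closedBall, dist_zero_right]
      linarith
    have h2 : mo ρ g z = 0 := by
      rw [mo]
      rw [show (fun t => ρ t * g (z - t)) = fun _ => 0 from ?_]
      · simp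
      funext t
      by_cases ht : 1 ≤ ‖t‖
      · rw [hρ.supp t ht]; simp
      · push Not at ht
        rw [hg0 (z - t)]
        · simp
        · have := norm_sub_norm_le z t
          linarith
    simp [h1, h2]

/-- symmetric second difference -/
def D2 {n : ℕ} (h : V n) (ψ : V n → ℝ) (x : V n) : ℝ := 2 * ψ x - ψ (x + h) - ψ (x - h)

theorem mo_D2 (hρ : Moll ρ) {ψ : V n → ℝ} (hψ : Continuous ψ) (h z : V n) :
    mo ρ (D2 h ψ) z = D2 h (mo ρ ψ) z := by
  have hl : LocallyIntegrable ψ volume := hψ.locallyIntegrable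
  have i1 := mo_integrable hρ hl z
  have i2 := mo_integrable hρ hl (z + h)
  have i3 := mo_integrable hρ hl (z - h)
  simp only [mo, D2]
  have i4 : Integrable (fun t => 2 * (ρ t * ψ (z - t)) - ρ t * ψ (z + h - t)) :=
    (i1.const_mul 2).sub i2
  rw [← integral_const_mul, ← integral_sub (i1.const_mul 2) i2, ← integral_sub i4 i3]
  congr 1
  funext t
  rw [show z + h - t = z - t + h by abel, show z - h - t = z - t - h by abel]
  ring

theorem continuous_D2 {ψ : V n → ℝ} (hψ : Continuous ψ) (h : V n) : Continuous (D2 h ψ) := by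
  unfold D2
  fun_prop

theorem hasCompactSupport_D2 {ψ : V n → ℝ} (hψ : HasCompactSupport ψ) (h : V n) :
    HasCompactSupport (D2 h ψ) := by
  have h1 : HasCompactSupport (fun x => ψ (x + h)) :=
    hψ.comp_homeomorph (Homeomorph.addRight h)
  have h2 : HasCompactSupport (fun x => ψ (x - h)) :=
    hψ.comp_homeomorph (Homeomorph.subRight h)
  have h3 : HasCompactSupport (fun x => 2 * ψ x) := hψ.mul_left
  exact (h3.sub h1).sub h2

theorem mo_smTest (hρ : Moll ρ) {ψ : V n → ℝ} (hψ : IsTest ψ) (h0 : ∫ x, ψ x = 0) :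
    SmTest (mo ρ ψ) := by
  obtain ⟨K, hK⟩ := hψ.lip
  have hc : Continuous ψ := hK.continuous
  refine ⟨mo_smooth hρ hc.locallyIntegrable, ?_, ?_⟩
  · rw [mo_eq]
    exact hρ.cpt.convolution _ hψ.cpt
  · rw [mo_eq, integral_convolution (lsmul ℝ ℝ)
      (hρ.smooth.continuous.integrable_of_hasCompactSupport hρ.cpt)
      (hc.integrable_of_hasCompactSupport hψ.cpt), h0]
    simp

theorem locallyIntegrable_of_memLp
    (hT : ∀ R : ℝ, MemLp T 2 (volume.restrict (ball (0 : V n) R))) :
    LocallyIntegrable T volume := by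
  intro x
  obtain ⟨R, hR⟩ : ∃ R : ℝ, ‖x‖ < R := exists_gt _
  refine ⟨ball 0 R, isOpen_ball.mem_nhds (by simpa using hR), ?_⟩
  have : IsFiniteMeasure (volume.restrict (ball (0 : V n) R)) :=
    ⟨by rw [Measure.restrict_apply_univ]; exact measure_ball_lt_top⟩
  exact (hT R).integrable (by norm_num)

theorem locallyIntegrable_sq_of_memLp
    (hT : ∀ R : ℝ, MemLp T 2 (volume.restrict (ball (0 : V n) R))) :
    LocallyIntegrable (fun x => T x ^ 2) volume := by
  intro x
  obtain ⟨R, hR⟩ : ∃ R : ℝ, ‖x‖ < R := exists_gt _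
  refine ⟨ball 0 R, isOpen_ball.mem_nhds (by simpa using hR), ?_⟩
  exact (hT R).integrable_sq

/-- the mollification is a solution -/
theorem mo_sol (hn : 0 < n) (hρ : Moll ρ) {K s : ℝ} (hs : s < n + 4)
    (hT : ∀ R : ℝ, MemLp T 2 (volume.restrict (ball (0 : V n) R))) (hG : Gr K s T)
    (hw : ∀ ψ : V n → ℝ, SmTest ψ → ∫ x, T x * Lam ψ x = 0) : Sol (mo ρ T) := by
  have hTl := locallyIntegrable_of_memLp hT
  have hsm := mo_smooth hρ hTl
  refine ⟨locLip_of_smooth hsm, fun ψ hψ h0 => ?_⟩
  obtain ⟨L, hL⟩ := hψ.lip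
  have hψc : Continuous ψ := hL.continuous
  have hφ := mo_smTest hρ hψ h0
  have key : ∀ᶠ N : ℝ in atTop, Bf n volume N (mo ρ T) ψ =
      (1 / 2 : ℝ) * ∫ x, T x * LamN N (mo ρ ψ) x := by
    filter_upwards [eventually_gt_atTop 0] with N hN
    rw [Bf_eq_h hn (locLip_of_smooth hsm) hψ hN,
      integral_LamN_eq_h hn hTl hφ.smooth hφ.cpt hN]
    congr 2
    funext h
    congr 1
    have := mo_dual hρ hTl (continuous_D2 hψc h) (hasCompactSupport_D2 hψ.cpt h)
    simp only [D2] at this
    rw [this]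
    congr 1
    funext z
    congr 1
    exact mo_D2 hρ hψc h z
  have lim := (tendsto_integral_LamN hn hs hT hG hφ).const_mul (1 / 2 : ℝ)
  rw [hw _ hφ, mul_zero] at lim
  exact lim.congr' (key.mono fun N h => h.symm)

theorem mo_gr (hρ : Moll ρ) {K s : ℝ}
    (hT : ∀ R : ℝ, MemLp T 2 (volume.restrict (ball (0 : V n) R))) (hG : Gr K s T) :
    Gr (K * max 1 (2 ^ s)) s (mo ρ T) := by
  intro R hR
  have h1 := mo_growth hρ (locallyIntegrable_sq_of_memLp hT) (locallyIntegrable_of_memLp hT) R
  have h2 := hG (R + 1) (by linarith)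
  have hK : 0 ≤ K := by
    have := hG 1 le_rfl
    rw [Real.one_rpow, mul_one] at this
    exact (setIntegral_nonneg measurableSet_ball fun x _ => sq_nonneg _).trans this
  have h3 : (R + 1) ^ s ≤ max 1 (2 ^ s) * R ^ s := by
    rcases le_or_gt 0 s with h | h
    · calc (R + 1) ^ s ≤ (2 * R) ^ s := Real.rpow_le_rpow (by linarith) (by linarith) h
        _ = 2 ^ s * R ^ s := Real.mul_rpow (by norm_num) (by linarith)
        _ ≤ _ := by gcongr; exact le_max_right _ _
    · calc (R + 1) ^ s ≤ R ^ s := Real.rpow_le_rpow_of_nonpos (by linarith) (by linarith) h.le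
        _ = 1 * R ^ s := (one_mul _).symm
        _ ≤ _ := by gcongr; exact le_max_left _ _
  calc ∫ x in ball (0 : V n) R, mo ρ T x ^ 2 ≤ K * (R + 1) ^ s := h1.trans h2
    _ ≤ K * (max 1 (2 ^ s) * R ^ s) := by gcongr
    _ = _ := by ring

/-- an a.e. limit of affine functions is a.e. affine -/
theorem affine_of_ae_tendsto {f : ℕ → V n → ℝ}
    (hf : ∀ k, ∃ (ℓ : V n →L[ℝ] ℝ) (c : ℝ), ∀ x, f k x = ℓ x + c)
    (hlim : ∀ᵐ x ∂(volume : Measure (V n)), Tendsto (fun k => f k x) atTop (𝓝 (T x))) :
    ∃ (ℓ : V n →L[ℝ] ℝ) (c : ℝ), T =ᵐ[volume] fun x => ℓ x + c := by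
  choose L c hL using hf
  -- convergence everywhere
  have hconv : ∀ x : V n, ∃ y : ℝ, Tendsto (fun k => f k x) atTop (𝓝 y) := by
    intro x
    have h1 : ∀ᵐ y ∂(volume : Measure (V n)),
        Tendsto (fun k => f k (2 • x - y)) atTop (𝓝 (T (2 • x - y))) :=
      (Measure.measurePreserving_sub_left volume (2 • x)).quasiMeasurePreserving.ae hlim
    obtain ⟨y, hy1, hy2⟩ := (hlim.and h1).exists
    refine ⟨(1 / 2) * (T y + T (2 • x - y)), ?_⟩
    have h2 := (hy1.add hy2).const_mul (1 / 2 : ℝ)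
    refine h2.congr fun k => ?_
    rw [hL, hL, hL, map_sub, two_smul, map_add]
    ring
  choose F hF using hconv
  let ℓ : V n →ₗ[ℝ] ℝ :=
    { toFun := fun x => F x - F 0
      map_add' := by
        intro x y
        have h1 := (((hF x).add (hF y)).sub (hF 0))
        have h2 := hF (x + y)
        have h3 : (fun k => f k (x + y)) = fun k => f k x + f k y - f k 0 := by
          funext k; rw [hL, hL, hL, hL, map_add, map_zero]; ring
        rw [h3] at h2
        have := tendsto_nhds_unique h1 h2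
        linarith
      map_smul' := by
        intro a x
        have h1 := (((hF x).sub (hF 0)).const_mul a).add (hF 0)
        have h2 := hF (a • x)
        have h3 : (fun k => f k (a • x)) = fun k => a * (f k x - f k 0) + f k 0 := by
          funext k; rw [hL, hL, hL, map_smul, map_zero, smul_eq_mul]; ring
        rw [h3] at h2
        have := tendsto_nhds_unique h1 h2
        simp only [RingHom.id_apply, smul_eq_mul]
        linarith }
  refine ⟨LinearMap.toContinuousLinearMap ℓ, F 0, ?_⟩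
  filter_upwards [hlim] with x hx
  have := tendsto_nhds_unique hx (hF x)
  rw [this]
  simp [ℓ]

/-- a standard sequence of mollifiers -/
theorem exists_moll (n : ℕ) : ∃ φ : ℕ → ContDiffBump (0 : V n),
    (∀ k, Moll ((φ k).normed volume)) ∧ Tendsto (fun k => (φ k).rOut) atTop (𝓝 0) ∧
      ∀ k, (φ k).rOut ≤ 2 * (φ k).rIn := by
  let φ : ℕ → ContDiffBump (0 : V n) := fun k =>
    { rIn := 1 / (2 * ((k : ℝ) + 1))
      rOut := 1 / ((k : ℝ) + 1)
      rIn_pos := by positivity
      rIn_lt_rOut := by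
        apply one_div_lt_one_div_of_lt
        · positivity
        · linarith [show (0 : ℝ) ≤ k from Nat.cast_nonneg k] }
  have hr : ∀ k, (φ k).rOut = 1 / ((k : ℝ) + 1) := fun k => rfl
  refine ⟨φ, fun k => ⟨(φ k).contDiff_normed, (φ k).hasCompactSupport_normed,
    (φ k).nonneg_normed, (φ k).integral_normed, ?_, (φ k).normed_neg⟩, ?_, ?_⟩
  · intro x hx
    have : x ∉ Function.support ((φ k).normed volume) := by
      rw [(φ k).support_normed_eq, mem_ball, dist_zero_right, hr, not_lt]
      refine le_trans ?_ hx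
      rw [div_le_one (by positivity)]
      linarith [show (0 : ℝ) ≤ k from Nat.cast_nonneg k]
    exact Function.notMem_support.mp this
  · simp only [hr]
    exact tendsto_one_div_add_atTop_nhds_zero_nat
  · intro k
    rw [hr]
    apply le_of_eq
    change _ = 2 * (1 / (2 * ((k : ℝ) + 1)))
    field_simp

/-- **Linear Liouville lemma**, weak form for `T ∈ L²_loc` (= `liouville_L2`). -/
theorem liouville_L2' (hn : 0 < n) {K s : ℝ} (hs : s < n + 4)
    (hT : ∀ R : ℝ, MemLp T 2 (volume.restrict (ball (0 : V n) R))) (hG : Gr K s T)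
    (hw : ∀ ψ : V n → ℝ, SmTest ψ → ∫ x, T x * Lam ψ x = 0) :
    ∃ (ℓ : V n →L[ℝ] ℝ) (c : ℝ), T =ᵐ[volume] fun x => ℓ x + c := by
  obtain ⟨φ, hφ, hφ0, hφ2⟩ := exists_moll n
  apply affine_of_ae_tendsto (f := fun k => mo ((φ k).normed volume) T)
  · intro k
    exact Sol.affine hn (mo_sol hn (hφ k) hs hT hG hw) hs (mo_gr (hφ k) hT hG)
  · have := ContDiffBump.ae_convolution_tendsto_right_of_locallyIntegrable (μ := (volume : Measure (V n)))
      (φ := φ) (l := atTop) (K := 2) hφ0 (Eventually.of_forall hφ2)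
      (locallyIntegrable_of_memLp hT)
    filter_upwards [this] with x hx
    simp only [mo_eq]
    exact hx

/-- constant version: growth `s < n + 2`. -/
theorem liouville_L2_const (hn : 0 < n) {K s : ℝ} (hs : s < n + 2)
    (hT : ∀ R : ℝ, MemLp T 2 (volume.restrict (ball (0 : V n) R))) (hG : Gr K s T)
    (hw : ∀ ψ : V n → ℝ, SmTest ψ → ∫ x, T x * Lam ψ x = 0) :
    ∃ c : ℝ, T =ᵐ[volume] fun _ => c := by
  obtain ⟨φ, hφ, hφ0, hφ2⟩ := exists_moll n
  have hae := ContDiffBump.ae_convolution_tendsto_right_of_locallyIntegrable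
    (μ := (volume : Measure (V n))) (φ := φ) (l := atTop) (K := 2) hφ0 (Eventually.of_forall hφ2)
    (locallyIntegrable_of_memLp hT)
  have hc : ∀ k x, mo ((φ k).normed volume) T x = mo ((φ k).normed volume) T 0 := fun k x =>
    Sol.const hn (mo_sol hn (hφ k) (by linarith) hT hG hw) hs (mo_gr (hφ k) hT hG) x
  have hae' : ∀ᵐ x ∂(volume : Measure (V n)),
      Tendsto (fun k => mo ((φ k).normed volume) T 0) atTop (𝓝 (T x)) := by
    filter_upwards [hae] with x hx
    refine hx.congr fun k => ?_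
    rw [← mo_eq, hc]
  obtain ⟨y, hy⟩ := hae'.exists
  refine ⟨T y, ?_⟩
  filter_upwards [hae'] with x hx
  exact tendsto_nhds_unique hx hy

end Liou

end Crest.Agent.R085
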