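import Mathlib
import Crest.Agent.R085.Defs
import Crest.Agent.R085.P2Defs
import Crest.Agent.R085.P2Chain

-- ▼ part R085/P2Slab
section

/-!
R085 PART II: area estimates in `V n` (Lebesgue measure).

* `om n` = volume of the unit ball, `volume_ball_om`, `volume_closedBall_om`.
* `volume_slab_le` : volume of a slab inside a ball.
* `exists_small_adjoint` : a linear map of `V n` which is not `c`-co-Lipschitz maps every ball into a
  thin slab.
* `disc_cover_area` : a disc covered by finitely many sets of small area.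
* `image_nhd_area`, `steep_area` : area of the neighbourhood of the projection of a set close to a steep plane.
-/

set_option autoImplicit false

namespace Crest.Agent.R085

open MeasureTheory Metric Set Filter
open scoped ENNReal NNReal Topology

/-- volume of the unit ball of `V n`. -/
noncomputable def om (n : ℕ) : ℝ := (volume (ball (0 : V n) 1)).toReal





/-- volume of a slab inside a ball. -/
theorem volume_slab_le {n : ℕ} (hn : 1 ≤ n) (v : V n) (hv : ‖v‖ = 1) (q : V n) {R h : ℝ}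
    (hR : 0 ≤ R) (hh : 0 ≤ h) :
    volume {y : V n | dist y q ≤ R ∧ |inner ℝ (y - q) v| ≤ h} ≤
      ENNReal.ofReal (2 * h * (2 * R) ^ (n - 1)) := by
  classical
  let i0 : Fin n := ⟨0, by omega⟩
  obtain ⟨b, hb⟩ : ∃ b : OrthonormalBasis (Fin n) ℝ (V n), b i0 = v := by
    have hs : Orthonormal ℝ (({i0} : Set (Fin n)).domRestrict (fun _ : Fin n => v)) := by
      refine ⟨fun i => by simpa using hv, ?_⟩
      intro i j hij
      exact absurd (Subsingleton.elim i j) hij
    obtain ⟨b, hb⟩ := hs.exists_orthonormalBasis_extension_of_card_eq (by simp)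
    exact ⟨b, hb i0 rfl⟩
  let φ : V n → (Fin n → ℝ) := fun y => WithLp.ofLp (b.repr (y - q))
  have hφ : MeasurePreserving φ volume volume :=
    (PiLp.volume_preserving_ofLp (Fin n)).comp
      (b.measurePreserving_repr.comp (measurePreserving_sub_right volume q))
  let w : Fin n → ℝ := fun i => if i = i0 then h else R
  have hsub : {y : V n | dist y q ≤ R ∧ |inner ℝ (y - q) v| ≤ h} ⊆ φ ⁻¹' (Icc (-w) w) := by
    rintro y ⟨hy1, hy2⟩
    have hcoord : ∀ i, φ y i = inner ℝ (b i) (y - q) := fun i => b.repr_apply_apply (y - q) i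
    have habs : ∀ i, |φ y i| ≤ w i := by
      intro i
      rw [hcoord]
      by_cases hi : i = i0
      · subst hi
        simp only [w, if_true]
        rw [hb, real_inner_comm]
        exact hy2
      · simp only [w, if_neg hi]
        refine (abs_real_inner_le_norm _ _).trans ?_
        rw [b.orthonormal.1 i, one_mul, ← dist_eq_norm]
        exact hy1
    refine ⟨fun i => ?_, fun i => ?_⟩
    · exact (abs_le.mp (habs i)).1
    · exact (abs_le.mp (habs i)).2
  refine (measure_mono hsub).trans ?_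
  rw [hφ.measure_preimage measurableSet_Icc.nullMeasurableSet, Real.volume_Icc_pi]
  have h1 : ∀ i, ENNReal.ofReal (w i - (-w) i) = ENNReal.ofReal (if i = i0 then 2 * h else 2 * R) := by
    intro i
    congr 1
    simp only [w, Pi.neg_apply]
    split_ifs <;> ring
  simp_rw [h1]
  rw [← Finset.mul_prod_erase Finset.univ _ (Finset.mem_univ i0), if_pos rfl]
  have h2 : ∀ i ∈ Finset.univ.erase i0,
      ENNReal.ofReal (if i = i0 then 2 * h else 2 * R) = ENNReal.ofReal (2 * R) := by
    intro i hi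
    rw [if_neg (Finset.ne_of_mem_erase hi)]
  rw [Finset.prod_congr rfl h2, Finset.prod_const, Finset.card_erase_of_mem (Finset.mem_univ _),
    Finset.card_univ, Fintype.card_fin, ← ENNReal.ofReal_pow (by positivity),
    ← ENNReal.ofReal_mul (by positivity)]

/-- If a square linear map is not `c`-co-Lipschitz, its image of every ball lies in a thin slab. -/
theorem exists_small_adjoint {n : ℕ} (A : V n →L[ℝ] V n) {c : ℝ} (hc : 0 < c)
    (hA : ¬ ∀ v, c * ‖v‖ ≤ ‖A v‖) :
    ∃ e : V n, ‖e‖ = 1 ∧ ∀ w, |inner ℝ (A w) e| ≤ c * ‖w‖ := by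
  classical
  -- it is enough to find a nonzero vector on which the adjoint is small
  suffices h : ∃ e : V n, e ≠ 0 ∧ ‖ContinuousLinearMap.adjoint A e‖ ≤ c * ‖e‖ by
    obtain ⟨e, he, hAe⟩ := h
    have hne : 0 < ‖e‖ := norm_pos_iff.mpr he
    refine ⟨(‖e‖⁻¹ : ℝ) • e, norm_smul_inv_norm he, fun w => ?_⟩
    rw [← ContinuousLinearMap.adjoint_inner_right, map_smul]
    refine (abs_real_inner_le_norm _ _).trans ?_
    rw [norm_smul, norm_inv, norm_norm, mul_comm]
    refine mul_le_mul_of_nonneg_right ?_ (norm_nonneg w)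
    rw [inv_mul_eq_div, div_le_iff₀ hne]
    exact hAe
  by_contra hcon
  push Not at hcon
  apply hA
  have hB : ∀ e : V n, c * ‖e‖ ≤ ‖ContinuousLinearMap.adjoint A e‖ := by
    intro e
    by_cases he : e = 0
    · simp [he]
    · exact (hcon e he).le
  have hinj : Function.Injective (ContinuousLinearMap.adjoint A : V n →ₗ[ℝ] V n) := by
    rw [← LinearMap.ker_eq_bot, LinearMap.ker_eq_bot']
    intro e he
    have h1 := hB e
    have h2 : ContinuousLinearMap.adjoint A e = 0 := he
    rw [h2, norm_zero] at h1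
    have h3 : ‖e‖ ≤ 0 := by
      by_contra h4
      push Not at h4
      exact absurd h1 (not_le.mpr (mul_pos hc h4))
    exact norm_le_zero_iff.mp h3
  have hsurj : Function.Surjective (ContinuousLinearMap.adjoint A : V n →ₗ[ℝ] V n) :=
    LinearMap.surjective_of_injective hinj
  intro v
  obtain ⟨e, he⟩ := hsurj v
  have he' : ContinuousLinearMap.adjoint A e = v := he
  have h1 : ‖v‖ * ‖v‖ ≤ ‖e‖ * ‖A v‖ := by
    have h2 : inner ℝ v v = inner ℝ (A v) e := by
      calc inner ℝ v v = inner ℝ (ContinuousLinearMap.adjoint A e) v := by rw [he']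
        _ = inner ℝ e (A v) := ContinuousLinearMap.adjoint_inner_left A v e
        _ = inner ℝ (A v) e := real_inner_comm _ _
    rw [← real_inner_self_eq_norm_mul_norm, h2]
    refine (le_abs_self _).trans ((abs_real_inner_le_norm _ _).trans ?_)
    rw [mul_comm]
  have h3 : c * ‖e‖ ≤ ‖v‖ := by rw [← he']; exact hB e
  by_cases hv : ‖v‖ = 0
  · rw [hv, mul_zero]; exact norm_nonneg _
  · have hvp : 0 < ‖v‖ := lt_of_le_of_ne (norm_nonneg _) (Ne.symm hv)
    have h4 : c * (‖v‖ * ‖v‖) ≤ ‖v‖ * ‖A v‖ := by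
      calc c * (‖v‖ * ‖v‖) ≤ c * (‖e‖ * ‖A v‖) := mul_le_mul_of_nonneg_left h1 hc.le
        _ = (c * ‖e‖) * ‖A v‖ := by ring
        _ ≤ ‖v‖ * ‖A v‖ := mul_le_mul_of_nonneg_right h3 (norm_nonneg _)
    have h5 : ‖v‖ * (c * ‖v‖) ≤ ‖v‖ * ‖A v‖ := by linarith
    exact le_of_mul_le_mul_left h5 hvp




/-- Lebesgue measure of a slab in a ball. -/
theorem slab_volume (n : ℕ) (hn : 1 ≤ n) : ∃ C : ℝ, 0 < C ∧
    ∀ (q e : EuclideanSpace ℝ (Fin n)), ‖e‖ = 1 → ∀ ρ t : ℝ, 0 < ρ → 0 ≤ t →
      volume {z : EuclideanSpace ℝ (Fin n) | dist z q ≤ ρ ∧ |inner ℝ e (z - q)| ≤ t * ρ} ≤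
        ENNReal.ofReal (C * t * ρ ^ n) := by
  refine ⟨2 ^ n, by positivity, fun q e he ρ t hρ ht => ?_⟩
  have h1 := volume_slab_le hn e he q (R := ρ) (h := t * ρ) hρ.le (by positivity)
  have h2 : (2 : ℝ) * (t * ρ) * (2 * ρ) ^ (n - 1) = 2 ^ n * t * ρ ^ n := by
    obtain ⟨k, rfl⟩ : ∃ k, n = k + 1 := ⟨n - 1, by omega⟩
    rw [Nat.add_sub_cancel, mul_pow, pow_succ, pow_succ]
    ring
  rw [h2] at h1
  refine le_trans (measure_mono ?_) h1
  rintro z ⟨hz1, hz2⟩
  exact ⟨hz1, by rwa [real_inner_comm]⟩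

/-- A steep plane projects in a thin slab. -/
theorem steep_slab {d n : ℕ} {c₁ : ℝ} (hc₁ : 0 < c₁)
    (ι ι' : EuclideanSpace ℝ (Fin n) →ₗᵢ[ℝ] EuclideanSpace ℝ (Fin d))
    (h : ¬ NonSteep c₁ ι ι') :
    ∃ e : EuclideanSpace ℝ (Fin n), ‖e‖ = 1 ∧ ∀ v, |inner ℝ e (pr ι (ι' v))| ≤ c₁ * ‖v‖ := by
  obtain ⟨e, he, hAe⟩ := exists_small_adjoint ((pr ι).comp ι'.toContinuousLinearMap) hc₁ h
  refine ⟨e, he, fun v => ?_⟩
  rw [real_inner_comm]
  exact hAe v

end Crest.Agent.R085
end

-- ▼ part R085/P2Left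
section

set_option autoImplicit false

namespace Crest.Agent.R085

open MeasureTheory Set

section Stop

variable {d n : ℕ} {S : Set (EuclideanSpace ℝ (Fin d))}
  {x₀ : EuclideanSpace ℝ (Fin d)} {ℓ b : ℝ} {K : ℕ} (L : Lat S x₀ ℓ b K)
  (good : ℕ → EuclideanSpace ℝ (Fin d) → Prop)
  (I : ℕ → EuclideanSpace ℝ (Fin d) →
    (EuclideanSpace ℝ (Fin n) →ₗᵢ[ℝ] EuclideanSpace ℝ (Fin d)))
  (c₁ : ℝ)

open Classical in
/-- The stopping generation of a leaf `w` for the root of generation `j`: the first generation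
`k`, `j < k < K`, at which the branch of `w` has left the tree, or `K`. -/
noncomputable def stopGen (j : ℕ) (w : EuclideanSpace ℝ (Fin d)) : ℕ :=
  if h : ∃ k, j < k ∧ k < K ∧ root L.c good I c₁ k (L.c k w) ≠ some j then Nat.find h else K

lemma stopGen_le (j : ℕ) (w : EuclideanSpace ℝ (Fin d)) : stopGen L good I c₁ j w ≤ K := by
  classical
  unfold stopGen
  split_ifs with h
  · exact (Nat.find_spec h).2.1.le
  · exact le_rfl

lemma le_stopGen {j : ℕ} (hj : j ≤ K) (w : EuclideanSpace ℝ (Fin d)) :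
    j ≤ stopGen L good I c₁ j w := by
  classical
  unfold stopGen
  split_ifs with h
  · exact (Nat.find_spec h).1.le
  · exact hj

lemma stopGen_eq_of_stop {j k : ℕ} {w : EuclideanSpace ℝ (Fin d)} (h1 : j < k) (h2 : k < K)
    (h3 : ∀ i, j ≤ i → i < k → root L.c good I c₁ i (L.c i w) = some j)
    (h4 : root L.c good I c₁ k (L.c k w) ≠ some j) : stopGen L good I c₁ j w = k := by
  classical
  have h : ∃ k, j < k ∧ k < K ∧ root L.c good I c₁ k (L.c k w) ≠ some j := ⟨k, h1, h2, h4⟩
  unfold stopGen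
  rw [dif_pos h]
  rw [Nat.find_eq_iff]
  refine ⟨⟨h1, h2, h4⟩, fun i hi hcon => ?_⟩
  exact hcon.2.2 (h3 i hcon.1.le hi)

lemma stopGen_eq_K {j : ℕ} {w : EuclideanSpace ℝ (Fin d)}
    (h3 : ∀ i, j ≤ i → i < K → root L.c good I c₁ i (L.c i w) = some j) :
    stopGen L good I c₁ j w = K := by
  classical
  unfold stopGen
  rw [dif_neg]
  rintro ⟨k, hk1, hk2, hk3⟩
  exact hk3 (h3 k hk1.le hk2)

lemma root_of_lt_stopGen {j : ℕ} {w : EuclideanSpace ℝ (Fin d)}
    (hj : root L.c good I c₁ j (L.c j w) = some j) {i : ℕ} (hi : j ≤ i)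
    (hi' : i < stopGen L good I c₁ j w) : root L.c good I c₁ i (L.c i w) = some j := by
  classical
  rcases hi.eq_or_lt with rfl | hlt
  · exact hj
  · by_contra hcon
    have hiK : i < K := lt_of_lt_of_le hi' (stopGen_le L good I c₁ j w)
    have h : ∃ k, j < k ∧ k < K ∧ root L.c good I c₁ k (L.c k w) ≠ some j :=
      ⟨i, hlt, hiK, hcon⟩
    unfold stopGen at hi'
    rw [dif_pos h] at hi'
    exact Nat.find_min h hi' ⟨hlt, hiK, hcon⟩

lemma root_stopGen_ne {j : ℕ} {w : EuclideanSpace ℝ (Fin d)}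
    (h : stopGen L good I c₁ j w < K) :
    j < stopGen L good I c₁ j w ∧
    root L.c good I c₁ (stopGen L good I c₁ j w) (L.c (stopGen L good I c₁ j w) w) ≠ some j := by
  classical
  by_cases hex : ∃ k, j < k ∧ k < K ∧ root L.c good I c₁ k (L.c k w) ≠ some j
  · have h1 : stopGen L good I c₁ j w = Nat.find hex := by
      unfold stopGen
      rw [dif_pos hex]
    rw [h1]
    exact ⟨(Nat.find_spec hex).1, (Nat.find_spec hex).2.2⟩
  · exfalso
    unfold stopGen at h
    rw [dif_neg hex] at h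
    exact lt_irrefl _ h

lemma stopGen_congr {j : ℕ} {w w' : EuclideanSpace ℝ (Fin d)} (hw : w ∈ L.W)
    (hw' : w' ∈ L.W) (hroot : root L.c good I c₁ j (L.c j w) = some j)
    (h : L.c (stopGen L good I c₁ j w) w' = L.c (stopGen L good I c₁ j w) w) :
    stopGen L good I c₁ j w' = stopGen L good I c₁ j w := by
  classical
  set k := stopGen L good I c₁ j w with hk
  have hkK : k ≤ K := stopGen_le L good I c₁ j w
  have hc : ∀ i, i ≤ k → L.c i w' = L.c i w := by
    intro i hi
    rw [← L.c_comp i k hi hkK w' hw', h, L.c_comp i k hi hkK w hw]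
  rcases hkK.eq_or_lt with hKe | hlt
  · have : w' = w := by
      have h1 := L.c_last w hw
      have h2 := L.c_last w' hw'
      rw [hKe] at h
      rw [← h2, h, h1]
    rw [this]
  · have h1 := root_stopGen_ne L good I c₁ (j := j) (w := w) (by rw [← hk]; exact hlt)
    rw [← hk] at h1
    refine stopGen_eq_of_stop L good I c₁ h1.1 hlt ?_ ?_
    · intro i hi1 hi2
      rw [hc i hi2.le]
      exact root_of_lt_stopGen L good I c₁ hroot hi1 (by rw [← hk]; exact hi2)
    · rw [hc k le_rfl]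
      exact h1.2

/-- A leaf which stops at a bad cell, or at generation `K`, is a leftover. -/
lemma leftover_of_stopGen {j : ℕ} {w : EuclideanSpace ℝ (Fin d)}
    (hroot : root L.c good I c₁ j (L.c j w) = some j)
    (h : stopGen L good I c₁ j w = K ∨
      ¬ good (stopGen L good I c₁ j w) (L.c (stopGen L good I c₁ j w) w)) :
    Leftover L good I c₁ j w := by
  classical
  by_cases hK : stopGen L good I c₁ j w = K
  · right
    intro i hi1 hi2
    exact root_of_lt_stopGen L good I c₁ hroot hi1 (by rw [hK]; exact hi2)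
  · left
    have h2 := h.resolve_left hK
    have hlt : stopGen L good I c₁ j w < K := lt_of_le_of_ne (stopGen_le L good I c₁ j w) hK
    exact ⟨stopGen L good I c₁ j w, (root_stopGen_ne L good I c₁ hlt).1, hlt,
      fun i hi1 hi2 => root_of_lt_stopGen L good I c₁ hroot hi1 hi2, h2⟩

/-- A good cell at which the branch leaves the tree is steep. -/
lemma not_nonSteep_of_stop {j k : ℕ} {w : EuclideanSpace ℝ (Fin d)} (hw : w ∈ L.W) (h1 : j < k)
    (h2 : k ≤ K)
    (h3 : ∀ i, j ≤ i → i < k → root L.c good I c₁ i (L.c i w) = some j)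
    (h4 : root L.c good I c₁ k (L.c k w) ≠ some j) (hg : good k (L.c k w)) :
    ¬ NonSteep c₁ (I j (L.c j w)) (I k (L.c k w)) := by
  classical
  intro hns
  apply h4
  obtain ⟨m, rfl⟩ : ∃ m, k = m + 1 := ⟨k - 1, by omega⟩
  have hm := h3 m (by omega) (by omega)
  rw [root, if_pos hg]
  rw [L.c_comp m (m + 1) (by omega) h2 w hw, hm]
  simp only
  rw [L.c_comp j (m + 1) (by omega) h2 w hw, if_pos hns]

end Stop

/-- Geometry at a steep flat cell: a point close to the projection of a leaf lies in a thin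
slab around the projection of the centre. -/
lemma slab_of_steep {d n : ℕ} {S : Set (EuclideanSpace ℝ (Fin d))} {b ε c₁ r : ℝ}
    (hc₁ : 0 < c₁) (hc₁' : c₁ ≤ 1) (hb : 1000 ≤ b * c₁) (hεb : ε ≤ 1 / b ^ 2)
    (hr : 0 < r) {x' p' w : EuclideanSpace ℝ (Fin d)}
    {ι ι' : EuclideanSpace ℝ (Fin n) →ₗᵢ[ℝ] EuclideanSpace ℝ (Fin d)}
    (hBF : BF S n x' r 100 ε p' ι') (hx' : x' ∈ S) (hw : w ∈ S) (hwx : dist w x' ≤ 2 * r)
    {e : EuclideanSpace ℝ (Fin n)} (he : ‖e‖ = 1)
    (hslab : ∀ v, |inner ℝ e (pr ι (ι' v))| ≤ c₁ * ‖v‖)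
    {z : EuclideanSpace ℝ (Fin n)} (hz : dist z (pr ι w) ≤ 2 / b * r) :
    dist z (pr ι x') ≤ 3 * r ∧ |inner ℝ e (z - pr ι x')| ≤ 2 * c₁ * (3 * r) := by
  have hb0 : 0 < b := by
    by_contra hcon
    push Not at hcon
    have : b * c₁ ≤ 0 := mul_nonpos_of_nonpos_of_nonneg hcon hc₁.le
    linarith
  have hb1 : 1000 ≤ b := by
    have : b * c₁ ≤ b * 1 := by gcongr
    linarith
  have hbinv : 1 / b ≤ c₁ / 1000 := by
    rw [div_le_div_iff₀ hb0 (by norm_num)]
    linarith
  have hbinv' : 2 / b ≤ c₁ / 500 := by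
    have : 2 / b = 2 * (1 / b) := by ring
    rw [this]; linarith
  have hbinv'' : 1 / b ≤ 1 / 1000 := by
    apply one_div_le_one_div_of_le (by norm_num) hb1
  have hε1 : ε ≤ c₁ / 1000 := by
    have h1 : 1 / b ^ 2 = 1 / b * (1 / b) := by ring
    have h2 : 1 / b * (1 / b) ≤ c₁ / 1000 * 1 := by
      apply mul_le_mul hbinv _ (by positivity) (by positivity)
      linarith
    calc ε ≤ 1 / b ^ 2 := hεb
      _ ≤ c₁ / 1000 := by rw [h1]; linarith
  obtain ⟨v, hv⟩ := hBF.1 w hw (by nlinarith)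
  obtain ⟨v', hv'⟩ := hBF.1 x' hx' (by rw [dist_self]; positivity)
  have hzr : dist z (pr ι w) ≤ c₁ / 500 * r := hz.trans (by gcongr)
  have hprw : dist (pr ι w) (pr ι x') ≤ 2 * r := (dist_pr_le ι w x').trans hwx
  constructor
  · calc dist z (pr ι x') ≤ dist z (pr ι w) + dist (pr ι w) (pr ι x') := dist_triangle _ _ _
      _ ≤ c₁ / 500 * r + 2 * r := by linarith
      _ ≤ 3 * r := by nlinarith
  · -- the points `w`, `x'` are near the plane
    have hvv : ‖v - v'‖ ≤ 3 * r := by
      have h1 : ‖v - v'‖ = dist (p' + ι' v) (p' + ι' v') := by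
        rw [dist_add_left, ι'.dist_map, dist_eq_norm]
      rw [h1]
      calc dist (p' + ι' v) (p' + ι' v')
          ≤ dist (p' + ι' v) w + dist w x' + dist x' (p' + ι' v') := dist_triangle4 _ _ _ _
        _ ≤ ε * r + 2 * r + ε * r := by
            rw [dist_comm (p' + ι' v) w]; linarith
        _ ≤ 3 * r := by nlinarith
    have hdecomp : z - pr ι x' = (z - pr ι w) + pr ι (w - (p' + ι' v)) + pr ι (ι' (v - v')) +
        pr ι ((p' + ι' v') - x') := by
      simp only [map_sub, map_add]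
      abel
    have hin : ∀ u : EuclideanSpace ℝ (Fin n), |inner ℝ e u| ≤ ‖u‖ := by
      intro u
      calc |inner ℝ e u| ≤ ‖e‖ * ‖u‖ := abs_real_inner_le_norm e u
        _ = ‖u‖ := by rw [he, one_mul]
    have e1 : |inner ℝ e (z - pr ι w)| ≤ c₁ / 500 * r :=
      (hin _).trans (by rw [← dist_eq_norm]; exact hzr)
    have e2 : |inner ℝ e (pr ι (w - (p' + ι' v)))| ≤ ε * r :=
      (hin _).trans ((norm_pr_le ι _).trans (by rw [← dist_eq_norm]; exact hv))
    have e3 : |inner ℝ e (pr ι (ι' (v - v')))| ≤ c₁ * (3 * r) :=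
      (hslab _).trans (by gcongr)
    have e4 : |inner ℝ e (pr ι ((p' + ι' v') - x'))| ≤ ε * r :=
      (hin _).trans ((norm_pr_le ι _).trans (by
        rw [← dist_eq_norm, dist_comm]; exact hv'))
    rw [hdecomp, inner_add_right, inner_add_right, inner_add_right]
    calc |inner ℝ e (z - pr ι w) + inner ℝ e (pr ι (w - (p' + ι' v))) +
          inner ℝ e (pr ι (ι' (v - v'))) + inner ℝ e (pr ι ((p' + ι' v') - x'))|
        ≤ |inner ℝ e (z - pr ι w) + inner ℝ e (pr ι (w - (p' + ι' v))) +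
          inner ℝ e (pr ι (ι' (v - v')))| + |inner ℝ e (pr ι ((p' + ι' v') - x'))| :=
            abs_add_le _ _
      _ ≤ |inner ℝ e (z - pr ι w) + inner ℝ e (pr ι (w - (p' + ι' v)))| +
          |inner ℝ e (pr ι (ι' (v - v')))| + |inner ℝ e (pr ι ((p' + ι' v') - x'))| := by
            gcongr; exact abs_add_le _ _
      _ ≤ |inner ℝ e (z - pr ι w)| + |inner ℝ e (pr ι (w - (p' + ι' v)))| +
          |inner ℝ e (pr ι (ι' (v - v')))| + |inner ℝ e (pr ι ((p' + ι' v') - x'))| := by
            gcongr; exact abs_add_le _ _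
      _ ≤ c₁ / 500 * r + ε * r + c₁ * (3 * r) + ε * r := by linarith
      _ ≤ c₁ / 500 * r + c₁ / 1000 * r + c₁ * (3 * r) + c₁ / 1000 * r := by gcongr
      _ ≤ 2 * c₁ * (3 * r) := by nlinarith [mul_pos hc₁ hr]

open Classical in
/-- FILE P2Left.lean. (Area argument: chain_cover + slab_volume + steep_slab + cardinalities.) -/
theorem leftover_large (n : ℕ) (hn : 1 ≤ n) (cL CL : ℝ) (hcL : 0 < cL) (hCL : 0 < CL) :
    ∃ c₁ : ℝ, 0 < c₁ ∧ c₁ ≤ 1 ∧ ∃ c₆ : ℝ, 0 < c₆ ∧
    ∀ {d : ℕ} {S : Set (EuclideanSpace ℝ (Fin d))} {x₀ : EuclideanSpace ℝ (Fin d)}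
      {ℓ b : ℝ} {K : ℕ} (L : Lat S x₀ ℓ b K), 0 < ℓ → ∀ {ε : ℝ}, 1000 ≤ b * c₁ → 0 < ε →
      ε ≤ 1 / b ^ 2 →
      (∀ k ≤ K, ∀ x ∈ L.W, L.c k x = x → L.c 0 x = x₀ →
        cL * (b ^ (K - k)) ^ n ≤ ((L.cell k x).card : ℝ)) →
      (∀ k ≤ K, ∀ x ∈ L.W, L.c k x = x → L.c 0 x = x₀ →
        ((L.cell k x).card : ℝ) ≤ CL * (b ^ (K - k)) ^ n) →
      ∀ (good : ℕ → EuclideanSpace ℝ (Fin d) → Prop)
        (P : ℕ → EuclideanSpace ℝ (Fin d) → EuclideanSpace ℝ (Fin d))
        (I : ℕ → EuclideanSpace ℝ (Fin d) →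
          (EuclideanSpace ℝ (Fin n) →ₗᵢ[ℝ] EuclideanSpace ℝ (Fin d))),
        (∀ k x, good k x → BF S n x (sc ℓ b k) 100 ε (P k x) (I k x)) →
        ∀ j ≤ K, ∀ x ∈ L.W, L.c j x = x → L.c 0 x = x₀ → root L.c good I c₁ j x = some j →
          c₆ * ((L.cell j x).card : ℝ) ≤
            (((L.cell j x).filter (fun w => Leftover L good I c₁ j w)).card : ℝ) := by
  obtain ⟨Cs, hCs, hslabvol⟩ := slab_volume n hn
  set ω : ℝ := (volume (Metric.ball (0 : EuclideanSpace ℝ (Fin n)) 1)).toReal with hω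
  have hωpos : 0 < ω := by
    rw [hω]
    exact ENNReal.toReal_pos (Metric.measure_ball_pos volume _ one_pos).ne'
      measure_ball_lt_top.ne
  have h300 : (0 : ℝ) < 300 ^ n := by positivity
  refine ⟨min 1 (ω * cL / (4 * Cs * CL * 300 ^ n)), lt_min one_pos (by positivity),
    min_le_left _ _, cL / (2 * 300 ^ n * CL), by positivity, ?_⟩
  set c₁ : ℝ := min 1 (ω * cL / (4 * Cs * CL * 300 ^ n)) with hc₁def
  have hc₁ : 0 < c₁ := lt_min one_pos (by positivity)
  have hc₁' : c₁ ≤ 1 := min_le_left _ _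
  have hc₁'' : c₁ ≤ ω * cL / (4 * Cs * CL * 300 ^ n) := min_le_right _ _
  intro d S x₀ ℓ b K L hℓ ε hb hε hεb hlow hup good P I hgood j hj x hx hjx h0x hroot
  have hb0 : 0 < b := by
    by_contra hcon
    push Not at hcon
    have : b * c₁ ≤ 0 := mul_nonpos_of_nonpos_of_nonneg hcon hc₁.le
    linarith
  have hscpos : ∀ k, 0 < sc ℓ b k := fun k => sc_pos hℓ hb0 k
  set ι := I j x with hι
  set Q := L.cell j x with hQ
  have hQmem : ∀ w ∈ Q, w ∈ L.W ∧ L.c j w = x := fun w hw => L.mem_cell.mp hw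
  have hrootw : ∀ w ∈ Q, root L.c good I c₁ j (L.c j w) = some j := by
    intro w hw
    rw [(hQmem w hw).2]
    exact hroot
  let st : EuclideanSpace ℝ (Fin d) → ℕ := fun w => stopGen L good I c₁ j w
  let τ : EuclideanSpace ℝ (Fin d) → ℕ × EuclideanSpace ℝ (Fin d) :=
    fun w => (st w, L.c (st w) w)
  have hex : ∀ t : ℕ × EuclideanSpace ℝ (Fin d), ∃ e : EuclideanSpace ℝ (Fin n),
      ¬ NonSteep c₁ ι (I t.1 t.2) →
        ‖e‖ = 1 ∧ ∀ v, |inner ℝ e (pr ι (I t.1 t.2 v))| ≤ c₁ * ‖v‖ := by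
    intro t
    by_cases h : NonSteep c₁ ι (I t.1 t.2)
    · exact ⟨0, fun h' => absurd h h'⟩
    · obtain ⟨e, he⟩ := steep_slab hc₁ ι _ h
      exact ⟨e, fun _ => he⟩
  choose e he using hex
  let isB : ℕ × EuclideanSpace ℝ (Fin d) → Prop := fun t => t.1 = K ∨ ¬ good t.1 t.2
  let region : ℕ × EuclideanSpace ℝ (Fin d) → Set (EuclideanSpace ℝ (Fin n)) := fun t =>
    if isB t then Metric.closedBall (pr ι t.2) (3 * sc ℓ b t.1)
    else {z | dist z (pr ι t.2) ≤ 3 * sc ℓ b t.1 ∧
      |inner ℝ (e t) (z - pr ι t.2)| ≤ 2 * c₁ * (3 * sc ℓ b t.1)}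
  let v : ℕ × EuclideanSpace ℝ (Fin d) → ℝ := fun t =>
    if isB t then ω * (3 * sc ℓ b t.1) ^ n else Cs * (2 * c₁) * (3 * sc ℓ b t.1) ^ n
  have hvnn : ∀ t, 0 ≤ v t := by
    intro t
    have := hscpos t.1
    simp only [v]
    split_ifs <;> positivity
  have hstK : ∀ w, st w ≤ K := fun w => stopGen_le L good I c₁ j w
  have hjst : ∀ w, j ≤ st w := fun w => le_stopGen L good I c₁ hj w
  -- a steep good stop
  have hsteep : ∀ w ∈ Q, ¬ isB (τ w) → ¬ NonSteep c₁ ι (I (τ w).1 (τ w).2) := by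
    intro w hw hB
    simp only [isB, τ, not_or, not_not] at hB
    obtain ⟨hB1, hB2⟩ := hB
    have hlt : st w < K := lt_of_le_of_ne (hstK w) hB1
    have h1 := root_stopGen_ne L good I c₁ hlt
    have h2 := not_nonSteep_of_stop L good I c₁ (hQmem w hw).1 h1.1 (hstK w)
      (fun i hi1 hi2 => root_of_lt_stopGen L good I c₁ (hrootw w hw) hi1 hi2) h1.2 hB2
    rw [(hQmem w hw).2] at h2
    exact h2
  have hcover : Metric.closedBall (pr ι x) (sc ℓ b j / 100) ⊆ ⋃ t ∈ Q.image τ, region t := by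
    intro z hz
    rw [Metric.mem_closedBall] at hz
    obtain ⟨w, hwQ, hcase⟩ := chain_cover L hℓ hc₁ hc₁' hb hε hεb good P I hgood j hj x hx hjx
      h0x hroot z hz
    rw [mem_iUnion₂]
    refine ⟨τ w, Finset.mem_image_of_mem τ hwQ, ?_⟩
    rcases hcase with ⟨h1, h2⟩ | ⟨k, h1, h2, h3, h4, h5⟩
    · have hst : st w = K := stopGen_eq_K L good I c₁ h1
      have hτ : τ w = (K, w) := by
        simp only [τ, hst, L.c_last w (hQmem w hwQ).1]
      simp only [region, isB, hτ, true_or, if_true]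
      rw [Metric.mem_closedBall]
      have := hscpos K
      exact h2.trans (by linarith)
    · have hst : st w = k := stopGen_eq_of_stop L good I c₁ h1 h2 h3 h4
      have hτ : τ w = (k, L.c k w) := by
        simp only [τ, hst]
      have hdw : dist w (L.c k w) ≤ 2 * sc ℓ b k := L.c_dist k h2.le w (hQmem w hwQ).1
      have hb1 : 1000 ≤ b := by
        have : b * c₁ ≤ b * 1 := by gcongr
        linarith
      have h2b : 2 / b ≤ 1 := by
        rw [div_le_one hb0]; linarith
      by_cases hB : isB (τ w)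
      · have hreg : region (τ w) = Metric.closedBall (pr ι (L.c k w)) (3 * sc ℓ b k) := by
          simp only [region]
          rw [if_pos hB, hτ]
        rw [hreg, Metric.mem_closedBall]
        have h6 : dist (pr ι w) (pr ι (L.c k w)) ≤ 2 * sc ℓ b k := (dist_pr_le ι _ _).trans hdw
        have h7 : 2 / b * sc ℓ b k ≤ 1 * sc ℓ b k :=
          mul_le_mul_of_nonneg_right h2b (hscpos k).le
        calc dist z (pr ι (L.c k w)) ≤ dist z (pr ι w) + dist (pr ι w) (pr ι (L.c k w)) :=
              dist_triangle _ _ _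
          _ ≤ 3 * sc ℓ b k := by linarith
      · have hreg : region (τ w) = {z | dist z (pr ι (L.c k w)) ≤ 3 * sc ℓ b k ∧
            |inner ℝ (e (k, L.c k w)) (z - pr ι (L.c k w))| ≤ 2 * c₁ * (3 * sc ℓ b k)} := by
          simp only [region]
          rw [if_neg hB, hτ]
        have hst2 := hsteep w hwQ hB
        rw [hreg, Set.mem_ofPred_eq]
        rw [hτ] at hst2
        obtain ⟨he1, he2⟩ := he (k, L.c k w) hst2
        have hgk : good k (L.c k w) := by
          have : ¬ isB (k, L.c k w) := by rw [← hτ]; exact hB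
          simp only [isB, not_or, not_not] at this
          exact this.2
        exact slab_of_steep hc₁ hc₁' hb hεb (hscpos k) (hgood k _ hgk)
          (L.W_sub _ (L.c_mem k h2.le w (hQmem w hwQ).1)) (L.W_sub _ (hQmem w hwQ).1) hdw
          he1 he2 h5
  have hvol : ∀ t ∈ Q.image τ, volume (region t) ≤ ENNReal.ofReal (v t) := by
    intro t ht
    obtain ⟨w, hw, rfl⟩ := Finset.mem_image.mp ht
    by_cases hB : isB (τ w)
    · simp only [region, v]
      rw [if_pos hB, if_pos hB]
      rw [Measure.addHaar_closedBall _ _ (by have := hscpos (τ w).1; positivity)]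
      rw [finrank_euclideanSpace_fin]
      rw [← ENNReal.ofReal_toReal (measure_ball_lt_top (μ := volume)
        (x := (0 : EuclideanSpace ℝ (Fin n))) (r := 1)).ne]
      rw [← ENNReal.ofReal_mul (by have := hscpos (τ w).1; positivity)]
      rw [mul_comm]
    · simp only [region, v]
      rw [if_neg hB, if_neg hB]
      obtain ⟨he1, -⟩ := he (τ w) (hsteep w hw hB)
      exact hslabvol (pr ι (τ w).2) (e (τ w)) he1 (3 * sc ℓ b (τ w).1) (2 * c₁)
        (by have := hscpos (τ w).1; positivity) (by positivity)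
  have hmain : ω * (sc ℓ b j / 100) ^ n ≤ ∑ t ∈ Q.image τ, v t := by
    have h1 : ENNReal.ofReal (ω * (sc ℓ b j / 100) ^ n) ≤
        ENNReal.ofReal (∑ t ∈ Q.image τ, v t) := by
      calc ENNReal.ofReal (ω * (sc ℓ b j / 100) ^ n)
          = volume (Metric.closedBall (pr ι x) (sc ℓ b j / 100)) := by
            rw [Measure.addHaar_closedBall _ _ (by have := hscpos j; positivity)]
            rw [finrank_euclideanSpace_fin]
            rw [← ENNReal.ofReal_toReal (measure_ball_lt_top (μ := volume)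
              (x := (0 : EuclideanSpace ℝ (Fin n))) (r := 1)).ne]
            rw [← ENNReal.ofReal_mul (by have := hscpos j; positivity)]
            rw [mul_comm]
        _ ≤ volume (⋃ t ∈ Q.image τ, region t) := measure_mono hcover
        _ ≤ ∑ t ∈ Q.image τ, volume (region t) := measure_biUnion_finset_le _ _
        _ ≤ ∑ t ∈ Q.image τ, ENNReal.ofReal (v t) := Finset.sum_le_sum hvol
        _ = ENNReal.ofReal (∑ t ∈ Q.image τ, v t) :=
            (ENNReal.ofReal_sum_of_nonneg fun t _ => hvnn t).symm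
    exact (ENNReal.ofReal_le_ofReal_iff (Finset.sum_nonneg fun t _ => hvnn t)).mp h1
  -- scales
  have hscK : ∀ k ≤ K, sc ℓ b k = b ^ (K - k) * sc ℓ b K := by
    intro k hk
    unfold sc
    have h1 : b ^ K = b ^ (K - k) * b ^ k := by
      rw [← pow_add]; congr 1; omega
    rw [h1]
    have : b ≠ 0 := hb0.ne'
    field_simp
  set X : ℝ := (b ^ (K - j)) ^ n with hX
  set Y : ℝ := (sc ℓ b K) ^ n with hY
  have hXpos : 0 < X := by positivity
  have hYpos : 0 < Y := by have := hscpos K; positivity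
  have hXY : (sc ℓ b j) ^ n = X * Y := by
    rw [hscK j hj, mul_pow]
  -- fibres
  let v' : ℕ × EuclideanSpace ℝ (Fin d) → ℝ := fun t =>
    (if isB t then ω else Cs * (2 * c₁)) * (3 ^ n * Y / cL)
  have hfib : ∀ t ∈ Q.image τ, v t ≤ ((Q.filter (fun w' => τ w' = t)).card : ℝ) * v' t := by
    intro t ht
    obtain ⟨w, hw, rfl⟩ := Finset.mem_image.mp ht
    have hwW := (hQmem w hw).1
    have hyW : L.c (st w) w ∈ L.W := L.c_mem _ (hstK w) w hwW
    have hsub : L.cell (st w) (L.c (st w) w) ⊆ Q.filter (fun w' => τ w' = τ w) := by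
      intro w' hw'
      rw [L.mem_cell] at hw'
      obtain ⟨hw'W, hw'c⟩ := hw'
      have hcj : L.c j w' = x := by
        rw [← L.c_comp j (st w) (hjst w) (hstK w) w' hw'W, hw'c,
          L.c_comp j (st w) (hjst w) (hstK w) w hwW]
        exact (hQmem w hw).2
      have hst' : st w' = st w :=
        stopGen_congr L good I c₁ hwW hw'W (hrootw w hw) hw'c
      rw [Finset.mem_filter]
      refine ⟨L.mem_cell.mpr ⟨hw'W, hcj⟩, ?_⟩
      simp only [τ, hst', hw'c]
    have hcard : cL * (b ^ (K - st w)) ^ n ≤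
        ((Q.filter (fun w' => τ w' = τ w)).card : ℝ) := by
      refine (hlow (st w) (hstK w) (L.c (st w) w) hyW (L.c_comp _ _ le_rfl (hstK w) w hwW)
        ?_).trans (by exact_mod_cast Finset.card_le_card hsub)
      rw [L.c_comp 0 (st w) (Nat.zero_le _) (hstK w) w hwW]
      rw [← L.c_comp 0 j (Nat.zero_le _) hj w hwW, (hQmem w hw).2]
      exact h0x
    have hscw : (3 * sc ℓ b (st w)) ^ n = 3 ^ n * ((b ^ (K - st w)) ^ n * Y) := by
      rw [hscK _ (hstK w), mul_pow, mul_pow]
    have hscw' : (3 * sc ℓ b (st w)) ^ n ≤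
        ((Q.filter (fun w' => τ w' = τ w)).card : ℝ) * (3 ^ n * Y / cL) := by
      rw [hscw]
      have h3 : (0 : ℝ) < 3 ^ n * Y / cL := by positivity
      calc (3 : ℝ) ^ n * ((b ^ (K - st w)) ^ n * Y)
          = (cL * (b ^ (K - st w)) ^ n) * (3 ^ n * Y / cL) := by
            field_simp
        _ ≤ _ := mul_le_mul_of_nonneg_right hcard h3.le
    show (if isB (τ w) then ω * (3 * sc ℓ b (st w)) ^ n
      else Cs * (2 * c₁) * (3 * sc ℓ b (st w)) ^ n) ≤ _ * ((if isB (τ w) then ω
        else Cs * (2 * c₁)) * (3 ^ n * Y / cL))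
    split_ifs
    · calc ω * (3 * sc ℓ b (st w)) ^ n ≤ ω * (_ * (3 ^ n * Y / cL)) :=
            mul_le_mul_of_nonneg_left hscw' hωpos.le
        _ = _ := by ring
    · calc Cs * (2 * c₁) * (3 * sc ℓ b (st w)) ^ n ≤ Cs * (2 * c₁) * (_ * (3 ^ n * Y / cL)) :=
            mul_le_mul_of_nonneg_left hscw' (by positivity)
        _ = _ := by ring
  set Lf : ℝ := ((Q.filter (fun w => Leftover L good I c₁ j w)).card : ℝ) with hLf
  have hsum : ∑ t ∈ Q.image τ, v t ≤
      Lf * (ω * (3 ^ n * Y / cL)) + (Q.card : ℝ) * (Cs * (2 * c₁) * (3 ^ n * Y / cL)) := by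
    have hBpos : 0 < 3 ^ n * Y / cL := by positivity
    calc ∑ t ∈ Q.image τ, v t
        ≤ ∑ t ∈ Q.image τ, ((Q.filter (fun w' => τ w' = t)).card : ℝ) * v' t :=
          Finset.sum_le_sum hfib
      _ = ∑ w ∈ Q, v' (τ w) := by
          rw [Finset.sum_comp v' τ]
          refine Finset.sum_congr rfl fun t _ => ?_
          rw [nsmul_eq_mul]
      _ ≤ ∑ w ∈ Q, ((if Leftover L good I c₁ j w then ω * (3 ^ n * Y / cL) else 0) +
            Cs * (2 * c₁) * (3 ^ n * Y / cL)) := by
          refine Finset.sum_le_sum fun w hw => ?_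
          show (if isB (τ w) then ω else Cs * (2 * c₁)) * (3 ^ n * Y / cL) ≤ _
          by_cases hB : isB (τ w)
          · have hl : Leftover L good I c₁ j w :=
              leftover_of_stopGen L good I c₁ (hrootw w hw) hB
            rw [if_pos hB, if_pos hl]
            have : 0 ≤ Cs * (2 * c₁) * (3 ^ n * Y / cL) := by positivity
            linarith
          · rw [if_neg hB]
            have : (0 : ℝ) ≤ (if Leftover L good I c₁ j w then ω * (3 ^ n * Y / cL) else 0) := by
              split_ifs <;> positivity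
            linarith
      _ = _ := by
          rw [Finset.sum_add_distrib, Finset.sum_const, nsmul_eq_mul, ← Finset.sum_filter,
            Finset.sum_const, nsmul_eq_mul]
  have hQcard : (Q.card : ℝ) ≤ CL * X := hup j hj x hx hjx h0x
  -- the slabs take at most half of the area
  have hhalf : (Q.card : ℝ) * (Cs * (2 * c₁) * (3 ^ n * Y / cL)) ≤
      ω * (X * Y) / (2 * 100 ^ n) := by
    have h1 : c₁ * (4 * Cs * CL * 300 ^ n) ≤ ω * cL := by
      rwa [le_div_iff₀ (by positivity)] at hc₁''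
    have h300' : (300 : ℝ) ^ n = 3 ^ n * 100 ^ n := by
      rw [← mul_pow]; norm_num
    rw [h300'] at h1
    calc (Q.card : ℝ) * (Cs * (2 * c₁) * (3 ^ n * Y / cL))
        ≤ (CL * X) * (Cs * (2 * c₁) * (3 ^ n * Y / cL)) :=
          mul_le_mul_of_nonneg_right hQcard (by positivity)
      _ = (c₁ * (4 * Cs * CL * (3 ^ n * 100 ^ n))) * (X * Y / (2 * 100 ^ n * cL)) := by
          field_simp
          ring
      _ ≤ (ω * cL) * (X * Y / (2 * 100 ^ n * cL)) :=
          mul_le_mul_of_nonneg_right h1 (by positivity)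
      _ = ω * (X * Y) / (2 * 100 ^ n) := by
          field_simp
  have hfin : ω * (X * Y) / (2 * 100 ^ n) ≤ Lf * (ω * (3 ^ n * Y / cL)) := by
    have h1 : ω * (sc ℓ b j / 100) ^ n = ω * (X * Y) / 100 ^ n := by
      rw [div_pow, hXY]; ring
    have h2 : ω * (X * Y) / 100 ^ n = ω * (X * Y) / (2 * 100 ^ n) + ω * (X * Y) / (2 * 100 ^ n) := by
      field_simp; ring
    rw [h1, h2] at hmain
    linarith
  have hfin' : cL / (2 * 300 ^ n) * X ≤ Lf := by
    have h300' : (300 : ℝ) ^ n = 3 ^ n * 100 ^ n := by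
      rw [← mul_pow]; norm_num
    have h1 : (cL / (2 * 300 ^ n) * X) * (ω * (3 ^ n * Y / cL)) ≤ Lf * (ω * (3 ^ n * Y / cL)) := by
      calc (cL / (2 * 300 ^ n) * X) * (ω * (3 ^ n * Y / cL))
          = ω * (X * Y) / (2 * 100 ^ n) := by
            rw [h300']; field_simp
        _ ≤ _ := hfin
    exact le_of_mul_le_mul_right h1 (by positivity)
  calc cL / (2 * 300 ^ n * CL) * (Q.card : ℝ) ≤ cL / (2 * 300 ^ n * CL) * (CL * X) :=
        mul_le_mul_of_nonneg_left hQcard (by positivity)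
    _ = cL / (2 * 300 ^ n) * X := by field_simp
    _ ≤ Lf := hfin'

end Crest.Agent.R085
end

-- ▼ part R085/P2Count
section

set_option autoImplicit false

namespace Crest.Agent.R085

open MeasureTheory Set

section Count

variable {d n : ℕ} {S : Set (EuclideanSpace ℝ (Fin d))}
    {x₀ : EuclideanSpace ℝ (Fin d)} {ℓ b : ℝ} {K : ℕ}

open Classical in
/-- Pointwise bound: over a leaf `w`, the roots whose leftover contains `w` are few. -/
lemma card_leftover_roots_le (L : Lat S x₀ ℓ b K)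
    (good : ℕ → EuclideanSpace ℝ (Fin d) → Prop)
    (I : ℕ → EuclideanSpace ℝ (Fin d) →
      (EuclideanSpace ℝ (Fin n) →ₗᵢ[ℝ] EuclideanSpace ℝ (Fin d)))
    (c₁ : ℝ) (w : EuclideanSpace ℝ (Fin d)) :
    ((Finset.range (K + 1)).filter
        (fun j => root L.c good I c₁ j (L.c j w) = some j ∧ Leftover L good I c₁ j w)).card ≤
      ((Finset.range (K + 1)).filter (fun k => ¬ good k (L.c k w))).card + 2 := by
  classical
  set R : ℕ → Option ℕ := fun i => root L.c good I c₁ i (L.c i w) with hR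
  -- the three classes
  let A : Finset ℕ := (Finset.range (K + 1)).filter
    (fun j => R j = some j ∧ ∃ k, j < k ∧ k < K ∧ (∀ i, j ≤ i → i < k → R i = some j) ∧
      ¬ good k (L.c k w))
  let B : Finset ℕ := (Finset.range K).filter
    (fun j => R j = some j ∧ ∀ i, j ≤ i → i < K → R i = some j)
  have hsub : (Finset.range (K + 1)).filter
        (fun j => root L.c good I c₁ j (L.c j w) = some j ∧ Leftover L good I c₁ j w) ⊆
      A ∪ (B ∪ {K}) := by
    intro j hj
    rw [Finset.mem_filter, Finset.mem_range] at hj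
    obtain ⟨hjK, hjr, hl⟩ := hj
    rw [Finset.mem_union, Finset.mem_union]
    rcases hl with ⟨k, hjk, hkK, hall, hbad⟩ | hall
    · left
      simp only [A, Finset.mem_filter, Finset.mem_range]
      exact ⟨hjK, hjr, k, hjk, hkK, hall, hbad⟩
    · right
      by_cases hj' : j = K
      · right; simp [hj']
      · left
        simp only [B, Finset.mem_filter, Finset.mem_range]
        exact ⟨by omega, hjr, hall⟩
  have hA : A.card ≤ ((Finset.range (K + 1)).filter (fun k => ¬ good k (L.c k w))).card := by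
    -- choose the exit generation
    have hch : ∀ j ∈ A, ∃ k, j < k ∧ k < K ∧ (∀ i, j ≤ i → i < k → R i = some j) ∧
        ¬ good k (L.c k w) := by
      intro j hj
      simp only [A, Finset.mem_filter] at hj
      exact hj.2.2
    have hAr : ∀ j ∈ A, R j = some j := by
      intro j hj
      simp only [A, Finset.mem_filter] at hj
      exact hj.2.1
    choose! e he using hch
    refine Finset.card_le_card_of_injOn e ?_ ?_
    · intro j hj
      have hj' : j ∈ A := hj
      have := he j hj'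
      simp only [Finset.coe_filter, Finset.mem_range, Set.mem_ofPred_eq]
      exact ⟨by omega, this.2.2.2⟩
    · intro j hj j' hj' hee
      have hj1 : j ∈ A := hj
      have hj2 : j' ∈ A := hj'
      obtain ⟨h1, h2, h3, h4⟩ := he j hj1
      obtain ⟨h1', h2', h3', h4'⟩ := he j' hj2
      by_contra hne
      rcases lt_or_gt_of_ne hne with hlt | hlt
      · have := h3 j' hlt.le (by omega)
        rw [hAr j' hj2] at this
        simp at this
        omega
      · have := h3' j hlt.le (by omega)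
        rw [hAr j hj1] at this
        simp at this
        omega
  have hB : B.card ≤ 1 := by
    rw [Finset.card_le_one]
    intro j hj j' hj'
    simp only [B, Finset.mem_filter, Finset.mem_range] at hj hj'
    obtain ⟨hjK, hr, hall⟩ := hj
    obtain ⟨hjK', hr', hall'⟩ := hj'
    by_contra hne
    rcases lt_or_gt_of_ne hne with hlt | hlt
    · have := hall j' hlt.le hjK'
      rw [hr'] at this
      simp at this
      omega
    · have := hall' j hlt.le hjK
      rw [hr] at this
      simp at this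
      omega
  calc _ ≤ (A ∪ (B ∪ {K})).card := Finset.card_le_card hsub
    _ ≤ A.card + (B ∪ {K}).card := Finset.card_union_le _ _
    _ ≤ A.card + (B.card + ({K} : Finset ℕ).card) := by
        gcongr
        exact Finset.card_union_le _ _
    _ ≤ _ := by
        rw [Finset.card_singleton]
        omega

open Classical in
/-- Each generation: the roots of generation `j` have large leftovers. -/
lemma card_roots_gen_le (L : Lat S x₀ ℓ b K)
    (good : ℕ → EuclideanSpace ℝ (Fin d) → Prop)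
    (I : ℕ → EuclideanSpace ℝ (Fin d) →
      (EuclideanSpace ℝ (Fin n) →ₗᵢ[ℝ] EuclideanSpace ℝ (Fin d)))
    (c₁ c₆ : ℝ)
    (hleft : ∀ j ≤ K, ∀ x ∈ L.W, L.c j x = x → L.c 0 x = x₀ →
      root L.c good I c₁ j x = some j →
      c₆ * ((L.cell j x).card : ℝ) ≤
        (((L.cell j x).filter (fun w => Leftover L good I c₁ j w)).card : ℝ))
    (j : ℕ) (hj : j ≤ K) :
    c₆ * ((L.top.filter (fun w => root L.c good I c₁ j (L.c j w) = some j)).card : ℝ) ≤
      ((L.top.filter (fun w => root L.c good I c₁ j (L.c j w) = some j ∧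
        Leftover L good I c₁ j w)).card : ℝ) := by
  classical
  set s := L.top.filter (fun w => root L.c good I c₁ j (L.c j w) = some j) with hs
  set s' := L.top.filter (fun w => root L.c good I c₁ j (L.c j w) = some j ∧
        Leftover L good I c₁ j w) with hs'
  set t := s.image (L.c j) with ht
  have hmem : ∀ w, w ∈ s ↔ (w ∈ L.W ∧ L.c 0 w = x₀) ∧
      root L.c good I c₁ j (L.c j w) = some j := by
    intro w; rw [hs, Finset.mem_filter, Lat.mem_top]
  have hmem' : ∀ w, w ∈ s' ↔ (w ∈ L.W ∧ L.c 0 w = x₀) ∧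
      root L.c good I c₁ j (L.c j w) = some j ∧ Leftover L good I c₁ j w := by
    intro w; rw [hs', Finset.mem_filter, Lat.mem_top]
  have hss : s' ⊆ s := by
    intro w hw
    rw [hmem'] at hw
    rw [hmem]
    exact ⟨hw.1, hw.2.1⟩
  have h1 : s.card = ∑ x ∈ t, (s.filter (fun w => L.c j w = x)).card :=
    Finset.card_eq_sum_card_fiberwise (fun w hw => Finset.mem_coe.2
      (Finset.mem_image_of_mem _ (Finset.mem_coe.1 hw)))
  have h2 : s'.card = ∑ x ∈ t, (s'.filter (fun w => L.c j w = x)).card :=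
    Finset.card_eq_sum_card_fiberwise (fun w hw => Finset.mem_coe.2
      (Finset.mem_image_of_mem _ (hss (Finset.mem_coe.1 hw))))
  rw [h1, h2]
  push_cast
  rw [Finset.mul_sum]
  refine Finset.sum_le_sum ?_
  intro x hx
  rw [ht, Finset.mem_image] at hx
  obtain ⟨w₀, hw₀, rfl⟩ := hx
  rw [hmem] at hw₀
  obtain ⟨⟨hw₀W, hw₀0⟩, hw₀r⟩ := hw₀
  have hc0 : ∀ w ∈ L.W, L.c 0 (L.c j w) = L.c 0 w := fun w hw =>
    L.c_comp 0 j (Nat.zero_le _) hj w hw
  have hx0 : L.c 0 (L.c j w₀) = x₀ := by rw [hc0 w₀ hw₀W, hw₀0]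
  have key : ∀ w ∈ L.W, L.c j w = L.c j w₀ → L.c 0 w = x₀ := by
    intro w hw h
    rw [← hc0 w hw, h, hx0]
  have e1 : s.filter (fun w => L.c j w = L.c j w₀) = L.cell j (L.c j w₀) := by
    ext w
    rw [Finset.mem_filter, hmem, Lat.mem_cell]
    constructor
    · rintro ⟨⟨⟨h1, _⟩, _⟩, h2⟩
      exact ⟨h1, h2⟩
    · rintro ⟨h1, h2⟩
      exact ⟨⟨⟨h1, key w h1 h2⟩, by rw [h2]; exact hw₀r⟩, h2⟩
  have e2 : s'.filter (fun w => L.c j w = L.c j w₀) =
      (L.cell j (L.c j w₀)).filter (fun w => Leftover L good I c₁ j w) := by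
    ext w
    rw [Finset.mem_filter, hmem', Finset.mem_filter, Lat.mem_cell]
    constructor
    · rintro ⟨⟨⟨h1, _⟩, _, h3⟩, h2⟩
      exact ⟨⟨h1, h2⟩, h3⟩
    · rintro ⟨⟨h1, h2⟩, h3⟩
      exact ⟨⟨⟨h1, key w h1 h2⟩, by rw [h2]; exact hw₀r, h3⟩, h2⟩
  rw [e1, e2]
  exact hleft j hj _ (L.c_mem j hj w₀ hw₀W) (L.c_comp j j le_rfl hj w₀ hw₀W) hx0 hw₀r

open Classical in
/-- FILE P2Count.lean. (Pure combinatorics: leftovers of different roots over a leaf end at
different bad generations.) -/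
theorem sum_nroot_le {d n : ℕ} {S : Set (EuclideanSpace ℝ (Fin d))}
    {x₀ : EuclideanSpace ℝ (Fin d)} {ℓ b : ℝ} {K : ℕ} (L : Lat S x₀ ℓ b K)
    (good : ℕ → EuclideanSpace ℝ (Fin d) → Prop)
    (I : ℕ → EuclideanSpace ℝ (Fin d) →
      (EuclideanSpace ℝ (Fin n) →ₗᵢ[ℝ] EuclideanSpace ℝ (Fin d)))
    (c₁ c₆ : ℝ) (hc₆ : 0 < c₆)
    (hleft : ∀ j ≤ K, ∀ x ∈ L.W, L.c j x = x → L.c 0 x = x₀ →
      root L.c good I c₁ j x = some j →
      c₆ * ((L.cell j x).card : ℝ) ≤
        (((L.cell j x).filter (fun w => Leftover L good I c₁ j w)).card : ℝ)) :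
    c₆ * (∑ w ∈ L.top, (nroot L good I c₁ w : ℝ)) ≤
      ∑ w ∈ L.top, ((((Finset.range (K + 1)).filter
        (fun k => ¬ good k (L.c k w))).card : ℝ) + 2) := by
  classical
  -- exchange the sums
  have hL : (∑ w ∈ L.top, (nroot L good I c₁ w : ℝ)) =
      ∑ j ∈ Finset.range (K + 1),
        ((L.top.filter (fun w => root L.c good I c₁ j (L.c j w) = some j)).card : ℝ) := by
    unfold nroot
    simp only [Finset.card_filter]
    push_cast
    rw [Finset.sum_comm]
  have hR : (∑ w ∈ L.top, (((Finset.range (K + 1)).filter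
        (fun j => root L.c good I c₁ j (L.c j w) = some j ∧
          Leftover L good I c₁ j w)).card : ℝ)) =
      ∑ j ∈ Finset.range (K + 1),
        ((L.top.filter (fun w => root L.c good I c₁ j (L.c j w) = some j ∧
          Leftover L good I c₁ j w)).card : ℝ) := by
    simp only [Finset.card_filter]
    push_cast
    rw [Finset.sum_comm]
  calc c₆ * (∑ w ∈ L.top, (nroot L good I c₁ w : ℝ))
      = ∑ j ∈ Finset.range (K + 1), c₆ *
        ((L.top.filter (fun w => root L.c good I c₁ j (L.c j w) = some j)).card : ℝ) := by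
          rw [hL, Finset.mul_sum]
    _ ≤ ∑ j ∈ Finset.range (K + 1),
        ((L.top.filter (fun w => root L.c good I c₁ j (L.c j w) = some j ∧
          Leftover L good I c₁ j w)).card : ℝ) := by
          refine Finset.sum_le_sum ?_
          intro j hj
          rw [Finset.mem_range] at hj
          exact card_roots_gen_le L good I c₁ c₆ hleft j (by omega)
    _ = ∑ w ∈ L.top, (((Finset.range (K + 1)).filter
        (fun j => root L.c good I c₁ j (L.c j w) = some j ∧
          Leftover L good I c₁ j w)).card : ℝ) := hR.symm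
    _ ≤ _ := by
          refine Finset.sum_le_sum ?_
          intro w _
          have := card_leftover_roots_le L good I c₁ w
          exact_mod_cast this

end Count

end Crest.Agent.R085
end

-- ▼ part R085/P2Map
section

set_option autoImplicit false

namespace Crest.Agent.R085

open MeasureTheory Set

section RootLemmas

variable {d n : ℕ} {c : ℕ → EuclideanSpace ℝ (Fin d) → EuclideanSpace ℝ (Fin d)}
    {good : ℕ → EuclideanSpace ℝ (Fin d) → Prop}
    {I : ℕ → EuclideanSpace ℝ (Fin d) →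
      (EuclideanSpace ℝ (Fin n) →ₗᵢ[ℝ] EuclideanSpace ℝ (Fin d))}
    {c₁ : ℝ}

lemma root_eq_none_iff (k : ℕ) (x : EuclideanSpace ℝ (Fin d)) :
    root c good I c₁ k x = none ↔ ¬ good k x := by
  classical
  cases k with
  | zero => simp [root]
  | succ k =>
    rw [root]
    by_cases h : good (k + 1) x
    · simp only [h, if_true, not_true_eq_false, iff_false]
      cases hr : root c good I c₁ k (c k x) with
      | none => simp
      | some j =>
        simp only
        split_ifs <;> simp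
    · simp [h]

lemma root_le (k : ℕ) (x : EuclideanSpace ℝ (Fin d)) (j : ℕ)
    (h : root c good I c₁ k x = some j) : j ≤ k := by
  classical
  induction k generalizing x j with
  | zero =>
    rw [root] at h
    split_ifs at h
    simp at h
    omega
  | succ k ih =>
    rw [root] at h
    split_ifs at h with hg
    cases hr : root c good I c₁ k (c k x) with
    | none =>
      rw [hr] at h
      simp at h
      omega
    | some i =>
      rw [hr] at h
      simp only at h
      split_ifs at h with h2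
      · have := ih _ _ hr
        simp at h
        omega
      · simp at h
        omega

lemma root_good {k : ℕ} {x : EuclideanSpace ℝ (Fin d)} {j : ℕ}
    (h : root c good I c₁ k x = some j) : good k x := by
  by_contra hg
  rw [(root_eq_none_iff (c := c) (I := I) (c₁ := c₁) k x).2 hg] at h
  exact absurd h (by simp)

lemma root_succ_some {k : ℕ} {x : EuclideanSpace ℝ (Fin d)} {j : ℕ}
    (h : root c good I c₁ (k + 1) x = some j) (hj : j ≤ k) :
    root c good I c₁ k (c k x) = some j ∧ NonSteep c₁ (I j (c j x)) (I (k + 1) x) := by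
  classical
  rw [root] at h
  split_ifs at h with hg
  cases hr : root c good I c₁ k (c k x) with
  | none =>
    rw [hr] at h
    simp at h
    omega
  | some i =>
    rw [hr] at h
    simp only at h
    split_ifs at h with h2
    · simp at h
      subst h
      exact ⟨rfl, h2⟩
    · simp at h
      omega

/-- After a cell in the tree of `j`, the next one is bad, in the same tree, or a new root. -/
lemma root_succ_cases {k : ℕ} {x : EuclideanSpace ℝ (Fin d)} {j : ℕ}
    (h : root c good I c₁ k (c k x) = some j) :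
    root c good I c₁ (k + 1) x = some j ∨ ¬ good (k + 1) x ∨
      root c good I c₁ (k + 1) x = some (k + 1) := by
  classical
  by_cases hg : good (k + 1) x
  · rw [root, if_pos hg, h]
    simp only
    split_ifs <;> simp
  · exact Or.inr (Or.inl hg)

lemma root_succ_of_bad {k : ℕ} {x : EuclideanSpace ℝ (Fin d)}
    (h : ¬ good k (c k x)) :
    ¬ good (k + 1) x ∨ root c good I c₁ (k + 1) x = some (k + 1) := by
  classical
  by_cases hg : good (k + 1) x
  · right
    rw [root, if_pos hg, (root_eq_none_iff (c := c) (I := I) (c₁ := c₁) k (c k x)).2 h]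
  · exact Or.inl hg

end RootLemmas

section LatLemmas

variable {d n : ℕ} {S : Set (EuclideanSpace ℝ (Fin d))} {x₀ : EuclideanSpace ℝ (Fin d)}
  {ℓ b : ℝ} {K : ℕ} (L : Lat S x₀ ℓ b K)

lemma Lat.eq_of_eq {i k : ℕ} (hik : i ≤ k) (hk : k ≤ K) {w w' : EuclideanSpace ℝ (Fin d)}
    (hw : w ∈ L.W) (hw' : w' ∈ L.W) (h : L.c k w = L.c k w') : L.c i w = L.c i w' := by
  rw [← L.c_comp i k hik hk w hw, ← L.c_comp i k hik hk w' hw', h]

lemma Lat.c_idem {k : ℕ} (hk : k ≤ K) {w : EuclideanSpace ℝ (Fin d)} (hw : w ∈ L.W) :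
    L.c k (L.c k w) = L.c k w := L.c_comp k k le_rfl hk w hw

lemma Lat.dist_c_c {i k : ℕ} (hik : i ≤ k) (hk : k ≤ K) {w : EuclideanSpace ℝ (Fin d)}
    (hw : w ∈ L.W) : dist (L.c k w) (L.c i w) ≤ 2 * sc ℓ b i := by
  have h := L.c_dist i (hik.trans hk) (L.c k w) (L.c_mem k hk w hw)
  rwa [L.c_comp i k hik hk w hw] at h

/-- The root of a cell of the tree: all intermediate ancestors are in the same tree. -/
lemma Lat.root_chain {good : ℕ → EuclideanSpace ℝ (Fin d) → Prop}
    {I : ℕ → EuclideanSpace ℝ (Fin d) →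
      (EuclideanSpace ℝ (Fin n) →ₗᵢ[ℝ] EuclideanSpace ℝ (Fin d))} {c₁ : ℝ}
    {k j : ℕ} (hk : k ≤ K) {w : EuclideanSpace ℝ (Fin d)} (hw : w ∈ L.W)
    (h : root L.c good I c₁ k (L.c k w) = some j) :
    ∀ i, j ≤ i → i ≤ k → root L.c good I c₁ i (L.c i w) = some j := by
  induction k with
  | zero =>
    intro i hji hi0
    have : i = 0 := by omega
    subst this
    exact h
  | succ k ih =>
    intro i hji hik
    rcases Nat.lt_or_ge k i with hki | hki
    · have : i = k + 1 := by omega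
      subst this
      exact h
    · have hjk : j ≤ k := hji.trans hki
      have h' := (root_succ_some h hjk).1
      rw [L.c_comp k (k + 1) (Nat.le_succ k) hk w hw] at h'
      exact ih (Nat.le_of_succ_le hk) h' i hji hki

/-- Nonsteepness of a cell of the tree over its root. -/
lemma Lat.root_nonSteep {good : ℕ → EuclideanSpace ℝ (Fin d) → Prop}
    {I : ℕ → EuclideanSpace ℝ (Fin d) →
      (EuclideanSpace ℝ (Fin n) →ₗᵢ[ℝ] EuclideanSpace ℝ (Fin d))} {c₁ : ℝ} (hc₁ : c₁ ≤ 1)
    {k j : ℕ} (hk : k ≤ K) {w : EuclideanSpace ℝ (Fin d)} (hw : w ∈ L.W)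
    (h : root L.c good I c₁ k (L.c k w) = some j) :
    NonSteep c₁ (I j (L.c j w)) (I k (L.c k w)) := by
  have hjk := root_le _ _ _ h
  rcases Nat.eq_or_lt_of_le hjk with hjk | hjk
  · subst hjk
    intro v
    rw [pr_apply_iso]
    nlinarith [norm_nonneg v]
  · obtain ⟨k, rfl⟩ : ∃ k', k = k' + 1 := ⟨k - 1, by omega⟩
    have h2 := (root_succ_some h (by omega)).2
    rwa [L.c_comp j (k + 1) (by omega) hk w hw] at h2

end LatLemmas

lemma sc_le_of_le {ℓ b : ℝ} (hℓ : 0 < ℓ) (hb : 1 ≤ b) {i k : ℕ} (h : i ≤ k) :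
    sc ℓ b k ≤ sc ℓ b i := by
  unfold sc
  have hb0 : 0 < b := lt_of_lt_of_le one_pos hb
  exact div_le_div_of_nonneg_left hℓ.le (pow_pos hb0 _) (pow_le_pow_right₀ hb h)

/-- Geometric tail of the scales. -/
lemma sum_sc_le {ℓ b : ℝ} (hℓ : 0 < ℓ) (hb : 16 ≤ b) (m N : ℕ) :
    ∑ k ∈ Finset.range N, sc ℓ b (m + k) ≤ 2 * sc ℓ b m - 2 * sc ℓ b (m + N) := by
  have hb0 : 0 < b := by linarith
  induction N with
  | zero =>
    simp only [Finset.range_zero, Finset.sum_empty, add_zero]
    have := sc_pos hℓ hb0 m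
    linarith
  | succ N ih =>
    rw [Finset.sum_range_succ]
    have h1 : sc ℓ b (m + N) = b * sc ℓ b (m + N + 1) := sc_succ hb0 _
    have h2 := sc_pos hℓ hb0 (m + N + 1)
    have h3 : sc ℓ b (m + (N + 1)) = sc ℓ b (m + N + 1) := rfl
    rw [h3]
    nlinarith

section Map

open Classical in
/-- Index of an element in a finset (0 if not in it). -/
noncomputable def idxIn {α : Type*} (s : Finset α) (y : α) : ℕ :=
  if h : y ∈ s then (s.equivFin ⟨y, h⟩ : ℕ) else 0

lemma idxIn_lt {α : Type*} (s : Finset α) {y : α} (h : y ∈ s) : idxIn s y < s.card := by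
  unfold idxIn
  rw [dif_pos h]
  exact (s.equivFin ⟨y, h⟩).2

lemma idxIn_inj {α : Type*} (s : Finset α) {y y' : α} (h : y ∈ s) (h' : y' ∈ s)
    (e : idxIn s y = idxIn s y') : y = y' := by
  unfold idxIn at e
  rw [dif_pos h, dif_pos h'] at e
  have := s.equivFin.injective (Fin.ext e)
  simpa using this

variable {d n : ℕ} {S : Set (EuclideanSpace ℝ (Fin d))} {x₀ : EuclideanSpace ℝ (Fin d)}
  {ℓ b : ℝ} {K : ℕ} (L : Lat S x₀ ℓ b K)
  (good : ℕ → EuclideanSpace ℝ (Fin d) → Prop)
  (I : ℕ → EuclideanSpace ℝ (Fin d) →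
    (EuclideanSpace ℝ (Fin n) →ₗᵢ[ℝ] EuclideanSpace ℝ (Fin d)))
  (c₁ κ : ℝ) (M : ℕ) (e₀ : EuclideanSpace ℝ (Fin n))

/-- Transition: the cell is bad or is a root. -/
def Tran (k : ℕ) (x : EuclideanSpace ℝ (Fin d)) : Prop :=
  ¬ good k x ∨ root L.c good I c₁ k x = some k

open Classical in
/-- Increment of the map from generation `k` to `k + 1`. -/
noncomputable def mvec (k : ℕ) (w : EuclideanSpace ℝ (Fin d)) : EuclideanSpace ℝ (Fin n) :=
  match root L.c good I c₁ k (L.c k w) with
  | some j => pr (I j (L.c j w)) (L.c (k + 1) w - L.c k w)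
  | none => (sc ℓ b k * ((idxIn ((L.cell k (L.c k w)).image (L.c (k + 1)))
      (L.c (k + 1) w) : ℝ) / M)) • e₀

open Classical in
/-- Number of transitions at generations `1, …, k`. -/
noncomputable def mcnt : ℕ → EuclideanSpace ℝ (Fin d) → ℕ
  | 0, _ => 0
  | (k + 1), w => mcnt k w + if Tran L good I c₁ (k + 1) (L.c (k + 1) w) then 1 else 0

/-- Position of the image of `w` seen at generation `k`. -/
noncomputable def mpos : ℕ → EuclideanSpace ℝ (Fin d) → EuclideanSpace ℝ (Fin n)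
  | 0, _ => 0
  | (k + 1), w => mpos k w +
      (κ ^ (mcnt L good I c₁ k w)) • mvec L good I c₁ M e₀ k w

lemma mcnt_mono {i k : ℕ} (h : i ≤ k) (w : EuclideanSpace ℝ (Fin d)) :
    mcnt L good I c₁ i w ≤ mcnt L good I c₁ k w := by
  induction k with
  | zero =>
    have : i = 0 := by omega
    subst this; exact le_rfl
  | succ k ih =>
    rcases Nat.lt_or_ge k i with hki | hki
    · have : i = k + 1 := by omega
      subst this; exact le_rfl
    · refine (ih hki).trans ?_
      rw [mcnt]; omega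

lemma mcnt_congr {k : ℕ} {w w' : EuclideanSpace ℝ (Fin d)}
    (h : ∀ i ≤ k, L.c i w = L.c i w') :
    mcnt L good I c₁ k w = mcnt L good I c₁ k w' := by
  induction k with
  | zero => rfl
  | succ k ih =>
    rw [mcnt, mcnt, ih (fun i hi => h i (by omega)), h (k + 1) le_rfl]

lemma mvec_congr {k : ℕ} {w w' : EuclideanSpace ℝ (Fin d)}
    (h : ∀ i ≤ k + 1, L.c i w = L.c i w') :
    mvec L good I c₁ M e₀ k w = mvec L good I c₁ M e₀ k w' := by
  classical
  unfold mvec
  rw [h k (by omega), h (k + 1) le_rfl]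
  cases hr : root L.c good I c₁ k (L.c k w') with
  | none => rfl
  | some j =>
    have hj : j ≤ k := root_le _ _ _ hr
    simp only
    rw [h j (by omega)]

lemma mpos_congr {k : ℕ} {w w' : EuclideanSpace ℝ (Fin d)}
    (h : ∀ i ≤ k, L.c i w = L.c i w') :
    mpos L good I c₁ κ M e₀ k w = mpos L good I c₁ κ M e₀ k w' := by
  induction k with
  | zero => rfl
  | succ k ih =>
    rw [mpos, mpos, ih (fun i hi => h i (by omega)), mvec_congr L good I c₁ M e₀ h,
      mcnt_congr L good I c₁ (fun i hi => h i (by omega))]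

/-- Bound on increments. -/
lemma norm_mvec_le (hℓ : 0 < ℓ) (hb : 16 ≤ b) (he : ‖e₀‖ = 1)
    (hM : ∀ k < K, ∀ x ∈ L.W, L.c k x = x → L.c 0 x = x₀ →
        (by classical exact ((L.cell k x).image (L.c (k + 1))).card) ≤ M)
    {k : ℕ} (hk : k < K) {w : EuclideanSpace ℝ (Fin d)} (hw : w ∈ L.top) :
    ‖mvec L good I c₁ M e₀ k w‖ ≤ 2 * sc ℓ b k := by
  classical
  rw [Lat.mem_top] at hw
  obtain ⟨hwW, hw0⟩ := hw
  have hsc := sc_pos hℓ (by linarith : (0:ℝ) < b) k
  unfold mvec
  cases hr : root L.c good I c₁ k (L.c k w) with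
  | some j =>
    simp only
    refine (norm_pr_le _ _).trans ?_
    rw [← dist_eq_norm]
    exact L.dist_c_c (Nat.le_succ k) hk hwW
  | none =>
    simp only
    rw [norm_smul, he, mul_one, Real.norm_eq_abs, abs_mul, abs_of_pos hsc, abs_div,
      Nat.abs_cast, Nat.abs_cast]
    have hmem : L.c (k + 1) w ∈ (L.cell k (L.c k w)).image (L.c (k + 1)) := by
      refine Finset.mem_image.2 ⟨w, ?_, rfl⟩
      rw [Lat.mem_cell]; exact ⟨hwW, rfl⟩
    have h1 := idxIn_lt _ hmem
    have h2 := hM k hk (L.c k w) (L.c_mem k hk.le w hwW) (L.c_idem hk.le hwW)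
      (by rw [L.c_comp 0 k (Nat.zero_le _) hk.le w hwW, hw0])
    have h3 : (idxIn ((L.cell k (L.c k w)).image (L.c (k + 1))) (L.c (k + 1) w) : ℝ) ≤ M := by
      have : idxIn ((L.cell k (L.c k w)).image (L.c (k + 1))) (L.c (k + 1) w) ≤ M := by
        refine h1.le.trans ?_
        exact h2
      exact_mod_cast this
    have h4 : (idxIn ((L.cell k (L.c k w)).image (L.c (k + 1))) (L.c (k + 1) w) : ℝ) / M ≤ 1 :=
      div_le_one_of_le₀ h3 (Nat.cast_nonneg _)
    have h5 : 0 ≤ (idxIn ((L.cell k (L.c k w)).image (L.c (k + 1))) (L.c (k + 1) w) : ℝ) / M := by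
      positivity
    nlinarith

/-- Tail bound. -/
lemma dist_mpos_le (hℓ : 0 < ℓ) (hb : 16 ≤ b) (he : ‖e₀‖ = 1) (hκ : 0 < κ) (hκ1 : κ ≤ 1)
    (hM : ∀ k < K, ∀ x ∈ L.W, L.c k x = x → L.c 0 x = x₀ →
        (by classical exact ((L.cell k x).image (L.c (k + 1))).card) ≤ M)
    {m : ℕ} {w : EuclideanSpace ℝ (Fin d)} (hw : w ∈ L.top) (N : ℕ) (hN : m + N ≤ K) :
    dist (mpos L good I c₁ κ M e₀ (m + N) w) (mpos L good I c₁ κ M e₀ m w) ≤
      κ ^ (mcnt L good I c₁ m w) * (2 * ∑ k ∈ Finset.range N, sc ℓ b (m + k)) := by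
  induction N with
  | zero => simp
  | succ N ih =>
    have ih' := ih (by omega)
    have hstep : dist (mpos L good I c₁ κ M e₀ (m + (N + 1)) w)
        (mpos L good I c₁ κ M e₀ (m + N) w) ≤
        κ ^ (mcnt L good I c₁ m w) * (2 * sc ℓ b (m + N)) := by
      have e1 : mpos L good I c₁ κ M e₀ (m + (N + 1)) w = mpos L good I c₁ κ M e₀ (m + N) w +
          (κ ^ (mcnt L good I c₁ (m + N) w)) • mvec L good I c₁ M e₀ (m + N) w := rfl
      rw [e1, dist_eq_norm, add_sub_cancel_left, norm_smul, Real.norm_eq_abs,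
        abs_of_pos (pow_pos hκ _)]
      refine mul_le_mul (pow_le_pow_of_le_one hκ.le hκ1
        (mcnt_mono L good I c₁ (Nat.le_add_right m N) w)) ?_ (norm_nonneg _)
        (pow_nonneg hκ.le _)
      exact norm_mvec_le L good I c₁ M e₀ hℓ hb he hM (by omega) hw
    rw [Finset.sum_range_succ]
    calc dist (mpos L good I c₁ κ M e₀ (m + (N + 1)) w) (mpos L good I c₁ κ M e₀ m w)
        ≤ dist (mpos L good I c₁ κ M e₀ (m + (N + 1)) w)
            (mpos L good I c₁ κ M e₀ (m + N) w) +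
          dist (mpos L good I c₁ κ M e₀ (m + N) w) (mpos L good I c₁ κ M e₀ m w) :=
            dist_triangle _ _ _
      _ ≤ _ := by nlinarith

lemma dist_mpos_le' (hℓ : 0 < ℓ) (hb : 16 ≤ b) (he : ‖e₀‖ = 1) (hκ : 0 < κ) (hκ1 : κ ≤ 1)
    (hM : ∀ k < K, ∀ x ∈ L.W, L.c k x = x → L.c 0 x = x₀ →
        (by classical exact ((L.cell k x).image (L.c (k + 1))).card) ≤ M)
    {m : ℕ} {w : EuclideanSpace ℝ (Fin d)} (hw : w ∈ L.top) (hm : m ≤ K) :
    dist (mpos L good I c₁ κ M e₀ K w) (mpos L good I c₁ κ M e₀ m w) ≤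
      κ ^ (mcnt L good I c₁ m w) * (4 * sc ℓ b m) := by
  obtain ⟨N, rfl⟩ := Nat.exists_eq_add_of_le hm
  refine (dist_mpos_le L good I c₁ κ M e₀ hℓ hb he hκ hκ1 hM hw N le_rfl).trans ?_
  have h1 := sum_sc_le hℓ hb m N
  have h2 := sc_pos hℓ (by linarith : (0:ℝ) < b) (m + N)
  refine mul_le_mul_of_nonneg_left ?_ (pow_nonneg hκ.le _)
  linarith

/-- In the tree of a root `j`, positions are given by the projection on the plane of the root. -/
lemma mpos_tree {j m : ℕ} (hjm : j ≤ m) {w : EuclideanSpace ℝ (Fin d)}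
    (h : ∀ i, j ≤ i → i < m → root L.c good I c₁ i (L.c i w) = some j) :
    mpos L good I c₁ κ M e₀ m w = mpos L good I c₁ κ M e₀ j w +
      (κ ^ (mcnt L good I c₁ j w)) • pr (I j (L.c j w)) (L.c m w - L.c j w) ∧
    (∀ i, j ≤ i → i < m → mcnt L good I c₁ i w = mcnt L good I c₁ j w) := by
  classical
  induction m with
  | zero =>
    have : j = 0 := by omega
    subst this
    constructor
    · simp
    · intro i _ hi; omega
  | succ m ih =>
    rcases Nat.lt_or_ge m j with hmj | hmj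
    · have : j = m + 1 := by omega
      subst this
      constructor
      · simp
      · intro i h1 h2; omega
    · obtain ⟨ih1, ih2⟩ := ih hmj (fun i h1 h2 => h i h1 (by omega))
      have hcm : mcnt L good I c₁ m w = mcnt L good I c₁ j w := by
        rcases Nat.eq_or_lt_of_le hmj with hmj' | hmj'
        · rw [hmj']
        · obtain ⟨m', rfl⟩ : ∃ m', m = m' + 1 := ⟨m - 1, by omega⟩
          rw [mcnt]
          have hr := h (m' + 1) (by omega) (by omega)
          have hnt : ¬ Tran L good I c₁ (m' + 1) (L.c (m' + 1) w) := by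
            rintro (h1 | h1)
            · exact h1 (root_good hr)
            · rw [hr] at h1
              simp at h1
              omega
          rw [if_neg hnt, add_zero]
          exact ih2 m' (by omega) (by omega)
      have hr := h m hmj (by omega)
      refine ⟨?_, ?_⟩
      · rw [mpos, ih1, hcm]
        have hv : mvec L good I c₁ M e₀ m w =
            pr (I j (L.c j w)) (L.c (m + 1) w - L.c m w) := by
          unfold mvec
          rw [hr]
        rw [hv, add_assoc, ← smul_add, ← map_add]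
        congr 3
        abel
      · intro i h1 h2
        rcases Nat.lt_or_ge i m with h3 | h3
        · exact ih2 i h1 h3
        · have : i = m := by omega
          subst this
          exact hcm

/-- Exit from the tree of a root: data attached to a leaf `w` whose ancestor of generation `k`
is in the tree of `j`. -/
lemma exists_exit (hℓ : 0 < ℓ) (hb : 16 ≤ b) (he : ‖e₀‖ = 1) (hκ : 0 < κ) (hκ1 : κ ≤ 1)
    (hM : ∀ k < K, ∀ x ∈ L.W, L.c k x = x → L.c 0 x = x₀ →
        (by classical exact ((L.cell k x).image (L.c (k + 1))).card) ≤ M)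
    {j k : ℕ} (hjk : j ≤ k) (hkK : k < K) {w : EuclideanSpace ℝ (Fin d)} (hw : w ∈ L.top)
    (hr : root L.c good I c₁ k (L.c k w) = some j) :
    ∃ e, k < e ∧ e ≤ K ∧ (∀ i, j ≤ i → i < e → root L.c good I c₁ i (L.c i w) = some j) ∧
      dist (mpos L good I c₁ κ M e₀ K w) (mpos L good I c₁ κ M e₀ j w +
        (κ ^ (mcnt L good I c₁ j w)) • pr (I j (L.c j w)) (L.c e w - L.c j w)) ≤
      κ ^ (mcnt L good I c₁ j w) * (4 * κ * sc ℓ b e) := by
  classical
  have hw' := hw
  rw [Lat.mem_top] at hw'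
  obtain ⟨hwW, hw0⟩ := hw'
  have hchain := L.root_chain (good := good) (I := I) (c₁ := c₁) hkK.le hwW hr
  by_cases hex : ∃ m, k < m ∧ m < K ∧ root L.c good I c₁ m (L.c m w) ≠ some j
  · -- first exit
    let e := Nat.find hex
    have he1 : k < e ∧ e < K ∧ root L.c good I c₁ e (L.c e w) ≠ some j := Nat.find_spec hex
    have hmin : ∀ i, k < i → i < e → root L.c good I c₁ i (L.c i w) = some j := by
      intro i h1 h2
      by_contra hne
      exact Nat.find_min hex h2 ⟨h1, h2.trans he1.2.1, hne⟩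
    have hall : ∀ i, j ≤ i → i < e → root L.c good I c₁ i (L.c i w) = some j := by
      intro i h1 h2
      rcases Nat.lt_or_ge k i with h3 | h3
      · exact hmin i h3 h2
      · exact hchain i h1 h3
    refine ⟨e, he1.1, he1.2.1.le, hall, ?_⟩
    have hje : j ≤ e := hjk.trans he1.1.le
    obtain ⟨hp, hc⟩ := mpos_tree L good I c₁ κ M e₀ hje hall
    rw [← hp]
    have htail := dist_mpos_le' L good I c₁ κ M e₀ hℓ hb he hκ hκ1 hM hw he1.2.1.le
    refine htail.trans ?_
    -- the transition at `e`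
    obtain ⟨m, hm⟩ : ∃ m, e = m + 1 := ⟨e - 1, by omega⟩
    have hmroot : root L.c good I c₁ m (L.c m w) = some j := hall m (by omega) (by omega)
    have hmroot' : root L.c good I c₁ m (L.c m (L.c (m + 1) w)) = some j := by
      rw [L.c_comp m (m + 1) (Nat.le_succ m) (by omega) w hwW]; exact hmroot
    have htr : Tran L good I c₁ (m + 1) (L.c (m + 1) w) := by
      rcases root_succ_cases (c := L.c) (good := good) (I := I) (c₁ := c₁)
        (x := L.c (m + 1) w) hmroot' with h1 | h1 | h1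
      · exact absurd (by rw [hm]; exact h1) he1.2.2
      · exact Or.inl h1
      · exact Or.inr h1
    have hcnt : mcnt L good I c₁ e w = mcnt L good I c₁ j w + 1 := by
      rw [hm, mcnt, if_pos htr, hc m (by omega) (by omega)]
    rw [hcnt, pow_succ]
    apply le_of_eq
    ring
  · push Not at hex
    have hall : ∀ i, j ≤ i → i < K → root L.c good I c₁ i (L.c i w) = some j := by
      intro i h1 h2
      rcases Nat.lt_or_ge k i with h3 | h3
      · exact hex i h3 h2
      · exact hchain i h1 h3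
    refine ⟨K, hkK, le_rfl, hall, ?_⟩
    obtain ⟨hp, -⟩ := mpos_tree L good I c₁ κ M e₀ (hjk.trans hkK.le) hall
    rw [← hp, dist_self]
    have := sc_pos hℓ (by linarith : (0:ℝ) < b) K
    positivity

/-- The projection on the plane of a root is expanding along the tree. -/
lemma pr_expand (hℓ : 0 < ℓ) (hb16 : 16 ≤ b) (hc₁ : 0 < c₁) (hc₁' : c₁ ≤ 1)
    (hb : 1000 ≤ b * c₁) {ε : ℝ} (hε : 0 < ε) (hεb : ε ≤ 1 / b ^ 2)
    {P : ℕ → EuclideanSpace ℝ (Fin d) → EuclideanSpace ℝ (Fin d)}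
    (hgood : ∀ k x, good k x → BF S n x (sc ℓ b k) 100 ε (P k x) (I k x))
    {j k e : ℕ} (hke : k < e) (heK : e ≤ K)
    {w : EuclideanSpace ℝ (Fin d)} (hw : w ∈ L.W) (hjk : j ≤ k)
    (hall : ∀ i, j ≤ i → i < e → root L.c good I c₁ i (L.c i w) = some j)
    {a a' : EuclideanSpace ℝ (Fin d)} (ha : a ∈ L.W) (ha' : a' ∈ L.W)
    (haw : ∀ i ≤ e, L.c i a = L.c i w)
    (hD : dist a a' ≤ 8 * sc ℓ b k) (hD' : sc ℓ b e / 4 ≤ dist a a') :
    c₁ / 2 * dist a a' ≤ ‖pr (I j (L.c j w)) (a - a')‖ := by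
  classical
  have hb0 : 0 < b := by linarith
  -- choice of the generation
  obtain ⟨m, hkm, hme, hm1, hm2⟩ : ∃ m, k ≤ m ∧ m < e ∧ dist a a' ≤ 8 * sc ℓ b m ∧
      sc ℓ b m / (4 * b) ≤ dist a a' := by
    let m := Nat.findGreatest (fun m => k ≤ m ∧ dist a a' ≤ 8 * sc ℓ b m) (e - 1)
    have hP : (fun m => k ≤ m ∧ dist a a' ≤ 8 * sc ℓ b m) m :=
      Nat.findGreatest_spec (P := fun m => k ≤ m ∧ dist a a' ≤ 8 * sc ℓ b m)
        (show k ≤ e - 1 by omega) ⟨le_rfl, hD⟩
    have hle : m ≤ e - 1 := Nat.findGreatest_le _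
    refine ⟨m, hP.1, by omega, hP.2, ?_⟩
    rcases Nat.eq_or_lt_of_le hle with h1 | h1
    · have h2 : m + 1 = e := by omega
      have h3 := sc_succ (ℓ := ℓ) hb0 m
      rw [h2] at h3
      rw [h3]
      have : b * sc ℓ b e / (4 * b) = sc ℓ b e / 4 := by field_simp
      rw [this]
      exact hD'
    · have h2 := Nat.findGreatest_is_greatest (P := fun m => k ≤ m ∧ dist a a' ≤ 8 * sc ℓ b m)
        (show m < m + 1 by omega) (by omega)
      have h3 : ¬ (dist a a' ≤ 8 * sc ℓ b (m + 1)) := fun h4 => h2 ⟨by omega, h4⟩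
      push Not at h3
      have h4 := sc_succ (ℓ := ℓ) hb0 m
      rw [h4]
      have : b * sc ℓ b (m + 1) / (4 * b) = sc ℓ b (m + 1) / 4 := by field_simp
      rw [this]
      have := sc_pos hℓ hb0 (m + 1)
      linarith
  have hscm := sc_pos hℓ hb0 m
  have hrm := hall m (hjk.trans hkm) hme
  have hns := L.root_nonSteep hc₁' (by omega : m ≤ K) hw hrm
  obtain ⟨hBF1, hBF2⟩ := hgood m _ (root_good hrm)
  have ham : L.c m a = L.c m w := haw m hme.le
  have had : dist a (L.c m w) ≤ 2 * sc ℓ b m := by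
    rw [← ham]; exact L.c_dist m (by omega) a ha
  have had' : dist a' (L.c m w) ≤ 10 * sc ℓ b m := by
    calc dist a' (L.c m w) ≤ dist a' a + dist a (L.c m w) := dist_triangle _ _ _
      _ ≤ 8 * sc ℓ b m + 2 * sc ℓ b m := by
          rw [dist_comm a' a]; linarith
      _ = _ := by ring
  obtain ⟨v, hv⟩ := hBF1 a (L.W_sub a ha) (by linarith)
  obtain ⟨v', hv'⟩ := hBF1 a' (L.W_sub a' ha') (by linarith)
  set p := P m (L.c m w)
  set ι := I m (L.c m w)
  set π := pr (I j (L.c j w))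
  have hεm : 0 ≤ ε * sc ℓ b m := by positivity
  -- distances
  have h1 : dist a a' ≤ ‖v - v'‖ + 2 * (ε * sc ℓ b m) := by
    have : dist (p + ι v) (p + ι v') = ‖v - v'‖ := by
      rw [dist_add_left, dist_eq_norm, ← map_sub, LinearIsometry.norm_map]
    calc dist a a' ≤ dist a (p + ι v) + dist (p + ι v) (p + ι v') + dist (p + ι v') a' :=
          dist_triangle4 _ _ _ _
      _ ≤ ε * sc ℓ b m + ‖v - v'‖ + ε * sc ℓ b m := by
          rw [this, dist_comm (p + ι v') a']; linarith
      _ = _ := by ring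
  have h2 : ‖π (ι (v - v'))‖ ≤ ‖π (a - a')‖ + 2 * (ε * sc ℓ b m) := by
    have e1 : π (ι (v - v')) = π (a - a') - π (a - (p + ι v)) + π (a' - (p + ι v')) := by
      rw [← map_sub, ← map_add]
      congr 1
      rw [map_sub]
      abel
    rw [e1]
    calc ‖π (a - a') - π (a - (p + ι v)) + π (a' - (p + ι v'))‖
        ≤ ‖π (a - a') - π (a - (p + ι v))‖ + ‖π (a' - (p + ι v'))‖ := norm_add_le _ _
      _ ≤ ‖π (a - a')‖ + ‖π (a - (p + ι v))‖ + ‖π (a' - (p + ι v'))‖ := by
          gcongr; exact norm_sub_le _ _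
      _ ≤ ‖π (a - a')‖ + ε * sc ℓ b m + ε * sc ℓ b m := by
          gcongr
          · exact (norm_pr_le _ _).trans (by rw [← dist_eq_norm]; exact hv)
          · exact (norm_pr_le _ _).trans (by rw [← dist_eq_norm]; exact hv')
      _ = _ := by ring
  have h3 : c₁ * ‖v - v'‖ ≤ ‖π (ι (v - v'))‖ := hns (v - v')
  -- smallness of the error
  have h4 : ε * sc ℓ b m ≤ 4 * c₁ / 1000 * dist a a' := by
    have h5 : sc ℓ b m ≤ 4 * b * dist a a' := by
      rw [div_le_iff₀ (by positivity)] at hm2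
      linarith
    have h6 : ε * b ≤ c₁ / 1000 := by
      have h7 : ε * b ≤ 1 / b := by
        calc ε * b ≤ 1 / b ^ 2 * b := by gcongr
          _ = 1 / b := by field_simp
      have h8 : 1 / b ≤ c₁ / 1000 := by
        rw [div_le_div_iff₀ hb0 (by norm_num)]
        linarith
      linarith
    calc ε * sc ℓ b m ≤ ε * (4 * b * dist a a') := by gcongr
      _ = 4 * (ε * b) * dist a a' := by ring
      _ ≤ 4 * (c₁ / 1000) * dist a a' := by gcongr
      _ = _ := by ring
  have hDn : 0 ≤ dist a a' := dist_nonneg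
  have h9 : c₁ * dist a a' ≤ c₁ * ‖v - v'‖ + 2 * (ε * sc ℓ b m) := by
    calc c₁ * dist a a' ≤ c₁ * (‖v - v'‖ + 2 * (ε * sc ℓ b m)) := by gcongr
      _ = c₁ * ‖v - v'‖ + c₁ * (2 * (ε * sc ℓ b m)) := by ring
      _ ≤ c₁ * ‖v - v'‖ + 1 * (2 * (ε * sc ℓ b m)) := by gcongr
      _ = _ := by ring
  nlinarith

end Map

open Classical in
theorem expanding_map (n : ℕ) (hn : 1 ≤ n) (c₁ b : ℝ) (hc₁ : 0 < c₁) (hc₁' : c₁ ≤ 1)
    (hb : 1000 ≤ b * c₁) (M : ℕ) :
    ∃ κ : ℝ, 0 < κ ∧ κ ≤ 1 ∧ ∃ η₀ : ℝ, 0 < η₀ ∧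
    ∀ {d : ℕ} {S : Set (EuclideanSpace ℝ (Fin d))} {x₀ : EuclideanSpace ℝ (Fin d)}
      {ℓ : ℝ} {K : ℕ} (L : Lat S x₀ ℓ b K), 0 < ℓ → ∀ {ε : ℝ}, 0 < ε →
      ε ≤ 1 / b ^ 2 →
      (∀ k < K, ∀ x ∈ L.W, L.c k x = x → L.c 0 x = x₀ →
        ((L.cell k x).image (L.c (k + 1))).card ≤ M) →
      ∀ (good : ℕ → EuclideanSpace ℝ (Fin d) → Prop)
        (P : ℕ → EuclideanSpace ℝ (Fin d) → EuclideanSpace ℝ (Fin d))
        (I : ℕ → EuclideanSpace ℝ (Fin d) →
          (EuclideanSpace ℝ (Fin n) →ₗᵢ[ℝ] EuclideanSpace ℝ (Fin d))),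
        (∀ k x, good k x → BF S n x (sc ℓ b k) 100 ε (P k x) (I k x)) →
        ∃ f : EuclideanSpace ℝ (Fin d) → EuclideanSpace ℝ (Fin n),
          (∀ w ∈ L.top, ‖f w‖ ≤ 10 * ℓ) ∧
          ∀ w ∈ L.top, ∀ w' ∈ L.top, ∀ N : ℕ,
            ((Finset.range (K + 1)).filter (fun k => ¬ good k (L.c k w))).card +
              nroot L good I c₁ w ≤ N →
            η₀ * κ ^ N * dist w w' ≤ dist (f w) (f w') := by
  have hb16 : 16 ≤ b := by nlinarith
  have hb0 : 0 < b := by linarith
  set M' : ℝ := (M : ℝ) + 1 with hM'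
  have hM'0 : 0 < M' := by positivity
  refine ⟨min (1 / (16 * M')) (c₁ / 200), by positivity, ?_, min (1 / (8 * M')) (c₁ / 200),
    by positivity, ?_⟩
  · refine (min_le_right _ _).trans ?_
    linarith
  intro d S x₀ ℓ K L hℓ ε hε hεb hM good P I hgood
  set κ : ℝ := min (1 / (16 * M')) (c₁ / 200) with hκdef
  have hκ : 0 < κ := by positivity
  have hκa : κ ≤ 1 / (16 * M') := min_le_left _ _
  have hκb : κ ≤ c₁ / 200 := min_le_right _ _
  have hκ1 : κ ≤ 1 := hκb.trans (by linarith)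
  set η₀ : ℝ := min (1 / (8 * M')) (c₁ / 200) with hη₀
  have hη : 0 < η₀ := by positivity
  have hηa : η₀ ≤ 1 / (8 * M') := min_le_left _ _
  have hηb : η₀ ≤ c₁ / 200 := min_le_right _ _
  let e₀ : EuclideanSpace ℝ (Fin n) := EuclideanSpace.single ⟨0, hn⟩ 1
  have he : ‖e₀‖ = 1 := by simp [e₀]
  have hM1 : ∀ k < K, ∀ x ∈ L.W, L.c k x = x → L.c 0 x = x₀ →
        ((L.cell k x).image (L.c (k + 1))).card ≤ M + 1 :=
    fun k hk x hx h1 h2 => (hM k hk x hx h1 h2).trans (Nat.le_succ M)
  have hMc : ((M + 1 : ℕ) : ℝ) = M' := by push_cast; rfl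
  refine ⟨fun w => mpos L good I c₁ κ (M + 1) e₀ K w, ?_, ?_⟩
  · intro w hw
    have h := dist_mpos_le' L good I c₁ κ (M + 1) e₀ hℓ hb16 he hκ hκ1 hM1 hw (Nat.zero_le K)
    have h0 : mpos L good I c₁ κ (M + 1) e₀ 0 w = 0 := rfl
    have h0' : mcnt L good I c₁ 0 w = 0 := rfl
    rw [h0, h0', dist_zero_right, pow_zero, one_mul, sc_zero] at h
    show ‖mpos L good I c₁ κ (M + 1) e₀ K w‖ ≤ 10 * ℓ
    linarith
  · intro w hw w' hw' N hN
    show η₀ * κ ^ N * dist w w' ≤
      dist (mpos L good I c₁ κ (M + 1) e₀ K w) (mpos L good I c₁ κ (M + 1) e₀ K w')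
    have hwt := hw
    have hwt' := hw'
    rw [Lat.mem_top] at hwt hwt'
    obtain ⟨hwW, hw0⟩ := hwt
    obtain ⟨hwW', hw0'⟩ := hwt'
    by_cases hww : w = w'
    · subst hww; simp
    -- number of transitions
    have hcntN : ∀ k ≤ K, mcnt L good I c₁ k w ≤ N := by
      intro k hk
      refine le_trans ?_ hN
      have h1 : ∀ k ≤ K, mcnt L good I c₁ k w ≤
          ((Finset.range (k + 1)).filter (fun i => Tran L good I c₁ i (L.c i w))).card := by
        intro k
        induction k with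
        | zero => intro _; simp [mcnt]
        | succ k ih =>
          intro hk'
          have ih' := ih (by omega)
          rw [mcnt, Finset.range_add_one, Finset.filter_insert]
          split_ifs with htr
          · rw [Finset.card_insert_of_notMem (by simp)]
            omega
          · omega
      refine (h1 k hk).trans ?_
      have h2 : (Finset.range (k + 1)).filter (fun i => Tran L good I c₁ i (L.c i w)) ⊆
          ((Finset.range (K + 1)).filter (fun k => ¬ good k (L.c k w))) ∪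
          ((Finset.range (K + 1)).filter
            (fun j => root L.c good I c₁ j (L.c j w) = some j)) := by
        intro i hi
        rw [Finset.mem_filter, Finset.mem_range] at hi
        rw [Finset.mem_union, Finset.mem_filter, Finset.mem_filter, Finset.mem_range]
        rcases hi.2 with h3 | h3
        · left; exact ⟨by omega, h3⟩
        · right; exact ⟨by omega, h3⟩
      refine (Finset.card_le_card h2).trans ((Finset.card_union_le _ _).trans ?_)
      unfold nroot
      exact le_rfl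
    -- last common generation
    have hex : ∃ m, m ≤ K ∧ L.c m w ≠ L.c m w' := by
      refine ⟨K, le_rfl, ?_⟩
      rw [L.c_last w hwW, L.c_last w' hwW']
      exact hww
    let m₁ := Nat.find hex
    have hm₁ : m₁ ≤ K ∧ L.c m₁ w ≠ L.c m₁ w' := Nat.find_spec hex
    have hm₁0 : m₁ ≠ 0 := by
      intro h0
      apply hm₁.2
      rw [h0, hw0, hw0']
    obtain ⟨k, hk⟩ : ∃ k, m₁ = k + 1 := ⟨m₁ - 1, by omega⟩
    have hkK : k < K := by omega
    have hcom : ∀ i ≤ k, L.c i w = L.c i w' := by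
      intro i hi
      by_contra hne
      exact Nat.find_min hex (show i < Nat.find hex by
        show i < m₁; omega) ⟨by omega, hne⟩
    have hdiff : ∀ i, k < i → i ≤ K → L.c i w ≠ L.c i w' := by
      intro i h1 h2 heq
      exact hm₁.2 (L.eq_of_eq (by omega) h2 hwW hwW' heq)
    have hpk := mpos_congr L good I c₁ κ (M + 1) e₀ hcom
    have hck := mcnt_congr L good I c₁ hcom
    have hsck := sc_pos hℓ hb0 k
    have hdww : dist w w' ≤ 4 * sc ℓ b k := by
      calc dist w w' ≤ dist w (L.c k w) + dist (L.c k w) w' := dist_triangle _ _ _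
        _ ≤ 2 * sc ℓ b k + 2 * sc ℓ b k := by
            rw [hcom k le_rfl]
            gcongr
            · rw [← hcom k le_rfl]; exact L.c_dist k hkK.le w hwW
            · rw [dist_comm]; exact L.c_dist k hkK.le w' hwW'
        _ = _ := by ring
    by_cases hg : good k (L.c k w)
    · -- Case B: good cell
      obtain ⟨j, hj⟩ : ∃ j, root L.c good I c₁ k (L.c k w) = some j := by
        cases hr : root L.c good I c₁ k (L.c k w) with
        | none => exact absurd hg ((root_eq_none_iff k _).1 hr)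
        | some j => exact ⟨j, rfl⟩
      have hjk : j ≤ k := root_le _ _ _ hj
      have hj' : root L.c good I c₁ k (L.c k w') = some j := by
        rw [← hcom k le_rfl]; exact hj
      obtain ⟨e, hke, heK, hall, hd⟩ := exists_exit L good I c₁ κ (M + 1) e₀ hℓ hb16 he hκ hκ1
        hM1 hjk hkK hw hj
      obtain ⟨e', hke', heK', hall', hd'⟩ := exists_exit L good I c₁ κ (M + 1) e₀ hℓ hb16 he hκ
        hκ1 hM1 hjk hkK hw' hj'
      have hcj : L.c j w = L.c j w' := hcom j hjk
      have hpj : mpos L good I c₁ κ (M + 1) e₀ j w = mpos L good I c₁ κ (M + 1) e₀ j w' :=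
        mpos_congr L good I c₁ κ (M + 1) e₀ (fun i hi => hcom i (hi.trans hjk))
      have hcntj : mcnt L good I c₁ j w = mcnt L good I c₁ j w' :=
        mcnt_congr L good I c₁ (fun i hi => hcom i (hi.trans hjk))
      rw [← hcj, ← hpj, ← hcntj] at hd'
      set s := κ ^ (mcnt L good I c₁ j w) with hs
      have hs0 : 0 < s := pow_pos hκ _
      have hsN : κ ^ N ≤ s := pow_le_pow_of_le_one hκ.le hκ1 (hcntN j (by omega))
      set a := L.c e w with ha
      set a' := L.c e' w' with ha'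
      have haW : a ∈ L.W := L.c_mem e heK w hwW
      have haW' : a' ∈ L.W := L.c_mem e' heK' w' hwW'
      have hsce := sc_pos hℓ hb0 e
      have hsce' := sc_pos hℓ hb0 e'
      have hcka : L.c k a = L.c k w := L.c_comp k e hke.le heK w hwW
      have hcka' : L.c k a' = L.c k w := by
        rw [hcom k le_rfl]; exact L.c_comp k e' hke'.le heK' w' hwW'
      have hD8 : dist a a' ≤ 8 * sc ℓ b k := by
        have h1 := L.c_dist k hkK.le a haW
        have h2 := L.c_dist k hkK.le a' haW'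
        rw [hcka] at h1
        rw [hcka'] at h2
        calc dist a a' ≤ dist a (L.c k w) + dist (L.c k w) a' := dist_triangle _ _ _
          _ ≤ 2 * sc ℓ b k + 2 * sc ℓ b k := by rw [dist_comm (L.c k w) a']; linarith
          _ ≤ _ := by linarith
      -- key lower bound for the projection, and separation
      have hkey : c₁ / 2 * dist a a' ≤ ‖pr (I j (L.c j w)) (a - a')‖ ∧
          max (sc ℓ b e) (sc ℓ b e') / 4 ≤ dist a a' := by
        rcases le_total e e' with hee | hee
        · have hmax : max (sc ℓ b e) (sc ℓ b e') = sc ℓ b e :=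
            max_eq_left (sc_le_of_le hℓ (by linarith) hee)
          have hsep : sc ℓ b e / 4 ≤ dist a a' := by
            by_contra hlt
            push Not at hlt
            have h1 := L.c_inner e heK a haW (L.c_idem heK hwW) a' haW'
              (by rw [dist_comm]; exact hlt)
            rw [ha', L.c_comp e e' hee heK' w' hwW'] at h1
            exact hdiff e hke heK h1.symm
          refine ⟨?_, by rw [hmax]; exact hsep⟩
          exact pr_expand L good I c₁ hℓ hb16 hc₁ hc₁' hb hε hεb hgood hke heK hwW hjk hall haW haW'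
            (fun i hi => L.c_comp i e hi heK w hwW) hD8 hsep
        · have hmax : max (sc ℓ b e) (sc ℓ b e') = sc ℓ b e' :=
            max_eq_right (sc_le_of_le hℓ (by linarith) hee)
          have hsep : sc ℓ b e' / 4 ≤ dist a' a := by
            by_contra hlt
            push Not at hlt
            have h1 := L.c_inner e' heK' a' haW' (L.c_idem heK' hwW') a haW
              (by rw [dist_comm]; exact hlt)
            rw [ha, L.c_comp e' e hee heK w hwW] at h1
            exact hdiff e' hke' heK' h1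
          refine ⟨?_, by rw [hmax, dist_comm]; exact hsep⟩
          have h2 := pr_expand L good I c₁ hℓ hb16 hc₁ hc₁' hb hε hεb hgood hke' heK' hwW' hjk hall'
            haW' haW (fun i hi => L.c_comp i e' hi heK' w' hwW') (by rw [dist_comm]; exact hD8)
            hsep
          rw [← hcj] at h2
          rw [dist_comm a a', ← neg_sub a' a, map_neg, norm_neg]
          exact h2
      obtain ⟨hkey1, hkey2⟩ := hkey
      have hm1 : sc ℓ b e ≤ 4 * dist a a' := by
        have := le_max_left (sc ℓ b e) (sc ℓ b e'); linarith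
      have hm2 : sc ℓ b e' ≤ 4 * dist a a' := by
        have := le_max_right (sc ℓ b e) (sc ℓ b e'); linarith
      have hDn : 0 ≤ dist a a' := dist_nonneg
      -- distance between the two model positions
      have hmodel : s * ‖pr (I j (L.c j w)) (a - a')‖ =
          dist (mpos L good I c₁ κ (M + 1) e₀ j w + s • pr (I j (L.c j w)) (a - L.c j w))
            (mpos L good I c₁ κ (M + 1) e₀ j w + s • pr (I j (L.c j w)) (a' - L.c j w)) := by
        rw [dist_add_left, dist_eq_norm, ← smul_sub, ← map_sub, norm_smul, Real.norm_eq_abs,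
          abs_of_pos hs0]
        congr 3
        abel
      have htri : s * ‖pr (I j (L.c j w)) (a - a')‖ ≤
          s * (4 * κ * sc ℓ b e) + dist (mpos L good I c₁ κ (M + 1) e₀ K w)
            (mpos L good I c₁ κ (M + 1) e₀ K w') + s * (4 * κ * sc ℓ b e') := by
        rw [hmodel]
        refine (dist_triangle4 _ (mpos L good I c₁ κ (M + 1) e₀ K w)
          (mpos L good I c₁ κ (M + 1) e₀ K w') _).trans ?_
        gcongr
        rw [dist_comm]
        exact hd
      have hdw : dist w w' ≤ 17 * dist a a' := by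
        have h1 := L.c_dist e heK w hwW
        have h2 := L.c_dist e' heK' w' hwW'
        calc dist w w' ≤ dist w a + dist a a' + dist a' w' := dist_triangle4 _ _ _ _
          _ ≤ 2 * sc ℓ b e + dist a a' + 2 * sc ℓ b e' := by
              rw [dist_comm a' w']; gcongr
          _ ≤ _ := by linarith
      have h1 : κ * sc ℓ b e ≤ c₁ / 200 * (4 * dist a a') := by gcongr
      have h2 : κ * sc ℓ b e' ≤ c₁ / 200 * (4 * dist a a') := by gcongr
      have h3 : s * (c₁ / 2 * dist a a') ≤ s * ‖pr (I j (L.c j w)) (a - a')‖ := by gcongr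
      have h4 : s * (4 * κ * sc ℓ b e) ≤ s * (c₁ / 200 * (16 * dist a a')) := by
        have : 4 * κ * sc ℓ b e ≤ c₁ / 200 * (16 * dist a a') := by linarith
        gcongr
      have h5 : s * (4 * κ * sc ℓ b e') ≤ s * (c₁ / 200 * (16 * dist a a')) := by
        have : 4 * κ * sc ℓ b e' ≤ c₁ / 200 * (16 * dist a a') := by linarith
        gcongr
      have h6 : s * (c₁ / 4 * dist a a') ≤ dist (mpos L good I c₁ κ (M + 1) e₀ K w)
            (mpos L good I c₁ κ (M + 1) e₀ K w') := by
        have h7 : 0 ≤ s * (c₁ * dist a a') := by positivity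
        nlinarith
      calc η₀ * κ ^ N * dist w w' ≤ (c₁ / 200) * s * (17 * dist a a') := by gcongr
        _ ≤ s * (c₁ / 4 * dist a a') := by
            have h7 : 0 ≤ s * (c₁ * dist a a') := by positivity
            nlinarith
        _ ≤ _ := h6
    · -- Case A: bad cell
      have hg' : ¬ good k (L.c k w') := by rw [← hcom k le_rfl]; exact hg
      set s := κ ^ (mcnt L good I c₁ k w) with hs
      have hs0 : 0 < s := pow_pos hκ _
      have hsN : κ ^ N ≤ s := pow_le_pow_of_le_one hκ.le hκ1 (hcntN k (by omega))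
      -- transitions at `k + 1`
      have htr : ∀ u ∈ L.W, ¬ good k (L.c k u) → Tran L good I c₁ (k + 1) (L.c (k + 1) u) := by
        intro u hu hgu
        have : ¬ good k (L.c k (L.c (k + 1) u)) := by
          rw [L.c_comp k (k + 1) (Nat.le_succ k) (by omega) u hu]; exact hgu
        exact root_succ_of_bad this
      have hcnt1 : mcnt L good I c₁ (k + 1) w = mcnt L good I c₁ k w + 1 := by
        rw [mcnt, if_pos (htr w hwW hg)]
      have hcnt1' : mcnt L good I c₁ (k + 1) w' = mcnt L good I c₁ k w + 1 := by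
        rw [mcnt, if_pos (htr w' hwW' hg'), hck]
      have ht := dist_mpos_le' L good I c₁ κ (M + 1) e₀ hℓ hb16 he hκ hκ1 hM1 hw
        (show k + 1 ≤ K by omega)
      have ht' := dist_mpos_le' L good I c₁ κ (M + 1) e₀ hℓ hb16 he hκ hκ1 hM1 hw'
        (show k + 1 ≤ K by omega)
      rw [hcnt1, pow_succ, ← hs] at ht
      rw [hcnt1', pow_succ, ← hs] at ht'
      -- distance between positions at `k + 1`
      have hmem : ∀ u ∈ L.W, L.c k u = L.c k w →
          L.c (k + 1) u ∈ (L.cell k (L.c k w)).image (L.c (k + 1)) := by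
        intro u hu huk
        refine Finset.mem_image.2 ⟨u, ?_, rfl⟩
        rw [Lat.mem_cell]; exact ⟨hu, huk⟩
      have hi := hmem w hwW rfl
      have hi' := hmem w' hwW' (hcom k le_rfl).symm
      have hidx : idxIn ((L.cell k (L.c k w)).image (L.c (k + 1))) (L.c (k + 1) w) ≠
          idxIn ((L.cell k (L.c k w)).image (L.c (k + 1))) (L.c (k + 1) w') := by
        intro heq
        exact hdiff (k + 1) (by omega) (by omega) (idxIn_inj _ hi hi' heq)
      have hv : mvec L good I c₁ (M + 1) e₀ k w =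
          (sc ℓ b k * ((idxIn ((L.cell k (L.c k w)).image (L.c (k + 1)))
            (L.c (k + 1) w) : ℝ) / (M + 1 : ℕ))) • e₀ := by
        unfold mvec
        rw [(root_eq_none_iff k _).2 hg]
      have hv' : mvec L good I c₁ (M + 1) e₀ k w' =
          (sc ℓ b k * ((idxIn ((L.cell k (L.c k w)).image (L.c (k + 1)))
            (L.c (k + 1) w') : ℝ) / (M + 1 : ℕ))) • e₀ := by
        unfold mvec
        rw [(root_eq_none_iff k _).2 hg', ← hcom k le_rfl]
      have hsep : s * (sc ℓ b k / M') ≤ dist (mpos L good I c₁ κ (M + 1) e₀ (k + 1) w)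
          (mpos L good I c₁ κ (M + 1) e₀ (k + 1) w') := by
        rw [mpos, mpos, ← hpk, ← hck, dist_add_left, dist_eq_norm, ← smul_sub, hv, hv',
          ← sub_smul, norm_smul, norm_smul, he, mul_one, ← hs, Real.norm_eq_abs,
          Real.norm_eq_abs, abs_of_pos hs0, ← mul_sub, ← sub_div, abs_mul, abs_of_pos hsck,
          abs_div, hMc, abs_of_pos hM'0]
        have h1 : (1 : ℝ) ≤ |(idxIn ((L.cell k (L.c k w)).image (L.c (k + 1)))
            (L.c (k + 1) w) : ℝ) - (idxIn ((L.cell k (L.c k w)).image (L.c (k + 1)))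
            (L.c (k + 1) w') : ℝ)| := by
          have h2 : ((idxIn ((L.cell k (L.c k w)).image (L.c (k + 1)))
            (L.c (k + 1) w) : ℤ) - (idxIn ((L.cell k (L.c k w)).image (L.c (k + 1)))
            (L.c (k + 1) w') : ℤ)) ≠ 0 := by
            intro h3
            apply hidx
            omega
          have h4 := Int.one_le_abs h2
          exact_mod_cast h4
        have : sc ℓ b k / M' = sc ℓ b k * (1 / M') := by ring
        rw [this]
        gcongr
      have hscs : sc ℓ b (k + 1) ≤ sc ℓ b k := sc_le_of_le hℓ (by linarith) (Nat.le_succ k)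
      have hscs0 := sc_pos hℓ hb0 (k + 1)
      have htri : s * (sc ℓ b k / M') ≤ s * κ * (4 * sc ℓ b k) +
          dist (mpos L good I c₁ κ (M + 1) e₀ K w) (mpos L good I c₁ κ (M + 1) e₀ K w') +
          s * κ * (4 * sc ℓ b k) := by
        refine hsep.trans ((dist_triangle4 _ (mpos L good I c₁ κ (M + 1) e₀ K w)
          (mpos L good I c₁ κ (M + 1) e₀ K w') _).trans ?_)
        gcongr
        · rw [dist_comm]
          exact ht.trans (by gcongr)
        · exact ht'.trans (by gcongr)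
      have hκs : κ * (4 * sc ℓ b k) ≤ 1 / (16 * M') * (4 * sc ℓ b k) := by gcongr
      have hκs' : 1 / (16 * M') * (4 * sc ℓ b k) = sc ℓ b k / M' / 4 := by
        field_simp; norm_num
      rw [hκs'] at hκs
      have h1 : s * κ * (4 * sc ℓ b k) ≤ s * (sc ℓ b k / M' / 4) := by
        rw [mul_assoc]; gcongr
      have h2 : s * (sc ℓ b k / M') / 2 ≤ dist (mpos L good I c₁ κ (M + 1) e₀ K w)
          (mpos L good I c₁ κ (M + 1) e₀ K w') := by
        have : s * (sc ℓ b k / M' / 4) = s * (sc ℓ b k / M') / 4 := by ring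
        rw [this] at h1
        linarith
      calc η₀ * κ ^ N * dist w w' ≤ (1 / (8 * M')) * s * (4 * sc ℓ b k) := by gcongr
        _ = s * (sc ℓ b k / M') / 2 := by field_simp; norm_num
        _ ≤ _ := h2

end Crest.Agent.R085
private theorem rz_23c88cc1bc : type_of% @_root_.Crest.Agent.R085.mcnt.eq_def := @_root_.Crest.Agent.R085.mcnt.eq_def -- L236
private theorem rz_47cf6d4041 : type_of% @_root_.Crest.Agent.R085.mcnt.eq_1 := @_root_.Crest.Agent.R085.mcnt.eq_1 -- L236
private theorem rz_676c874297 : type_of% @_root_.Crest.Agent.R085.mpos.eq_def := @_root_.Crest.Agent.R085.mpos.eq_def -- L241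
private theorem rz_e4fc7417c3 : type_of% @_root_.Crest.Agent.R085.mpos.eq_1 := @_root_.Crest.Agent.R085.mpos.eq_1 -- L241
end

-- ▼ part R085/P2Core
section

set_option autoImplicit false

namespace Crest.Agent.R085

open MeasureTheory Set

/-- A linear isometry between Euclidean spaces. -/
theorem exists_iso_of_le {n d : ℕ} (hnd : n ≤ d) :
    Nonempty (EuclideanSpace ℝ (Fin n) →ₗᵢ[ℝ] EuclideanSpace ℝ (Fin d)) := by
  classical
  let v := (EuclideanSpace.basisFun (Fin n) ℝ).toBasis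
  let u : Fin n → EuclideanSpace ℝ (Fin d) := fun i =>
    EuclideanSpace.basisFun (Fin d) ℝ (Fin.castLE hnd i)
  let f : EuclideanSpace ℝ (Fin n) →ₗ[ℝ] EuclideanSpace ℝ (Fin d) := v.constr ℝ u
  have hv : Orthonormal ℝ v := by
    simp [v]
  have hf : Orthonormal ℝ (f ∘ v) := by
    have h1 : f ∘ v = u := by
      funext i
      simp [f]
    rw [h1]
    exact (EuclideanSpace.basisFun (Fin d) ℝ).orthonormal.comp _ (Fin.castLE_injective hnd)
  exact ⟨f.isometryOfOrthonormal hv hf⟩

open Classical in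
/-- Number of children of a cell. -/
theorem card_children_le {d n : ℕ} {cL CL b : ℝ} (hcL : 0 < cL) (hb : 0 < b)
    {S : Set (EuclideanSpace ℝ (Fin d))} {x₀ : EuclideanSpace ℝ (Fin d)}
    {ℓ : ℝ} {K : ℕ} (L : Lat S x₀ ℓ b K)
    (h1 : ∀ k ≤ K, ∀ x ∈ L.W, L.c k x = x → L.c 0 x = x₀ →
      cL * (b ^ (K - k)) ^ n ≤ ((L.cell k x).card : ℝ))
    (h2 : ∀ k ≤ K, ∀ x ∈ L.W, L.c k x = x → L.c 0 x = x₀ →
      ((L.cell k x).card : ℝ) ≤ CL * (b ^ (K - k)) ^ n)
    (k : ℕ) (hk : k < K) (x : EuclideanSpace ℝ (Fin d)) (hx : x ∈ L.W) (hkx : L.c k x = x)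
    (h0x : L.c 0 x = x₀) :
    ((L.cell k x).image (L.c (k + 1))).card ≤ ⌈CL / cL * b ^ n⌉₊ := by
  set Y := (L.cell k x).image (L.c (k + 1)) with hY
  have hYprop : ∀ y ∈ Y, y ∈ L.W ∧ L.c (k + 1) y = y ∧ L.c k y = x := by
    intro y hy
    rw [hY, Finset.mem_image] at hy
    obtain ⟨w, hw, rfl⟩ := hy
    rw [Lat.mem_cell] at hw
    refine ⟨L.c_mem _ hk w hw.1, L.c_comp _ _ le_rfl hk w hw.1, ?_⟩
    rw [L.c_comp _ _ (Nat.le_succ k) hk w hw.1, hw.2]
  have h0 : ∀ y ∈ Y, L.c 0 y = x₀ := by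
    intro y hy
    obtain ⟨hyW, -, hyx⟩ := hYprop y hy
    rw [← L.c_comp 0 k (Nat.zero_le _) hk.le y hyW, hyx, h0x]
  have hdisj : (L.cell k x).card = ∑ y ∈ Y, (L.cell (k + 1) y).card := by
    have hmaps : ((L.cell k x : Set (EuclideanSpace ℝ (Fin d)))).MapsTo (L.c (k + 1)) Y := by
      intro w hw
      exact Finset.mem_image_of_mem _ hw
    rw [Finset.card_eq_sum_card_fiberwise hmaps]
    refine Finset.sum_congr rfl fun y hy => ?_
    congr 1
    ext w
    simp only [Finset.mem_filter, Lat.mem_cell]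
    constructor
    · rintro ⟨⟨hw, -⟩, hwy⟩
      exact ⟨hw, hwy⟩
    · rintro ⟨hw, hwy⟩
      refine ⟨⟨hw, ?_⟩, hwy⟩
      rw [← L.c_comp k (k + 1) (Nat.le_succ k) hk w hw, hwy]
      exact (hYprop y hy).2.2
  have hpow : (b ^ (K - k)) ^ n = b ^ n * (b ^ (K - (k + 1))) ^ n := by
    rw [← mul_pow, ← pow_succ']
    congr 2
    omega
  have hpos : 0 < (b ^ (K - (k + 1))) ^ n := by positivity
  have hlow : (Y.card : ℝ) * (cL * (b ^ (K - (k + 1))) ^ n) ≤ ((L.cell k x).card : ℝ) := by
    rw [hdisj]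
    push_cast
    rw [← nsmul_eq_mul]
    refine Finset.card_nsmul_le_sum _ _ _ fun y hy => ?_
    obtain ⟨hyW, hyy, -⟩ := hYprop y hy
    exact h1 (k + 1) hk y hyW hyy (h0 y hy)
  have hup := h2 k hk.le x hx hkx h0x
  rw [hpow] at hup
  have hle : (Y.card : ℝ) ≤ CL / cL * b ^ n := by
    have h3 : (Y.card : ℝ) * cL * (b ^ (K - (k + 1))) ^ n ≤
        (CL * b ^ n) * (b ^ (K - (k + 1))) ^ n := by
      calc (Y.card : ℝ) * cL * (b ^ (K - (k + 1))) ^ n
          = (Y.card : ℝ) * (cL * (b ^ (K - (k + 1))) ^ n) := by ring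
        _ ≤ CL * (b ^ n * (b ^ (K - (k + 1))) ^ n) := hlow.trans hup
        _ = _ := by ring
    have h4 : (Y.card : ℝ) * cL ≤ CL * b ^ n := le_of_mul_le_mul_right h3 hpos
    rw [div_mul_eq_mul_div, le_div_iff₀ hcL]
    exact h4
  exact_mod_cast hle.trans (Nat.le_ceil _)

/-- The discrete core of PART II. -/
theorem discrete_core (n d : ℕ) (hn : 1 ≤ n) (hnd : n ≤ d) (cL CL : ℝ) (hcL : 0 < cL)
    (hCL : 0 < CL) :
    ∃ b ε : ℝ, 16 ≤ b ∧ 0 < ε ∧ ∀ C_B : ℝ, 0 ≤ C_B → ∃ η : ℝ, 0 < η ∧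
      ∀ {S : Set (EuclideanSpace ℝ (Fin d))} {x₀ : EuclideanSpace ℝ (Fin d)}
        {ℓ : ℝ} {K : ℕ} (L : Lat S x₀ ℓ b K), 0 < ℓ →
        (∀ k ≤ K, ∀ x ∈ L.W, L.c k x = x → L.c 0 x = x₀ →
          cL * (b ^ (K - k)) ^ n ≤ ((L.cell k x).card : ℝ)) →
        (∀ k ≤ K, ∀ x ∈ L.W, L.c k x = x → L.c 0 x = x₀ →
          ((L.cell k x).card : ℝ) ≤ CL * (b ^ (K - k)) ^ n) →
        (∑ w ∈ L.top, (nbad L n 100 ε w : ℝ)) ≤ C_B * (L.top.card : ℝ) →
        ∃ F : Finset (EuclideanSpace ℝ (Fin d)), F ⊆ L.top ∧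
          (L.top.card : ℝ) ≤ 2 * F.card ∧
          ∃ f : EuclideanSpace ℝ (Fin d) → EuclideanSpace ℝ (Fin n),
            (∀ w ∈ F, ‖f w‖ ≤ 10 * ℓ) ∧
            ∀ w ∈ F, ∀ w' ∈ F, η * dist w w' ≤ dist (f w) (f w') := by
  classical
  obtain ⟨c₁, hc₁, hc₁', c₆, hc₆, hleft⟩ := leftover_large n hn cL CL hcL hCL
  set b : ℝ := 1000 / c₁ with hbdef
  have hbc : b * c₁ = 1000 := by rw [hbdef]; field_simp
  have hb1000 : (1000 : ℝ) ≤ b := by
    rw [hbdef, le_div_iff₀ hc₁]; linarith
  have hb : 16 ≤ b := by linarith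
  have hb0 : 0 < b := by linarith
  set ε : ℝ := 1 / b ^ 2 with hε
  have hε0 : 0 < ε := by positivity
  refine ⟨b, ε, hb, hε0, fun C_B hC_B => ?_⟩
  obtain ⟨κ, hκ, hκ1, η₀, hη₀, hmap⟩ := expanding_map n hn c₁ b hc₁ hc₁' hbc.ge
    ⌈CL / cL * b ^ n⌉₊
  set A : ℝ := C_B + (C_B + 2) / c₆ with hA
  have hA0 : 0 < A := by positivity
  set N : ℕ := ⌈2 * A⌉₊ with hN
  refine ⟨η₀ * κ ^ N, by positivity, ?_⟩
  intro S x₀ ℓ K L hℓ h1 h2 hbad
  -- the isometries
  let ι₀ : EuclideanSpace ℝ (Fin n) →ₗᵢ[ℝ] EuclideanSpace ℝ (Fin d) :=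
    Classical.choice (exists_iso_of_le hnd)
  let good : ℕ → EuclideanSpace ℝ (Fin d) → Prop := fun k x => IsBF S n x (sc ℓ b k) 100 ε
  let P : ℕ → EuclideanSpace ℝ (Fin d) → EuclideanSpace ℝ (Fin d) := fun k x =>
    if h : good k x then h.choose else 0
  let I : ℕ → EuclideanSpace ℝ (Fin d) →
      (EuclideanSpace ℝ (Fin n) →ₗᵢ[ℝ] EuclideanSpace ℝ (Fin d)) := fun k x =>
    if h : good k x then h.choose_spec.choose else ι₀
  have hgood : ∀ k x, good k x → BF S n x (sc ℓ b k) 100 ε (P k x) (I k x) := by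
    intro k x h
    simp only [P, I, dif_pos h]
    exact h.choose_spec.choose_spec
  have hL := hleft L hℓ (ε := ε) hbc.ge hε0 le_rfl h1 h2 good P I hgood
  have hcount := sum_nroot_le L good I c₁ c₆ hc₆ hL
  obtain ⟨f, hf1, hf2⟩ := hmap L hℓ (ε := ε) hε0 le_rfl
    (fun k hk x hx hkx h0x => card_children_le hcL hb0 L h1 h2 k hk x hx hkx h0x)
    good P I hgood
  have hnb : ∀ w, ((Finset.range (K + 1)).filter (fun k => ¬ good k (L.c k w))).card =
      nbad L n 100 ε w := fun w => by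
    unfold nbad
    rfl
  let T : EuclideanSpace ℝ (Fin d) → ℕ := fun w => nbad L n 100 ε w + nroot L good I c₁ w
  have hsum : ∑ w ∈ L.top, (T w : ℝ) ≤ A * (L.top.card : ℝ) := by
    have e1 : ∑ w ∈ L.top, (T w : ℝ) = ∑ w ∈ L.top, (nbad L n 100 ε w : ℝ) +
        ∑ w ∈ L.top, (nroot L good I c₁ w : ℝ) := by
      rw [← Finset.sum_add_distrib]
      refine Finset.sum_congr rfl fun w _ => ?_
      simp only [T]
      push_cast
      ring
    have e2 : ∑ w ∈ L.top, ((((Finset.range (K + 1)).filter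
        (fun k => ¬ good k (L.c k w))).card : ℝ) + 2) =
        ∑ w ∈ L.top, (nbad L n 100 ε w : ℝ) + 2 * (L.top.card : ℝ) := by
      rw [Finset.sum_add_distrib, Finset.sum_const, nsmul_eq_mul]
      simp only [hnb]
      ring
    rw [e2] at hcount
    have e3 : ∑ w ∈ L.top, (nroot L good I c₁ w : ℝ) ≤ (C_B + 2) / c₆ * (L.top.card : ℝ) := by
      rw [div_mul_eq_mul_div, le_div_iff₀ hc₆]
      nlinarith
    rw [e1, hA]
    linarith
  let F := L.top.filter (fun w => T w ≤ N)
  refine ⟨F, Finset.filter_subset _ _, ?_, f, ?_, ?_⟩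
  · -- Markov
    have hsplit : (L.top.card : ℝ) = F.card + (L.top.filter (fun w => ¬ T w ≤ N)).card := by
      exact_mod_cast (Finset.card_filter_add_card_filter_not (s := L.top)
        (fun w => T w ≤ N)).symm
    have hM : ((L.top.filter (fun w => ¬ T w ≤ N)).card : ℝ) * (2 * A) ≤
        ∑ w ∈ L.top, (T w : ℝ) := by
      calc ((L.top.filter (fun w => ¬ T w ≤ N)).card : ℝ) * (2 * A)
          = (L.top.filter (fun w => ¬ T w ≤ N)).card • (2 * A) := by rw [nsmul_eq_mul]
        _ ≤ ∑ w ∈ L.top.filter (fun w => ¬ T w ≤ N), (T w : ℝ) := by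
            refine Finset.card_nsmul_le_sum _ _ _ fun w hw => ?_
            rw [Finset.mem_filter] at hw
            have : N < T w := not_le.mp hw.2
            have h3 : (2 * A) ≤ (N : ℝ) := Nat.le_ceil _
            have h4 : (N : ℝ) ≤ (T w : ℝ) := by exact_mod_cast this.le
            linarith
        _ ≤ ∑ w ∈ L.top, (T w : ℝ) :=
            Finset.sum_le_sum_of_subset_of_nonneg (Finset.filter_subset _ _)
              (fun w _ _ => Nat.cast_nonneg _)
    have h5 : ((L.top.filter (fun w => ¬ T w ≤ N)).card : ℝ) * (2 * A) ≤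
        A * (L.top.card : ℝ) := hM.trans hsum
    have h6 : 2 * ((L.top.filter (fun w => ¬ T w ≤ N)).card : ℝ) ≤ (L.top.card : ℝ) := by
      have : A * (2 * ((L.top.filter (fun w => ¬ T w ≤ N)).card : ℝ)) ≤
        A * (L.top.card : ℝ) := by linarith
      exact le_of_mul_le_mul_left this hA0
    linarith
  · intro w hw
    exact hf1 w (Finset.filter_subset _ _ hw)
  · intro w hw w' hw'
    have hw2 : T w ≤ N := (Finset.mem_filter.mp hw).2
    refine hf2 w (Finset.filter_subset _ _ hw) w' (Finset.filter_subset _ _ hw') N ?_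
    rw [hnb]
    exact hw2

end Crest.Agent.R085
end

-- ▼ part R085/P2Lat
section

set_option autoImplicit false

namespace Crest.Agent.R085

open MeasureTheory Set

namespace LatAux

variable {X : Type*} [MetricSpace X]

/-- Extension of a finite separated subset of a compact set to a finite maximal one. -/
lemma exists_net {T : Set X} (hT : IsCompact T) {δ : ℝ} (hδ : 0 < δ) (N₀ : Finset X)
    (h₀ : ∀ x ∈ N₀, x ∈ T) (hs : ∀ x ∈ N₀, ∀ y ∈ N₀, x ≠ y → δ ≤ dist x y) :
    ∃ N : Finset X, N₀ ⊆ N ∧ (∀ x ∈ N, x ∈ T) ∧ (∀ x ∈ N, ∀ y ∈ N, x ≠ y → δ ≤ dist x y) ∧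
      ∀ y ∈ T, ∃ w ∈ N, dist y w < δ := by
  classical
  obtain ⟨t, -, htf, hcov⟩ := hT.finite_cover_balls (half_pos hδ)
  -- cardinal bound
  have hbound : ∀ N : Finset X, (∀ x ∈ N, x ∈ T) →
      (∀ x ∈ N, ∀ y ∈ N, x ≠ y → δ ≤ dist x y) → N.card ≤ htf.toFinset.card := by
    intro N hN hsep
    have hex : ∀ x : X, x ∈ N → ∃ y ∈ t, dist x y < δ / 2 := by
      intro x hx
      have := hcov (hN x hx)
      simpa using this
    have hex' : ∀ x : X, ∃ y, x ∈ N → y ∈ t ∧ dist x y < δ / 2 := by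
      intro x
      by_cases hx : x ∈ N
      · obtain ⟨y, hy, hxy⟩ := hex x hx
        exact ⟨y, fun _ => ⟨hy, hxy⟩⟩
      · exact ⟨x, fun h => absurd h hx⟩
    choose f hf using hex'
    refine Finset.card_le_card_of_injOn f ?_ ?_
    · intro x hx
      simpa using (hf x hx).1
    · intro x hx y hy hxy
      by_contra hne
      have h1 := hsep x hx y hy hne
      have h2 := (hf x hx).2
      have h3 := (hf y hy).2
      rw [← hxy] at h3
      have h4 := dist_triangle_right x y (f x)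
      linarith
  -- induction
  have key : ∀ m : ℕ, ∀ N : Finset X, (∀ x ∈ N, x ∈ T) →
      (∀ x ∈ N, ∀ y ∈ N, x ≠ y → δ ≤ dist x y) → htf.toFinset.card - N.card = m →
      ∃ N' : Finset X, N ⊆ N' ∧ (∀ x ∈ N', x ∈ T) ∧
        (∀ x ∈ N', ∀ y ∈ N', x ≠ y → δ ≤ dist x y) ∧ ∀ y ∈ T, ∃ w ∈ N', dist y w < δ := by
    intro m
    induction m using Nat.strong_induction_on with
    | _ m ih =>
      intro N hN hsep hm
      by_cases hd : ∀ y ∈ T, ∃ w ∈ N, dist y w < δ
      · exact ⟨N, Finset.Subset.refl _, hN, hsep, hd⟩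
      · push Not at hd
        obtain ⟨y, hyT, hy⟩ := hd
        have hyN : y ∉ N := by
          intro h
          have := hy y h
          rw [dist_self] at this
          linarith
        have hN1 : ∀ x ∈ insert y N, x ∈ T := by
          intro x hx
          rcases Finset.mem_insert.1 hx with rfl | hx
          · exact hyT
          · exact hN x hx
        have hs1 : ∀ x ∈ insert y N, ∀ z ∈ insert y N, x ≠ z → δ ≤ dist x z := by
          intro x hx z hz hne
          rcases Finset.mem_insert.1 hx with hx | hx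
          · rcases Finset.mem_insert.1 hz with hz | hz
            · exact absurd (hx.trans hz.symm) hne
            · rw [hx]; exact hy z hz
          · rcases Finset.mem_insert.1 hz with hz | hz
            · rw [hz, dist_comm]; exact hy x hx
            · exact hsep x hx z hz hne
        have hc1 := hbound _ hN1 hs1
        have hc2 := Finset.card_insert_of_notMem hyN
        obtain ⟨N', h1, h2, h3, h4⟩ := ih (htf.toFinset.card - (insert y N).card)
          (by omega) (insert y N) hN1 hs1 rfl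
        exact ⟨N', (Finset.subset_insert y N).trans h1, h2, h3, h4⟩
  exact key _ N₀ h₀ hs rfl

/-- Nested nets. -/
lemma exists_nets {T : Set X} (hT : IsCompact T) (x₀ : X) (hx₀ : x₀ ∈ T) (s : ℕ → ℝ)
    (hs : ∀ k, 0 < s k) (hanti : ∀ k, s (k + 1) ≤ s k) :
    ∃ N : ℕ → Finset X, (∀ k, x₀ ∈ N k) ∧ (∀ k, N k ⊆ N (k + 1)) ∧ (∀ k, ∀ x ∈ N k, x ∈ T) ∧
      (∀ k, ∀ x ∈ N k, ∀ y ∈ N k, x ≠ y → s k ≤ dist x y) ∧
      ∀ k, ∀ y ∈ T, ∃ w ∈ N k, dist y w < s k := by
  classical
  let P : ℕ → Finset X → Prop := fun k N => x₀ ∈ N ∧ (∀ x ∈ N, x ∈ T) ∧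
    (∀ x ∈ N, ∀ y ∈ N, x ≠ y → s k ≤ dist x y) ∧ ∀ y ∈ T, ∃ w ∈ N, dist y w < s k
  have h0 : ∃ N, P 0 N := by
    obtain ⟨N, h1, h2, h3, h4⟩ := exists_net hT (hs 0) {x₀} (by simpa using hx₀)
      (by
        intro x hx y hy hne
        rw [Finset.mem_singleton] at hx hy
        exact absurd (hx.trans hy.symm) hne)
    exact ⟨N, h1 (Finset.mem_singleton_self _), h2, h3, h4⟩
  have hstep : ∀ k N, P k N → ∃ N', P (k + 1) N' ∧ N ⊆ N' := by
    rintro k N ⟨a1, a2, a3, -⟩
    obtain ⟨N', h1, h2, h3, h4⟩ := exists_net hT (hs (k + 1)) N a2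
      (fun x hx y hy hne => (hanti k).trans (a3 x hx y hy hne))
    exact ⟨N', ⟨h1 a1, h2, h3, h4⟩, h1⟩
  let seq : (k : ℕ) → {N : Finset X // P k N} := fun k =>
    Nat.rec ⟨h0.choose, h0.choose_spec⟩
      (fun k N => ⟨(hstep k N.1 N.2).choose, (hstep k N.1 N.2).choose_spec.1⟩) k
  refine ⟨fun k => (seq k).1, fun k => (seq k).2.1, fun k => ?_, fun k => (seq k).2.2.1,
    fun k => (seq k).2.2.2.1, fun k => (seq k).2.2.2.2⟩
  exact (hstep k (seq k).1 (seq k).2).choose_spec.2

/-- Downward iteration of `p`. -/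
def cc (p : ℕ → X → X) (K : ℕ) : ℕ → X → X
  | 0, w => w
  | (m + 1), w => p (K - (m + 1)) (cc p K m w)

omit [MetricSpace X] in
lemma cc_step (p : ℕ → X → X) (K : ℕ) {k : ℕ} (hk : k < K) (w : X) :
    cc p K (K - k) w = p k (cc p K (K - (k + 1)) w) := by
  have h : K - k = (K - (k + 1)) + 1 := by omega
  rw [h]
  show p (K - ((K - (k + 1)) + 1)) _ = _
  have h2 : K - ((K - (k + 1)) + 1) = k := by omega
  rw [h2]

end LatAux

open LatAux in
/-- Existence of lattices of finite depth. -/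
theorem exists_lat {d : ℕ} (S : Set (EuclideanSpace ℝ (Fin d))) (hS : IsClosed S)
    (x₀ : EuclideanSpace ℝ (Fin d)) (hx : x₀ ∈ S) (ℓ b : ℝ) (hℓ : 0 < ℓ) (hb : 16 ≤ b) (K : ℕ) :
    Nonempty (Lat S x₀ ℓ b K) := by
  classical
  have hb0 : 0 < b := by linarith
  set T : Set (EuclideanSpace ℝ (Fin d)) := S ∩ Metric.closedBall x₀ (10 * ℓ) with hTdef
  have hT : IsCompact T := (isCompact_closedBall x₀ (10 * ℓ)).inter_left hS
  have hx₀T : x₀ ∈ T := ⟨hx, Metric.mem_closedBall_self (by positivity)⟩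
  have hsp : ∀ k, 0 < sc ℓ b k := sc_pos hℓ hb0
  have hss : ∀ k, 16 * sc ℓ b (k + 1) ≤ sc ℓ b k := by
    intro k
    rw [sc_succ hb0 k]
    exact mul_le_mul_of_nonneg_right hb (hsp _).le
  obtain ⟨N, hNx, hNN, hNT, hNs, hNd⟩ := exists_nets hT x₀ hx₀T (sc ℓ b) hsp
    (fun k => by linarith [hss k, hsp (k + 1)])
  have hmono : ∀ {j k : ℕ}, j ≤ k → N j ⊆ N k := fun h => monotone_nat_of_le_succ hNN h
  -- nearest points
  have hp : ∀ (k : ℕ) (x : EuclideanSpace ℝ (Fin d)), ∃ y ∈ N k, ∀ z ∈ N k, dist x y ≤ dist x z :=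
    fun k x => Finset.exists_min_image (N k) (fun y => dist x y) ⟨x₀, hNx k⟩
  choose p hpm hpn using hp
  have hpfix : ∀ k, ∀ x ∈ N k, p k x = x := by
    intro k x hxk
    have h1 := hpn k x x hxk
    rw [dist_self] at h1
    exact (dist_le_zero.1 h1).symm
  have hpd : ∀ k, ∀ x ∈ T, dist x (p k x) ≤ sc ℓ b k := by
    intro k x hxT
    obtain ⟨w, hw, hxw⟩ := hNd k x hxT
    exact (hpn k x w hw).trans hxw.le
  set c : ℕ → EuclideanSpace ℝ (Fin d) → EuclideanSpace ℝ (Fin d) :=
    fun k w => cc p K (K - k) w with hc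
  have c_step : ∀ {k : ℕ}, k < K → ∀ w, c k w = p k (c (k + 1) w) := fun hk w => cc_step p K hk w
  have c_K : ∀ w, c K w = w := by
    intro w
    show cc p K (K - K) w = w
    rw [Nat.sub_self]; rfl
  have c_N : ∀ k ≤ K, ∀ w ∈ N K, c k w ∈ N k := by
    intro k hk w hw
    rcases hk.eq_or_lt with rfl | hk
    · rw [c_K]; exact hw
    · rw [c_step hk]; exact hpm _ _
  have c_fix : ∀ k, ∀ x ∈ N k, ∀ i, k ≤ i → i ≤ K → c i x = x := by
    intro k x hxk i hki hiK
    induction hiK using Nat.decreasingInduction with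
    | self => exact c_K x
    | of_succ i hi ih =>
      rw [c_step hi, ih (by omega)]
      exact hpfix i x (hmono hki hxk)
  have c_comp : ∀ j k, j ≤ k → k ≤ K → ∀ w ∈ N K, c j (c k w) = c j w := by
    intro j k hjk hkK w hw
    induction hjk using Nat.decreasingInduction with
    | self => exact c_fix k _ (c_N k hkK w hw) k le_rfl hkK
    | of_succ j hj ih =>
      rw [c_step (by omega : j < K), c_step (by omega : j < K), ih]
  have c_dist : ∀ k ≤ K, ∀ w ∈ N K, dist w (c k w) ≤ 16 / 15 * sc ℓ b k := by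
    intro k hk w hw
    induction hk using Nat.decreasingInduction with
    | self => rw [c_K, dist_self]; linarith [hsp K]
    | of_succ k hk ih =>
      have h1 := hpd k (c (k + 1) w) (hNT _ _ (c_N (k + 1) hk w hw))
      rw [← c_step hk] at h1
      have h2 := dist_triangle w (c (k + 1) w) (c k w)
      have h3 := hss k
      linarith
  refine ⟨⟨N K, c, ?_, ?_, ?_, c_comp, ?_, ?_, ?_, hNx K, ?_⟩⟩
  · exact fun w hw => (hNT K w hw).1
  · exact fun k hk w hw => hmono hk (c_N k hk w hw)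
  · exact fun w _ => c_K w
  · intro k hk w hw
    have := c_dist k hk w hw
    linarith [hsp k]
  · intro k hk x hxK hxk w hw hwx
    have hxN : x ∈ N k := by rw [← hxk]; exact c_N k hk x hxK
    by_contra hne
    have hcwN := c_N k hk w hw
    have hsep := hNs k _ hcwN x hxN hne
    rcases hk.eq_or_lt with rfl | hk
    · rw [c_K] at hsep
      linarith [hsp k]
    · have h1 := c_dist (k + 1) hk w hw
      have h2 := hpn k (c (k + 1) w) x hxN
      rw [← c_step hk] at h2
      have h3 := dist_triangle_left (c k w) x (c (k + 1) w)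
      have h4 := dist_triangle_left (c (k + 1) w) x w
      have h5 := hss k
      have h6 := hsp k
      linarith
  · intro y hy hyd
    obtain ⟨w, hw, hyw⟩ := hNd K y ⟨hy, Metric.mem_closedBall.2 hyd⟩
    exact ⟨w, hw, hyw.le⟩
  · exact c_fix 0 x₀ (hNx 0) 0 le_rfl (Nat.zero_le _)

end Crest.Agent.R085
end

-- ▼ part R085/P2Limit
section

/-!
R085 PART II: the endgame `K → ∞`.

* `exists_lip_inverse` : an expanding map on a set has a globally Lipschitz left inverse.
* `limit_lipschitz_image` : a sequence of `M`-Lipschitz maps whose images come `δ k`-close to sets of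
  mass at least `m` has an `M`-Lipschitz limit whose image carries mass at least `m`.
-/

set_option autoImplicit false

namespace Crest.Agent.R085

open MeasureTheory Metric Set Filter
open scoped ENNReal NNReal Topology

/-- An expanding map on a set `F` has a globally Lipschitz left inverse; the Lipschitz constant
depends only on the expansion constant and the ambient dimension. -/
theorem exists_lip_inverse {n d : ℕ} (F : Set (V d)) (h : V d → V n) {c : ℝ} (hc : 0 < c)
    (hh : ∀ x ∈ F, ∀ y ∈ F, c * dist x y ≤ dist (h x) (h y)) :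
    ∃ g : V n → V d,
      LipschitzWith (lipschitzExtensionConstant (V d) * Real.toNNReal c⁻¹) g ∧
        ∀ x ∈ F, g (h x) = x := by
  classical
  have hinj : InjOn h F := by
    intro x hx y hy hxy
    have h1 := hh x hx y hy
    rw [hxy, dist_self] at h1
    have h2 : dist x y ≤ 0 := by
      by_contra hcon
      push Not at hcon
      exact absurd h1 (not_le.mpr (mul_pos hc hcon))
    exact dist_le_zero.mp h2
  let f : V n → V d := Function.invFunOn h F
  have hf : ∀ x ∈ F, f (h x) = x := fun x hx => hinj.leftInvOn_invFunOn hx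
  have hlip : LipschitzOnWith (Real.toNNReal c⁻¹) f (h '' F) := by
    refine LipschitzOnWith.of_dist_le_mul ?_
    rintro _ ⟨x, hx, rfl⟩ _ ⟨y, hy, rfl⟩
    rw [hf x hx, hf y hy, Real.coe_toNNReal _ (inv_nonneg.mpr hc.le)]
    rw [inv_mul_eq_div, le_div_iff₀ hc, mul_comm]
    exact hh x hx y hy
  obtain ⟨g, hg, hfg⟩ := hlip.extend_finite_dimension
  refine ⟨g, hg, fun x hx => ?_⟩
  rw [← hfg (mem_image_of_mem h hx), hf x hx]

/-- Limit of Lipschitz images. -/
theorem limit_lipschitz_image {n d : ℕ} (μ : Measure (V d)) (x : V d) (r' ρ : ℝ) (M : ℝ≥0)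
    (m : ℝ≥0∞) (hm : 0 < m) (hfin : μ (closedBall x r') < ⊤)
    (g : ℕ → V n → V d) (hg : ∀ k, LipschitzWith M (g k))
    (A : ℕ → Set (V d)) (δ : ℕ → ℝ) (hδ : Tendsto δ atTop (𝓝 0))
    (hA : ∀ k, A k ⊆ closedBall x r') (hAm : ∀ k, m ≤ μ (A k))
    (hcov : ∀ k, ∀ y ∈ A k, ∃ z ∈ closedBall (0 : V n) ρ, dist y (g k z) ≤ δ k) :
    ∃ G : V n → V d, LipschitzWith M G ∧
      m ≤ μ (closedBall x r' ∩ G '' closedBall 0 ρ) := by
  classical
  -- the maps are bounded at every point
  obtain ⟨D, hD⟩ := hδ.bddAbove_range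
  have hD' : ∀ k, δ k ≤ D := fun k => hD (mem_range_self k)
  have hne : ∀ k, (A k).Nonempty := by
    intro k
    by_contra hcon
    rw [not_nonempty_iff_eq_empty] at hcon
    have := hAm k
    rw [hcon, measure_empty] at this
    exact absurd hm (not_lt.mpr this)
  have hρ : 0 ≤ ρ := by
    obtain ⟨y, hy⟩ := hne 0
    obtain ⟨z, hz, -⟩ := hcov 0 y hy
    exact dist_nonneg.trans (mem_closedBall.mp hz)
  have hbd : ∀ k, ∀ z : V n, g k z ∈ closedBall x (r' + D + M * (ρ + ‖z‖)) := by
    intro k z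
    obtain ⟨y, hy⟩ := hne k
    obtain ⟨w, hw, hyw⟩ := hcov k y hy
    rw [mem_closedBall]
    have h1 : dist (g k z) (g k w) ≤ M * dist z w := (hg k).dist_le_mul z w
    have h2 : dist z w ≤ ρ + ‖z‖ := by
      have h3 : ‖w‖ ≤ ρ := by simpa using hw
      have h4 : dist z w ≤ ‖z‖ + ‖w‖ := by
        rw [dist_eq_norm]; exact norm_sub_le z w
      linarith
    have h3 : dist y x ≤ r' := mem_closedBall.mp (hA k hy)
    have h4 : dist (g k z) x ≤ dist (g k z) (g k w) + dist (g k w) y + dist y x :=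
      dist_triangle4 _ _ _ _
    have h5 : dist (g k w) y ≤ D := by rw [dist_comm]; exact hyw.trans (hD' k)
    have h6 : (M : ℝ) * dist z w ≤ M * (ρ + ‖z‖) := mul_le_mul_of_nonneg_left h2 M.coe_nonneg
    linarith
  -- ultrafilter limit
  let U : Ultrafilter ℕ := hyperfilter ℕ
  have hU : (U : Filter ℕ) ≤ atTop := by
    have := hyperfilter_le_cofinite (α := ℕ)
    rwa [Nat.cofinite_eq_atTop] at this
  have hlim : ∀ z : V n, ∃ a : V d, Tendsto (fun k => g k z) U (𝓝 a) := by
    intro z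
    have hc : IsCompact (closedBall x (r' + D + M * (ρ + ‖z‖))) := isCompact_closedBall _ _
    have hle : ((U.map fun k => g k z : Ultrafilter (V d)) : Filter (V d)) ≤
        𝓟 (closedBall x (r' + D + M * (ρ + ‖z‖))) := by
      rw [le_principal_iff]
      exact Ultrafilter.mem_map.mpr (univ_mem' fun k => hbd k z)
    obtain ⟨a, -, ha⟩ := hc.ultrafilter_le_nhds _ hle
    exact ⟨a, ha⟩
  choose G hG using hlim
  have hGlip : LipschitzWith M G := by
    refine LipschitzWith.of_dist_le_mul fun z w => ?_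
    exact le_of_tendsto ((hG z).dist (hG w)) (Eventually.of_forall fun k => (hg k).dist_le_mul z w)
  refine ⟨G, hGlip, ?_⟩
  -- uniform convergence on the closed ball
  have hunif : ∀ ε : ℝ, 0 < ε → ∀ᶠ k in (U : Filter ℕ), ∀ z ∈ closedBall (0 : V n) ρ,
      dist (g k z) (G z) ≤ ε := by
    intro ε hε
    have hc : IsCompact (closedBall (0 : V n) ρ) := isCompact_closedBall _ _
    obtain ⟨η, hη, hηM⟩ : ∃ η : ℝ, 0 < η ∧ (M : ℝ) * η ≤ ε / 3 := by
      refine ⟨ε / 3 / (M + 1), by positivity, ?_⟩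
      rw [mul_div_assoc', div_le_iff₀ (by positivity)]
      have : (0 : ℝ) ≤ M := M.coe_nonneg
      nlinarith
    obtain ⟨t, -, htf, hcov'⟩ := hc.finite_cover_balls hη
    have h1 : ∀ᶠ k in (U : Filter ℕ), ∀ z ∈ t, dist (g k z) (G z) < ε / 3 := by
      rw [htf.eventually_all]
      intro z _
      have := (hG z)
      rw [Metric.tendsto_nhds] at this
      exact this (ε / 3) (by positivity)
    filter_upwards [h1] with k hk z hz
    obtain ⟨w, hwt, hzw⟩ := mem_iUnion₂.mp (hcov' hz)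
    have h2 : dist (g k z) (g k w) ≤ M * dist z w := (hg k).dist_le_mul z w
    have h3 : dist (G w) (G z) ≤ M * dist w z := hGlip.dist_le_mul w z
    have h4 : dist z w ≤ η := (mem_ball.mp hzw).le
    have h5 : (M : ℝ) * dist z w ≤ ε / 3 :=
      (mul_le_mul_of_nonneg_left h4 M.coe_nonneg).trans hηM
    rw [dist_comm w z] at h3
    have h6 := hk w hwt
    have h7 : dist (g k z) (G z) ≤ dist (g k z) (g k w) + dist (g k w) (G w) + dist (G w) (G z) :=
      dist_triangle4 _ _ _ _
    linarith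
  -- mass of thickenings
  let S : Set (V d) := G '' closedBall (0 : V n) ρ
  have hScomp : IsCompact S := (isCompact_closedBall _ _).image hGlip.continuous
  have hthick : ∀ ε : ℝ, 0 < ε → m ≤ (μ.restrict (closedBall x r')) (cthickening ε S) := by
    intro ε hε
    have h1 := hunif (ε / 2) (by positivity)
    have h2 : ∀ᶠ k in (U : Filter ℕ), δ k ≤ ε / 2 := by
      have : ∀ᶠ k in atTop, δ k < ε / 2 := hδ.eventually (gt_mem_nhds (by positivity))
      exact (this.filter_mono hU).mono fun k hk => hk.le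
    obtain ⟨k, hk1, hk2⟩ := (h1.and h2).exists
    have hsub : A k ⊆ cthickening ε S ∩ closedBall x r' := by
      intro y hy
      refine ⟨?_, hA k hy⟩
      obtain ⟨z, hz, hyz⟩ := hcov k y hy
      have h3 : dist y (G z) ≤ ε := by
        have h4 := dist_triangle y (g k z) (G z)
        have h5 := hk1 z hz
        linarith
      exact mem_cthickening_of_dist_le y (G z) ε S (mem_image_of_mem G hz) h3
    rw [Measure.restrict_apply isClosed_cthickening.measurableSet]
    exact (hAm k).trans (measure_mono hsub)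
  have hfinr : IsFiniteMeasure (μ.restrict (closedBall x r')) := by
    refine ⟨?_⟩
    rwa [Measure.restrict_apply_univ]
  have htend : Tendsto (fun ε : ℝ => (μ.restrict (closedBall x r')) (cthickening ε S))
      (𝓝 0) (𝓝 ((μ.restrict (closedBall x r')) S)) :=
    tendsto_measure_cthickening_of_isCompact hScomp
  have hfinal : m ≤ (μ.restrict (closedBall x r')) S := by
    refine ge_of_tendsto (htend.mono_left (nhdsWithin_le_nhds (s := Ioi (0 : ℝ)))) ?_
    filter_upwards [self_mem_nhdsWithin] with ε hε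
    exact hthick ε hε
  rw [Measure.restrict_apply hScomp.measurableSet] at hfinal
  rwa [inter_comm] at hfinal

end Crest.Agent.R085
end

-- ▼ part R085/P2End

/-!
R085 (S0113), PART II, file P2End: from finite depth expanding maps to a Lipschitz image.
-/

set_option autoImplicit false

namespace Crest.Agent.R085

open MeasureTheory Metric Set Filter
open scoped ENNReal NNReal Topology

/-- Different leaves are `sc K / 4`-separated. -/
theorem Lat.leaf_sep {d : ℕ} {S : Set (EuclideanSpace ℝ (Fin d))}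
    {x₀ : EuclideanSpace ℝ (Fin d)} {ℓ b : ℝ} {K : ℕ} (L : Lat S x₀ ℓ b K)
    {w w' : EuclideanSpace ℝ (Fin d)} (hw : w ∈ L.W) (hw' : w' ∈ L.W) (hne : w ≠ w') :
    sc ℓ b K / 4 ≤ dist w w' := by
  by_contra hcon
  push Not at hcon
  have h1 := L.c_inner K le_rfl w' hw' (L.c_last w' hw') w hw hcon
  rw [L.c_last w hw] at h1
  exact hne h1

/-- Lower bound for the number of leaves of the top cell (depth at least one). -/
theorem top_card_lower {d n : ℕ} {C : ℝ} (hC : 1 ≤ C)
    (μ : Measure (EuclideanSpace ℝ (Fin d))) {x₀ : EuclideanSpace ℝ (Fin d)} {ℓ b : ℝ}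
    (hx₀ : x₀ ∈ μ.support) (hℓ : 0 < ℓ) (hb : 16 ≤ b)
    (hAD : ADat n C (100 * ℓ) μ μ.support) {K : ℕ} (hK : 1 ≤ K)
    (L : Lat μ.support x₀ ℓ b K) :
    (C ^ 2 * 16 ^ n)⁻¹ * (b ^ K) ^ n ≤ (L.top.card : ℝ) := by
  classical
  have hb0 : 0 < b := by linarith
  have hsc : 0 < sc ℓ b K := sc_pos hℓ hb0 K
  have hscK : sc ℓ b K ≤ ℓ / 16 := by
    unfold sc
    have h1 : (16 : ℝ) ≤ b ^ K := by
      calc (16 : ℝ) ≤ b := hb
        _ = b ^ 1 := (pow_one b).symm
        _ ≤ b ^ K := pow_le_pow_right₀ (by linarith) hK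
    exact div_le_div_of_nonneg_left hℓ.le (by norm_num) h1
  have hcov : ball x₀ (ℓ / 8) ∩ μ.support ⊆ ⋃ w ∈ L.top, ball w (2 * sc ℓ b K) := by
    rintro y ⟨hy, hyS⟩
    rw [mem_ball] at hy
    obtain ⟨w, hwW, hyw⟩ := L.dense y hyS (by linarith)
    have hwx : dist w x₀ < sc ℓ b 0 / 4 := by
      rw [sc_zero]
      have h1 := dist_triangle w y x₀
      rw [dist_comm w y] at h1
      linarith
    have hwt : w ∈ L.top := by
      rw [L.mem_top]
      exact ⟨hwW, L.c_inner 0 (Nat.zero_le _) x₀ L.root_mem L.c_root w hwW hwx⟩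
    refine mem_iUnion₂.mpr ⟨w, hwt, ?_⟩
    rw [mem_ball]
    linarith
  have hcompl : μ μ.supportᶜ = 0 := μ.measure_compl_support
  have h1 : μ (ball x₀ (ℓ / 8)) ≤ μ (ball x₀ (ℓ / 8) ∩ μ.support) := by
    calc μ (ball x₀ (ℓ / 8)) ≤ μ ((ball x₀ (ℓ / 8) ∩ μ.support) ∪ μ.supportᶜ) := by
          refine measure_mono fun y hy => ?_
          by_cases h : y ∈ μ.support
          · exact Or.inl ⟨hy, h⟩
          · exact Or.inr h
      _ ≤ μ (ball x₀ (ℓ / 8) ∩ μ.support) + μ μ.supportᶜ := measure_union_le _ _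
      _ = μ (ball x₀ (ℓ / 8) ∩ μ.support) := by rw [hcompl, add_zero]
  have h2 : μ (ball x₀ (ℓ / 8) ∩ μ.support) ≤
      ∑ w ∈ L.top, ENNReal.ofReal (C * (2 * sc ℓ b K) ^ n) := by
    refine (measure_mono hcov).trans ((measure_biUnion_finset_le _ _).trans ?_)
    refine Finset.sum_le_sum fun w hw => ?_
    have hwS : w ∈ μ.support := L.W_sub w (L.mem_top.mp hw).1
    exact (hAD w hwS (2 * sc ℓ b K) (by linarith) (by linarith)).2
  have h3 := (hAD x₀ hx₀ (ℓ / 8) (by linarith) (by linarith)).1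
  have h4 : ENNReal.ofReal (C⁻¹ * (ℓ / 8) ^ n) ≤
      ENNReal.ofReal (L.top.card * (C * (2 * sc ℓ b K) ^ n)) := by
    refine h3.trans (h1.trans (h2.trans ?_))
    rw [Finset.sum_const, nsmul_eq_mul, ← ENNReal.ofReal_natCast,
      ← ENNReal.ofReal_mul (by positivity)]
  have h5 : C⁻¹ * (ℓ / 8) ^ n ≤ L.top.card * (C * (2 * sc ℓ b K) ^ n) :=
    (ENNReal.ofReal_le_ofReal_iff (by positivity)).mp h4
  have hCpos : 0 < C := by linarith
  have hbK : 0 < b ^ K := by positivity
  have h6 : (ℓ / 8) ^ n = (2 * sc ℓ b K) ^ n * ((b ^ K) ^ n / 16 ^ n) := by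
    rw [← div_pow, ← mul_pow]
    congr 1
    unfold sc
    field_simp
    norm_num
  rw [h6] at h5
  have h7 : 0 < (2 * sc ℓ b K) ^ n := by positivity
  have h8 : C⁻¹ * ((b ^ K) ^ n / 16 ^ n) ≤ L.top.card * C := by
    have h9 : (2 * sc ℓ b K) ^ n * (C⁻¹ * ((b ^ K) ^ n / 16 ^ n)) ≤
        (2 * sc ℓ b K) ^ n * (L.top.card * C) := by
      calc (2 * sc ℓ b K) ^ n * (C⁻¹ * ((b ^ K) ^ n / 16 ^ n))
          = C⁻¹ * ((2 * sc ℓ b K) ^ n * ((b ^ K) ^ n / 16 ^ n)) := by ring
        _ ≤ L.top.card * (C * (2 * sc ℓ b K) ^ n) := h5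
        _ = (2 * sc ℓ b K) ^ n * (L.top.card * C) := by ring
    exact le_of_mul_le_mul_left h9 h7
  have h10 : (C ^ 2 * 16 ^ n)⁻¹ * (b ^ K) ^ n = C⁻¹ * (C⁻¹ * ((b ^ K) ^ n / 16 ^ n)) := by
    field_simp
  rw [h10]
  calc C⁻¹ * (C⁻¹ * ((b ^ K) ^ n / 16 ^ n)) ≤ C⁻¹ * (L.top.card * C) :=
        mul_le_mul_of_nonneg_left h8 (by positivity)
    _ = L.top.card := by field_simp

/-- Mass of the union of the leaf balls of a finite set of leaves. -/
theorem leaf_mass {d n : ℕ} {C : ℝ} (μ : Measure (EuclideanSpace ℝ (Fin d)))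
    {x₀ : EuclideanSpace ℝ (Fin d)} {ℓ b : ℝ} (hℓ : 0 < ℓ) (hb : 16 ≤ b) (hC : 1 ≤ C)
    (hAD : ADat n C (100 * ℓ) μ μ.support) {K : ℕ}
    (L : Lat μ.support x₀ ℓ b K) (F : Finset (EuclideanSpace ℝ (Fin d))) (hF : F ⊆ L.W) :
    ENNReal.ofReal (F.card * (C⁻¹ * (sc ℓ b K / 8) ^ n)) ≤ μ (⋃ w ∈ F, ball w (sc ℓ b K / 8)) := by
  classical
  have hb0 : 0 < b := by linarith
  have hsc : 0 < sc ℓ b K := sc_pos hℓ hb0 K
  have hscl : sc ℓ b K ≤ ℓ := by
    unfold sc
    exact div_le_self hℓ.le (one_le_pow₀ (by linarith))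
  have hCpos : 0 < C := by linarith
  rw [measure_biUnion_finset]
  · rw [ENNReal.ofReal_mul (by positivity), ENNReal.ofReal_natCast, ← nsmul_eq_mul,
      ← Finset.sum_const]
    refine Finset.sum_le_sum fun w hw => ?_
    exact (hAD w (L.W_sub w (hF hw)) (sc ℓ b K / 8) (by linarith) (by linarith)).1
  · intro w hw w' hw' hne
    have h1 := L.leaf_sep (hF hw) (hF hw') hne
    exact ball_disjoint_ball (by linarith)
  · intro w _
    exact measurableSet_ball

/-- From finite depth expanding maps to a Lipschitz image (limit `K → ∞`). -/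
theorem endgame (n d : ℕ) (hn : 1 ≤ n) (C η b : ℝ) (hC : 1 ≤ C) (hη : 0 < η) (hb : 16 ≤ b) :
    ∃ θ : ℝ, 0 < θ ∧ ∃ M : NNReal, ∀ (μ : Measure (EuclideanSpace ℝ (Fin d)))
      (x₀ : EuclideanSpace ℝ (Fin d)) (r : ℝ), 0 < r → x₀ ∈ μ.support →
      ADat n C r μ μ.support →
      (∀ K : ℕ, ∃ L : Lat μ.support x₀ (r / 100) b K,
        ∃ F : Finset (EuclideanSpace ℝ (Fin d)), F ⊆ L.top ∧
          (L.top.card : ℝ) ≤ 2 * F.card ∧
          ∃ f : EuclideanSpace ℝ (Fin d) → EuclideanSpace ℝ (Fin n),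
            (∀ w ∈ F, ‖f w‖ ≤ 10 * (r / 100)) ∧
            ∀ w ∈ F, ∀ w' ∈ F, η * dist w w' ≤ dist (f w) (f w')) →
      ∃ g : EuclideanSpace ℝ (Fin n) → EuclideanSpace ℝ (Fin d),
        LipschitzOnWith M g (Metric.ball 0 r) ∧
          ENNReal.ofReal (θ * r ^ n) ≤ μ (Metric.ball x₀ r ∩ g '' Metric.ball 0 r) := by
  classical
  have hCpos : 0 < C := by linarith
  have hb0 : 0 < b := by linarith
  refine ⟨(2 * C ^ 3 * 12800 ^ n)⁻¹, by positivity,
    lipschitzExtensionConstant (V d) * Real.toNNReal η⁻¹, ?_⟩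
  intro μ x₀ r hr hx₀ hAD hL
  have hℓ : 0 < r / 100 := by positivity
  have hAD' : ADat n C (100 * (r / 100)) μ μ.support := by
    have : 100 * (r / 100) = r := by ring
    rwa [this]
  choose L F hFL hcard f hfb hfe using fun K : ℕ => hL (K + 1)
  have hg : ∀ K : ℕ, ∃ g : V n → V d,
      LipschitzWith (lipschitzExtensionConstant (V d) * Real.toNNReal η⁻¹) g ∧
        ∀ w ∈ F K, g (f K w) = w := by
    intro K
    exact exists_lip_inverse (F K : Set (V d)) (f K) hη (fun x hx y hy => hfe K x hx y hy)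
  choose g hglip hginv using hg
  set s : ℕ → ℝ := fun K => sc (r / 100) b (K + 1) with hs
  have hspos : ∀ K, 0 < s K := fun K => sc_pos hℓ hb0 _
  have hsle : ∀ K, s K ≤ r / 100 := by
    intro K
    exact div_le_self hℓ.le (one_le_pow₀ (by linarith))
  have hs0 : Tendsto s atTop (𝓝 0) := by
    have h1 : Tendsto (fun K : ℕ => b ^ (K + 1)) atTop atTop :=
      (tendsto_pow_atTop_atTop_of_one_lt (by linarith : 1 < b)).comp (tendsto_add_atTop_nat 1)
    exact h1.const_div_atTop (r / 100)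
  have hfinball : μ (closedBall x₀ (r / 2)) < ⊤ := by
    refine (measure_mono (closedBall_subset_ball (by linarith : r / 2 < r))).trans_lt ?_
    exact (hAD x₀ hx₀ r hr le_rfl).2.trans_lt ENNReal.ofReal_lt_top
  -- the three inputs of the limit theorem
  have hsub : ∀ K, (⋃ w ∈ F K, ball w (s K / 8)) ⊆ closedBall x₀ (r / 2) := by
    intro K y hy
    obtain ⟨w, hw, hyw⟩ := mem_iUnion₂.mp hy
    rw [mem_ball] at hyw
    rw [mem_closedBall]
    obtain ⟨hwW, hwc⟩ := (L K).mem_top.mp (hFL K hw)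
    have h1 := (L K).c_dist 0 (Nat.zero_le _) w hwW
    rw [hwc, sc_zero] at h1
    have h2 := dist_triangle y w x₀
    have h3 := hsle K
    linarith
  have hmass : ∀ K, ENNReal.ofReal ((2 * C ^ 3 * 12800 ^ n)⁻¹ * r ^ n) ≤
      μ (⋃ w ∈ F K, ball w (s K / 8)) := by
    intro K
    have hFW : F K ⊆ (L K).W := fun w hw => ((L K).mem_top.mp (hFL K hw)).1
    refine le_trans ?_ (leaf_mass μ hℓ hb hC hAD' (L K) (F K) hFW)
    refine ENNReal.ofReal_le_ofReal ?_
    have h1 := top_card_lower hC μ hx₀ hℓ hb hAD' (Nat.succ_pos K) (L K)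
    have h2 := hcard K
    have h3 : (C ^ 2 * 16 ^ n)⁻¹ * (b ^ (K + 1)) ^ n / 2 ≤ (F K).card := by
      have h4 : (C ^ 2 * 16 ^ n)⁻¹ * (b ^ (K + 1)) ^ n ≤ 2 * ((F K).card : ℝ) := h1.trans h2
      exact (div_le_iff₀' two_pos).mpr h4
    have h5 : (2 * C ^ 3 * 12800 ^ n)⁻¹ * r ^ n =
        ((C ^ 2 * 16 ^ n)⁻¹ * (b ^ (K + 1)) ^ n / 2) *
          (C⁻¹ * (sc (r / 100) b (K + 1) / 8) ^ n) := by
      unfold sc
      have hbK : b ^ (K + 1) ≠ 0 := by positivity
      have h6 : (r / 100 / b ^ (K + 1) / 8) ^ n = r ^ n / (800 ^ n * (b ^ (K + 1)) ^ n) := by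
        rw [← mul_pow, ← div_pow]
        congr 1
        field_simp
        norm_num
      have h7 : (12800 : ℝ) ^ n = 16 ^ n * 800 ^ n := by
        rw [← mul_pow]; norm_num
      rw [h6, h7]
      field_simp
    rw [h5]
    refine mul_le_mul_of_nonneg_right h3 ?_
    have h8 : 0 < sc (r / 100) b (K + 1) := hspos K
    positivity
  have hclose : ∀ K, ∀ y ∈ (⋃ w ∈ F K, ball w (s K / 8)),
      ∃ z ∈ closedBall (0 : V n) (r / 10), dist y (g K z) ≤ s K / 8 := by
    intro K y hy
    obtain ⟨w, hw, hyw⟩ := mem_iUnion₂.mp hy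
    refine ⟨f K w, ?_, ?_⟩
    · rw [mem_closedBall, dist_zero_right]
      have := hfb K w hw
      linarith
    · rw [hginv K w hw]
      exact (mem_ball.mp hyw).le
  have hδ : Tendsto (fun K => s K / 8) atTop (𝓝 0) := by simpa using hs0.div_const 8
  obtain ⟨G, hG, hGm⟩ := limit_lipschitz_image μ x₀ (r / 2) (r / 10)
    (lipschitzExtensionConstant (V d) * Real.toNNReal η⁻¹)
    (ENNReal.ofReal ((2 * C ^ 3 * 12800 ^ n)⁻¹ * r ^ n)) (ENNReal.ofReal_pos.mpr (by positivity))
    hfinball g hglip _ _ hδ hsub hmass hclose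
  refine ⟨G, hG.lipschitzOnWith, hGm.trans (measure_mono ?_)⟩
  refine inter_subset_inter (closedBall_subset_ball (by linarith)) (image_mono ?_)
  exact closedBall_subset_ball (by linarith)

end Crest.Agent.R085
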