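import Crest.Agent.R085.Touch5_Mg
import Crest.Agent.R085.P2End_Mg
import Crest.Agent.R085.P2Card
import Crest.Agent.R085.Abund_Mg
import Crest.Agent.R085.Defs
import Crest.Agent.R085.LiouMoll
import Crest.Agent.R085.LimDens_Mg
import Crest.Agent.R085.LimW
import Crest.Agent.R085.M8Sim
import Crest.Agent.R085.Targets
import Crest.Agent.R085.AdrInt2
import Crest.Agent.R085.LiouLam
import Mathlib
import Crest.Agent.R085.Incl

-- ▼ part R085/Touch6
section

/-!
Row 85, module M4: full support (corollaries of `support_eq_of_subset_subspace`).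
-/

set_option autoImplicit false

namespace Crest.Agent.R085

open MeasureTheory Metric Set Filter
open scoped ENNReal NNReal Topology

/-- **M4 (full support).** -/
theorem tFull {n d : ℕ} (hn : 1 ≤ n) (C : ℝ) : TFull n d C := by
  intro ν hν hR h0 ι hι
  have hW : Module.finrank ℝ (LinearMap.range ι.toLinearMap) ≤ n := by
    refine (LinearMap.finrank_range_le ι.toLinearMap).trans ?_
    rw [finrank_euclideanSpace, Fintype.card_fin]
  have h := support_eq_of_subset_subspace hn hν hR ⟨0, h0⟩ (W := LinearMap.range ι.toLinearMap)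
    (by intro y hy; exact hι hy) hW
  intro y hy
  rw [h]
  exact hy

/-- full support in dimension `n` -/
theorem support_eq_univ {n : ℕ} (hn : 1 ≤ n) {C : ℝ} {ν : Measure (V n)} (h : ADR n C ⊤ ν)
    (hR : Refl n ν) (hne : ν.support.Nonempty) : ν.support = univ := by
  have h1 := support_eq_of_subset_subspace hn h hR hne (W := ⊤) (by simp) (by
    rw [finrank_top, finrank_euclideanSpace, Fintype.card_fin])
  simpa using h1

end Crest.Agent.R085
end

-- ▼ part R085/P2Main
section

set_option autoImplicit false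

namespace Crest.Agent.R085

open MeasureTheory Set

/-- PART II: the bilateral weak geometric lemma implies big pieces of Lipschitz images. -/
theorem part_two (d n : ℕ) (hn : 1 ≤ n) (hnd : n ≤ d) (C_AD C_R : ℝ)
    (h : BWGL d n C_AD C_R) :
    ∃ θ : ℝ, 0 < θ ∧ ∃ M : NNReal, ∀ μ : MeasureTheory.Measure (EuclideanSpace ℝ (Fin d)),
      Crest.AnalysisR.IsADRegular n C_AD μ → Crest.AnalysisR.HasRieszBound n C_R μ →
        Crest.AnalysisR.IsUniformlyRectifiable n θ M μ := by
  by_cases hC : 1 ≤ C_AD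
  swap
  · exact ⟨1, one_pos, 0, fun μ hμ _ => absurd hμ.1 hC⟩
  have hC0 : 0 < C_AD := by linarith
  obtain ⟨b, ε, hb, hε, hcore⟩ := discrete_core n d hn hnd ((C_AD ^ 2 * 16 ^ n)⁻¹)
    (C_AD ^ 2 * 24 ^ n) (by positivity) (by positivity)
  obtain ⟨C_B, hC_B, hBW⟩ := h b 100 ε hb (by norm_num) hε
  obtain ⟨η, hη, hcore'⟩ := hcore C_B hC_B
  obtain ⟨θ, hθ, M, hend⟩ := endgame n d hn C_AD η b hC hη hb
  refine ⟨θ, hθ, M, fun μ hμ hR x₀ hx₀ r hr => ?_⟩
  have hr0 : 0 < r := hr.1
  have hADat : ADat n C_AD r μ μ.support := by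
    intro x hx r' hr'0 hr'
    exact hμ.2 x hx r' ⟨hr'0, (ENNReal.ofReal_le_ofReal hr').trans hr.2⟩
  have hscale : 100 * (r / 100) = r := by ring
  have hℓ : 0 < r / 100 := by positivity
  have hADat' : ADat n C_AD (100 * (r / 100)) μ μ.support := by rw [hscale]; exact hADat
  have hcompl : μ μ.supportᶜ = 0 := Measure.measure_compl_support
  refine hend μ x₀ r hr0 hx₀ hADat fun K => ?_
  obtain ⟨L⟩ := exists_lat μ.support Measure.isClosed_support x₀ hx₀ (r / 100) b hℓ hb K
  have hadm : Crest.AnalysisR.IsAdmissibleRadius μ (100 * (r / 100)) := by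
    rw [hscale]; exact hr
  obtain ⟨F, hF, hcard, f, hf1, hf2⟩ := hcore' L hℓ
    (fun k hk x hx hkx h0x =>
      card_cell_lower hC μ μ.support hcompl hℓ hb hADat' L k hk x hx hkx h0x)
    (fun k hk x hx hkx _ =>
      card_cell_upper hC μ μ.support hℓ hb hADat' L k hk x hx hkx)
    (hBW μ hμ hR x₀ hx₀ (r / 100) hadm K L)
  exact ⟨L, F, hF, hcard, f, hf1, hf2⟩

end Crest.Agent.R085
end

-- ▼ part R085/Final
section

/-!
R085: the final assembly of S0113 from the remaining module interfaces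
(`TPropagation` = M8, `TFlatSomewhere` and `TFull` = M4).
Owner: helper237.
-/

set_option autoImplicit false

namespace Crest.Agent.R085

open MeasureTheory Metric Set Filter
open scoped ENNReal NNReal Topology

/-- `TReflLim` from `refl_of_wLim`. -/
theorem tReflLim (n d : ℕ) (hn : 1 ≤ n) (C : ℝ) : TReflLim n d C := by
  intro U m ν D hW hA hE
  refine refl_of_wLim (C := C) hn hW (Eventually.of_forall fun k => ?_) hE
  intro x r hr
  exact (hA k).upper x r hr

/-- `TPacking` from `packing`. -/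
theorem tPacking (n d : ℕ) (hn : 1 ≤ n) (C A M δ σ : ℝ) (hC : 1 ≤ C) (hA : 0 ≤ A) (hM : 1 ≤ M)
    (hδ : 0 < δ) (hσ : 0 < σ) (hσ1 : σ ≤ 1) : TPacking n d C A M δ σ :=
  packing d n hn C A M δ σ hC hA hM hδ hσ hσ1

/-- The bilateral weak geometric lemma from M4 and M8. -/
theorem bwgl_of_M4_M8 (d n : ℕ) (hn : 1 ≤ n) (C_AD C_R : ℝ)
    (hProp : ∀ C ϱ : ℝ, 1 ≤ C → 0 < ϱ → ϱ ≤ 1 / 16 → TPropagation n d C ϱ)
    (hFS : ∀ C : ℝ, 1 ≤ C → TFlatSomewhere n d C)
    (hFull : ∀ C : ℝ, 1 ≤ C → TFull n d C) :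
    BWGL d n C_AD C_R :=
  bwgl_of_targets d n C_AD C_R hProp
    (fun C A ε' hC _ hε' => tBiFlat_of (tReflLim n d hn C) (hFull C hC) A ε' hε')
    (fun C _ hC hε => abundance hn hε (hFS C hC))
    (fun C A M δ σ hC hA hM hδ hσ hσ1 => tPacking n d hn C A M δ σ hC hA hM hδ hσ hσ1)

/-- S0113 from M4 and M8. -/
theorem s0113_of_M4_M8 (d n : ℕ) (hn : 1 ≤ n) (hnd : n ≤ d) (C_AD C_R : ℝ)
    (hProp : ∀ C ϱ : ℝ, 1 ≤ C → 0 < ϱ → ϱ ≤ 1 / 16 → TPropagation n d C ϱ)
    (hFS : ∀ C : ℝ, 1 ≤ C → TFlatSomewhere n d C)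
    (hFull : ∀ C : ℝ, 1 ≤ C → TFull n d C) :
    ∃ θ : ℝ, 0 < θ ∧ ∃ M : NNReal, ∀ μ : MeasureTheory.Measure (EuclideanSpace ℝ (Fin d)),
      Crest.AnalysisR.IsADRegular n C_AD μ → Crest.AnalysisR.HasRieszBound n C_R μ →
        Crest.AnalysisR.IsUniformlyRectifiable n θ M μ :=
  part_two d n hn hnd C_AD C_R (bwgl_of_M4_M8 d n hn C_AD C_R hProp hFS hFull)

/-- S0113 from M8 only (everything else is proved). -/
theorem s0113_of_M8 (d n : ℕ) (hn : 1 ≤ n) (hnd : n ≤ d) (C_AD C_R : ℝ)
    (hProp : ∀ C ϱ : ℝ, 1 ≤ C → 0 < ϱ → ϱ ≤ 1 / 16 → TPropagation n d C ϱ) :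
    ∃ θ : ℝ, 0 < θ ∧ ∃ M : NNReal, ∀ μ : MeasureTheory.Measure (EuclideanSpace ℝ (Fin d)),
      Crest.AnalysisR.IsADRegular n C_AD μ → Crest.AnalysisR.HasRieszBound n C_R μ →
        Crest.AnalysisR.IsUniformlyRectifiable n θ M μ :=
  s0113_of_M4_M8 d n hn hnd C_AD C_R hProp (fun C _ => flatSomewhere hn C) (fun C _ => tFull hn C)

end Crest.Agent.R085
end

-- ▼ part R085/LamDef
section

/-!
R085: the operator `Λ` (half Laplacian up to a constant) in absolutely convergent form.
Shared by M6, M7, M8.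
-/

set_option autoImplicit false

namespace Crest.Agent.R085

open MeasureTheory Metric Set Filter
open scoped ENNReal NNReal Topology

/-- `Λψ(x) = ∫ (2ψ(x) - ψ(x+h) - ψ(x-h)) |h|^{-(n+1)} dh`
(absolutely convergent for `ψ` of class `C²` with compact support). -/
noncomputable def Lam (n : ℕ) (ψ : V n → ℝ) (x : V n) : ℝ :=
  ∫ h : V n, (2 * ψ x - ψ (x + h) - ψ (x - h)) * (‖h‖ ^ (n + 1))⁻¹

end Crest.Agent.R085
end

-- ▼ part R085/LiouMain
section

/-!
R085 (S0113), module M6 (linear Liouville lemma): the final statements.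
-/

set_option autoImplicit false

namespace Crest.Agent.R085

open MeasureTheory Metric Set Filter
open scoped ENNReal NNReal Topology ContDiff


/-- **Linear Liouville lemma**, weak form for `T ∈ L²_loc`. -/
theorem liouville_L2 {n : ℕ} (hn : 0 < n) {T : V n → ℝ} {K s : ℝ} (hs : s < n + 4)
    (hT : ∀ R : ℝ, MemLp T 2 (volume.restrict (ball (0 : V n) R))) (hG : Gr K s T)
    (hw : ∀ ψ : V n → ℝ, SmTest ψ → ∫ x, T x * Lam n ψ x = 0) :
    ∃ (ℓ : V n →L[ℝ] ℝ) (c : ℝ), T =ᵐ[volume] fun x => ℓ x + c :=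
  Liou.liouville_L2' hn hs hT hG hw







end Crest.Agent.R085
namespace Crest.Agent.R085.Liou
end Crest.Agent.R085.Liou
end

-- ▼ part R085/M8Coord
section

/-!
R085, M8 (propagation): the normalised coordinates converge weakly to an affine function.
-/

set_option autoImplicit false

open MeasureTheory Metric Set Filter
open scoped ENNReal NNReal Topology

namespace Crest.Agent.R085.M8

/-- a measure which integrates test functions like `c` times Lebesgue measure on the standard
plane is `c` times Lebesgue measure on the standard plane -/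
theorem eq_map_inc {n d : ℕ} (hnd : n ≤ d) {ν : Measure (V d)} [IsLocallyFiniteMeasure ν]
    {c : ℝ} (hc : 0 < c)
    (hc2 : ∀ f : V d → ℝ, Continuous f → HasCompactSupport f →
      ∫ y, f y ∂ν = c * ∫ z : V n, f (inc n d z)) :
    ν = ENNReal.ofReal c • (volume : Measure (V n)).map (inc n d) := by
  have hinc : Topology.IsClosedEmbedding (inc n d) := by
    have h1 := (incL hnd).isometry.isClosedEmbedding
    exact h1
  have hlf : IsLocallyFiniteMeasure ((volume : Measure (V n)).map (inc n d)) := by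
    have : IsFiniteMeasureOnCompacts ((volume : Measure (V n)).map (inc n d)) := by
      constructor
      intro K hK
      rw [Measure.map_apply hinc.continuous.measurable hK.measurableSet]
      exact (hinc.isCompact_preimage hK).measure_lt_top
    infer_instance
  have hlf2 : IsLocallyFiniteMeasure
      (ENNReal.ofReal c • (volume : Measure (V n)).map (inc n d)) := by
    have : IsFiniteMeasureOnCompacts
        (ENNReal.ofReal c • (volume : Measure (V n)).map (inc n d)) := by
      constructor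
      intro K hK
      rw [Measure.smul_apply, smul_eq_mul]
      exact ENNReal.mul_lt_top ENNReal.ofReal_lt_top hK.measure_lt_top
    infer_instance
  apply MeasureTheory.Measure.ext_of_integral_eq_on_compactlySupported
  intro f
  rw [hc2 f f.continuous f.hasCompactSupport, integral_smul_measure,
    hinc.measurableEmbedding.integral_map, ENNReal.toReal_ofReal hc.le, smul_eq_mul]

theorem coord_affine {n d : ℕ} {C : ℝ} (hn : 1 ≤ n) (hnd : n ≤ d) (U : Ultrafilter ℕ)
    {μ : ℕ → Measure (V d)}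
    {D : ℕ → ℝ≥0∞} {ε : ℕ → ℝ} {b : ℕ → V d} (hDat : ∀ k, Dat n C (D k) (μ k) (ε k) (b k))
    (hε : Tendsto ε U (𝓝 0)) {ν : Measure (V d)} (hν : WLim U μ ν) {c : ℝ} (hc : 0 < c)
    (hc2 : ∀ f : V d → ℝ, Continuous f → HasCompactSupport f →
      ∫ y, f y ∂ν = c * ∫ z : V n, f (inc n d z)) (i : Fin d) (hi : n ≤ (i : ℕ)) :
    ∃ (t : ℝ) (B : V n), ∀ f : V d → ℝ, Continuous f → HasCompactSupport f →
      Tendsto (fun k => ∫ y, f y * Ac (ε k) (b k) i y ∂(μ k)) U
        (𝓝 (∫ y, f y * aff t B y ∂ν)) := by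
  have hlfν := hν.lf
  have hfk : ∀ k, IsFiniteMeasureOnCompacts (μ k) := fun k => adr_finiteOnCompacts (hDat k).adr
  have hCC : 0 ≤ C := by
    have := (hDat 0).adr.one_le
    linarith
  have hinc : Topology.IsClosedEmbedding (inc n d) := (incL hnd).isometry.isClosedEmbedding
  have hνeq := eq_map_inc hnd hc hc2
  have hM : Tendsto (fun k => ((ε k) ^ 3)⁻¹) (U : Filter ℕ) atTop := by
    apply Tendsto.inv_tendsto_nhdsGT_zero
    rw [tendsto_nhdsWithin_iff]
    refine ⟨?_, Eventually.of_forall fun k => ?_⟩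
    · have := hε.pow 3
      simpa using this
    · have := (hDat k).eps
      show 0 < (ε k) ^ 3
      positivity
  -- local L² bounds
  have hL2 : ∀ k R, MemLp (Ac (ε k) (b k) i) 2 ((μ k).restrict (ball 0 R)) := by
    intro k R
    have : IsFiniteMeasure ((μ k).restrict (ball (0 : V d) R)) :=
      ⟨by rw [Measure.restrict_apply_univ]; exact (hDat k).adr.ball_lt_top _ _⟩
    obtain ⟨M, hM⟩ := (isCompact_closedBall (0 : V d) R).exists_bound_of_continuousOn
      (Dat.continuous_Ac (ε k) (b k) i).continuousOn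
    refine MemLp.of_bound (Dat.continuous_Ac _ _ _).aestronglyMeasurable M ?_
    filter_upwards [ae_restrict_mem measurableSet_ball] with x hx
    exact hM x (ball_subset_closedBall hx)
  have hgr : ∀ R : ℝ, 1 ≤ R → ∀ᶠ k in (U : Filter ℕ),
      ∫ x in ball (0 : V d) R, ‖Ac (ε k) (b k) i x‖ ^ 2 ∂(μ k) ≤ R ^ (n + 3) := by
    intro R hR
    filter_upwards [hM.eventually_ge_atTop R] with k hk
    have := (hDat k).growth hi hR hk
    simpa only [Real.norm_eq_abs, sq_abs] using this
  obtain ⟨w, hwm, hwL, hwlim⟩ := exists_density_limit U hν.vague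
    (fun k => Ac (ε k) (b k) i) (fun m => by
      refine ⟨((m : ℝ) + 1) ^ (n + 3), ?_⟩
      have hm0 : (0 : ℝ) ≤ m := Nat.cast_nonneg m
      filter_upwards [hgr ((m : ℝ) + 1) (by linarith)] with k hk
      refine ⟨hL2 k m, le_trans ?_ hk⟩
      apply setIntegral_mono_set
      · exact integrableOn_ball_of_continuous ((Dat.continuous_Ac _ _ _).norm.pow 2) _ _
      · exact Eventually.of_forall fun z => by positivity
      · exact (ball_subset_ball (by linarith)).eventuallyLE)
  have hwgr : ∀ R : ℝ, 1 ≤ R → ∫ x in ball (0 : V d) R, ‖w x‖ ^ 2 ∂ν ≤ R ^ (n + 3) := by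
    intro R hR
    refine density_limit_le U hν.vague (fun k => Ac (ε k) (b k) i) isOpen_ball (hwL R) hwlim ?_
    filter_upwards [hgr R hR] with k hk
    exact ⟨hL2 k R, hk⟩
  have hwlim2 : ∀ f : V d → ℝ, Continuous f → HasCompactSupport f →
      Tendsto (fun k => ∫ y, f y * Ac (ε k) (b k) i y ∂(μ k)) U (𝓝 (∫ y, f y * w y ∂ν)) := by
    intro f hf hfc
    have := density_limit_smul U (fun k => Ac (ε k) (b k) i)
      (fun m => Eventually.of_forall fun k => hL2 k m) hwL hwlim hf hfc
    simpa only [smul_eq_mul] using this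
  -- the density on the plane
  have hint : ∀ g : V d → ℝ, ∫ y, g y ∂ν = c * ∫ z : V n, g (inc n d z) := by
    intro g
    rw [hνeq, integral_smul_measure, hinc.measurableEmbedding.integral_map,
      ENNReal.toReal_ofReal hc.le, smul_eq_mul]
  have hpre : ∀ R : ℝ, inc n d ⁻¹' (ball (0 : V d) R) = ball (0 : V n) R := by
    intro R
    ext z
    rw [mem_preimage, mem_ball_zero_iff, mem_ball_zero_iff, norm_inc hnd]
  have hrestr : ∀ R : ℝ, ν.restrict (ball (0 : V d) R)
      = ENNReal.ofReal c • ((volume : Measure (V n)).restrict (ball (0 : V n) R)).map (inc n d) := by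
    intro R
    rw [hνeq, Measure.restrict_smul, hinc.measurableEmbedding.restrict_map, hpre]
  set w' : V n → ℝ := fun z => w (inc n d z) with hw'
  have hw'L : ∀ R : ℝ, MemLp w' 2 (volume.restrict (ball (0 : V n) R)) := by
    intro R
    have h1 := hwL R
    rw [hrestr] at h1
    have h2 : MemLp w 2 (((volume : Measure (V n)).restrict (ball (0 : V n) R)).map (inc n d)) := by
      have h3 := h1.smul_measure (c := (ENNReal.ofReal c)⁻¹)
        (ENNReal.inv_ne_top.2 (ENNReal.ofReal_pos.2 hc).ne')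
      rwa [smul_smul, ENNReal.inv_mul_cancel (ENNReal.ofReal_pos.2 hc).ne'
        ENNReal.ofReal_ne_top, one_smul] at h3
    exact (hinc.measurableEmbedding.memLp_map_measure_iff).1 h2
  have hG : Gr c⁻¹ ((n : ℝ) + 3) w' := by
    intro R hR
    have h1 := hwgr R hR
    rw [hrestr, integral_smul_measure, hinc.measurableEmbedding.integral_map,
      ENNReal.toReal_ofReal hc.le, smul_eq_mul] at h1
    simp only [Real.norm_eq_abs, sq_abs] at h1
    have h2 : R ^ ((n : ℝ) + 3) = R ^ (n + 3) := by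
      rw [← Real.rpow_natCast]
      push_cast
      rfl
    rw [h2, inv_mul_eq_div, le_div_iff₀ hc, mul_comm]
    exact h1
  have hw2 : ∀ f : V d → ℝ, Continuous f → HasCompactSupport f →
      Tendsto (fun k => ∫ y, f y * Ac (ε k) (b k) i y ∂(μ k)) U
        (𝓝 (c * ∫ z : V n, f (inc n d z) * w' z)) := by
    intro f hf hfc
    have := hwlim2 f hf hfc
    rwa [hint] at this
  obtain ⟨KB, hKB, hKB'⟩ := Dat.bf_le n d C hn
  have hweq : ∀ ψ : V n → ℝ, SmTest ψ → ∫ z, w' z * Lam n ψ z = 0 := by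
    intro ψ hψ
    refine weq hn hnd (l := (U : Filter ℕ)) hCC
      (Eventually.of_forall fun k => (hDat k).adr.upperReg) hc ?_
      (A := fun k => Ac (ε k) (b k) i) (Eventually.of_forall fun k => (hDat k).locLip_Ac i)
      ?_ hw'L (s := (n : ℝ) + 3) (by linarith) hG hw2 ?_ ?_ hψ
    · intro f hf hfc
      have := hν.tendsto f hf hfc
      rwa [hc2 f hf hfc] at this
    · intro R
      refine ⟨C * (max R 1) ^ (n + 3), ?_⟩
      filter_upwards [hM.eventually_ge_atTop (max R 1)] with k hk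
      refine le_trans ?_ ((hDat k).integral_abs_le hi (le_max_right _ _) hk)
      apply setIntegral_mono_set
      · exact integrableOn_ball_of_continuous (Dat.continuous_Ac _ _ _).abs _ _
      · exact Eventually.of_forall fun z => by positivity
      · exact (ball_subset_ball (le_max_left _ _)).eventuallyLE
    · intro R
      obtain ⟨H, hH, hH'⟩ := Dat.enr_le n d C hn (max R 1) (le_max_right _ _)
      refine ⟨H, ?_⟩
      filter_upwards [hM.eventually_ge_atTop (4 * max R 1)] with k hk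
      refine le_trans ?_ (hH' (D k) (μ k) (ε k) (b k) (hDat k) hk i hi)
      unfold enr
      apply lintegral_mono_set
      exact prod_mono (ball_subset_ball (le_max_left _ _)) (ball_subset_ball (le_max_left _ _))
    · intro K0 ρ η hη
      set K1 : ℝ := max K0 0 with hK1
      set ρ1 : ℝ := max ρ 1 with hρ1
      have hK10 : 0 ≤ K1 := le_max_right _ _
      have hρ11 : 1 ≤ ρ1 := le_max_right _ _
      have hT : Tendsto (fun N : ℝ => KB * K1 * ρ1 ^ (n + 4) * ((√N)⁻¹ + 0)) atTop
          (𝓝 (KB * K1 * ρ1 ^ (n + 4) * (0 + 0))) :=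
        ((tendsto_inv_atTop_zero.comp Real.tendsto_sqrt_atTop).add_const 0).const_mul _
      rw [add_zero, mul_zero] at hT
      filter_upwards [hT.eventually_lt_const hη, eventually_ge_atTop (8 * ρ1)] with N hN1 hN2
      have hT2 : Tendsto (fun k => KB * K1 * ρ1 ^ (n + 4) * ((√N)⁻¹ + (ε k) ^ 2)) (U : Filter ℕ)
          (𝓝 (KB * K1 * ρ1 ^ (n + 4) * ((√N)⁻¹ + 0))) := by
        have := hε.pow 2
        simp only [ne_eq, OfNat.ofNat_ne_zero, not_false_eq_true, zero_pow] at this
        exact (tendsto_const_nhds.add this).const_mul _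
      filter_upwards [hT2.eventually_lt_const hN1, hM.eventually_ge_atTop N] with k hk1 hk2
      intro φ hφl hφs hφz
      refine le_trans ?_ hk1.le
      refine hKB' (D k) (μ k) (ε k) (b k) (hDat k) i hi K1 ρ1 N hK10 hρ11 hN2 hk2 φ ?_ ?_ hφz
      · intro y z
        rw [dist_eq_norm]
        refine (hφl y z).trans ?_
        gcongr
        exact le_max_left _ _
      · intro y hy
        exact hφs y fun h => hy (ball_subset_ball (le_max_left _ _) h)
  obtain ⟨ℓ, c0, hℓ⟩ := liouville_L2 (by omega : 0 < n) (by linarith : ((n : ℝ) + 3) < n + 4)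
    hw'L hG hweq
  refine ⟨c0, (InnerProductSpace.toDual ℝ (V n)).symm ℓ, fun f hf hfc => ?_⟩
  have h1 := hw2 f hf hfc
  have h2 : ∫ y, f y * aff c0 ((InnerProductSpace.toDual ℝ (V n)).symm ℓ) y ∂ν
      = c * ∫ z : V n, f (inc n d z) * w' z := by
    rw [hint]
    congr 1
    apply integral_congr_ae
    filter_upwards [hℓ] with z hz
    rw [hz]
    unfold aff
    rw [prj_inc hnd, InnerProductSpace.toDual_symm_apply]
    ring
  rw [h2]
  exact h1

end Crest.Agent.R085.M8
end

-- ▼ part R085/M8Main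
section

/-!
R085, M8 (propagation): the assembly, `TPropagation` from `TConst`.
-/

set_option autoImplicit false

open MeasureTheory Metric Set Filter
open scoped ENNReal NNReal Topology

namespace Crest.Agent.R085

namespace Dat

variable {n d : ℕ} {C : ℝ} {D : ℝ≥0∞} {μ : Measure (V d)} {ε : ℝ} {b : V d}

/-- support points are close to the plane -/
theorem near_plane (h : Dat n C D μ ε b) {i : Fin d} (hi : n ≤ (i : ℕ)) {y : V d}
    (hy : y ∈ μ.support) {R s : ℝ} (hs : 0 < s) (hs1 : s ≤ 1) (hyR : ‖y‖ + s ≤ R) (hR : 1 ≤ R)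
    (hRM : R ≤ (ε ^ 3)⁻¹) (hsm : ε ^ 2 * R ^ (n + 3) < C⁻¹ * s ^ (n + 2)) :
    |y i - b i| < 2 * s := by
  by_contra hcon
  rw [not_lt] at hcon
  have he := h.eps
  have hC := h.adr.one_le
  have hfin : IsFiniteMeasureOnCompacts μ := M8.adr_finiteOnCompacts h.adr
  have hlow : C⁻¹ * s ^ n ≤ μ.real (ball y s) :=
    h.adr.le_real_ball hy hs (le_trans (ENNReal.ofReal_le_ofReal (hs1.trans h.M1)) h.hD)
  have hsub : ball y s ⊆ ball (0 : V d) R := by
    intro z hz
    rw [mem_ball] at hz
    rw [mem_ball_zero_iff]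
    have := norm_sub_norm_le z y
    rw [dist_eq_norm] at hz
    linarith
  have hnc : Continuous fun z : V d => nsq n (z - b) := by
    have := M8.continuous_nsq (n := n) (d := d)
    fun_prop
  have h1 : s ^ 2 * μ.real (ball y s) ≤ ∫ z in ball y s, nsq n (z - b) ∂μ := by
    have e1 : s ^ 2 * μ.real (ball y s) = ∫ _z in ball y s, s ^ 2 ∂μ := by
      rw [setIntegral_const, smul_eq_mul, mul_comm]
    rw [e1]
    refine setIntegral_mono_on ?_ ?_ measurableSet_ball fun z hz => ?_
    · exact M8.integrableOn_ball_of_continuous continuous_const _ _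
    · exact M8.integrableOn_ball_of_continuous hnc _ _
    · refine le_trans ?_ (sq_le_nsq hi (z - b))
      have h2 := PiLp.norm_apply_le (y - z) i
      rw [Real.norm_eq_abs, PiLp.sub_apply] at h2
      rw [mem_ball, dist_comm, dist_eq_norm] at hz
      have h3 : |y i - b i| ≤ |y i - z i| + |z i - b i| := abs_sub_le _ _ _
      have h4 : s ≤ |(z - b) i| := by
        rw [PiLp.sub_apply]
        linarith
      rw [← sq_abs ((z - b) i)]
      gcongr
  have h2 : ∫ z in ball y s, nsq n (z - b) ∂μ ≤ ∫ z in ball (0 : V d) R, nsq n (z - b) ∂μ := by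
    apply setIntegral_mono_set
    · exact M8.integrableOn_ball_of_continuous hnc _ _
    · exact Eventually.of_forall fun z => M8.nsq_nonneg _
    · exact hsub.eventuallyLE
  have h3 := h.flat R hR hRM
  have h4 : s ^ 2 * (C⁻¹ * s ^ n) ≤ s ^ 2 * μ.real (ball y s) := by gcongr
  have e2 : s ^ 2 * (C⁻¹ * s ^ n) = C⁻¹ * s ^ (n + 2) := by ring
  have e3 : ε ^ 2 * R * R ^ (n + 2) = ε ^ 2 * R ^ (n + 3) := by ring
  linarith

end Dat

/-- limit objects of a sequence of normalised data -/
theorem Dat.limit {n d : ℕ} {C : ℝ} (hn : 1 ≤ n) {U : Ultrafilter ℕ} {μ : ℕ → Measure (V d)}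
    {D : ℕ → ℝ≥0∞} {ε : ℕ → ℝ} {b : ℕ → V d} (hDat : ∀ k, Dat n C (D k) (μ k) (ε k) (b k))
    (hε : Tendsto ε U (𝓝 0)) :
    ∃ ν : Measure (V d), WLim U μ ν ∧ ADR n C ⊤ ν ∧ Refl n ν ∧ (0 : V d) ∈ ν.support ∧
      ∀ y ∈ ν.support, nsq n y = 0 := by
  have hM : Tendsto (fun k => ((ε k) ^ 3)⁻¹) (U : Filter ℕ) atTop := by
    apply Tendsto.inv_tendsto_nhdsGT_zero
    rw [tendsto_nhdsWithin_iff]
    refine ⟨?_, Eventually.of_forall fun k => ?_⟩
    · have := hε.pow 3
      simpa using this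
    · have := (hDat k).eps
      show 0 < (ε k) ^ 3
      positivity
  have hD : ∀ s : ℝ, ENNReal.ofReal s < ⊤ → ∀ᶠ k in (U : Filter ℕ), ENNReal.ofReal s ≤ D k := by
    intro s _
    filter_upwards [hM.eventually_ge_atTop s] with k hk
    exact (ENNReal.ofReal_le_ofReal hk).trans (hDat k).hD
  obtain ⟨ν, hν, hνA⟩ := exists_wLim_adr U μ (fun k => (hDat k).adr) hD
  have h0 : (0 : V d) ∈ ν.support :=
    hν.mem_support_adr (Eventually.of_forall fun k => (hDat k).adr) one_pos
      (hD 1 ENNReal.ofReal_lt_top) (tendsto_const_nhds (x := (0 : V d)))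
      (Eventually.of_forall fun k => (hDat k).mem)
  refine ⟨ν, hν, hνA, ?_, h0, ?_⟩
  · refine refl_of_wLim hn hν (C := C) (Eventually.of_forall fun k => (hDat k).adr.upperReg) ?_
    intro M δ hM0 hδ
    have h3 : Tendsto (fun k => (ε k) ^ 3) (U : Filter ℕ) (𝓝 0) := by
      have := hε.pow 3
      simpa using this
    filter_upwards [hM.eventually_ge_atTop M, h3.eventually_le_const hδ] with k hk1 hk2
    exact (hDat k).eta.mono zero_le_one hk1 hk2
  · intro p hp
    have hCpos : 0 < C := lt_of_lt_of_le one_pos hνA.one_le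
    have key : ∀ i : Fin d, n ≤ (i : ℕ) → p i = 0 := by
      intro i hi
      obtain ⟨y, hy1, hy2⟩ := hν.exists_tendsto_support hp
      have hle : ∀ s : ℝ, 0 < s → s ≤ 1 → |p i| ≤ 4 * s := by
        intro s hs hs1
        set R : ℝ := ‖p‖ + 2 with hR
        have hR1 : 1 ≤ R := by have := norm_nonneg p; linarith
        have hc : 0 < C⁻¹ * s ^ (n + 2) := by positivity
        have h4 : Tendsto (fun k => (ε k) ^ 2 * R ^ (n + 3)) (U : Filter ℕ) (𝓝 0) := by
          have := (hε.pow 2).mul_const (R ^ (n + 3))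
          simpa using this
        have h5 : Tendsto (fun k => ‖y k‖ + s) (U : Filter ℕ) (𝓝 (‖p‖ + s)) :=
          hy2.norm.add_const s
        have h6 : Tendsto (fun k => |y k i|) (U : Filter ℕ) (𝓝 |p i|) := by
          have hc : Continuous fun z : V d => |z i| := by fun_prop
          exact (hc.tendsto p).comp hy2
        refine le_of_tendsto h6 ?_
        filter_upwards [hy1, h4.eventually_lt_const hc, hM.eventually_ge_atTop R,
          h5.eventually_lt_const (show ‖p‖ + s < R by linarith)] with k hk1 hk2 hk3 hk4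
        have h7 := (hDat k).near_plane hi hk1 hs hs1 hk4.le hR1 hk3 hk2
        have h8 := (hDat k).near_plane hi (hDat k).mem hs hs1
          (by rw [norm_zero]; linarith [norm_nonneg p]) hR1 hk3 hk2
        rw [PiLp.zero_apply, zero_sub, abs_neg] at h8
        have h9 : |y k i| ≤ |y k i - b k i| + |b k i| := by
          have := abs_add_le (y k i - b k i) (b k i)
          simpa using this
        linarith
      have h10 : |p i| ≤ 0 := by
        by_contra hcon
        rw [not_le] at hcon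
        have h11 := hle (min 1 (|p i| / 8)) (by positivity) (min_le_left _ _)
        have h12 : min 1 (|p i| / 8) ≤ |p i| / 8 := min_le_right _ _
        linarith
      exact abs_nonpos_iff.1 h10
    unfold nsq
    apply Finset.sum_eq_zero
    intro i _
    split_ifs with hi
    · rw [key i hi]
      norm_num
    · rfl

/-- **M8: propagation of flatness**, from the classification of flat reflectionless measures. -/
theorem propagation {n d : ℕ} (hn : 1 ≤ n) (hnd : n ≤ d) {C q : ℝ} (hT : TConst n d C)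
    (hq : 0 < q) (hq5 : q ≤ 1 / 5) : TPropagation n d C q := by
  apply M8.propagation_of_normalised
  by_contra hcon
  push Not at hcon
  have hex : ∀ k : ℕ, ∃ (ε : ℝ) (μ : Measure (V d)) (D : ℝ≥0∞) (b : V d),
      ε ≤ 1 / ((k : ℝ) + 1) ∧ Dat n C D μ ε b ∧
      ∃ x' : V d, dist x' 0 ≤ 4 ∧ ¬ FlatW n μ x' q ε (ε ^ 3)⁻¹ := by
    intro k
    obtain ⟨ε, hε, hεk, μ, D, hA, hD, h0, ⟨b, hb⟩, hE, x', hx', hx'4, hF⟩ :=
      hcon (1 / ((k : ℝ) + 1)) (by positivity)
    refine ⟨ε, μ, D, b, hεk, ⟨hA, hε, hεk.trans ?_, hD, h0, hb, hE⟩, x', hx'4, hF⟩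
    rw [div_le_one (by positivity)]
    have : (0 : ℝ) ≤ k := Nat.cast_nonneg k
    linarith
  choose ε μ D b hεk hDat x' hx'4 hF using hex
  set U : Ultrafilter ℕ := Filter.hyperfilter ℕ with hU
  have hUle : (U : Filter ℕ) ≤ atTop := by
    rw [← Nat.cofinite_eq_atTop]
    exact Filter.hyperfilter_le_cofinite
  have hε : Tendsto ε U (𝓝 0) := by
    refine Tendsto.mono_left ?_ hUle
    refine squeeze_zero (fun k => (hDat k).eps.le) hεk ?_
    exact tendsto_one_div_add_atTop_nhds_zero_nat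
  have hM : Tendsto (fun k => ((ε k) ^ 3)⁻¹) (U : Filter ℕ) atTop := by
    apply Tendsto.inv_tendsto_nhdsGT_zero
    rw [tendsto_nhdsWithin_iff]
    refine ⟨?_, Eventually.of_forall fun k => ?_⟩
    · have := hε.pow 3
      simpa using this
    · have := (hDat k).eps
      show 0 < (ε k) ^ 3
      positivity
  obtain ⟨ν, hν, hνA, hνR, hν0, hνf⟩ := Dat.limit hn hDat hε
  obtain ⟨c, hc, hc2⟩ := hT ν hνA hνR ⟨0, hν0⟩ hνf
  have hco : ∀ i : Fin d, ∃ (t : ℝ) (B : V n), n ≤ (i : ℕ) →
      ∀ f : V d → ℝ, Continuous f → HasCompactSupport f →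
      Tendsto (fun k => ∫ y, f y * Ac (ε k) (b k) i y ∂(μ k)) U
        (𝓝 (∫ y, f y * M8.aff t B y ∂ν)) := by
    intro i
    by_cases hi : n ≤ (i : ℕ)
    · obtain ⟨t, B, h⟩ := M8.coord_affine hn hnd U hDat hε hν hc hc2 i hi
      exact ⟨t, B, fun _ => h⟩
    · exact ⟨0, 0, fun h => absurd h hi⟩
  choose t B hco using hco
  have hD1 : ∀ᶠ k in (U : Filter ℕ), 1 ≤ D k := by
    refine Eventually.of_forall fun k => ?_
    have h1 := (ENNReal.ofReal_le_ofReal (hDat k).M1).trans (hDat k).hD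
    rwa [ENNReal.ofReal_one] at h1
  have hSL : ∀ i : Fin d, n ≤ (i : ℕ) → ∀ R : ℝ, 0 < R → Tendsto (fun k =>
      ∫ y in ball (0 : V d) R, ((y i - b k i) / ε k - M8.aff (t i) (B i) y) ^ 2 ∂(μ k)) U
      (𝓝 0) := by
    intro i hi R hR
    obtain ⟨H, hH, hH'⟩ := Dat.enr_le n d C hn (R + 2) (by linarith)
    refine M8.sl2_tendsto_of_vague (n := n) (C0 := C) (Ds := D) (u := fun k => Ac (ε k) (b k) i)
      (ν := ν) (L := ‖B i‖) (H := H) hν.tendsto (Eventually.of_forall fun k => (hDat k).adr) hD1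
      (Eventually.of_forall fun k => Dat.continuous_Ac _ _ _) (norm_nonneg _) ?_ (hco i hi) hR ?_
    · intro x y
      unfold M8.aff
      rw [add_sub_add_left_eq_sub, ← inner_sub_right]
      refine (abs_real_inner_le_norm _ _).trans ?_
      gcongr
      have : prj n x - prj n y = prj n (x - y) := by
        ext j
        rw [PiLp.sub_apply, M8.prj_apply _ hnd, M8.prj_apply _ hnd, M8.prj_apply _ hnd,
          PiLp.sub_apply]
      rw [this, dist_eq_norm]
      exact M8.norm_prj_le _ hnd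
    · filter_upwards [hM.eventually_ge_atTop (4 * (R + 2))] with k hk
      exact hH' (D k) (μ k) (ε k) (b k) (hDat k) hk i hi
  have hfin := M8.tilt_tendsto (n := n) hnd (l := (U : Filter ℕ)) (μs := μ) (C0 := C) (Ds := D)
    (Eventually.of_forall fun k => (hDat k).adr) (b := b) (ε := ε)
    (M := fun k => ((ε k) ^ 3)⁻¹) (Eventually.of_forall fun k => (hDat k).eps) hM hq hq5
    (t := t) (B := B) (Eventually.of_forall fun k => (hDat k).flat) hSL
  obtain ⟨k, hk⟩ := hfin.exists
  exact hF k (hk (x' k) (hx'4 k))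

end Crest.Agent.R085
end

-- ▼ part R085/FlatKer
section

/-!
R085, module M7 (flat reflectionless measures have constant density): kernel estimates.

`kt n t z = (‖z‖² + t²)^{-(n+1)/2}` is the regularised scalar kernel.
-/

set_option autoImplicit false
set_option linter.unusedSectionVars false
set_option linter.unusedVariables false

noncomputable section

namespace Crest.Agent.R085.Flat

open MeasureTheory Metric Set Filter
open scoped ENNReal NNReal Topology

section Alg

variable {E : Type*} [NormedAddCommGroup E] [InnerProductSpace ℝ E]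

/-- `√(‖z‖² + t²)`. -/
def rt (t : ℝ) (z : E) : ℝ := √(‖z‖ ^ 2 + t ^ 2)

/-- regularised scalar kernel `(‖z‖² + t²)^{-(n+1)/2}`. -/
def kt (n : ℕ) (t : ℝ) (z : E) : ℝ := ((rt t z) ^ (n + 1))⁻¹

theorem rt_pos {t : ℝ} (ht : 0 < t) (z : E) : 0 < rt t z := by
  unfold rt; positivity

theorem le_rt {t : ℝ} (ht : 0 < t) (z : E) : t ≤ rt t z := by
  unfold rt
  apply Real.le_sqrt_of_sq_le
  nlinarith [sq_nonneg ‖z‖]

theorem norm_le_rt (t : ℝ) (z : E) : ‖z‖ ≤ rt t z := by
  unfold rt
  apply Real.le_sqrt_of_sq_le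
  nlinarith [sq_nonneg t]

theorem rt_sq (t : ℝ) (z : E) : rt t z ^ 2 = ‖z‖ ^ 2 + t ^ 2 := by
  unfold rt
  rw [Real.sq_sqrt (by positivity)]

theorem rt_neg (t : ℝ) (z : E) : rt t (-z) = rt t z := by
  unfold rt; rw [norm_neg]

theorem kt_neg (n : ℕ) (t : ℝ) (z : E) : kt n t (-z) = kt n t z := by
  unfold kt; rw [rt_neg]

theorem kt_pos (n : ℕ) {t : ℝ} (ht : 0 < t) (z : E) : 0 < kt n t z := by
  have := rt_pos ht z
  unfold kt; positivity

theorem kt_nonneg (n : ℕ) (t : ℝ) (z : E) : 0 ≤ kt n t z := by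
  unfold kt rt; positivity

theorem kt_le_t (n : ℕ) {t : ℝ} (ht : 0 < t) (z : E) : kt n t z ≤ (t ^ (n + 1))⁻¹ := by
  unfold kt
  exact inv_anti₀ (by positivity) (pow_le_pow_left₀ ht.le (le_rt ht z) _)

theorem kt_le_norm (n : ℕ) {t : ℝ} {z : E} (hz : z ≠ 0) :
    kt n t z ≤ (‖z‖ ^ (n + 1))⁻¹ := by
  unfold kt
  have : 0 < ‖z‖ := norm_pos_iff.2 hz
  exact inv_anti₀ (by positivity) (pow_le_pow_left₀ this.le (norm_le_rt t z) _)

theorem abs_rt_sub_le {t : ℝ} (ht : 0 < t) (a b : E) : |rt t a - rt t b| ≤ ‖a - b‖ := by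
  have ha := rt_pos ht a
  have hb := rt_pos ht b
  have h1 : (rt t a - rt t b) * (rt t a + rt t b) = (‖a‖ - ‖b‖) * (‖a‖ + ‖b‖) := by
    have e1 := rt_sq t a
    have e2 := rt_sq t b
    nlinarith
  have h2 : |rt t a - rt t b| * (rt t a + rt t b) = |‖a‖ - ‖b‖| * (‖a‖ + ‖b‖) := by
    rw [← abs_of_pos (by positivity : 0 < rt t a + rt t b), ← abs_mul, h1, abs_mul,
      abs_of_nonneg (by positivity : 0 ≤ ‖a‖ + ‖b‖)]
  have h3 : |‖a‖ - ‖b‖| ≤ ‖a - b‖ := abs_norm_sub_norm_le a b
  have h4 : ‖a‖ + ‖b‖ ≤ rt t a + rt t b := add_le_add (norm_le_rt t a) (norm_le_rt t b)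
  have h5 : |rt t a - rt t b| * (rt t a + rt t b) ≤ ‖a - b‖ * (rt t a + rt t b) := by
    rw [h2]
    exact mul_le_mul h3 h4 (by positivity) (norm_nonneg _)
  exact le_of_mul_le_mul_right h5 (by positivity)

/-- `|α^{m} - β^{m}| ≤ m |α - β| max(α,β)^{m-1}`, `m = n+1`. -/
theorem abs_pow_succ_sub_le (n : ℕ) {α β M : ℝ} (hα : 0 ≤ α) (hβ : 0 ≤ β) (hαM : α ≤ M)
    (hβM : β ≤ M) : |α ^ (n + 1) - β ^ (n + 1)| ≤ (n + 1) * |α - β| * M ^ n := by
  have hM : 0 ≤ M := hα.trans hαM
  have h := (Commute.all α β).mul_geom_sum₂ (n + 1)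
  rw [← h, abs_mul]
  have h2 : |∑ i ∈ Finset.range (n + 1), α ^ i * β ^ (n + 1 - 1 - i)| ≤ (n + 1) * M ^ n := by
    refine (Finset.abs_sum_le_sum_abs _ _).trans ?_
    have : ∀ i ∈ Finset.range (n + 1), |α ^ i * β ^ (n + 1 - 1 - i)| ≤ M ^ n := by
      intro i hi
      rw [Finset.mem_range] at hi
      rw [abs_of_nonneg (by positivity)]
      calc α ^ i * β ^ (n + 1 - 1 - i) ≤ M ^ i * M ^ (n + 1 - 1 - i) := by
            gcongr
        _ = M ^ n := by rw [← pow_add]; congr 1; omega
    refine (Finset.sum_le_sum this).trans ?_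
    rw [Finset.sum_const, Finset.card_range, nsmul_eq_mul]
    push_cast
    exact le_rfl
  calc |α - β| * |∑ i ∈ Finset.range (n + 1), α ^ i * β ^ (n + 1 - 1 - i)|
      ≤ |α - β| * ((n + 1) * M ^ n) := by gcongr
    _ = (n + 1) * |α - β| * M ^ n := by ring

/-- Difference estimate for the regularised vector kernel tested against `e`. -/
theorem abs_inner_kt_sub_le (n : ℕ) {t : ℝ} (ht : 0 < t) (e a b : E) :
    |inner ℝ a e * kt n t a - inner ℝ b e * kt n t b|
      ≤ (n + 2) * ‖e‖ * ‖a - b‖ * (kt n t a + kt n t b) := by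
  have ha := rt_pos ht a
  have hb := rt_pos ht b
  set α := (rt t a)⁻¹ with hα
  set β := (rt t b)⁻¹ with hβ
  have hα0 : 0 < α := inv_pos.2 ha
  have hβ0 : 0 < β := inv_pos.2 hb
  have hka : kt n t a = α ^ (n + 1) := by rw [kt, hα, inv_pow]
  have hkb : kt n t b = β ^ (n + 1) := by rw [kt, hβ, inv_pow]
  set M := max α β with hM
  have hM0 : 0 < M := lt_max_of_lt_left hα0
  have hαβ : |α - β| ≤ ‖a - b‖ * (α * β) := by
    have : α - β = (rt t b - rt t a) * (α * β) := by
      rw [hα, hβ]; field_simp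
    rw [this, abs_mul, abs_of_pos (mul_pos hα0 hβ0)]
    have h1 := abs_rt_sub_le ht b a
    rw [norm_sub_rev] at h1
    gcongr
  have hMsum : M ^ (n + 1) ≤ α ^ (n + 1) + β ^ (n + 1) := by
    rcases le_total α β with h | h
    · rw [hM, max_eq_right h]
      have : 0 ≤ α ^ (n + 1) := by positivity
      linarith
    · rw [hM, max_eq_left h]
      have : 0 ≤ β ^ (n + 1) := by positivity
      linarith
  have hsplit : inner ℝ a e * kt n t a - inner ℝ b e * kt n t b
      = inner ℝ (a - b) e * kt n t a + inner ℝ b e * (kt n t a - kt n t b) := by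
    rw [inner_sub_left]; ring
  rw [hsplit]
  have h1 : |inner ℝ (a - b) e * kt n t a| ≤ ‖e‖ * ‖a - b‖ * M ^ (n + 1) := by
    rw [abs_mul, hka, abs_of_pos (by positivity : 0 < α ^ (n + 1))]
    have := abs_real_inner_le_norm (a - b) e
    calc |inner ℝ (a - b) e| * α ^ (n + 1) ≤ (‖a - b‖ * ‖e‖) * M ^ (n + 1) := by
          gcongr
          exact le_max_left _ _
      _ = _ := by ring
  have h2 : |inner ℝ b e * (kt n t a - kt n t b)| ≤ (n + 1) * ‖e‖ * ‖a - b‖ * M ^ (n + 1) := by
    rw [abs_mul, hka, hkb]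
    have h3 := abs_real_inner_le_norm b e
    have h4 := abs_pow_succ_sub_le n hα0.le hβ0.le (le_max_left α β) (le_max_right α β)
    have h5 : ‖b‖ * β ≤ 1 := by
      rw [hβ, ← div_eq_mul_inv, div_le_one hb]
      exact norm_le_rt t b
    calc |inner ℝ b e| * |α ^ (n + 1) - β ^ (n + 1)|
        ≤ (‖b‖ * ‖e‖) * ((n + 1) * |α - β| * M ^ n) := by gcongr
      _ ≤ (‖b‖ * ‖e‖) * ((n + 1) * (‖a - b‖ * (α * β)) * M ^ n) := by gcongr
      _ = (n + 1) * ‖e‖ * ‖a - b‖ * ((‖b‖ * β) * (α * M ^ n)) := by ring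
      _ ≤ (n + 1) * ‖e‖ * ‖a - b‖ * (1 * (M * M ^ n)) := by
          gcongr
          exact le_max_left _ _
      _ = (n + 1) * ‖e‖ * ‖a - b‖ * M ^ (n + 1) := by rw [pow_succ]; ring
  calc |inner ℝ (a - b) e * kt n t a + inner ℝ b e * (kt n t a - kt n t b)|
      ≤ ‖e‖ * ‖a - b‖ * M ^ (n + 1) + (n + 1) * ‖e‖ * ‖a - b‖ * M ^ (n + 1) :=
        (abs_add_le _ _).trans (add_le_add h1 h2)
    _ = (n + 2) * ‖e‖ * ‖a - b‖ * M ^ (n + 1) := by ring
    _ ≤ (n + 2) * ‖e‖ * ‖a - b‖ * (kt n t a + kt n t b) := by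
        rw [hka, hkb]; gcongr

theorem cut_nonneg (s : ℝ) : 0 ≤ cut s := le_max_left _ _

theorem cut_le_one (s : ℝ) : cut s ≤ 1 := by
  unfold cut
  exact max_le zero_le_one (min_le_left _ _)

theorem cut_of_le_one {s : ℝ} (hs : s ≤ 1) : cut s = 1 := by
  unfold cut
  rw [min_eq_left (by linarith), max_eq_right zero_le_one]

theorem cut_of_two_le {s : ℝ} (hs : 2 ≤ s) : cut s = 0 := by
  unfold cut
  rw [max_eq_left]
  exact (min_le_right _ _).trans (by linarith)

theorem abs_cut_sub_le (s s' : ℝ) : |cut s - cut s'| ≤ |s - s'| := by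
  unfold cut
  have h1 : |max 0 (min 1 (2 - s)) - max 0 (min 1 (2 - s'))| ≤ |min 1 (2 - s) - min 1 (2 - s')| := by
    have := abs_max_sub_max_le_abs (min 1 (2 - s)) (min 1 (2 - s')) 0
    rwa [max_comm _ (0:ℝ), max_comm _ (0:ℝ)] at this
  have h2 : |min 1 (2 - s) - min 1 (2 - s')| ≤ |(2 - s) - (2 - s')| := by
    have := abs_min_sub_min_le_max 1 (2 - s) 1 (2 - s')
    simpa using this
  have h3 : |(2 - s) - (2 - s')| = |s - s'| := by
    rw [show (2 - s) - (2 - s') = -(s - s') by ring, abs_neg]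
  linarith

theorem continuous_cut : Continuous cut := by
  unfold cut
  fun_prop

/-- Difference estimate with the cutoff at distance `N`. -/
theorem abs_cut_inner_kt_sub_le (n : ℕ) {t N : ℝ} (ht : 0 < t) (hN : 0 < N) (e a b : E) :
    |inner ℝ a e * (cut (‖a‖ / N) * kt n t a) - inner ℝ b e * (cut (‖b‖ / N) * kt n t b)|
      ≤ (n + 4) * ‖e‖ * ‖a - b‖ * (kt n t a + kt n t b) := by
  have hcut : |cut (‖a‖ / N) - cut (‖b‖ / N)| ≤ ‖a - b‖ / N := by
    refine (abs_cut_sub_le _ _).trans ?_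
    rw [← sub_div, abs_div, abs_of_pos hN]
    gcongr
    exact abs_norm_sub_norm_le a b
  have hka := kt_nonneg n t a
  have hkb := kt_nonneg n t b
  have hmain := abs_inner_kt_sub_le n ht e a b
  have hN2 : ∀ z : E, ‖z‖ ≤ 2 * N → |inner ℝ z e * kt n t z| * (‖a - b‖ / N)
      ≤ 2 * ‖e‖ * ‖a - b‖ * kt n t z := by
    intro z hz
    rw [abs_mul, abs_of_nonneg (kt_nonneg n t z)]
    have h1 := abs_real_inner_le_norm z e
    calc |inner ℝ z e| * kt n t z * (‖a - b‖ / N)
        ≤ ((2 * N) * ‖e‖) * kt n t z * (‖a - b‖ / N) := by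
          have := kt_nonneg n t z
          gcongr
          exact h1.trans (by gcongr)
      _ = 2 * ‖e‖ * ‖a - b‖ * kt n t z := by field_simp
  rcases le_or_gt ‖b‖ (2 * N) with hb | hb
  · have hsplit : inner ℝ a e * (cut (‖a‖ / N) * kt n t a) - inner ℝ b e * (cut (‖b‖ / N) * kt n t b)
        = cut (‖a‖ / N) * (inner ℝ a e * kt n t a - inner ℝ b e * kt n t b)
          + (inner ℝ b e * kt n t b) * (cut (‖a‖ / N) - cut (‖b‖ / N)) := by ring
    rw [hsplit]
    refine (abs_add_le _ _).trans ?_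
    rw [abs_mul, abs_mul, abs_of_nonneg (cut_nonneg _)]
    have h1 : cut (‖a‖ / N) * |inner ℝ a e * kt n t a - inner ℝ b e * kt n t b|
        ≤ 1 * ((n + 2) * ‖e‖ * ‖a - b‖ * (kt n t a + kt n t b)) := by
      gcongr
      exact cut_le_one _
    have h2 : |inner ℝ b e * kt n t b| * |cut (‖a‖ / N) - cut (‖b‖ / N)|
        ≤ 2 * ‖e‖ * ‖a - b‖ * kt n t b := by
      refine le_trans ?_ (hN2 b hb)
      gcongr
    have h3 : 0 ≤ 2 * ‖e‖ * ‖a - b‖ * kt n t a := by positivity
    nlinarith
  · rcases le_or_gt ‖a‖ (2 * N) with ha | ha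
    · have hsplit : inner ℝ a e * (cut (‖a‖ / N) * kt n t a)
            - inner ℝ b e * (cut (‖b‖ / N) * kt n t b)
          = cut (‖b‖ / N) * (inner ℝ a e * kt n t a - inner ℝ b e * kt n t b)
            + (inner ℝ a e * kt n t a) * (cut (‖a‖ / N) - cut (‖b‖ / N)) := by ring
      rw [hsplit]
      refine (abs_add_le _ _).trans ?_
      rw [abs_mul, abs_mul, abs_of_nonneg (cut_nonneg _)]
      have h1 : cut (‖b‖ / N) * |inner ℝ a e * kt n t a - inner ℝ b e * kt n t b|
          ≤ 1 * ((n + 2) * ‖e‖ * ‖a - b‖ * (kt n t a + kt n t b)) := by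
        gcongr
        exact cut_le_one _
      have h2 : |inner ℝ a e * kt n t a| * |cut (‖a‖ / N) - cut (‖b‖ / N)|
          ≤ 2 * ‖e‖ * ‖a - b‖ * kt n t a := by
        refine le_trans ?_ (hN2 a ha)
        gcongr
      have h3 : 0 ≤ 2 * ‖e‖ * ‖a - b‖ * kt n t b := by positivity
      nlinarith
    · rw [cut_of_two_le (by rw [le_div_iff₀ hN]; linarith),
        cut_of_two_le (by rw [le_div_iff₀ hN]; linarith)]
      simp only [zero_mul, mul_zero, sub_zero, abs_zero]
      positivity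

/-- Comparison of the singular and the regularised kernel, near part. -/
theorem sq_mul_abs_inv_sub_kt_le_near {n : ℕ} (hn : 1 ≤ n) {t : ℝ} (ht : 0 < t) (z : E) :
    ‖z‖ ^ 2 * |(‖z‖ ^ (n + 1))⁻¹ - kt n t z| ≤ (‖z‖ ^ (n - 1))⁻¹ := by
  rcases eq_or_ne z 0 with rfl | hz
  · simp
  have hz0 : 0 < ‖z‖ := norm_pos_iff.2 hz
  have h1 := kt_le_norm n (t := t) hz
  have h2 := kt_nonneg n t z
  rw [abs_of_nonneg (by linarith)]
  calc ‖z‖ ^ 2 * ((‖z‖ ^ (n + 1))⁻¹ - kt n t z) ≤ ‖z‖ ^ 2 * (‖z‖ ^ (n + 1))⁻¹ := by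
        gcongr; linarith
    _ = (‖z‖ ^ (n - 1))⁻¹ := by
        have : ‖z‖ ^ (n + 1) = ‖z‖ ^ 2 * ‖z‖ ^ (n - 1) := by
          rw [← pow_add]; congr 1; omega
        rw [this]; field_simp

/-- Comparison of the singular and the regularised kernel, far part. -/
theorem sq_mul_abs_inv_sub_kt_le_far {n : ℕ} {t : ℝ} (ht : 0 < t) {z : E} (hz : z ≠ 0) :
    ‖z‖ ^ 2 * |(‖z‖ ^ (n + 1))⁻¹ - kt n t z| ≤ (n + 1) * t ^ 2 * (‖z‖ ^ (n + 1))⁻¹ := by
  have hz0 : 0 < ‖z‖ := norm_pos_iff.2 hz
  have hr := rt_pos ht z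
  set α := (‖z‖)⁻¹ with hα
  set β := (rt t z)⁻¹ with hβ
  have hα0 : 0 < α := inv_pos.2 hz0
  have hβ0 : 0 < β := inv_pos.2 hr
  have hβα : β ≤ α := inv_anti₀ hz0 (norm_le_rt t z)
  have hk : kt n t z = β ^ (n + 1) := by rw [kt, hβ, inv_pow]
  have hk2 : (‖z‖ ^ (n + 1))⁻¹ = α ^ (n + 1) := by rw [hα, inv_pow]
  rw [hk, hk2]
  have h1 := abs_pow_succ_sub_le n hα0.le hβ0.le le_rfl hβα
  have h2 : |α - β| ≤ t ^ 2 * α ^ 3 := by
    rw [abs_of_nonneg (by linarith)]
    have e1 : α - β = (rt t z - ‖z‖) * (α * β) := by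
      rw [hα, hβ]; field_simp
    have e2 : (rt t z - ‖z‖) * (rt t z + ‖z‖) = t ^ 2 := by
      have := rt_sq t z
      nlinarith
    have e3 : rt t z - ‖z‖ = t ^ 2 * (rt t z + ‖z‖)⁻¹ := by
      rw [← e2]; field_simp
    have e4 : (rt t z + ‖z‖)⁻¹ ≤ α := inv_anti₀ hz0 (by linarith)
    calc α - β = t ^ 2 * (rt t z + ‖z‖)⁻¹ * (α * β) := by rw [e1, e3]
      _ ≤ t ^ 2 * α * (α * α) := by gcongr
      _ = t ^ 2 * α ^ 3 := by ring
  have h3 : ‖z‖ * α = 1 := by rw [hα]; field_simp
  calc ‖z‖ ^ 2 * |α ^ (n + 1) - β ^ (n + 1)| ≤ ‖z‖ ^ 2 * ((n + 1) * |α - β| * α ^ n) := by gcongr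
    _ ≤ ‖z‖ ^ 2 * ((n + 1) * (t ^ 2 * α ^ 3) * α ^ n) := by gcongr
    _ = (n + 1) * t ^ 2 * ((‖z‖ * α) ^ 2 * α ^ (n + 1)) := by ring
    _ = (n + 1) * t ^ 2 * α ^ (n + 1) := by rw [h3]; ring

theorem continuous_rt (t : ℝ) : Continuous (rt t : E → ℝ) := by
  unfold rt; fun_prop

theorem continuous_kt (n : ℕ) {t : ℝ} (ht : 0 < t) : Continuous (kt n t : E → ℝ) := by
  unfold kt
  refine Continuous.inv₀ ((continuous_rt t).pow _) fun z => ?_
  have := rt_pos ht z
  positivity

end Alg

end Crest.Agent.R085.Flat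
end
end

-- ▼ part R085/FlatInt
section

/-!
R085, module M7: integral estimates for the regularised kernel and the comparison
of the truncated Riesz form with the regularised Riesz potential.
-/

set_option autoImplicit false
set_option linter.unusedSectionVars false
set_option linter.unusedVariables false

noncomputable section

namespace Crest.Agent.R085.Flat

open MeasureTheory Metric Set Filter
open scoped ENNReal NNReal Topology

variable {n : ℕ} {C : ℝ} {ν : Measure (V n)}

theorem isLocallyFinite_of_upper (hν : UpperReg n C ν) : IsLocallyFiniteMeasure ν :=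
  ⟨fun x => ⟨ball x 1, ball_mem_nhds x one_pos,
    lt_of_le_of_lt (hν x 1 one_pos) ENNReal.ofReal_lt_top⟩⟩

theorem measurable_kt (n : ℕ) {t : ℝ} (ht : 0 < t) (x : V n) :
    Measurable fun y : V n => kt n t (x - y) :=
  ((continuous_kt n ht).comp (continuous_const.sub continuous_id)).measurable

/-- `∫ kt(x - y) dν(y) ≤ C 2^(n+2) / t`. -/
theorem lintegral_kt_le (hν : UpperReg n C ν) (hC : 0 ≤ C) {t : ℝ} (ht : 0 < t) (x : V n) :
    ∫⁻ y, ENNReal.ofReal (kt n t (x - y)) ∂ν ≤ ENNReal.ofReal (C * 2 ^ (n + 2) / t) := by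
  have hcov : (univ : Set (V n)) ⊆ closedBall x t ∪ {y | t ≤ dist x y} := by
    intro y _
    rcases le_total (dist x y) t with h | h
    · left; rw [mem_closedBall, dist_comm]; exact h
    · right; exact h
  have h1 : ∫⁻ y in closedBall x t, ENNReal.ofReal (kt n t (x - y)) ∂ν
      ≤ ENNReal.ofReal (C * 2 ^ n / t) := by
    calc ∫⁻ y in closedBall x t, ENNReal.ofReal (kt n t (x - y)) ∂ν
        ≤ ∫⁻ y in closedBall x t, ENNReal.ofReal ((t ^ (n + 1))⁻¹) ∂ν := by
          apply setLIntegral_mono' isClosed_closedBall.measurableSet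
          intro y _
          exact ENNReal.ofReal_le_ofReal (kt_le_t n ht _)
      _ = ENNReal.ofReal ((t ^ (n + 1))⁻¹) * ν (closedBall x t) := by rw [setLIntegral_const]
      _ ≤ ENNReal.ofReal ((t ^ (n + 1))⁻¹) * ENNReal.ofReal (C * 2 ^ n * t ^ n) := by
          gcongr
          exact hν.closedBall_le x ht
      _ = ENNReal.ofReal (C * 2 ^ n / t) := by
          rw [← ENNReal.ofReal_mul (by positivity)]
          congr 1
          rw [pow_succ]; field_simp
  have h2 : ∫⁻ y in {y | t ≤ dist x y}, ENNReal.ofReal (kt n t (x - y)) ∂ν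
      ≤ ENNReal.ofReal (C * 2 ^ (n + 1) / t) := by
    have hmeas : MeasurableSet {y : V n | t ≤ dist x y} :=
      (isClosed_le continuous_const (continuous_const.dist continuous_id)).measurableSet
    calc ∫⁻ y in {y | t ≤ dist x y}, ENNReal.ofReal (kt n t (x - y)) ∂ν
        ≤ ∫⁻ y in {y | t ≤ dist x y}, ENNReal.ofReal (((dist x y) ^ (n + 1))⁻¹) ∂ν := by
          apply setLIntegral_mono' hmeas
          intro y hy
          apply ENNReal.ofReal_le_ofReal
          rw [dist_eq_norm]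
          apply kt_le_norm
          intro h0
          have hy' : t ≤ dist x y := hy
          rw [dist_eq_norm, h0, norm_zero] at hy'
          linarith
      _ ≤ ENNReal.ofReal (C * 2 ^ (n + 1) / t ^ 1) := lintegral_tail hν hC le_rfl x ht
      _ = _ := by rw [pow_one]
  calc ∫⁻ y, ENNReal.ofReal (kt n t (x - y)) ∂ν
      = ∫⁻ y in univ, ENNReal.ofReal (kt n t (x - y)) ∂ν := by rw [setLIntegral_univ]
    _ ≤ ∫⁻ y in closedBall x t ∪ {y | t ≤ dist x y}, ENNReal.ofReal (kt n t (x - y)) ∂ν :=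
        lintegral_mono_set hcov
    _ ≤ _ := lintegral_union_le _ _ _
    _ ≤ ENNReal.ofReal (C * 2 ^ n / t) + ENNReal.ofReal (C * 2 ^ (n + 1) / t) := add_le_add h1 h2
    _ = ENNReal.ofReal (C * 2 ^ n / t + C * 2 ^ (n + 1) / t) := by
        rw [ENNReal.ofReal_add (by positivity) (by positivity)]
    _ ≤ ENNReal.ofReal (C * 2 ^ (n + 2) / t) := by
        apply ENNReal.ofReal_le_ofReal
        rw [← add_div]
        gcongr
        have : (0:ℝ) ≤ C * 2 ^ n := by positivity
        rw [pow_succ, pow_succ (2:ℝ) (n + 1), pow_succ]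
        nlinarith

theorem integrable_kt (hν : UpperReg n C ν) (hC : 0 ≤ C) {t : ℝ} (ht : 0 < t) (x : V n) :
    Integrable (fun y => kt n t (x - y)) ν ∧ ∫ y, kt n t (x - y) ∂ν ≤ C * 2 ^ (n + 2) / t :=
  integrable_and_integral_le_of_lintegral (measurable_kt n ht x).aestronglyMeasurable
    (fun y => kt_nonneg n t _) (by positivity) (lintegral_kt_le hν hC ht x)

/-- difference of the singular and regularised kernels, weighted with `‖z‖²`. -/
def wt (n : ℕ) (t : ℝ) (z : V n) : ℝ := ‖z‖ ^ 2 * |(‖z‖ ^ (n + 1))⁻¹ - kt n t z|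

theorem wt_nonneg (n : ℕ) (t : ℝ) (z : V n) : 0 ≤ wt n t z := by unfold wt; positivity

theorem wt_neg (n : ℕ) (t : ℝ) (z : V n) : wt n t (-z) = wt n t z := by
  unfold wt; rw [norm_neg, kt_neg]

theorem measurable_wt {n : ℕ} {t : ℝ} (ht : 0 < t) : Measurable (wt n t : V n → ℝ) := by
  have := (continuous_kt (E := V n) n ht).measurable
  unfold wt
  fun_prop

/-- constant in the comparison. -/
def C2 (n : ℕ) (C : ℝ) : ℝ := C * 4 ^ n + (n + 1) * (C * 2 ^ (n + 1))

theorem C2_nonneg (hC : 0 ≤ C) : 0 ≤ C2 n C := by unfold C2; positivity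

theorem lintegral_wt_le (hn : 1 ≤ n) (hν : UpperReg n C ν) (hC : 0 ≤ C) {t : ℝ} (ht : 0 < t)
    (x : V n) :
    ∫⁻ y, ENNReal.ofReal (wt n t (x - y)) ∂ν ≤ ENNReal.ofReal (C2 n C * t) := by
  have hcov : (univ : Set (V n)) ⊆ closedBall x t ∪ {y | t ≤ dist x y} := by
    intro y _
    rcases le_total (dist x y) t with h | h
    · left; rw [mem_closedBall, dist_comm]; exact h
    · right; exact h
  have h1 : ∫⁻ y in closedBall x t, ENNReal.ofReal (wt n t (x - y)) ∂ν
      ≤ ENNReal.ofReal (C * 4 ^ n * t) := by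
    calc ∫⁻ y in closedBall x t, ENNReal.ofReal (wt n t (x - y)) ∂ν
        ≤ ∫⁻ y in closedBall x t, ENNReal.ofReal (((dist x y) ^ (n - 1))⁻¹) ∂ν := by
          apply setLIntegral_mono' isClosed_closedBall.measurableSet
          intro y _
          rw [dist_eq_norm]
          exact ENNReal.ofReal_le_ofReal (sq_mul_abs_inv_sub_kt_le_near hn ht _)
      _ ≤ ENNReal.ofReal (C * 4 ^ n * t ^ (n - (n - 1))) :=
          lintegral_near hν hC (by omega) x ht
      _ = _ := by
          congr 2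
          rw [show n - (n - 1) = 1 by omega, pow_one]
  have h2 : ∫⁻ y in {y | t ≤ dist x y}, ENNReal.ofReal (wt n t (x - y)) ∂ν
      ≤ ENNReal.ofReal ((n + 1) * (C * 2 ^ (n + 1)) * t) := by
    have hmeas : MeasurableSet {y : V n | t ≤ dist x y} :=
      (isClosed_le continuous_const (continuous_const.dist continuous_id)).measurableSet
    calc ∫⁻ y in {y | t ≤ dist x y}, ENNReal.ofReal (wt n t (x - y)) ∂ν
        ≤ ∫⁻ y in {y | t ≤ dist x y},
            ENNReal.ofReal ((n + 1) * t ^ 2) * ENNReal.ofReal (((dist x y) ^ (n + 1))⁻¹) ∂ν := by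
          apply setLIntegral_mono' hmeas
          intro y hy
          rw [← ENNReal.ofReal_mul (by positivity)]
          apply ENNReal.ofReal_le_ofReal
          rw [dist_eq_norm]
          apply sq_mul_abs_inv_sub_kt_le_far ht
          intro h0
          have hy' : t ≤ dist x y := hy
          rw [dist_eq_norm, h0, norm_zero] at hy'
          linarith
      _ = ENNReal.ofReal ((n + 1) * t ^ 2) *
            ∫⁻ y in {y | t ≤ dist x y}, ENNReal.ofReal (((dist x y) ^ (n + 1))⁻¹) ∂ν := by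
          rw [lintegral_const_mul' _ _ ENNReal.ofReal_ne_top]
      _ ≤ ENNReal.ofReal ((n + 1) * t ^ 2) * ENNReal.ofReal (C * 2 ^ (n + 1) / t ^ 1) := by
          gcongr
          exact lintegral_tail hν hC le_rfl x ht
      _ = _ := by
          rw [← ENNReal.ofReal_mul (by positivity)]
          congr 1
          field_simp
  calc ∫⁻ y, ENNReal.ofReal (wt n t (x - y)) ∂ν
      = ∫⁻ y in univ, ENNReal.ofReal (wt n t (x - y)) ∂ν := by rw [setLIntegral_univ]
    _ ≤ ∫⁻ y in closedBall x t ∪ {y | t ≤ dist x y}, ENNReal.ofReal (wt n t (x - y)) ∂ν :=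
        lintegral_mono_set hcov
    _ ≤ _ := lintegral_union_le _ _ _
    _ ≤ ENNReal.ofReal (C * 4 ^ n * t) + ENNReal.ofReal ((n + 1) * (C * 2 ^ (n + 1)) * t) :=
        add_le_add h1 h2
    _ = ENNReal.ofReal (C2 n C * t) := by
        rw [← ENNReal.ofReal_add (by positivity) (by positivity)]
        congr 1
        unfold C2; ring

/-- Regularised and truncated Riesz potential in direction `e`. -/
def FtN (n : ℕ) (ν : Measure (V n)) (t N : ℝ) (e x : V n) : ℝ :=
  ∫ y, inner ℝ (x - y) e * (cut (‖x - y‖ / N) * kt n t (x - y)) ∂ν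

/-- the regularised truncated kernel. -/
def KtN (n : ℕ) (t N : ℝ) (e z : V n) : ℝ := inner ℝ z e * (cut (‖z‖ / N) * kt n t z)

theorem KtN_neg (n : ℕ) (t N : ℝ) (e z : V n) : KtN n t N e (-z) = -KtN n t N e z := by
  unfold KtN; rw [norm_neg, kt_neg, inner_neg_left]; ring

theorem continuous_KtN (n : ℕ) {t : ℝ} (ht : 0 < t) (N : ℝ) (e : V n) :
    Continuous (KtN n t N e) := by
  unfold KtN
  have h1 := continuous_kt (E := V n) n ht
  have h2 := continuous_cut
  fun_prop

theorem KtN_eq_zero (n : ℕ) (t : ℝ) {N : ℝ} (hN : 0 < N) (e : V n) {z : V n} (hz : 2 * N ≤ ‖z‖) :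
    KtN n t N e z = 0 := by
  unfold KtN
  rw [cut_of_two_le (by rw [le_div_iff₀ hN]; exact hz)]
  ring

/-- Comparison of the truncated Riesz form with the regularised potential. -/
theorem abs_Bf_sub_le (hn : 1 ≤ n) (hν : UpperReg n C ν) (hC : 0 ≤ C) {t N : ℝ} (ht : 0 < t)
    (hN : 0 < N) (e : V n) {ψ G : V n → ℝ} (hψ : Continuous ψ) (hψc : HasCompactSupport ψ)
    (hG0 : ∀ x, 0 ≤ G x) (hGm : Measurable G) (hGi : Integrable G ν)
    (hGψ : ∀ x y, |ψ x - ψ y| ≤ ‖x - y‖ * (G x + G y)) :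
    |Bf n ν N (lin e) ψ - ∫ x, ψ x * FtN n ν t N e x ∂ν| ≤ C2 n C * ‖e‖ * t * ∫ x, G x ∂ν := by
  have hlf := isLocallyFinite_of_upper hν
  set A : V n × V n → ℝ := fun p =>
    (lin e p.1 - lin e p.2) * (ψ p.1 - ψ p.2) * kN n N (p.1 - p.2) with hA
  set B1 : V n × V n → ℝ := fun p => ψ p.1 * KtN n t N e (p.1 - p.2) with hB1
  -- `B1` is integrable
  obtain ⟨R, hR⟩ := hψc.isCompact.isBounded.subset_closedBall (0 : V n)
  have hψ0 : ∀ x, x ∉ closedBall (0 : V n) R → ψ x = 0 := fun x hx =>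
    image_eq_zero_of_notMem_tsupport fun h => hx (hR h)
  have hKc := continuous_KtN n ht N e
  have hB1c : Continuous B1 := by
    rw [hB1]; fun_prop
  have hB1s : HasCompactSupport B1 := by
    apply HasCompactSupport.intro'
      (K := closedBall (0 : V n) R ×ˢ closedBall (0 : V n) (R + 2 * N))
    · exact (isCompact_closedBall _ _).prod (isCompact_closedBall _ _)
    · exact isClosed_closedBall.prod isClosed_closedBall
    · rintro ⟨x, y⟩ hxy
      simp only [hB1]
      by_cases hx : x ∈ closedBall (0 : V n) R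
      · have hy : y ∉ closedBall (0 : V n) (R + 2 * N) := fun hy => hxy ⟨hx, hy⟩
        rw [mem_closedBall, dist_zero_right] at hx hy
        push Not at hy
        rw [KtN_eq_zero n t hN e, mul_zero]
        have := norm_sub_norm_le y x
        rw [norm_sub_rev] at this
        linarith
      · rw [hψ0 x hx, zero_mul]
  have hB1i : Integrable B1 (ν.prod ν) := hB1c.integrable_of_hasCompactSupport hB1s
  have hB1int : ∫ p, B1 p ∂(ν.prod ν) = ∫ x, ψ x * FtN n ν t N e x ∂ν := by
    rw [integral_prod _ hB1i]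
    congr 1
    ext x
    simp only [hB1]
    rw [integral_const_mul]
    rfl
  have hB2i : Integrable (fun p : V n × V n => B1 p.swap) (ν.prod ν) := hB1i.swap
  have hB2int : ∫ p, B1 p.swap ∂(ν.prod ν) = ∫ p, B1 p ∂(ν.prod ν) :=
    integral_prod_swap (μ := ν) (ν := ν) B1
  -- the difference
  set D : V n × V n → ℝ := fun p => A p - (B1 p + B1 p.swap) with hD
  have hDeq : ∀ p : V n × V n, D p = inner ℝ (p.1 - p.2) e * (ψ p.1 - ψ p.2) *
      (cut (‖p.1 - p.2‖ / N) * ((‖p.1 - p.2‖ ^ (n + 1))⁻¹ - kt n t (p.1 - p.2))) := by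
    rintro ⟨x, y⟩
    simp only [hD, hA, hB1, lin, kN, Prod.swap]
    have h1 : KtN n t N e (y - x) = - KtN n t N e (x - y) := by
      rw [← neg_sub, KtN_neg]
    rw [h1]
    unfold KtN
    rw [inner_sub_left]
    ring
  have hDle : ∀ p : V n × V n, ‖D p‖ ≤ ‖e‖ * (G p.1 * wt n t (p.1 - p.2))
      + ‖e‖ * (G p.2 * wt n t (p.1 - p.2)) := by
    rintro ⟨x, y⟩
    rw [hDeq, Real.norm_eq_abs, abs_mul, abs_mul, abs_mul, abs_of_nonneg (cut_nonneg _)]
    have h1 := abs_real_inner_le_norm (x - y) e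
    have h2 := hGψ x y
    have h3 := cut_le_one (‖x - y‖ / N)
    have h4 := cut_nonneg (‖x - y‖ / N)
    have hGx := hG0 x
    have hGy := hG0 y
    simp only
    calc |inner ℝ (x - y) e| * |ψ x - ψ y| * (cut (‖x - y‖ / N) *
          |(‖x - y‖ ^ (n + 1))⁻¹ - kt n t (x - y)|)
        ≤ (‖x - y‖ * ‖e‖) * (‖x - y‖ * (G x + G y)) * (1 *
          |(‖x - y‖ ^ (n + 1))⁻¹ - kt n t (x - y)|) := by gcongr
      _ = _ := by unfold wt; ring
  have hDm : Measurable D := by
    have h1 := (continuous_kt (E := V n) n ht).measurable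
    have h2 := continuous_cut.measurable
    have h3 := hψ.measurable
    have : D = fun p : V n × V n => inner ℝ (p.1 - p.2) e * (ψ p.1 - ψ p.2) *
      (cut (‖p.1 - p.2‖ / N) * ((‖p.1 - p.2‖ ^ (n + 1))⁻¹ - kt n t (p.1 - p.2))) := funext hDeq
    rw [this]
    have h4 : Measurable fun p : V n × V n => inner ℝ (p.1 - p.2) e :=
      (by fun_prop : Continuous fun p : V n × V n => inner ℝ (p.1 - p.2) e).measurable
    fun_prop
  have hwm := measurable_wt (n := n) ht
  have key : ∫⁻ p, ENNReal.ofReal (G p.1 * wt n t (p.1 - p.2)) ∂(ν.prod ν)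
      ≤ ENNReal.ofReal (C2 n C * t * ∫ x, G x ∂ν) := by
    have hm : Measurable fun p : V n × V n => ENNReal.ofReal (G p.1 * wt n t (p.1 - p.2)) := by
      fun_prop
    rw [lintegral_prod _ hm.aemeasurable]
    calc ∫⁻ x, ∫⁻ y, ENNReal.ofReal (G x * wt n t (x - y)) ∂ν ∂ν
        = ∫⁻ x, ENNReal.ofReal (G x) * ∫⁻ y, ENNReal.ofReal (wt n t (x - y)) ∂ν ∂ν := by
          congr 1; ext x
          rw [← lintegral_const_mul' _ _ ENNReal.ofReal_ne_top]
          congr 1; ext y
          rw [ENNReal.ofReal_mul (hG0 x)]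
      _ ≤ ∫⁻ x, ENNReal.ofReal (G x) * ENNReal.ofReal (C2 n C * t) ∂ν := by
          gcongr with x
          exact lintegral_wt_le hn hν hC ht x
      _ = ENNReal.ofReal (∫ x, G x ∂ν) * ENNReal.ofReal (C2 n C * t) := by
          rw [lintegral_mul_const' _ _ ENNReal.ofReal_ne_top,
            ofReal_integral_eq_lintegral_ofReal hGi (Eventually.of_forall hG0)]
      _ = _ := by
          rw [← ENNReal.ofReal_mul (integral_nonneg hG0)]
          congr 1; ring
  have key2 : ∫⁻ p, ENNReal.ofReal (G p.2 * wt n t (p.1 - p.2)) ∂(ν.prod ν)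
      ≤ ENNReal.ofReal (C2 n C * t * ∫ x, G x ∂ν) := by
    refine le_trans (le_of_eq ?_) key
    rw [← lintegral_prod_swap]
    congr 1; ext p
    simp only [Prod.swap]
    rw [← neg_sub, wt_neg]
  have hGint0 : 0 ≤ ∫ x, G x ∂ν := integral_nonneg hG0
  have hC20 : 0 ≤ C2 n C := C2_nonneg hC
  have hDlint : ∫⁻ p, ‖D p‖ₑ ∂(ν.prod ν)
      ≤ ENNReal.ofReal (2 * (C2 n C * ‖e‖ * t * ∫ x, G x ∂ν)) := by
    calc ∫⁻ p, ‖D p‖ₑ ∂(ν.prod ν)
        ≤ ∫⁻ p, (ENNReal.ofReal ‖e‖ * ENNReal.ofReal (G p.1 * wt n t (p.1 - p.2)) +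
            ENNReal.ofReal ‖e‖ * ENNReal.ofReal (G p.2 * wt n t (p.1 - p.2))) ∂(ν.prod ν) := by
          gcongr with p
          rw [← ENNReal.ofReal_mul (norm_nonneg _), ← ENNReal.ofReal_mul (norm_nonneg _),
            ← ENNReal.ofReal_add, ← ofReal_norm]
          · exact ENNReal.ofReal_le_ofReal (hDle p)
          · have := hG0 p.1; have := wt_nonneg n t (p.1 - p.2); positivity
          · have := hG0 p.2; have := wt_nonneg n t (p.1 - p.2); positivity
      _ = ENNReal.ofReal ‖e‖ * ∫⁻ p, ENNReal.ofReal (G p.1 * wt n t (p.1 - p.2)) ∂(ν.prod ν) +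
            ENNReal.ofReal ‖e‖ *
              ∫⁻ p, ENNReal.ofReal (G p.2 * wt n t (p.1 - p.2)) ∂(ν.prod ν) := by
          rw [lintegral_add_left, lintegral_const_mul' _ _ ENNReal.ofReal_ne_top,
            lintegral_const_mul' _ _ ENNReal.ofReal_ne_top]
          fun_prop
      _ ≤ ENNReal.ofReal ‖e‖ * ENNReal.ofReal (C2 n C * t * ∫ x, G x ∂ν) +
            ENNReal.ofReal ‖e‖ * ENNReal.ofReal (C2 n C * t * ∫ x, G x ∂ν) := by
          gcongr
      _ = _ := by
          rw [← ENNReal.ofReal_mul (norm_nonneg _), ← ENNReal.ofReal_add (by positivity)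
            (by positivity)]
          congr 1; ring
  have hDi : Integrable D (ν.prod ν) := by
    refine ⟨hDm.aestronglyMeasurable, ?_⟩
    rw [hasFiniteIntegral_iff_enorm]
    exact lt_of_le_of_lt hDlint ENNReal.ofReal_lt_top
  have hDint : |∫ p, D p ∂(ν.prod ν)| ≤ 2 * (C2 n C * ‖e‖ * t * ∫ x, G x ∂ν) := by
    have h1 := enorm_integral_le_lintegral_enorm (μ := ν.prod ν) D
    have h2 := h1.trans hDlint
    rw [← ofReal_norm, Real.norm_eq_abs] at h2
    exact (ENNReal.ofReal_le_ofReal_iff (by positivity)).1 h2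
  have hAeq : ∫ p, A p ∂(ν.prod ν) = ∫ p, D p ∂(ν.prod ν)
      + 2 * ∫ x, ψ x * FtN n ν t N e x ∂ν := by
    have h1 : ∀ p, A p = D p + (B1 p + B1 p.swap) := fun p => by simp only [hD]; ring
    calc ∫ p, A p ∂(ν.prod ν) = ∫ p, (D p + (B1 p + B1 p.swap)) ∂(ν.prod ν) := by
          congr 1; ext p; exact h1 p
      _ = ∫ p, D p ∂(ν.prod ν) + ∫ p, (B1 p + B1 p.swap) ∂(ν.prod ν) :=
          integral_add hDi (hB1i.add hB2i)
      _ = _ := by
          rw [integral_add hB1i hB2i, hB2int, hB1int]; ring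
  have hBf : Bf n ν N (lin e) ψ = 1 / 2 * ∫ p, A p ∂(ν.prod ν) := rfl
  rw [hBf, hAeq]
  have : 1 / 2 * (∫ p, D p ∂(ν.prod ν) + 2 * ∫ x, ψ x * FtN n ν t N e x ∂ν)
      - ∫ x, ψ x * FtN n ν t N e x ∂ν = 1 / 2 * ∫ p, D p ∂(ν.prod ν) := by ring
  rw [this, abs_mul, abs_of_pos (by norm_num : (0:ℝ) < 1 / 2)]
  linarith

end Crest.Agent.R085.Flat
end
end

-- ▼ part R085/FlatPot
section

/-!
R085, module M7: the regularised Riesz potential `Ft` of a reflectionless measure on `V n` is
bounded uniformly in `t` (`Ft_bounded`) and is asymptotically orthogonal to mean-zero test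
functions (`integral_mul_Ft_le`).
-/

set_option autoImplicit false
set_option linter.unusedSectionVars false
set_option linter.unusedVariables false

noncomputable section

namespace Crest.Agent.R085.Flat

open MeasureTheory Metric Set Filter
open scoped ENNReal NNReal Topology

variable {n : ℕ} {C : ℝ} {ν : Measure (V n)}

/-- regularised kernel in direction `e`. -/
def Kt (n : ℕ) (t : ℝ) (e z : V n) : ℝ := inner ℝ z e * kt n t z

/-- Regularised Riesz potential in direction `e`, normalised to vanish at `0`. -/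
def Ft (n : ℕ) (ν : Measure (V n)) (t : ℝ) (e x : V n) : ℝ :=
  ∫ y, (Kt n t e (x - y) - Kt n t e (0 - y)) ∂ν

theorem continuous_Kt (n : ℕ) {t : ℝ} (ht : 0 < t) (e : V n) : Continuous (Kt n t e) := by
  unfold Kt
  have h1 := continuous_kt (E := V n) n ht
  fun_prop

theorem abs_Kt_sub_le (n : ℕ) {t : ℝ} (ht : 0 < t) (e a b : V n) :
    |Kt n t e a - Kt n t e b| ≤ (n + 2) * ‖e‖ * ‖a - b‖ * (kt n t a + kt n t b) :=
  abs_inner_kt_sub_le n ht e a b

theorem abs_KtN_sub_le (n : ℕ) {t N : ℝ} (ht : 0 < t) (hN : 0 < N) (e a b : V n) :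
    |KtN n t N e a - KtN n t N e b| ≤ (n + 4) * ‖e‖ * ‖a - b‖ * (kt n t a + kt n t b) :=
  abs_cut_inner_kt_sub_le n ht hN e a b

theorem integrable_KtN (hν : UpperReg n C ν) {t N : ℝ} (ht : 0 < t) (hN : 0 < N) (e x : V n) :
    Integrable (fun y => KtN n t N e (x - y)) ν := by
  have hlf := isLocallyFinite_of_upper hν
  apply Continuous.integrable_of_hasCompactSupport
  · exact (continuous_KtN n ht N e).comp (continuous_const.sub continuous_id)
  · apply HasCompactSupport.intro (K := closedBall x (2 * N)) (isCompact_closedBall _ _)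
    intro y hy
    rw [mem_closedBall, dist_comm, dist_eq_norm] at hy
    push Not at hy
    exact KtN_eq_zero n t hN e hy.le

theorem integrable_sub_Kt (hν : UpperReg n C ν) (hC : 0 ≤ C) {t : ℝ} (ht : 0 < t)
    (e x x' : V n) :
    Integrable (fun y => Kt n t e (x - y) - Kt n t e (x' - y)) ν := by
  have h1 := (integrable_kt hν hC ht x).1
  have h2 := (integrable_kt hν hC ht x').1
  refine Integrable.mono' ((h1.add h2).const_mul ((n + 2) * ‖e‖ * ‖x - x'‖)) ?_ ?_
  · have := continuous_Kt n ht e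
    exact (by fun_prop : Continuous fun y =>
      Kt n t e (x - y) - Kt n t e (x' - y)).aestronglyMeasurable
  · refine Eventually.of_forall fun y => ?_
    have := abs_Kt_sub_le n ht e (x - y) (x' - y)
    rw [sub_sub_sub_cancel_right] at this
    rw [Real.norm_eq_abs]
    exact this

theorem abs_FtN_sub_le (hν : UpperReg n C ν) (hC : 0 ≤ C) {t N : ℝ} (ht : 0 < t) (hN : 0 < N)
    (e x x' : V n) :
    |FtN n ν t N e x - FtN n ν t N e x'| ≤
      (n + 4) * ‖e‖ * ‖x - x'‖ * (2 * (C * 2 ^ (n + 2) / t)) := by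
  have h1 := integrable_kt hν hC ht x
  have h2 := integrable_kt hν hC ht x'
  have e1 : FtN n ν t N e x - FtN n ν t N e x'
      = ∫ y, (KtN n t N e (x - y) - KtN n t N e (x' - y)) ∂ν := by
    rw [integral_sub (integrable_KtN hν ht hN e x) (integrable_KtN hν ht hN e x')]
    rfl
  rw [e1]
  calc |∫ y, (KtN n t N e (x - y) - KtN n t N e (x' - y)) ∂ν|
      ≤ ∫ y, (n + 4) * ‖e‖ * ‖x - x'‖ * (kt n t (x - y) + kt n t (x' - y)) ∂ν := by
        rw [← Real.norm_eq_abs]
        apply norm_integral_le_of_norm_le ((h1.1.add h2.1).const_mul _)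
        refine Eventually.of_forall fun y => ?_
        have := abs_KtN_sub_le n ht hN e (x - y) (x' - y)
        rw [sub_sub_sub_cancel_right] at this
        exact this
    _ = (n + 4) * ‖e‖ * ‖x - x'‖ * (∫ y, kt n t (x - y) ∂ν + ∫ y, kt n t (x' - y) ∂ν) := by
        rw [integral_const_mul, integral_add h1.1 h2.1]
    _ ≤ _ := by
        have := h1.2
        have := h2.2
        gcongr
        linarith

theorem abs_Ft_sub_le (hν : UpperReg n C ν) (hC : 0 ≤ C) {t : ℝ} (ht : 0 < t)
    (e x x' : V n) :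
    |Ft n ν t e x - Ft n ν t e x'| ≤
      (n + 2) * ‖e‖ * ‖x - x'‖ * (2 * (C * 2 ^ (n + 2) / t)) := by
  have h1 := integrable_kt hν hC ht x
  have h2 := integrable_kt hν hC ht x'
  have e1 : Ft n ν t e x - Ft n ν t e x'
      = ∫ y, (Kt n t e (x - y) - Kt n t e (x' - y)) ∂ν := by
    unfold Ft
    rw [← integral_sub (integrable_sub_Kt hν hC ht e x 0) (integrable_sub_Kt hν hC ht e x' 0)]
    congr 1; ext y; ring
  rw [e1]
  calc |∫ y, (Kt n t e (x - y) - Kt n t e (x' - y)) ∂ν|
      ≤ ∫ y, (n + 2) * ‖e‖ * ‖x - x'‖ * (kt n t (x - y) + kt n t (x' - y)) ∂ν := by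
        rw [← Real.norm_eq_abs]
        apply norm_integral_le_of_norm_le ((h1.1.add h2.1).const_mul _)
        refine Eventually.of_forall fun y => ?_
        have := abs_Kt_sub_le n ht e (x - y) (x' - y)
        rw [sub_sub_sub_cancel_right] at this
        exact this
    _ = (n + 2) * ‖e‖ * ‖x - x'‖ * (∫ y, kt n t (x - y) ∂ν + ∫ y, kt n t (x' - y) ∂ν) := by
        rw [integral_const_mul, integral_add h1.1 h2.1]
    _ ≤ _ := by
        have := h1.2
        have := h2.2
        gcongr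
        linarith

theorem continuous_Ft (hν : UpperReg n C ν) (hC : 0 ≤ C) {t : ℝ} (ht : 0 < t) (e : V n) :
    Continuous (Ft n ν t e) := by
  set K : ℝ := (n + 2) * ‖e‖ * (2 * (C * 2 ^ (n + 2) / t)) with hK
  have hK0 : 0 ≤ K := by positivity
  have : LipschitzWith (Real.toNNReal K) (Ft n ν t e) := by
    apply LipschitzWith.of_dist_le_mul
    intro x y
    rw [Real.dist_eq, dist_eq_norm, Real.coe_toNNReal _ hK0]
    refine (abs_Ft_sub_le hν hC ht e x y).trans (le_of_eq ?_)
    rw [hK]; ring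
  exact this.continuous

theorem continuous_FtN (hν : UpperReg n C ν) (hC : 0 ≤ C) {t N : ℝ} (ht : 0 < t) (hN : 0 < N)
    (e : V n) : Continuous (FtN n ν t N e) := by
  set K : ℝ := (n + 4) * ‖e‖ * (2 * (C * 2 ^ (n + 2) / t)) with hK
  have hK0 : 0 ≤ K := by positivity
  have : LipschitzWith (Real.toNNReal K) (FtN n ν t N e) := by
    apply LipschitzWith.of_dist_le_mul
    intro x y
    rw [Real.dist_eq, dist_eq_norm, Real.coe_toNNReal _ hK0]
    refine (abs_FtN_sub_le hν hC ht hN e x y).trans (le_of_eq ?_)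
    rw [hK]; ring
  exact this.continuous

theorem tendsto_KtN (n : ℕ) (t : ℝ) (e z : V n) :
    Tendsto (fun N : ℝ => KtN n t N e z) atTop (𝓝 (Kt n t e z)) := by
  apply tendsto_const_nhds.congr'
  filter_upwards [eventually_ge_atTop (max ‖z‖ 1)] with N hN
  have h1 : ‖z‖ ≤ N := (le_max_left _ _).trans hN
  have h2 : 0 < N := lt_of_lt_of_le one_pos ((le_max_right _ _).trans hN)
  unfold Kt KtN
  rw [cut_of_le_one (by rw [div_le_one h2]; exact h1), one_mul]

theorem tendsto_FtN (hν : UpperReg n C ν) (hC : 0 ≤ C) {t : ℝ} (ht : 0 < t) (e x : V n) :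
    Tendsto (fun N : ℝ => FtN n ν t N e x - FtN n ν t N e 0) atTop (𝓝 (Ft n ν t e x)) := by
  have h1 := (integrable_kt hν hC ht x).1
  have h2 := (integrable_kt hν hC ht 0).1
  have key : Tendsto (fun N : ℝ => ∫ y, (KtN n t N e (x - y) - KtN n t N e (0 - y)) ∂ν) atTop
      (𝓝 (Ft n ν t e x)) := by
    unfold Ft
    apply tendsto_integral_filter_of_dominated_convergence
      (fun y => (n + 4) * ‖e‖ * ‖x - 0‖ * (kt n t (x - y) + kt n t (0 - y)))
    · filter_upwards with N
      have := continuous_KtN n ht N e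
      exact (by fun_prop : Continuous fun y =>
        KtN n t N e (x - y) - KtN n t N e (0 - y)).aestronglyMeasurable
    · filter_upwards [eventually_gt_atTop 0] with N hN
      refine Eventually.of_forall fun y => ?_
      have := abs_KtN_sub_le n ht hN e (x - y) (0 - y)
      rw [sub_sub_sub_cancel_right] at this
      exact this
    · exact (h1.add h2).const_mul _
    · exact Eventually.of_forall fun y => (tendsto_KtN n t e _).sub (tendsto_KtN n t e _)
  refine key.congr' ?_
  filter_upwards [eventually_gt_atTop 0] with N hN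
  rw [integral_sub (integrable_KtN hν ht hN e x) (integrable_KtN hν ht hN e 0)]
  rfl

/-- Lipschitz functions supported in a ball satisfy the hypothesis of `abs_Bf_sub_le`. -/
theorem abs_sub_le_indicator {ψ : V n → ℝ} {a : V n} {r L : ℝ} (hL : 0 ≤ L)
    (hlip : ∀ x y, |ψ x - ψ y| ≤ L * ‖x - y‖) (h0 : ∀ x, x ∉ closedBall a r → ψ x = 0)
    (x y : V n) :
    |ψ x - ψ y| ≤ ‖x - y‖ * ((closedBall a r).indicator (fun _ => L) x
      + (closedBall a r).indicator (fun _ => L) y) := by
  have hx0 : 0 ≤ (closedBall a r).indicator (fun _ => L) x := indicator_nonneg (fun _ _ => hL) _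
  have hy0 : 0 ≤ (closedBall a r).indicator (fun _ => L) y := indicator_nonneg (fun _ _ => hL) _
  by_cases hx : x ∈ closedBall a r
  · rw [indicator_of_mem hx]
    refine (hlip x y).trans ?_
    have := norm_nonneg (x - y)
    nlinarith
  · by_cases hy : y ∈ closedBall a r
    · rw [indicator_of_mem hy]
      refine (hlip x y).trans ?_
      have := norm_nonneg (x - y)
      nlinarith
    · rw [h0 x hx, h0 y hy, sub_zero, abs_zero]
      positivity

/-- tent function. -/
def tent (t : ℝ) (x y : V n) : ℝ := max 0 (1 - dist y x / t)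

theorem tent_nonneg (t : ℝ) (x y : V n) : 0 ≤ tent t x y := le_max_left _ _

theorem tent_lip {t : ℝ} (ht : 0 < t) (x y z : V n) :
    |tent t x y - tent t x z| ≤ t⁻¹ * ‖y - z‖ := by
  unfold tent
  have h1 : |max 0 (1 - dist y x / t) - max 0 (1 - dist z x / t)|
      ≤ |(1 - dist y x / t) - (1 - dist z x / t)| := by
    have := abs_max_sub_max_le_abs (1 - dist y x / t) (1 - dist z x / t) 0
    rwa [max_comm _ (0:ℝ), max_comm _ (0:ℝ)] at this
  have h2 : (1 - dist y x / t) - (1 - dist z x / t) = -(t⁻¹ * (dist y x - dist z x)) := by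
    field_simp; ring
  rw [h2, abs_neg, abs_mul, abs_of_pos (inv_pos.2 ht)] at h1
  refine h1.trans ?_
  have h3 := abs_dist_sub_le y z x
  rw [← dist_eq_norm]
  have : 0 ≤ t⁻¹ := (inv_pos.2 ht).le
  gcongr

theorem continuous_tent (t : ℝ) (x : V n) : Continuous (tent t x) := by
  unfold tent; fun_prop

theorem tent_eq_zero {t : ℝ} (ht : 0 < t) (x y : V n) (hy : y ∉ closedBall x t) :
    tent t x y = 0 := by
  rw [mem_closedBall] at hy
  push Not at hy
  unfold tent
  rw [max_eq_left]
  have : 1 < dist y x / t := by rwa [lt_div_iff₀ ht, one_mul]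
  linarith

theorem hasCompactSupport_tent {t : ℝ} (ht : 0 < t) (x : V n) : HasCompactSupport (tent t x) :=
  HasCompactSupport.intro (isCompact_closedBall x t) fun y hy => tent_eq_zero ht x y hy

theorem le_integral_tent (hν : UpperReg n C ν) {c : ℝ} (hc : 0 < c)
    (hL : ∀ (x : V n) (r : ℝ), 0 < r → ENNReal.ofReal (c * r ^ n) ≤ ν (ball x r))
    {t : ℝ} (ht : 0 < t) (x : V n) :
    c * (t / 2) ^ n / 2 ≤ ∫ y, tent t x y ∂ν := by
  have hlf := isLocallyFinite_of_upper hν
  have hint : Integrable (tent t x) ν :=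
    (continuous_tent t x).integrable_of_hasCompactSupport (hasCompactSupport_tent ht x)
  have hfin : ν (ball x (t / 2)) < ∞ :=
    lt_of_le_of_lt (hν x (t / 2) (by positivity)) ENNReal.ofReal_lt_top
  have h1 : c * (t / 2) ^ n ≤ ν.real (ball x (t / 2)) := by
    rw [measureReal_def]
    rw [← ENNReal.ofReal_le_iff_le_toReal hfin.ne]
    exact hL x (t / 2) (by positivity)
  calc c * (t / 2) ^ n / 2 ≤ ν.real (ball x (t / 2)) * (1 / 2) := by linarith
    _ = ∫ y in ball x (t / 2), (1 / 2 : ℝ) ∂ν := by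
        rw [setIntegral_const, smul_eq_mul]
    _ ≤ ∫ y in ball x (t / 2), tent t x y ∂ν := by
        apply setIntegral_mono_on
        · exact integrableOn_const hfin.ne
        · exact hint.integrableOn
        · exact measurableSet_ball
        · intro y hy
          rw [mem_ball] at hy
          unfold tent
          refine le_trans ?_ (le_max_right _ _)
          have : dist y x / t < 1 / 2 := by
            rw [div_lt_iff₀ ht]; linarith
          linarith
    _ ≤ ∫ y, tent t x y ∂ν :=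
        setIntegral_le_integral hint (Eventually.of_forall fun y => tent_nonneg t x y)

/-- **(A)** the regularised potential of a reflectionless measure is bounded. -/
theorem Ft_bounded (hn : 1 ≤ n) (hν : UpperReg n C ν) (hC : 0 ≤ C) {c : ℝ} (hc : 0 < c)
    (hL : ∀ (x : V n) (r : ℝ), 0 < r → ENNReal.ofReal (c * r ^ n) ≤ ν (ball x r))
    (hR : Refl n ν) :
    ∃ M : ℝ, 0 ≤ M ∧ ∀ (t : ℝ), 0 < t → ∀ e x : V n, |Ft n ν t e x| ≤ M * ‖e‖ := by
  have hlf := isLocallyFinite_of_upper hν
  set C3 : ℝ := C * 2 ^ n * (2 * 2 ^ n / c) with hC3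
  have hC30 : 0 ≤ C3 := by positivity
  have hC20 := C2_nonneg (n := n) hC
  set C4 : ℝ := (n + 4) * (2 * (C * 2 ^ (n + 2))) with hC4
  have hC40 : 0 ≤ C4 := by positivity
  refine ⟨2 * (C2 n C * C3) + 2 * C4, by positivity, fun t ht e x => ?_⟩
  -- normalised bumps
  set m : V n → ℝ := fun a => ∫ y, tent t a y ∂ν with hm
  have hmlow : ∀ a, c * (t / 2) ^ n / 2 ≤ m a := fun a => le_integral_tent hν hc hL ht a
  have hm0 : ∀ a, 0 < m a := fun a => lt_of_lt_of_le (by positivity) (hmlow a)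
  set ψ : V n → V n → ℝ := fun a y => (m a)⁻¹ * tent t a y with hψ
  have hψc : ∀ a, Continuous (ψ a) := fun a => continuous_const.mul (continuous_tent t a)
  have hψ0 : ∀ a y, y ∉ closedBall a t → ψ a y = 0 := fun a y hy => by
    simp only [hψ, tent_eq_zero ht a y hy, mul_zero]
  have hψs : ∀ a, HasCompactSupport (ψ a) := fun a =>
    HasCompactSupport.intro (isCompact_closedBall a t) (hψ0 a)
  have hψi : ∀ a, Integrable (ψ a) ν := fun a =>
    (hψc a).integrable_of_hasCompactSupport (hψs a)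
  have hψ1 : ∀ a, ∫ y, ψ a y ∂ν = 1 := fun a => by
    simp only [hψ]
    rw [integral_const_mul]
    exact inv_mul_cancel₀ (hm0 a).ne'
  have hψlip : ∀ a y z, |ψ a y - ψ a z| ≤ ((m a)⁻¹ * t⁻¹) * ‖y - z‖ := fun a y z => by
    simp only [hψ]
    rw [← mul_sub, abs_mul, abs_of_pos (inv_pos.2 (hm0 a)), mul_assoc]
    have := (inv_pos.2 (hm0 a)).le
    have := tent_lip ht a y z
    gcongr
  have hψnn : ∀ a y, 0 ≤ ψ a y := fun a y => mul_nonneg (inv_pos.2 (hm0 a)).le (tent_nonneg t a y)
  set G : V n → V n → ℝ := fun a => (closedBall a t).indicator (fun _ => (m a)⁻¹ * t⁻¹) with hG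
  have hLnn : ∀ a, 0 ≤ (m a)⁻¹ * t⁻¹ := fun a =>
    mul_nonneg (inv_pos.2 (hm0 a)).le (inv_pos.2 ht).le
  have hG0 : ∀ a y, 0 ≤ G a y := fun a y => indicator_nonneg (fun _ _ => hLnn a) _
  have hGm : ∀ a, Measurable (G a) := fun a =>
    measurable_const.indicator isClosed_closedBall.measurableSet
  have hfin : ∀ a, ν (closedBall a t) < ∞ := fun a =>
    lt_of_le_of_lt (hν.closedBall_le a ht) ENNReal.ofReal_lt_top
  have hGi : ∀ a, Integrable (G a) ν := fun a => by
    apply IntegrableOn.integrable_indicator _ isClosed_closedBall.measurableSet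
    exact integrableOn_const (hfin a).ne
  have hGint : ∀ a, ∫ y, G a y ∂ν ≤ C3 / t := fun a => by
    simp only [hG]
    rw [integral_indicator isClosed_closedBall.measurableSet, setIntegral_const, smul_eq_mul]
    have h1 : ν.real (closedBall a t) ≤ C * 2 ^ n * t ^ n := by
      rw [measureReal_def]
      exact ENNReal.toReal_le_of_le_ofReal (by positivity) (hν.closedBall_le a ht)
    have h2 : (m a)⁻¹ ≤ 2 * 2 ^ n / (c * t ^ n) := by
      rw [inv_le_comm₀ (hm0 a) (by positivity)]
      refine le_trans (le_of_eq ?_) (hmlow a)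
      rw [div_pow]; field_simp
    calc ν.real (closedBall a t) * ((m a)⁻¹ * t⁻¹)
        ≤ (C * 2 ^ n * t ^ n) * ((2 * 2 ^ n / (c * t ^ n)) * t⁻¹) := by
          have := (inv_pos.2 (hm0 a)).le
          gcongr
      _ = C3 / t := by rw [hC3]; field_simp
  -- evaluation at the centre
  have hev : ∀ (N : ℝ), 0 < N → ∀ a,
      |∫ y, ψ a y * FtN n ν t N e y ∂ν - FtN n ν t N e a| ≤ C4 * ‖e‖ := by
    intro N hN a
    have hcF := continuous_FtN hν hC ht hN e
    have hi : Integrable (fun y => ψ a y * FtN n ν t N e y) ν :=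
      ((hψc a).mul hcF).integrable_of_hasCompactSupport
        ((hψs a).mul_right)
    have e1 : ∫ y, ψ a y * FtN n ν t N e y ∂ν - FtN n ν t N e a
        = ∫ y, ψ a y * (FtN n ν t N e y - FtN n ν t N e a) ∂ν := by
      have : ∀ y, ψ a y * (FtN n ν t N e y - FtN n ν t N e a)
          = ψ a y * FtN n ν t N e y - ψ a y * FtN n ν t N e a := fun y => by ring
      simp only [this]
      rw [integral_sub hi ((hψi a).mul_const _), integral_mul_const, hψ1, one_mul]
    rw [e1, ← Real.norm_eq_abs]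
    calc ‖∫ y, ψ a y * (FtN n ν t N e y - FtN n ν t N e a) ∂ν‖
        ≤ ∫ y, ψ a y * (C4 * ‖e‖) ∂ν := by
          apply norm_integral_le_of_norm_le ((hψi a).mul_const _)
          refine Eventually.of_forall fun y => ?_
          rw [norm_mul, Real.norm_eq_abs, abs_of_nonneg (hψnn a y)]
          by_cases hy : y ∈ closedBall a t
          · have h1 := abs_FtN_sub_le hν hC ht hN e y a
            rw [mem_closedBall, dist_eq_norm] at hy
            have := hψnn a y
            gcongr
            rw [Real.norm_eq_abs]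
            refine h1.trans ?_
            calc (n + 4) * ‖e‖ * ‖y - a‖ * (2 * (C * 2 ^ (n + 2) / t))
                ≤ (n + 4) * ‖e‖ * t * (2 * (C * 2 ^ (n + 2) / t)) := by gcongr
              _ = C4 * ‖e‖ := by rw [hC4]; field_simp
          · rw [hψ0 a y hy, zero_mul, zero_mul]
      _ = C4 * ‖e‖ := by rw [integral_mul_const, hψ1, one_mul]
  -- test function
  set φ : V n → ℝ := fun y => ψ x y - ψ 0 y with hφ
  have hφtest : IsTest φ := by
    refine ⟨⟨Real.toNNReal (((m x)⁻¹ * t⁻¹) + ((m 0)⁻¹ * t⁻¹)), ?_⟩, (hψs x).sub (hψs 0)⟩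
    apply LipschitzWith.of_dist_le_mul
    intro y z
    rw [Real.dist_eq, dist_eq_norm, Real.coe_toNNReal _ (add_nonneg (hLnn x) (hLnn 0))]
    have h1 := hψlip x y z
    have h2 := hψlip 0 y z
    have : φ y - φ z = (ψ x y - ψ x z) - (ψ 0 y - ψ 0 z) := by simp only [hφ]; ring
    rw [this]
    refine (abs_sub _ _).trans ?_
    linarith
  have hφint : ∫ y, φ y ∂ν = 0 := by
    simp only [hφ]
    rw [integral_sub (hψi x) (hψi 0), hψ1, hψ1, sub_self]
  have hlim := hR e φ hφtest hφint
  -- bound for all N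
  have hbound : ∀ N : ℝ, 0 < N → |FtN n ν t N e x - FtN n ν t N e 0|
      ≤ |Bf n ν N (lin e) φ| + (2 * (C2 n C * C3) + 2 * C4) * ‖e‖ := by
    intro N hN
    have hcF := continuous_FtN hν hC ht hN e
    have hi : ∀ a, Integrable (fun y => ψ a y * FtN n ν t N e y) ν := fun a =>
      ((hψc a).mul hcF).integrable_of_hasCompactSupport ((hψs a).mul_right)
    have h1 := abs_Bf_sub_le hn hν hC ht hN e (ψ := φ) (G := fun y => G x y + G 0 y)
      ((hψc x).sub (hψc 0)) hφtest.cpt (fun y => add_nonneg (hG0 x y) (hG0 0 y))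
      ((hGm x).add (hGm 0)) ((hGi x).add (hGi 0)) (by
        intro y z
        have h1 := abs_sub_le_indicator (hLnn x) (hψlip x) (hψ0 x) y z
        have h2 := abs_sub_le_indicator (hLnn 0) (hψlip 0) (hψ0 0) y z
        have : φ y - φ z = (ψ x y - ψ x z) - (ψ 0 y - ψ 0 z) := by simp only [hφ]; ring
        rw [this]
        refine (abs_sub _ _).trans ?_
        refine (add_le_add h1 h2).trans (le_of_eq ?_)
        simp only [hG]; ring)
    have h2 : ∫ y, (G x y + G 0 y) ∂ν ≤ 2 * (C3 / t) := by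
      rw [integral_add (hGi x) (hGi 0)]
      linarith [hGint x, hGint 0]
    have h3 : C2 n C * ‖e‖ * t * ∫ y, (G x y + G 0 y) ∂ν ≤ 2 * (C2 n C * C3) * ‖e‖ := by
      calc C2 n C * ‖e‖ * t * ∫ y, (G x y + G 0 y) ∂ν
          ≤ C2 n C * ‖e‖ * t * (2 * (C3 / t)) := by gcongr
        _ = _ := by field_simp
    have h4 : ∫ y, φ y * FtN n ν t N e y ∂ν
        = ∫ y, ψ x y * FtN n ν t N e y ∂ν - ∫ y, ψ 0 y * FtN n ν t N e y ∂ν := by
      rw [← integral_sub (hi x) (hi 0)]
      congr 1; ext y; simp only [hφ]; ring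
    rw [h4] at h1
    have h5 := hev N hN x
    have h6 := hev N hN 0
    rw [abs_le] at h1 h5 h6 ⊢
    have h7 := neg_abs_le (Bf n ν N (lin e) φ)
    have h8 := le_abs_self (Bf n ν N (lin e) φ)
    constructor <;> nlinarith [h1.1, h1.2, h5.1, h5.2, h6.1, h6.2]
  have hT := tendsto_FtN hν hC ht e x
  have hT2 : Tendsto (fun N : ℝ => |Bf n ν N (lin e) φ| + (2 * (C2 n C * C3) + 2 * C4) * ‖e‖) atTop
      (𝓝 (|(0:ℝ)| + (2 * (C2 n C * C3) + 2 * C4) * ‖e‖)) :=
    (hlim.abs).add tendsto_const_nhds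
  rw [abs_zero, zero_add] at hT2
  refine le_of_tendsto_of_tendsto hT.abs hT2 ?_
  filter_upwards [eventually_gt_atTop 0] with N hN
  exact hbound N hN

/-- **(B)** asymptotic orthogonality to mean-zero test functions. -/
theorem integral_mul_Ft_le (hn : 1 ≤ n) (hν : UpperReg n C ν) (hC : 0 ≤ C)
    (hR : Refl n ν) (e : V n) {ψ : V n → ℝ} (hψ : IsTest ψ) (hψ0 : ∫ y, ψ y ∂ν = 0) :
    ∃ K : ℝ, 0 ≤ K ∧ ∀ t : ℝ, 0 < t → |∫ x, ψ x * Ft n ν t e x ∂ν| ≤ K * t := by
  have hlf := isLocallyFinite_of_upper hν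
  obtain ⟨L, hL⟩ := hψ.lip
  have hψc := hψ.cpt
  have hcont : Continuous ψ := hL.continuous
  obtain ⟨R, hR1, hRs⟩ : ∃ R : ℝ, 0 < R ∧ tsupport ψ ⊆ closedBall (0 : V n) R := by
    obtain ⟨R, hR⟩ := hψc.isCompact.isBounded.subset_closedBall (0 : V n)
    exact ⟨max R 1, lt_max_of_lt_right one_pos,
      hR.trans (closedBall_subset_closedBall (le_max_left _ _))⟩
  have hz : ∀ x, x ∉ closedBall (0 : V n) R → ψ x = 0 := fun x hx =>
    image_eq_zero_of_notMem_tsupport fun h => hx (hRs h)
  have hlip : ∀ x y, |ψ x - ψ y| ≤ (L : ℝ) * ‖x - y‖ := fun x y => by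
    have := hL.dist_le_mul x y
    rwa [Real.dist_eq, dist_eq_norm] at this
  set G : V n → ℝ := (closedBall (0 : V n) R).indicator (fun _ => (L : ℝ)) with hG
  have hG0 : ∀ y, 0 ≤ G y := fun y => indicator_nonneg (fun _ _ => L.coe_nonneg) _
  have hGm : Measurable G := measurable_const.indicator isClosed_closedBall.measurableSet
  have hfin : ν (closedBall (0 : V n) R) < ∞ :=
    lt_of_le_of_lt (hν.closedBall_le 0 hR1) ENNReal.ofReal_lt_top
  have hGi : Integrable G ν := by
    apply IntegrableOn.integrable_indicator _ isClosed_closedBall.measurableSet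
    exact integrableOn_const hfin.ne
  have hGint0 : 0 ≤ ∫ x, G x ∂ν := integral_nonneg hG0
  have hC20 := C2_nonneg (n := n) hC
  refine ⟨C2 n C * ‖e‖ * ∫ x, G x ∂ν, by positivity, fun t ht => ?_⟩
  have hbound : ∀ N : ℝ, 0 < N → |∫ x, ψ x * (FtN n ν t N e x - FtN n ν t N e 0) ∂ν|
      ≤ |Bf n ν N (lin e) ψ| + C2 n C * ‖e‖ * t * ∫ x, G x ∂ν := by
    intro N hN
    have h1 := abs_Bf_sub_le hn hν hC ht hN e hcont hψc hG0 hGm hGi
      (abs_sub_le_indicator L.coe_nonneg hlip hz)
    have hcF := continuous_FtN hν hC ht hN e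
    have hi : Integrable (fun y => ψ y * FtN n ν t N e y) ν :=
      (hcont.mul hcF).integrable_of_hasCompactSupport hψc.mul_right
    have hi2 : Integrable ψ ν := hcont.integrable_of_hasCompactSupport hψc
    have e1 : ∫ x, ψ x * (FtN n ν t N e x - FtN n ν t N e 0) ∂ν
        = ∫ x, ψ x * FtN n ν t N e x ∂ν := by
      simp only [mul_sub]
      rw [integral_sub hi (hi2.mul_const _), integral_mul_const, hψ0, zero_mul, sub_zero]
    rw [e1]
    rw [abs_le] at h1 ⊢
    have h7 := neg_abs_le (Bf n ν N (lin e) ψ)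
    have h8 := le_abs_self (Bf n ν N (lin e) ψ)
    constructor <;> linarith [h1.1, h1.2]
  have hT : Tendsto (fun N : ℝ => ∫ x, ψ x * (FtN n ν t N e x - FtN n ν t N e 0) ∂ν) atTop
      (𝓝 (∫ x, ψ x * Ft n ν t e x ∂ν)) := by
    set B : ℝ := (n + 4) * ‖e‖ * R * (2 * (C * 2 ^ (n + 2) / t)) with hB
    apply tendsto_integral_filter_of_dominated_convergence (fun x => |ψ x| * B)
    · filter_upwards [eventually_gt_atTop 0] with N hN
      have hcF := continuous_FtN hν hC ht hN e
      exact (hcont.mul (hcF.sub continuous_const)).aestronglyMeasurable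
    · filter_upwards [eventually_gt_atTop 0] with N hN
      refine Eventually.of_forall fun x => ?_
      rw [norm_mul, Real.norm_eq_abs, Real.norm_eq_abs]
      by_cases hx : x ∈ closedBall (0 : V n) R
      · gcongr
        refine (abs_FtN_sub_le hν hC ht hN e x 0).trans ?_
        rw [mem_closedBall, dist_eq_norm] at hx
        rw [hB]
        gcongr
      · rw [hz x hx, abs_zero, zero_mul, zero_mul]
    · exact ((hcont.abs).integrable_of_hasCompactSupport hψc.abs).mul_const B
    · exact Eventually.of_forall fun x => (tendsto_FtN hν hC ht e x).const_mul _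
  have hlim := hR e ψ hψ hψ0
  have hT2 : Tendsto (fun N : ℝ => |Bf n ν N (lin e) ψ| + C2 n C * ‖e‖ * t * ∫ x, G x ∂ν) atTop
      (𝓝 (|(0:ℝ)| + C2 n C * ‖e‖ * t * ∫ x, G x ∂ν)) :=
    (hlim.abs).add tendsto_const_nhds
  rw [abs_zero, zero_add] at hT2
  have := le_of_tendsto_of_tendsto hT.abs hT2 (by
    filter_upwards [eventually_gt_atTop 0] with N hN
    exact hbound N hN)
  refine this.trans (le_of_eq (by ring))

end Crest.Agent.R085.Flat
end
end

-- ▼ part R085/FlatDens
section

/-!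
R085, module M7, step (C): a two-sided regular measure on `V n` is comparable to Lebesgue measure,
and the regularised potentials converge weakly to constants w.r.t. Lebesgue measure.
-/

set_option autoImplicit false
set_option linter.unusedSectionVars false
set_option linter.unusedVariables false

noncomputable section

namespace Crest.Agent.R085.Flat

open MeasureTheory Metric Set Filter
open scoped ENNReal NNReal Topology ContDiff

variable {n : ℕ} {C c : ℝ} {ν : Measure (V n)}

theorem le_smul_of_closedBall_le {α β : Measure (V n)} [IsLocallyFiniteMeasure α]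
    [IsLocallyFiniteMeasure β] {K : ℝ≥0}
    (h : ∀ (x : V n) (r : ℝ), 0 < r → α (closedBall x r) ≤ K * β (closedBall x r)) :
    α ≤ K • β := by
  rw [Measure.le_iff']
  intro s
  refine (Besicovitch.vitaliFamily α).measure_le_of_frequently_le (K • β)
    Measure.AbsolutelyContinuous.rfl s fun x _ => ?_
  apply Eventually.frequently
  filter_upwards [(Besicovitch.vitaliFamily α).eventually_filterAt_mem_setsAt x] with a ha
  obtain ⟨r, hr, rfl⟩ := ha
  rw [Measure.smul_apply, ENNReal.smul_def, smul_eq_mul]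
  exact h x r hr

theorem volume_closedBall_eq (x : V n) {r : ℝ} (hr : 0 ≤ r) :
    volume (closedBall x r) = ENNReal.ofReal (r ^ n) * volume (ball (0 : V n) 1) := by
  have := Measure.addHaar_closedBall (volume : Measure (V n)) x hr
  rwa [finrank_euclideanSpace_fin] at this

theorem volume_unit_pos : 0 < volume (ball (0 : V n) 1) := measure_ball_pos _ _ one_pos

theorem volume_unit_lt_top : volume (ball (0 : V n) 1) < ⊤ := measure_ball_lt_top

theorem exists_le_smul_volume (hν : UpperReg n C ν) (hC : 0 ≤ C) :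
    ∃ K : ℝ≥0, ν ≤ K • (volume : Measure (V n)) := by
  have hlf := isLocallyFinite_of_upper hν
  set w : ℝ := (volume (ball (0 : V n) 1)).toReal with hw
  have hw0 : 0 < w := ENNReal.toReal_pos volume_unit_pos.ne' volume_unit_lt_top.ne
  have hwe : volume (ball (0 : V n) 1) = ENNReal.ofReal w :=
    (ENNReal.ofReal_toReal volume_unit_lt_top.ne).symm
  refine ⟨Real.toNNReal (C * 2 ^ n / w), le_smul_of_closedBall_le fun x r hr => ?_⟩
  rw [volume_closedBall_eq x hr.le, hwe]
  refine (hν.closedBall_le x hr).trans (le_of_eq ?_)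
  rw [← ENNReal.ofReal_mul (by positivity)]
  change _ = ENNReal.ofReal (C * 2 ^ n / w) * _
  rw [← ENNReal.ofReal_mul (by positivity)]
  congr 1
  field_simp

theorem exists_volume_le_smul (hν : UpperReg n C ν) (hc : 0 < c)
    (hL : ∀ (x : V n) (r : ℝ), 0 < r → ENNReal.ofReal (c * r ^ n) ≤ ν (ball x r)) :
    ∃ K : ℝ≥0, (volume : Measure (V n)) ≤ K • ν := by
  have hlf := isLocallyFinite_of_upper hν
  set w : ℝ := (volume (ball (0 : V n) 1)).toReal with hw
  have hw0 : 0 < w := ENNReal.toReal_pos volume_unit_pos.ne' volume_unit_lt_top.ne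
  have hwe : volume (ball (0 : V n) 1) = ENNReal.ofReal w :=
    (ENNReal.ofReal_toReal volume_unit_lt_top.ne).symm
  refine ⟨Real.toNNReal (w / c), le_smul_of_closedBall_le fun x r hr => ?_⟩
  rw [volume_closedBall_eq x hr.le, hwe, ← ENNReal.ofReal_mul (by positivity)]
  change _ ≤ ENNReal.ofReal (w / c) * _
  calc ENNReal.ofReal (r ^ n * w) = ENNReal.ofReal (w / c) * ENNReal.ofReal (c * r ^ n) := by
        rw [← ENNReal.ofReal_mul (by positivity)]
        congr 1
        field_simp
    _ ≤ ENNReal.ofReal (w / c) * ν (closedBall x r) := by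
        gcongr
        exact (hL x r hr).trans (measure_mono ball_subset_closedBall)

/-- smooth compactly supported functions are test functions. -/
theorem isTest_of_contDiff {f : V n → ℝ} (hf : ContDiff ℝ (⊤ : ℕ∞) f) (hs : HasCompactSupport f) :
    IsTest f := by
  obtain ⟨L, hL⟩ := ContDiff.lipschitzWith_of_hasCompactSupport hs hf (by simp)
  exact ⟨⟨L, hL⟩, hs⟩

/-- **(C)** weak convergence to zero against Lebesgue mean-zero continuous functions. -/
theorem tendsto_integral_mul_Ft (hn : 1 ≤ n) (hν : UpperReg n C ν) (hC : 0 ≤ C) (hc : 0 < c)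
    (hL : ∀ (x : V n) (r : ℝ), 0 < r → ENNReal.ofReal (c * r ^ n) ≤ ν (ball x r))
    (hR : Refl n ν) (e : V n) {φ : V n → ℝ} (hφ : Continuous φ) (hφs : HasCompactSupport φ)
    (hφ0 : ∫ x, φ x = 0) :
    Tendsto (fun t : ℝ => ∫ x, φ x * Ft n ν t e x) (𝓝[>] 0) (𝓝 0) := by
  have hlf := isLocallyFinite_of_upper hν
  obtain ⟨M, hM0, hM⟩ := Ft_bounded hn hν hC hc hL hR
  obtain ⟨K, hK⟩ := exists_volume_le_smul hν hc hL
  have hac : (volume : Measure (V n)) ≪ ν :=
    (Measure.absolutelyContinuous_of_le hK).trans Measure.smul_absolutelyContinuous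
  set g : V n → ℝ := fun x => ((volume : Measure (V n)).rnDeriv ν x).toReal with hg
  have hφi : Integrable φ (volume : Measure (V n)) := hφ.integrable_of_hasCompactSupport hφs
  set f : V n → ℝ := fun x => g x • φ x with hf
  have hfi : Integrable f ν := (integrable_rnDeriv_smul_iff hac).2 hφi
  have hf0 : ∫ x, f x ∂ν = 0 := by
    rw [← hφ0]; exact integral_rnDeriv_smul hac
  have hfmem : MemLp f 1 ν := memLp_one_iff_integrable.2 hfi
  -- identity
  have hid : ∀ t : ℝ, ∫ x, φ x * Ft n ν t e x = ∫ x, f x * Ft n ν t e x ∂ν := by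
    intro t
    have := integral_rnDeriv_smul (μ := (volume : Measure (V n))) (ν := ν) hac
      (f := fun x => φ x * Ft n ν t e x)
    rw [← this]
    congr 1; ext x
    simp only [hf, hg, smul_eq_mul]; ring
  -- a test function of integral one
  set τ : V n → ℝ := tent 1 0 with hτ
  have hτc : Continuous τ := continuous_tent 1 0
  have hτs : HasCompactSupport τ := hasCompactSupport_tent one_pos 0
  have hτi : Integrable τ ν := hτc.integrable_of_hasCompactSupport hτs
  have hτm : 0 < ∫ y, τ y ∂ν := lt_of_lt_of_le (by positivity) (le_integral_tent hν hc hL one_pos 0)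
  have hτ0 : ∀ y, 0 ≤ τ y := fun y => tent_nonneg _ _ _
  rw [Metric.tendsto_nhds]
  intro ε hε
  set ε1 : ℝ := ε / (4 * (M * ‖e‖ + 1)) with hε1
  have hMe : 0 < M * ‖e‖ + 1 := by positivity
  have hε10 : 0 < ε1 := by positivity
  obtain ⟨ψ2, hψ2s, hψ2c, hψ2⟩ := hfmem.exist_eLpNorm_sub_le (by simp) le_rfl hε10
  have hψ2t := isTest_of_contDiff hψ2c hψ2s
  have hψ2cont : Continuous ψ2 := hψ2c.continuous
  have hψ2i : Integrable ψ2 ν := hψ2cont.integrable_of_hasCompactSupport hψ2s
  have hdiff : ∫ x, |f x - ψ2 x| ∂ν ≤ ε1 := by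
    have h1 : ∫ x, |f x - ψ2 x| ∂ν = (eLpNorm (f - ψ2) 1 ν).toReal := by
      rw [eLpNorm_one_eq_lintegral_enorm, ← integral_norm_eq_lintegral_enorm
        (hfi.sub hψ2i).aestronglyMeasurable]
      rfl
    rw [h1]
    exact ENNReal.toReal_le_of_le_ofReal hε10.le hψ2
  set a : ℝ := (∫ x, ψ2 x ∂ν) / ∫ y, τ y ∂ν with ha
  have ha1 : |∫ x, ψ2 x ∂ν| ≤ ε1 := by
    have : ∫ x, ψ2 x ∂ν = - ∫ x, (f x - ψ2 x) ∂ν := by
      rw [integral_sub hfi hψ2i, hf0]; ring
    rw [this, abs_neg]
    exact (abs_integral_le_integral_abs).trans hdiff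
  set ψ : V n → ℝ := fun x => ψ2 x - a * τ x with hψ
  have hψt : IsTest ψ := by
    obtain ⟨L, hL2⟩ := hψ2t.lip
    refine ⟨⟨L + Real.toNNReal (|a|), ?_⟩, hψ2s.sub hτs.mul_left⟩
    apply LipschitzWith.of_dist_le_mul
    intro x y
    have h1 := hL2.dist_le_mul x y
    rw [Real.dist_eq] at h1 ⊢
    have h2 := tent_lip one_pos (0 : V n) x y
    rw [inv_one, one_mul, ← dist_eq_norm] at h2
    have h3 : ψ x - ψ y = (ψ2 x - ψ2 y) - a * (τ x - τ y) := by simp only [hψ]; ring
    rw [h3]
    refine (abs_sub _ _).trans ?_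
    rw [abs_mul]
    push_cast
    rw [Real.coe_toNNReal _ (abs_nonneg a), add_mul]
    have h4 : |a| * |τ x - τ y| ≤ |a| * dist x y := by
      have := abs_nonneg a
      gcongr
    linarith
  have hψ0 : ∫ x, ψ x ∂ν = 0 := by
    simp only [hψ]
    rw [integral_sub hψ2i (hτi.const_mul a), integral_const_mul, ha]
    field_simp
    ring
  have hψi : Integrable ψ ν := hψ2i.sub (hτi.const_mul a)
  have hd1 : Integrable (fun x => |f x - ψ2 x|) ν := (hfi.sub hψ2i).abs
  have hd2 : Integrable (fun x => f x - ψ x) ν := hfi.sub hψi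
  obtain ⟨K1, hK10, hK1⟩ := integral_mul_Ft_le hn hν hC hR e hψt hψ0
  have hdiff2 : ∫ x, |f x - ψ x| ∂ν ≤ 2 * ε1 := by
    calc ∫ x, |f x - ψ x| ∂ν ≤ ∫ x, (|f x - ψ2 x| + |a| * τ x) ∂ν := by
          apply integral_mono hd2.abs (hd1.add (hτi.const_mul _))
          intro x
          have : f x - ψ x = (f x - ψ2 x) + a * τ x := by simp only [hψ]; ring
          change |f x - ψ x| ≤ |f x - ψ2 x| + |a| * τ x
          rw [this]
          refine (abs_add_le _ _).trans ?_
          rw [abs_mul, abs_of_nonneg (hτ0 x)]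
      _ = ∫ x, |f x - ψ2 x| ∂ν + |a| * ∫ x, τ x ∂ν := by
          rw [integral_add hd1 (hτi.const_mul _), integral_const_mul]
      _ ≤ ε1 + ε1 := by
          have : |a| * ∫ x, τ x ∂ν = |∫ x, ψ2 x ∂ν| := by
            rw [ha, abs_div, abs_of_pos hτm]; field_simp
          rw [this]
          exact add_le_add hdiff ha1
      _ = 2 * ε1 := by ring
  have hMt : ∀ t : ℝ, 0 < t → |∫ x, φ x * Ft n ν t e x| ≤ 2 * ε1 * (M * ‖e‖) + K1 * t := by
    intro t ht
    have hcF := continuous_Ft hν hC ht e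
    have hFi : ∀ {h : V n → ℝ}, Integrable h ν → Integrable (fun x => h x * Ft n ν t e x) ν := by
      intro h hh
      exact hh.mul_bdd (c := M * ‖e‖) hcF.aestronglyMeasurable
        (Eventually.of_forall fun x => hM t ht e x)
    rw [hid t]
    have h1 : ∫ x, f x * Ft n ν t e x ∂ν
        = ∫ x, (f x - ψ x) * Ft n ν t e x ∂ν + ∫ x, ψ x * Ft n ν t e x ∂ν := by
      rw [← integral_add (hFi hd2) (hFi hψi)]
      congr 1; ext x; ring
    rw [h1]
    refine (abs_add_le _ _).trans (add_le_add ?_ (hK1 t ht))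
    calc |∫ x, (f x - ψ x) * Ft n ν t e x ∂ν| ≤ ∫ x, |f x - ψ x| * (M * ‖e‖) ∂ν := by
          rw [← Real.norm_eq_abs]
          apply norm_integral_le_of_norm_le (hd2.abs.mul_const _)
          refine Eventually.of_forall fun x => ?_
          rw [norm_mul, Real.norm_eq_abs, Real.norm_eq_abs]
          exact mul_le_mul_of_nonneg_left (hM t ht e x) (abs_nonneg _)
      _ = (∫ x, |f x - ψ x| ∂ν) * (M * ‖e‖) := by rw [integral_mul_const]
      _ ≤ 2 * ε1 * (M * ‖e‖) := by
          gcongr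
  have hsmall : 2 * ε1 * (M * ‖e‖) < ε / 2 + 0 := by
    have h1 : ε1 * (M * ‖e‖ + 1) = ε / 4 := by rw [hε1]; field_simp
    nlinarith
  have hev : ∀ᶠ t : ℝ in 𝓝[>] 0, K1 * t < ε / 2 := by
    have : Tendsto (fun t : ℝ => K1 * t) (𝓝[>] 0) (𝓝 (K1 * 0)) :=
      ((continuous_const.mul continuous_id).tendsto 0).mono_left nhdsWithin_le_nhds
    rw [mul_zero] at this
    exact this.eventually (gt_mem_nhds (by positivity))
  filter_upwards [hev, self_mem_nhdsWithin] with t ht1 ht2
  rw [Real.dist_eq, sub_zero]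
  have := hMt t ht2
  linarith

end Crest.Agent.R085.Flat
end
end

-- ▼ part R085/FlatDiv
section

/-!
R085, module M7, step (D): integration by parts.
`∑ i ∫ ∂_i Φ · Ft^{e_i} dx = - ∫ (∫ Φ(x) Dt(x - y) dx) dν(y)` and `∫ Dt = 0`.
-/

set_option autoImplicit false
set_option linter.unusedSectionVars false
set_option linter.unusedVariables false

noncomputable section

namespace Crest.Agent.R085.Flat

open MeasureTheory Metric Set Filter
open scoped ENNReal NNReal Topology

variable {n : ℕ} {C c : ℝ} {ν : Measure (V n)}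

/-- divergence of the regularised kernel. -/
def Dt (n : ℕ) (t : ℝ) (z : V n) : ℝ := (n * t ^ 2 - ‖z‖ ^ 2) * ((rt t z) ^ (n + 3))⁻¹

/-- derivative of `Kt n t e` in direction `e`. -/
def dK (n : ℕ) (t : ℝ) (e z : V n) : ℝ :=
  inner ℝ e e * kt n t z - (n + 1) * inner ℝ z e ^ 2 * ((rt t z) ^ (n + 3))⁻¹

theorem continuous_dK (n : ℕ) {t : ℝ} (ht : 0 < t) (e : V n) : Continuous (dK n t e) := by
  have h1 := continuous_kt (E := V n) n ht
  have h2 : Continuous fun z : V n => ((rt t z) ^ (n + 3))⁻¹ :=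
    Continuous.inv₀ ((continuous_rt t).pow _) fun z => by
      have := rt_pos ht z
      positivity
  unfold dK
  fun_prop

theorem continuous_Dt (n : ℕ) {t : ℝ} (ht : 0 < t) : Continuous (Dt n t) := by
  have h2 : Continuous fun z : V n => ((rt t z) ^ (n + 3))⁻¹ :=
    Continuous.inv₀ ((continuous_rt t).pow _) fun z => by
      have := rt_pos ht z
      positivity
  unfold Dt
  fun_prop

theorem Dt_neg (n : ℕ) (t : ℝ) (z : V n) : Dt n t (-z) = Dt n t z := by
  unfold Dt; rw [norm_neg, rt_neg]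

theorem abs_Dt_le (hn : 1 ≤ n) {t : ℝ} (ht : 0 < t) (z : V n) : |Dt n t z| ≤ n * kt n t z := by
  have h := rt_pos ht z
  have hn' : (1:ℝ) ≤ n := by exact_mod_cast hn
  unfold Dt
  rw [abs_mul, abs_of_pos (by positivity : 0 < ((rt t z) ^ (n + 3))⁻¹)]
  have h1 : |(n:ℝ) * t ^ 2 - ‖z‖ ^ 2| ≤ n * (rt t z) ^ 2 := by
    rw [rt_sq, abs_le]
    constructor <;> nlinarith [sq_nonneg ‖z‖, sq_nonneg t]
  calc |(n:ℝ) * t ^ 2 - ‖z‖ ^ 2| * ((rt t z) ^ (n + 3))⁻¹
      ≤ (n * (rt t z) ^ 2) * ((rt t z) ^ (n + 3))⁻¹ := by gcongr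
    _ = n * kt n t z := by
        unfold kt
        have : rt t z ^ (n + 3) = rt t z ^ 2 * rt t z ^ (n + 1) := by rw [← pow_add]; congr 1; omega
        rw [this]; field_simp

theorem sum_dK (n : ℕ) {t : ℝ} (ht : 0 < t) (z : V n) :
    ∑ i : Fin n, dK n t (EuclideanSpace.single i (1:ℝ)) z = Dt n t z := by
  have h := rt_pos ht z
  unfold dK Dt
  rw [Finset.sum_sub_distrib, ← Finset.sum_mul, ← Finset.sum_mul, ← Finset.mul_sum]
  have h1 : ∑ i : Fin n, inner ℝ (EuclideanSpace.single i (1:ℝ)) (EuclideanSpace.single i (1:ℝ))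
      = (n : ℝ) := by
    have : ∀ i : Fin n,
        inner ℝ (EuclideanSpace.single i (1:ℝ)) (EuclideanSpace.single i (1:ℝ)) = (1:ℝ) := by
      intro i
      rw [real_inner_self_eq_norm_sq, PiLp.norm_single]
      simp
    rw [Finset.sum_congr rfl fun i _ => this i]
    simp
  have h2 : ∑ i : Fin n, inner ℝ z (EuclideanSpace.single i (1:ℝ)) ^ 2 = ‖z‖ ^ 2 := by
    rw [EuclideanSpace.norm_sq_eq]
    refine Finset.sum_congr rfl fun i _ => ?_
    rw [EuclideanSpace.inner_single_right]
    simp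
  rw [h1, h2]
  unfold kt
  have : rt t z ^ (n + 3) = rt t z ^ 2 * rt t z ^ (n + 1) := by rw [← pow_add]; congr 1; omega
  rw [this]
  have h3 := rt_sq t z
  have h4 : t ^ 2 = rt t z ^ 2 - ‖z‖ ^ 2 := by linarith
  rw [h4]
  field_simp
  ring

theorem hasLineDerivAt_Kt (n : ℕ) {t : ℝ} (ht : 0 < t) (e z : V n) :
    HasLineDerivAt ℝ (Kt n t e) (dK n t e z) z e := by
  have hr := rt_pos ht z
  unfold HasLineDerivAt
  have h0 : z + (0:ℝ) • e = z := by simp
  have h1 : HasDerivAt (fun s : ℝ => z + s • e) e 0 := by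
    have := ((hasDerivAt_id (0:ℝ)).smul_const e).const_add z
    simpa using this
  have h2 : HasDerivAt (fun s : ℝ => inner ℝ (z + s • e) e) (inner ℝ e e) 0 := by
    have := h1.inner ℝ (hasDerivAt_const (0:ℝ) e)
    simpa using this
  have h3 : HasDerivAt (fun s : ℝ => ‖z + s • e‖ ^ 2 + t ^ 2) (2 * inner ℝ z e) 0 := by
    have := (h1.norm_sq).add_const (t ^ 2)
    simpa using this
  have h4 : HasDerivAt (fun s : ℝ => rt t (z + s • e)) (2 * inner ℝ z e / (2 * rt t z)) 0 := by
    have h5 := h3.sqrt (by rw [h0]; positivity)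
    rw [h0] at h5
    exact h5
  have h5 : HasDerivAt (fun s : ℝ => kt n t (z + s • e))
      (-(((n + 1 : ℕ) : ℝ) * rt t z ^ n * (2 * inner ℝ z e / (2 * rt t z)))
        / (rt t z ^ (n + 1)) ^ 2) 0 := by
    have h6 := h4.fun_pow (n + 1)
    have h7 := h6.fun_inv (by rw [h0]; positivity)
    rw [h0] at h7
    simpa [kt] using h7
  have h6 := h2.fun_mul h5
  rw [h0] at h6
  refine HasDerivAt.congr_deriv h6 ?_
  unfold dK kt
  have e1 : rt t z ^ (n + 3) = rt t z ^ 3 * rt t z ^ n := by rw [← pow_add]; congr 1; omega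
  have e2 : rt t z ^ (n + 1) = rt t z * rt t z ^ n := by rw [pow_succ]; ring
  rw [e1, e2]
  push_cast
  field_simp
  ring

/-- integral of a directional derivative of a compactly supported function. -/
theorem integral_fderiv_eq_zero {Φ : V n → ℝ} (hΦ : ContDiff ℝ (⊤ : ℕ∞) Φ)
    (hs : HasCompactSupport Φ) (e : V n) : ∫ x, fderiv ℝ Φ x e = 0 := by
  have hd : Differentiable ℝ Φ := hΦ.differentiable (by simp)
  have hc : Continuous fun x => fderiv ℝ Φ x e :=
    (hΦ.continuous_fderiv (by simp)).clm_apply continuous_const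
  have hcs : HasCompactSupport fun x => fderiv ℝ Φ x e := hs.fderiv_apply (𝕜 := ℝ) e
  have h := integral_mul_fderiv_eq_neg_fderiv_mul_of_integrable (μ := (volume : Measure (V n)))
    (f := Φ) (g := fun _ => (1:ℝ)) (v := e)
    (by simpa using hc.integrable_of_hasCompactSupport hcs) (by simp)
    (by simpa using hΦ.continuous.integrable_of_hasCompactSupport hs)
    (fun x _ => hd x) (fun x _ => differentiableAt_const _)
  simpa using h.symm

/-- integration by parts for one direction and one centre. -/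
theorem integral_fderiv_mul_Kt {t : ℝ} (ht : 0 < t) {Φ : V n → ℝ} (hΦ : ContDiff ℝ (⊤ : ℕ∞) Φ)
    (hs : HasCompactSupport Φ) (e y : V n) :
    ∫ x, fderiv ℝ Φ x e * Kt n t e (x - y) = -∫ x, Φ x * dK n t e (x - y) := by
  have hd : Differentiable ℝ Φ := hΦ.differentiable (by simp)
  have hc : Continuous fun x => fderiv ℝ Φ x e :=
    (hΦ.continuous_fderiv (by simp)).clm_apply continuous_const
  have hcs : HasCompactSupport fun x => fderiv ℝ Φ x e := hs.fderiv_apply (𝕜 := ℝ) e
  have hK := continuous_Kt n ht e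
  have hdK := continuous_dK n ht e
  have hKy : Continuous fun x => Kt n t e (x - y) := by fun_prop
  have hdKy : Continuous fun x => dK n t e (x - y) := by fun_prop
  have h := integral_bilinear_hasLineDerivAt_right_eq_neg_left_of_integrable
    (μ := (volume : Measure (V n))) (f := Φ) (f' := fun x => fderiv ℝ Φ x e)
    (g := fun x => Kt n t e (x - y)) (g' := fun x => dK n t e (x - y)) (v := e)
    (B := ContinuousLinearMap.mul ℝ ℝ)
    ((hc.mul hKy).integrable_of_hasCompactSupport hcs.mul_right)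
    ((hΦ.continuous.mul hdKy).integrable_of_hasCompactSupport hs.mul_right)
    ((hΦ.continuous.mul hKy).integrable_of_hasCompactSupport hs.mul_right)
    (fun x _ => (hd x).hasFDerivAt.hasLineDerivAt e)
    (fun x _ => by
      have := hasLineDerivAt_Kt n ht e (x - y)
      unfold HasLineDerivAt at this ⊢
      refine this.congr_of_eventuallyEq (Eventually.of_forall fun s => ?_)
      simp only
      congr 1
      abel)
  simp only [ContinuousLinearMap.mul_apply'] at h
  rw [h, neg_neg]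

/-- Fubini for the regularised potential. -/
theorem integral_fderiv_mul_Ft (hν : UpperReg n C ν) (hC : 0 ≤ C) {t : ℝ} (ht : 0 < t)
    {Φ : V n → ℝ} (hΦ : ContDiff ℝ (⊤ : ℕ∞) Φ) (hs : HasCompactSupport Φ) (e : V n) :
    Integrable (fun y => ∫ x, Φ x * dK n t e (x - y)) ν ∧
    ∫ x, fderiv ℝ Φ x e * Ft n ν t e x = -∫ y, (∫ x, Φ x * dK n t e (x - y)) ∂ν := by
  have hlf := isLocallyFinite_of_upper hν
  have hc : Continuous fun x => fderiv ℝ Φ x e :=
    (hΦ.continuous_fderiv (by simp)).clm_apply continuous_const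
  have hcs : HasCompactSupport fun x => fderiv ℝ Φ x e := hs.fderiv_apply (𝕜 := ℝ) e
  have hK := continuous_Kt n ht e
  have hk := continuous_kt (E := V n) n ht
  set H : V n × V n → ℝ := fun p => fderiv ℝ Φ p.1 e * (Kt n t e (p.1 - p.2) - Kt n t e (0 - p.2))
    with hH
  have hHc : Continuous H := by
    have h1 : Continuous fun p : V n × V n => fderiv ℝ Φ p.1 e := hc.comp continuous_fst
    rw [hH]; fun_prop
  set w : V n → ℝ := fun x => |fderiv ℝ Φ x e| * ((n + 2) * ‖e‖ * ‖x‖) with hw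
  have hwc : Continuous w := by rw [hw]; fun_prop
  have hw0 : ∀ x, 0 ≤ w x := fun x => by simp only [hw]; positivity
  have hws : HasCompactSupport w := hcs.abs.mul_right
  have hwi : Integrable w (volume : Measure (V n)) := hwc.integrable_of_hasCompactSupport hws
  have hHle : ∀ p : V n × V n, ‖H p‖ ≤ w p.1 * (kt n t (p.1 - p.2) + kt n t (0 - p.2)) := by
    rintro ⟨x, y⟩
    simp only [hH, hw]
    rw [norm_mul, Real.norm_eq_abs, Real.norm_eq_abs, mul_assoc]
    gcongr
    have := abs_Kt_sub_le n ht e (x - y) (0 - y)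
    rwa [sub_sub_sub_cancel_right, sub_zero] at this
  have hHi : Integrable H ((volume : Measure (V n)).prod ν) := by
    refine ⟨hHc.aestronglyMeasurable, ?_⟩
    rw [hasFiniteIntegral_iff_enorm]
    set Q : ℝ := C * 2 ^ (n + 2) / t with hQ
    have hQ0 : 0 ≤ Q := by positivity
    calc ∫⁻ p, ‖H p‖ₑ ∂((volume : Measure (V n)).prod ν)
        ≤ ∫⁻ p, ENNReal.ofReal (w p.1 * (kt n t (p.1 - p.2) + kt n t (0 - p.2)))
            ∂((volume : Measure (V n)).prod ν) := by
          gcongr with p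
          rw [← ofReal_norm]
          exact ENNReal.ofReal_le_ofReal (hHle p)
      _ = ∫⁻ x, ∫⁻ y, ENNReal.ofReal (w x * (kt n t (x - y) + kt n t (0 - y))) ∂ν := by
          rw [lintegral_prod]
          have : Continuous fun p : V n × V n =>
              w p.1 * (kt n t (p.1 - p.2) + kt n t (0 - p.2)) := by fun_prop
          exact this.measurable.ennreal_ofReal.aemeasurable
      _ ≤ ∫⁻ x, ENNReal.ofReal (w x) * ENNReal.ofReal (2 * Q) := by
          gcongr with x
          calc ∫⁻ y, ENNReal.ofReal (w x * (kt n t (x - y) + kt n t (0 - y))) ∂ν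
              = ENNReal.ofReal (w x) * ∫⁻ y, (ENNReal.ofReal (kt n t (x - y))
                  + ENNReal.ofReal (kt n t (0 - y))) ∂ν := by
                rw [← lintegral_const_mul' _ _ ENNReal.ofReal_ne_top]
                congr 1; ext y
                rw [ENNReal.ofReal_mul (hw0 x), ENNReal.ofReal_add (kt_nonneg _ _ _)
                  (kt_nonneg _ _ _)]
            _ = ENNReal.ofReal (w x) * (∫⁻ y, ENNReal.ofReal (kt n t (x - y)) ∂ν
                  + ∫⁻ y, ENNReal.ofReal (kt n t (0 - y)) ∂ν) := by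
                rw [lintegral_add_left (measurable_kt n ht x).ennreal_ofReal]
            _ ≤ ENNReal.ofReal (w x) * (ENNReal.ofReal Q + ENNReal.ofReal Q) := by
                gcongr
                · exact lintegral_kt_le hν hC ht x
                · exact lintegral_kt_le hν hC ht 0
            _ = ENNReal.ofReal (w x) * ENNReal.ofReal (2 * Q) := by
                rw [← ENNReal.ofReal_add hQ0 hQ0]; congr 2; ring
      _ = (∫⁻ x, ENNReal.ofReal (w x)) * ENNReal.ofReal (2 * Q) := by
          rw [lintegral_mul_const' _ _ ENNReal.ofReal_ne_top]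
      _ < ⊤ := by
          rw [← ofReal_integral_eq_lintegral_ofReal hwi (Eventually.of_forall hw0)]
          exact ENNReal.mul_lt_top ENNReal.ofReal_lt_top ENNReal.ofReal_lt_top
  have hinner : ∀ y, ∫ x, H (x, y) = -∫ x, Φ x * dK n t e (x - y) := by
    intro y
    simp only [hH]
    have h1 : Integrable (fun x => fderiv ℝ Φ x e * Kt n t e (x - y)) (volume : Measure (V n)) :=
      (hc.mul (by fun_prop : Continuous fun x => Kt n t e (x - y))).integrable_of_hasCompactSupport
        hcs.mul_right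
    have h2 : Integrable (fun x => fderiv ℝ Φ x e * Kt n t e (0 - y)) (volume : Measure (V n)) :=
      (hc.integrable_of_hasCompactSupport hcs).mul_const _
    have e1 : ∀ x, fderiv ℝ Φ x e * (Kt n t e (x - y) - Kt n t e (0 - y))
        = fderiv ℝ Φ x e * Kt n t e (x - y) - fderiv ℝ Φ x e * Kt n t e (0 - y) := fun x => by ring
    simp only [e1]
    rw [integral_sub h1 h2, integral_mul_const, integral_fderiv_eq_zero hΦ hs e, zero_mul,
      sub_zero, integral_fderiv_mul_Kt ht hΦ hs e y]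
  constructor
  · have h1 := hHi.integral_prod_right
    have h2 := h1.neg
    refine h2.congr (Eventually.of_forall fun y => ?_)
    simp only [Pi.neg_apply]
    rw [hinner y, neg_neg]
  · have h1 : ∫ x, fderiv ℝ Φ x e * Ft n ν t e x = ∫ x, ∫ y, H (x, y) ∂ν := by
      congr 1; ext x
      simp only [hH]
      rw [integral_const_mul]
      rfl
    rw [h1, integral_integral_swap hHi]
    simp only [hinner]
    rw [integral_neg]

/-- **(D)** sum over the coordinate directions. -/
theorem sum_integral_fderiv_mul_Ft (hν : UpperReg n C ν) (hC : 0 ≤ C) {t : ℝ} (ht : 0 < t)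
    {Φ : V n → ℝ} (hΦ : ContDiff ℝ (⊤ : ℕ∞) Φ) (hs : HasCompactSupport Φ) :
    ∑ i : Fin n, ∫ x, fderiv ℝ Φ x (EuclideanSpace.single i (1:ℝ)) *
        Ft n ν t (EuclideanSpace.single i (1:ℝ)) x
      = -∫ y, (∫ x, Φ x * Dt n t (x - y)) ∂ν := by
  have h := fun i : Fin n => integral_fderiv_mul_Ft hν hC ht hΦ hs (EuclideanSpace.single i (1:ℝ))
  rw [Finset.sum_congr rfl fun i _ => (h i).2, Finset.sum_neg_distrib,
    ← integral_finsetSum _ fun i _ => (h i).1]
  congr 2; ext y
  rw [← integral_finsetSum]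
  · congr 1; ext x
    rw [← Finset.mul_sum, sum_dK n ht]
  · intro i _
    have := continuous_dK n ht (EuclideanSpace.single i (1:ℝ))
    exact (hΦ.continuous.mul (by fun_prop : Continuous fun x =>
      dK n t (EuclideanSpace.single i (1:ℝ)) (x - y))).integrable_of_hasCompactSupport hs.mul_right

theorem FtN_volume {t N : ℝ} (ht : 0 < t) (hN : 0 < N) (e x : V n) :
    FtN n volume t N e x = ∫ z, KtN n t N e z := by
  have : FtN n volume t N e x = ∫ y, KtN n t N e (x - y) := rfl
  rw [this, integral_sub_left_eq_self (KtN n t N e) volume x]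

theorem Ft_volume (hn : 1 ≤ n) {t : ℝ} (ht : 0 < t) (e x : V n) :
    Ft n volume t e x = 0 := by
  obtain ⟨C, hC, hU⟩ := Liou.upperReg_volume (n := n) (by omega)
  have h1 := tendsto_FtN hU hC ht e x
  refine tendsto_nhds_unique h1 ?_
  apply tendsto_const_nhds.congr'
  filter_upwards [eventually_gt_atTop 0] with N hN
  rw [FtN_volume ht hN, FtN_volume ht hN, sub_self]

theorem integrable_Dt (hn : 1 ≤ n) {t : ℝ} (ht : 0 < t) : Integrable (Dt n t) := by
  obtain ⟨C, hC, hU⟩ := Liou.upperReg_volume (n := n) (by omega)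
  have h1 := (integrable_kt hU hC ht 0).1
  have h2 : Integrable (fun z : V n => kt n t z) := by
    refine h1.congr (Eventually.of_forall fun z => ?_)
    simp only [zero_sub, kt_neg]
  refine (h2.const_mul n).mono' (continuous_Dt n ht).aestronglyMeasurable
    (Eventually.of_forall fun z => ?_)
  rw [Real.norm_eq_abs]
  exact abs_Dt_le hn ht z

theorem integral_Dt (hn : 1 ≤ n) {t : ℝ} (ht : 0 < t) : ∫ z, Dt n t z = 0 := by
  obtain ⟨C, hC, hU⟩ := Liou.upperReg_volume (n := n) (by omega)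
  -- a bump function
  let b : ContDiffBump (0 : V n) := ⟨1, 2, one_pos, one_lt_two⟩
  have hb : ContDiff ℝ (⊤ : ℕ∞) (b : V n → ℝ) := b.contDiff
  have hbs : HasCompactSupport (b : V n → ℝ) := b.hasCompactSupport
  have hbi : Integrable (b : V n → ℝ) := hb.continuous.integrable_of_hasCompactSupport hbs
  have hpos : 0 < ∫ x, b x := b.integral_pos
  have h1 := sum_integral_fderiv_mul_Ft hU hC ht hb hbs
  have h2 : ∑ i : Fin n, ∫ x, fderiv ℝ (b : V n → ℝ) x (EuclideanSpace.single i (1:ℝ)) *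
        Ft n volume t (EuclideanSpace.single i (1:ℝ)) x = 0 := by
    apply Finset.sum_eq_zero
    intro i _
    simp only [Ft_volume hn ht, mul_zero, integral_zero]
  rw [h2] at h1
  have hDi := integrable_Dt hn ht
  have hDc := continuous_Dt n ht
  have hprod : Integrable (fun p : V n × V n => b p.1 * Dt n t (p.1 - p.2))
      ((volume : Measure (V n)).prod volume) := by
    have h3 : Integrable (fun p : V n × V n => b p.1 * Dt n t p.2)
        ((volume : Measure (V n)).prod volume) := hbi.mul_prod hDi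
    have hc : Continuous (fun p : V n × V n => b p.1 * Dt n t (p.1 - p.2)) := by
      have := hb.continuous
      fun_prop
    rw [integrable_prod_iff hc.aestronglyMeasurable]
    constructor
    · refine Eventually.of_forall fun x => ?_
      have h6 : Integrable (fun y : V n => b x * Dt n t (x - y)) :=
        (hDi.comp_sub_left x).const_mul _
      exact h6
    · have : ∀ x : V n, ∫ y, ‖b x * Dt n t (x - y)‖ = b x * ∫ y, ‖Dt n t y‖ := by
        intro x
        simp only [norm_mul]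
        rw [integral_const_mul, integral_sub_left_eq_self (fun z => ‖Dt n t z‖) volume x,
          Real.norm_of_nonneg b.nonneg]
      simp only [this]
      exact hbi.mul_const _
  have h4 : ∫ y, (∫ x, b x * Dt n t (x - y)) = (∫ x, b x) * ∫ z, Dt n t z := by
    rw [← integral_integral_swap hprod]
    simp only [integral_const_mul]
    rw [← integral_mul_const]
    congr 1; ext x
    rw [integral_sub_left_eq_self (Dt n t) volume x]
  rw [h4] at h1
  have h5 : (∫ x, b x) * ∫ z, Dt n t z = 0 := by linarith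
  exact (mul_eq_zero.1 h5).resolve_left hpos.ne'

end Crest.Agent.R085.Flat
end
end

-- ▼ part R085/FlatLam
section

/-!
R085, module M7, step (E): `∫ Λψ dν = 0` for all `ψ ∈ C_c^∞`.
-/

set_option autoImplicit false
set_option linter.unusedSectionVars false
set_option linter.unusedVariables false

noncomputable section

namespace Crest.Agent.R085.Flat

open MeasureTheory Metric Set Filter
open scoped ENNReal NNReal Topology

variable {n : ℕ} {C c : ℝ} {ν : Measure (V n)}

/-- `Pt ψ y = ∫ ψ(x) Dt(x - y) dx`. -/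
def Pt (n : ℕ) (t : ℝ) (ψ : V n → ℝ) (y : V n) : ℝ := ∫ x, ψ x * Dt n t (x - y)

theorem Pt_eq (hn : 1 ≤ n) {t : ℝ} (ht : 0 < t) {ψ : V n → ℝ} (hψ : ContDiff ℝ (⊤ : ℕ∞) ψ)
    (hs : HasCompactSupport ψ) (y : V n) :
    Pt n t ψ y = -(1 / 2) * ∫ h, Liou.sd ψ y h * Dt n t h := by
  have hc := hψ.continuous
  have hD := continuous_Dt n ht
  have hDi := integrable_Dt hn ht
  have h1 : Pt n t ψ y = ∫ h, ψ (y + h) * Dt n t h := by
    unfold Pt
    rw [← integral_add_left_eq_self (fun x => ψ x * Dt n t (x - y)) y]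
    congr 1; ext h
    rw [add_sub_cancel_left]
  have h2 : Pt n t ψ y = ∫ h, ψ (y - h) * Dt n t h := by
    rw [h1, ← integral_neg_eq_self]
    congr 1; ext h
    rw [Dt_neg, sub_eq_add_neg]
  have hs1 : HasCompactSupport fun h => ψ (y + h) :=
    hs.comp_homeomorph (Homeomorph.addLeft y)
  have hs2 : HasCompactSupport fun h => ψ (y - h) :=
    hs.comp_homeomorph (Homeomorph.subLeft y)
  have hc1 : Continuous fun h => ψ (y + h) := by fun_prop
  have hc2 : Continuous fun h => ψ (y - h) := by fun_prop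
  have i1 : Integrable fun h => ψ (y + h) * Dt n t h :=
    (hc1.mul hD).integrable_of_hasCompactSupport hs1.mul_right
  have i2 : Integrable fun h => ψ (y - h) * Dt n t h :=
    (hc2.mul hD).integrable_of_hasCompactSupport hs2.mul_right
  have i0 : Integrable fun h => 2 * ψ y * Dt n t h := hDi.const_mul _
  have h3 : ∫ h, Liou.sd ψ y h * Dt n t h
      = (∫ h, 2 * ψ y * Dt n t h) - (∫ h, ψ (y + h) * Dt n t h)
        - (∫ h, ψ (y - h) * Dt n t h) := by
    rw [← integral_sub i0 i1, ← integral_sub (f := fun h => 2 * ψ y * Dt n t h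
      - ψ (y + h) * Dt n t h) (i0.sub i1) i2]
    congr 1; ext h
    unfold Liou.sd
    ring
  rw [h3, integral_const_mul, integral_Dt hn ht, ← h1, ← h2]
  ring

theorem abs_sd_mul_Dt_le (hn : 1 ≤ n) {t : ℝ} (ht : 0 < t) {ψ : V n → ℝ} {M : ℝ} (hM0 : 0 ≤ M)
    (hM : ∀ x h : V n, |Liou.sd ψ x h| ≤ M * min (‖h‖ ^ 2) 1) (y h : V n) :
    ‖Liou.sd ψ y h * Dt n t h‖ ≤ M * n * Liou.wt n h := by
  rw [norm_mul, Real.norm_eq_abs, Real.norm_eq_abs]
  have h0 := hM y h
  have h1 := abs_Dt_le hn ht h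
  rcases eq_or_ne h 0 with rfl | hz
  · have : Liou.sd ψ y 0 = 0 := by unfold Liou.sd; simp; ring
    rw [this, abs_zero, zero_mul]
    have := Liou.wt_nonneg (0 : V n)
    positivity
  · have h2 := kt_le_norm n (t := t) hz
    have h3 : |Dt n t h| ≤ n * (‖h‖ ^ (n + 1))⁻¹ := h1.trans (by gcongr)
    calc |Liou.sd ψ y h| * |Dt n t h|
        ≤ (M * min (‖h‖ ^ 2) 1) * (n * (‖h‖ ^ (n + 1))⁻¹) := by gcongr
      _ = M * n * Liou.wt n h := by unfold Liou.wt; ring

theorem tendsto_Dt (n : ℕ) {h : V n} (hh : h ≠ 0) :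
    Tendsto (fun t : ℝ => Dt n t h) (𝓝[>] 0) (𝓝 (-(‖h‖ ^ (n + 1))⁻¹)) := by
  have hpos : 0 < ‖h‖ := norm_pos_iff.2 hh
  have hcont : ContinuousAt (fun t : ℝ => Dt n t h) 0 := by
    unfold Dt rt
    have h1 : ContinuousAt (fun t : ℝ => (√(‖h‖ ^ 2 + t ^ 2)) ^ (n + 3)) 0 := by fun_prop
    have h2 : (√(‖h‖ ^ 2 + (0:ℝ) ^ 2)) ^ (n + 3) ≠ 0 := by
      have : 0 < √(‖h‖ ^ 2 + (0:ℝ) ^ 2) := by
        apply Real.sqrt_pos.2; positivity
      positivity
    exact ContinuousAt.mul (by fun_prop) (h1.inv₀ h2)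
  have h0 : Dt n 0 h = -(‖h‖ ^ (n + 1))⁻¹ := by
    unfold Dt rt
    rw [zero_pow two_ne_zero, add_zero, Real.sqrt_sq hpos.le]
    have : ‖h‖ ^ (n + 3) = ‖h‖ ^ 2 * ‖h‖ ^ (n + 1) := by rw [← pow_add]; congr 1; omega
    rw [this]; field_simp; ring
  rw [← h0]
  exact hcont.tendsto.mono_left nhdsWithin_le_nhds

theorem tendsto_Pt (hn : 1 ≤ n) {ψ : V n → ℝ} (hψ : ContDiff ℝ (⊤ : ℕ∞) ψ)
    (hs : HasCompactSupport ψ) (y : V n) :
    Tendsto (fun t : ℝ => Pt n t ψ y) (𝓝[>] 0) (𝓝 (1 / 2 * Liou.Lam ψ y)) := by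
  obtain ⟨M, hM0, hM⟩ := Liou.sd_bound hψ hs
  have key : Tendsto (fun t : ℝ => ∫ h, Liou.sd ψ y h * Dt n t h) (𝓝[>] 0)
      (𝓝 (∫ h, Liou.sd ψ y h * (-(‖h‖ ^ (n + 1))⁻¹))) := by
    apply tendsto_integral_filter_of_dominated_convergence (fun h => M * n * Liou.wt n h)
    · filter_upwards [self_mem_nhdsWithin] with t ht
      have h1 : Continuous fun h : V n => Liou.sd ψ y h := by
        have := hψ.continuous
        unfold Liou.sd; fun_prop
      exact (h1.mul (continuous_Dt n ht)).aestronglyMeasurable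
    · filter_upwards [self_mem_nhdsWithin] with t ht
      exact Eventually.of_forall fun h => abs_sd_mul_Dt_le hn ht hM0 hM y h
    · exact (Liou.integrable_wt (by omega)).const_mul _
    · refine Eventually.of_forall fun h => ?_
      rcases eq_or_ne h 0 with rfl | hz
      · have : Liou.sd ψ y 0 = 0 := by unfold Liou.sd; simp; ring
        simp only [this, zero_mul]
        exact tendsto_const_nhds
      · exact (tendsto_Dt n hz).const_mul _
  have h2 : 1 / 2 * Liou.Lam ψ y = -(1 / 2) * ∫ h, Liou.sd ψ y h * (-(‖h‖ ^ (n + 1))⁻¹) := by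
    have : ∀ h : V n, Liou.sd ψ y h * (-(‖h‖ ^ (n + 1))⁻¹)
        = -((2 * ψ y - ψ (y + h) - ψ (y - h)) * (‖h‖ ^ (n + 1))⁻¹) := fun h => by
      unfold Liou.sd; ring
    simp only [this]
    rw [integral_neg]
    unfold Liou.Lam
    ring
  rw [h2]
  refine (key.const_mul _).congr' ?_
  filter_upwards [self_mem_nhdsWithin] with t ht
  rw [Pt_eq hn ht hψ hs y]

theorem continuous_Pt (hn : 1 ≤ n) {t : ℝ} (ht : 0 < t) {ψ : V n → ℝ} (hψ : Continuous ψ)
    (hs : HasCompactSupport ψ) : AEStronglyMeasurable (Pt n t ψ) ν := by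
  have hD := continuous_Dt n ht
  have h : StronglyMeasurable (fun p : V n × V n => ψ p.2 * Dt n t (p.2 - p.1)) :=
    (by fun_prop : Continuous fun p : V n × V n => ψ p.2 * Dt n t (p.2 - p.1)).stronglyMeasurable
  exact (h.integral_prod_right' (ν := (volume : Measure (V n)))).aestronglyMeasurable

/-- uniform decay of `Pt ψ`. -/
theorem exists_Pt_bound (hn : 1 ≤ n) {ψ : V n → ℝ} (hψ : ContDiff ℝ (⊤ : ℕ∞) ψ)
    (hs : HasCompactSupport ψ) :
    ∃ B : ℝ, 0 ≤ B ∧ ∀ t : ℝ, 0 < t → ∀ y : V n, |Pt n t ψ y| ≤ B * kt n 1 y := by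
  obtain ⟨M, hM0, hM⟩ := Liou.sd_bound hψ hs
  obtain ⟨ρ, hρ1, hρ⟩ := hs.isCompact.isBounded.subset_ball_lt 1 0
  have hρ0 : 0 < ρ := by linarith
  have hz : ∀ x, x ∉ ball (0 : V n) ρ → ψ x = 0 := fun x hx =>
    image_eq_zero_of_notMem_tsupport fun h => hx (hρ h)
  have hψi : Integrable ψ := hψ.continuous.integrable_of_hasCompactSupport hs
  set c1 : ℝ := 1 / 2 * ∫ h, M * n * Liou.wt n h with hc1
  have hwnn : 0 ≤ ∫ h, M * n * Liou.wt n h := integral_nonneg fun h => by
    have := Liou.wt_nonneg h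
    positivity
  have hc10 : 0 ≤ c1 := by positivity
  set L1 : ℝ := ∫ x, |ψ x| with hL1
  have hL10 : 0 ≤ L1 := integral_nonneg fun x => abs_nonneg _
  refine ⟨c1 * (1 + 2 * ρ) ^ (n + 1) + L1 * n * 4 ^ (n + 1), by positivity, fun t ht y => ?_⟩
  have hkt1 := kt_pos n one_pos y
  have hrt1 := rt_pos one_pos y
  have hrtle : rt 1 y ≤ 1 + ‖y‖ := by
    unfold rt
    rw [Real.sqrt_le_left (by positivity)]
    nlinarith [norm_nonneg y]
  rcases le_or_gt (2 * ρ) ‖y‖ with hy | hy
  · -- far
    have hy0 : 0 < ‖y‖ := by linarith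
    have hker : ∀ x : V n, |ψ x * Dt n t (x - y)| ≤ |ψ x| * (n * (4 ^ (n + 1) * kt n 1 y)) := by
      intro x
      rw [abs_mul]
      by_cases hx : x ∈ ball (0 : V n) ρ
      · gcongr
        rw [mem_ball, dist_zero_right] at hx
        have h1 : ‖y‖ / 2 ≤ ‖x - y‖ := by
          have := norm_sub_norm_le y x
          rw [norm_sub_rev] at this
          linarith
        have hne : x - y ≠ 0 := by
          intro h0
          rw [h0, norm_zero] at h1
          linarith
        refine (abs_Dt_le hn ht _).trans ?_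
        gcongr
        refine (kt_le_norm n (t := t) hne).trans ?_
        unfold kt
        rw [← inv_pow, ← inv_pow, ← mul_pow]
        gcongr
        have h2 : rt 1 y ≤ 4 * ‖x - y‖ := by linarith
        rw [inv_le_iff_one_le_mul₀ (by linarith), mul_comm, ← mul_assoc, mul_comm ‖x - y‖ 4,
          ← div_eq_mul_inv, one_le_div hrt1]
        exact h2
      · rw [hz x hx, abs_zero, zero_mul, zero_mul]
    have h2 : |Pt n t ψ y| ≤ L1 * (n * (4 ^ (n + 1) * kt n 1 y)) := by
      unfold Pt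
      rw [← Real.norm_eq_abs]
      calc ‖∫ x, ψ x * Dt n t (x - y)‖ ≤ ∫ x, |ψ x| * (n * (4 ^ (n + 1) * kt n 1 y)) := by
            apply norm_integral_le_of_norm_le (hψi.abs.mul_const _)
            exact Eventually.of_forall fun x => hker x
        _ = _ := by rw [integral_mul_const]
    refine h2.trans ?_
    have : 0 ≤ c1 * (1 + 2 * ρ) ^ (n + 1) * kt n 1 y := by positivity
    nlinarith
  · -- near
    have h2 : |Pt n t ψ y| ≤ c1 := by
      rw [Pt_eq hn ht hψ hs y, abs_mul, abs_neg, abs_of_pos (by norm_num : (0:ℝ) < 1 / 2), hc1]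
      gcongr
      rw [← Real.norm_eq_abs]
      apply norm_integral_le_of_norm_le ((Liou.integrable_wt (by omega)).const_mul _)
      exact Eventually.of_forall fun h => abs_sd_mul_Dt_le hn ht hM0 hM y h
    have h3 : 1 ≤ (1 + 2 * ρ) ^ (n + 1) * kt n 1 y := by
      unfold kt
      rw [← inv_pow, ← mul_pow]
      apply one_le_pow₀
      rw [← div_eq_mul_inv, one_le_div hrt1]
      linarith
    calc |Pt n t ψ y| ≤ c1 * 1 := by linarith
      _ ≤ c1 * ((1 + 2 * ρ) ^ (n + 1) * kt n 1 y) := by gcongr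
      _ ≤ (c1 * (1 + 2 * ρ) ^ (n + 1) + L1 * n * 4 ^ (n + 1)) * kt n 1 y := by
          have : 0 ≤ L1 * n * 4 ^ (n + 1) * kt n 1 y := by positivity
          nlinarith

/-- **(E)** `∫ Λψ dν = 0`. -/
theorem integral_Lam_eq_zero (hn : 1 ≤ n) (hν : UpperReg n C ν) (hC : 0 ≤ C) (hc : 0 < c)
    (hL : ∀ (x : V n) (r : ℝ), 0 < r → ENNReal.ofReal (c * r ^ n) ≤ ν (ball x r))
    (hR : Refl n ν) {ψ : V n → ℝ} (hψ : ContDiff ℝ (⊤ : ℕ∞) ψ) (hs : HasCompactSupport ψ) :
    ∫ y, Liou.Lam ψ y ∂ν = 0 := by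
  have hlf := isLocallyFinite_of_upper hν
  obtain ⟨B, hB0, hB⟩ := exists_Pt_bound hn hψ hs
  have hki : Integrable (fun y => kt n 1 y) ν := by
    refine (integrable_kt hν hC one_pos 0).1.congr (Eventually.of_forall fun z => ?_)
    simp only [zero_sub, kt_neg]
  have h1 : Tendsto (fun t : ℝ => ∫ y, Pt n t ψ y ∂ν) (𝓝[>] 0)
      (𝓝 (∫ y, 1 / 2 * Liou.Lam ψ y ∂ν)) := by
    apply tendsto_integral_filter_of_dominated_convergence (fun y => B * kt n 1 y)
    · filter_upwards [self_mem_nhdsWithin] with t ht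
      exact continuous_Pt hn ht hψ.continuous hs
    · filter_upwards [self_mem_nhdsWithin] with t ht
      exact Eventually.of_forall fun y => hB t ht y
    · exact hki.const_mul _
    · exact Eventually.of_forall fun y => tendsto_Pt hn hψ hs y
  have h2 : Tendsto (fun t : ℝ => ∑ i : Fin n, ∫ x,
      fderiv ℝ ψ x (EuclideanSpace.single i (1:ℝ)) *
        Ft n ν t (EuclideanSpace.single i (1:ℝ)) x) (𝓝[>] 0) (𝓝 (∑ i : Fin n, (0:ℝ))) := by
    apply tendsto_finsetSum
    intro i _
    exact tendsto_integral_mul_Ft hn hν hC hc hL hR _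
      ((hψ.continuous_fderiv (by simp)).clm_apply continuous_const)
      (hs.fderiv_apply (𝕜 := ℝ) _) (integral_fderiv_eq_zero hψ hs _)
  have h3 : Tendsto (fun t : ℝ => ∫ y, Pt n t ψ y ∂ν) (𝓝[>] 0) (𝓝 0) := by
    have h4 := h2.neg
    simp only [Finset.sum_const_zero, neg_zero] at h4
    refine h4.congr' ?_
    filter_upwards [self_mem_nhdsWithin] with t ht
    rw [sum_integral_fderiv_mul_Ft hν hC ht hψ hs, neg_neg]
    rfl
  have h5 := tendsto_nhds_unique h1 h3
  rw [integral_const_mul] at h5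
  linarith

end Crest.Agent.R085.Flat
end
end

-- ▼ part R085/FlatConst
section

/-!
R085, module M7: a reflectionless measure on `V n` with two-sided regularity on all balls is a
multiple of Lebesgue measure.
-/

set_option autoImplicit false
set_option linter.unusedSectionVars false
set_option linter.unusedVariables false

noncomputable section

namespace Crest.Agent.R085.Flat

open MeasureTheory Metric Set Filter
open scoped ENNReal NNReal Topology

variable {n : ℕ} {C c : ℝ} {ν : Measure (V n)}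

theorem const_of_full (hn : 1 ≤ n) (hν : UpperReg n C ν) (hC : 0 ≤ C) (hc : 0 < c)
    (hL : ∀ (x : V n) (r : ℝ), 0 < r → ENNReal.ofReal (c * r ^ n) ≤ ν (ball x r))
    (hR : Refl n ν) :
    ∃ c0 : ℝ, 0 < c0 ∧ ν = ENNReal.ofReal c0 • (volume : Measure (V n)) := by
  have hlf := isLocallyFinite_of_upper hν
  obtain ⟨K, hK⟩ := exists_le_smul_volume hν hC
  have hac : ν ≪ (volume : Measure (V n)) :=
    (Measure.absolutelyContinuous_of_le hK).trans Measure.smul_absolutelyContinuous
  set T : V n → ℝ := fun x => (ν.rnDeriv volume x).toReal with hT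
  have hTm : Measurable T := (Measure.measurable_rnDeriv ν volume).ennreal_toReal
  have hle : ∀ᵐ x ∂(volume : Measure (V n)), ν.rnDeriv volume x ≤ (K : ℝ≥0∞) := by
    refine ae_le_of_forall_setLIntegral_le_of_sigmaFinite (Measure.measurable_rnDeriv ν volume)
      fun s hs _ => ?_
    rw [setLIntegral_const]
    refine (Measure.setLIntegral_rnDeriv_le s).trans ((hK s).trans (le_of_eq ?_))
    rw [Measure.smul_apply, ENNReal.smul_def, smul_eq_mul]
  have hTle : ∀ᵐ x ∂(volume : Measure (V n)), ‖T x‖ ≤ (K : ℝ) := by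
    filter_upwards [hle] with x hx
    rw [Real.norm_of_nonneg ENNReal.toReal_nonneg]
    have := ENNReal.toReal_mono ENNReal.coe_ne_top hx
    simpa using this
  have hmem : ∀ R : ℝ, MemLp T 2 (volume.restrict (ball (0 : V n) R)) := by
    intro R
    have : IsFiniteMeasure ((volume : Measure (V n)).restrict (ball (0 : V n) R)) :=
      ⟨by rw [Measure.restrict_apply_univ]; exact measure_ball_lt_top⟩
    exact MemLp.of_bound hTm.aestronglyMeasurable (K : ℝ) (ae_restrict_of_ae hTle)
  have hGr : Gr ((K : ℝ) ^ 2 * (volume (ball (0 : V n) 1)).toReal) (n : ℝ) T := by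
    intro R hR
    have hR0 : 0 < R := by linarith
    have : Nonempty (Fin n) := ⟨⟨0, hn⟩⟩
    calc ∫ x in ball (0 : V n) R, (T x) ^ 2
        ≤ ∫ x in ball (0 : V n) R, (K : ℝ) ^ 2 := by
          apply integral_mono_of_nonneg
          · exact Eventually.of_forall fun x => by positivity
          · exact integrableOn_const measure_ball_lt_top.ne
          · refine ae_restrict_of_ae ?_
            filter_upwards [hTle] with x hx
            rw [Real.norm_eq_abs] at hx
            have h3 := pow_le_pow_left₀ (abs_nonneg _) hx 2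
            rwa [sq_abs] at h3
      _ = (K : ℝ) ^ 2 * (volume (ball (0 : V n) 1)).toReal * R ^ (n : ℝ) := by
          rw [setIntegral_const, smul_eq_mul, measureReal_def]
          have h1 := Measure.addHaar_ball (volume : Measure (V n)) 0 hR0.le
          rw [finrank_euclideanSpace_fin] at h1
          rw [h1, ENNReal.toReal_mul, ENNReal.toReal_ofReal (by positivity), Real.rpow_natCast]
          ring
  obtain ⟨c0, hc0⟩ := Liou.liouville_L2_const (n := n) (by omega) (by linarith : (n:ℝ) < n + 2)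
    hmem hGr (fun ψ hψ => by
      have h1 := integral_rnDeriv_smul (μ := ν) (ν := (volume : Measure (V n))) hac
        (f := fun x => Liou.Lam ψ x)
      simp only [smul_eq_mul] at h1
      have h2 := integral_Lam_eq_zero hn hν hC hc hL hR hψ.smooth hψ.cpt
      rw [h2] at h1
      exact h1)
  have hrn : ν.rnDeriv volume =ᵐ[volume] fun _ => ENNReal.ofReal c0 := by
    filter_upwards [hc0, hle] with x h1 h2
    rw [← h1]
    exact (ENNReal.ofReal_toReal (ne_top_of_le_ne_top ENNReal.coe_ne_top h2)).symm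
  have hνeq : ν = ENNReal.ofReal c0 • (volume : Measure (V n)) := by
    rw [← Measure.withDensity_rnDeriv_eq ν volume hac, withDensity_congr_ae hrn,
      withDensity_const]
  refine ⟨c0, ?_, hνeq⟩
  by_contra hneg
  push Not at hneg
  have h1 := hL 0 1 one_pos
  rw [hνeq, ENNReal.ofReal_of_nonpos hneg, zero_smul] at h1
  simp only [one_pow, mul_one, Measure.coe_zero, Pi.zero_apply, nonpos_iff_eq_zero,
    ENNReal.ofReal_eq_zero] at h1
  linarith

end Crest.Agent.R085.Flat
end
end

-- ▼ part R085/FlatTransfer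
section

/-!
# R085, M7-S1: transfer of a measure supported in the standard `n`-plane to `V n`.
-/

set_option autoImplicit false

namespace Crest.Agent.R085.Flat

open MeasureTheory Metric Set Filter
open scoped ENNReal NNReal Topology

section aux

variable {n d : ℕ}

/-- the projection as a linear map -/
noncomputable def prjLin (n d : ℕ) : V d →ₗ[ℝ] V n where
  toFun := prj n
  map_add' := prj_add n
  map_smul' := prj_smul n

lemma continuous_prj (n d : ℕ) : Continuous (prj n : V d → V n) :=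
  (prjLin n d).continuous_of_finiteDimensional



lemma continuous_inc (n d : ℕ) (hnd : n ≤ d) : Continuous (inc n d) :=
  (incL hnd).continuous

lemma inner_inc (hnd : n ≤ d) (x y : V n) : inner ℝ (inc n d x) (inc n d y) = inner ℝ x y :=
  (incL hnd).inner_map_map x y

lemma dist_inc (hnd : n ≤ d) (x y : V n) : dist (inc n d x) (inc n d y) = dist x y :=
  (incL hnd).dist_map x y

lemma inc_sub (hnd : n ≤ d) (x y : V n) : inc n d x - inc n d y = inc n d (x - y) :=
  ((incL hnd).map_sub x y).symm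

lemma prj_sub (x y : V d) : prj n x - prj n y = prj n (x - y) :=
  ((prjLin n d).map_sub x y).symm

lemma inc_prj_of_nsq (z : V d) (hz : nsq n z = 0) : inc n d (prj n z) = z := by
  have h1 : nrm n z = 0 := by
    have := norm_nrm_sq n z
    rw [hz] at this
    exact norm_eq_zero.mp (pow_eq_zero_iff (two_ne_zero) |>.mp this)
  have h2 := inc_prj_add_nrm n z
  rwa [h1, add_zero] at h2

lemma norm_prj_le (hnd : n ≤ d) (z : V d) : ‖prj n z‖ ≤ ‖z‖ := by
  have h1 : ‖inc n d (prj n z)‖ = ‖prj n z‖ := norm_inc hnd _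
  rw [← h1]
  refine le_of_sq_le_sq ?_ (norm_nonneg _)
  rw [EuclideanSpace.norm_sq_eq, EuclideanSpace.norm_sq_eq]
  refine Finset.sum_le_sum fun i _ => ?_
  rw [inc_apply]
  split_ifs with h
  · rw [prj_apply, dif_pos i.2]
  · simp only [norm_zero, ne_eq, OfNat.ofNat_ne_zero, not_false_eq_true, zero_pow]
    positivity

/-- the extension of a test function to `V d` -/
noncomputable def ext (n : ℕ) (ψ : V n → ℝ) (y : V d) : ℝ := ψ (prj n y) * max 0 (1 - ‖nrm n y‖)

lemma ext_inc (hnd : n ≤ d) (ψ : V n → ℝ) (x : V n) : ext n ψ (inc n d x) = ψ x := by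
  unfold ext
  rw [nrm_inc, prj_inc hnd]
  simp

lemma isTest_ext (hnd : n ≤ d) {ψ : V n → ℝ} (h : IsTest ψ) :
    IsTest (ext n ψ : V d → ℝ) := by
  obtain ⟨⟨K, hK⟩, hc⟩ := h
  obtain ⟨M, hM⟩ := hc.exists_bound_of_continuous hK.continuous
  have hM0 : 0 ≤ M := (norm_nonneg _).trans (hM 0)
  have hg1 : ∀ y : V d, |max 0 (1 - ‖nrm n y‖)| ≤ 1 := by
    intro y
    rw [abs_of_nonneg (le_max_left _ _)]
    exact max_le zero_le_one (by linarith [norm_nonneg (nrm n y)])
  have hg2 : ∀ y z : V d, |max 0 (1 - ‖nrm n y‖) - max 0 (1 - ‖nrm n z‖)| ≤ dist y z := by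
    intro y z
    have h1 : |max (1 - ‖nrm n y‖) 0 - max (1 - ‖nrm n z‖) 0| ≤
        |(1 - ‖nrm n y‖) - (1 - ‖nrm n z‖)| := abs_max_sub_max_le_abs _ _ _
    rw [max_comm 0, max_comm 0]
    refine h1.trans ?_
    have h2 : |(1 - ‖nrm n y‖) - (1 - ‖nrm n z‖)| = |‖nrm n z‖ - ‖nrm n y‖| := by
      congr 1; ring
    rw [h2, abs_sub_comm]
    refine (abs_norm_sub_norm_le _ _).trans ?_
    rw [← nrm_sub, dist_eq_norm]
    exact norm_nrm_le n _
  have hf2 : ∀ y z : V d, |ψ (prj n y) - ψ (prj n z)| ≤ K * dist y z := by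
    intro y z
    have h1 := hK.dist_le_mul (prj n y) (prj n z)
    rw [Real.dist_eq] at h1
    refine h1.trans (mul_le_mul_of_nonneg_left ?_ K.2)
    rw [dist_eq_norm, prj_sub, dist_eq_norm]
    exact norm_prj_le hnd _
  constructor
  · refine ⟨K + ⟨M, hM0⟩, LipschitzWith.of_dist_le_mul fun y z => ?_⟩
    rw [Real.dist_eq]
    have e1 : ext n ψ y - ext n ψ z =
        (ψ (prj n y) - ψ (prj n z)) * max 0 (1 - ‖nrm n y‖) +
        ψ (prj n z) * (max 0 (1 - ‖nrm n y‖) - max 0 (1 - ‖nrm n z‖)) := by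
      unfold ext; ring
    rw [e1]
    refine (abs_add_le _ _).trans ?_
    rw [abs_mul, abs_mul]
    have h3 : |ψ (prj n y) - ψ (prj n z)| * |max 0 (1 - ‖nrm n y‖)| ≤ (K * dist y z) * 1 :=
      mul_le_mul (hf2 y z) (hg1 y) (abs_nonneg _) (by positivity)
    have h4 : |ψ (prj n z)| * |max 0 (1 - ‖nrm n y‖) - max 0 (1 - ‖nrm n z‖)| ≤ M * dist y z :=
      mul_le_mul (hM _) (hg2 y z) (abs_nonneg _) hM0
    have h5 : ((K + ⟨M, hM0⟩ : ℝ≥0) : ℝ) = K + M := rfl
    rw [h5]
    linarith
  · have hb : Bornology.IsBounded (tsupport ψ) := hc.isCompact.isBounded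
    obtain ⟨R, hR⟩ := hb.subset_closedBall 0
    refine HasCompactSupport.of_support_subset_isCompact
      (isCompact_closedBall (0 : V d) (R + 1)) fun y hy => ?_
    rw [Function.mem_support] at hy
    unfold ext at hy
    have h1 : ψ (prj n y) ≠ 0 := left_ne_zero_of_mul hy
    have h2 : max 0 (1 - ‖nrm n y‖) ≠ 0 := right_ne_zero_of_mul hy
    have h3 : ‖prj n y‖ ≤ R := by
      have := hR (subset_tsupport ψ (Function.mem_support.mpr h1))
      rwa [mem_closedBall, dist_zero_right] at this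
    have h4 : ‖nrm n y‖ ≤ 1 := by
      by_contra hcon
      push Not at hcon
      exact h2 (max_eq_left (by linarith))
    rw [mem_closedBall, dist_zero_right]
    calc ‖y‖ = ‖inc n d (prj n y) + nrm n y‖ := by rw [inc_prj_add_nrm]
      _ ≤ ‖inc n d (prj n y)‖ + ‖nrm n y‖ := norm_add_le _ _
      _ ≤ R + 1 := by rw [norm_inc hnd]; linarith

end aux

theorem transfer {n d : ℕ} (hnd : n ≤ d) {C : ℝ} {μ : Measure (V d)} (hμ : ADR n C ⊤ μ)
    (hR : Refl n μ) (hne : μ.support.Nonempty) (hfl : ∀ y ∈ μ.support, nsq n y = 0) :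
    ADR n C ⊤ (μ.map (prj n)) ∧ Refl n (μ.map (prj n)) ∧ (μ.map (prj n)).support.Nonempty ∧
      (μ.map (prj n)).map (inc n d) = μ := by
  have hpm : Measurable (prj n : V d → V n) := (continuous_prj n d).measurable
  have him : Measurable (inc n d) := (continuous_inc n d hnd).measurable
  have hae : ∀ᵐ y ∂μ, inc n d (prj n y) = y := by
    have h1 : ∀ᵐ y ∂μ, y ∈ μ.support := Measure.support_mem_ae
    filter_upwards [h1] with y hy
    exact inc_prj_of_nsq y (hfl y hy)
  have hback : (μ.map (prj n)).map (inc n d) = μ := by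
    rw [Measure.map_map him hpm]
    calc μ.map (inc n d ∘ prj n) = μ.map id := Measure.map_congr hae
      _ = μ := Measure.map_id
  set ν : Measure (V n) := μ.map (prj n) with hν
  have hball : ∀ (x : V n) (r : ℝ), ν (ball x r) = μ (ball (inc n d x) r) := by
    intro x r
    rw [hν, Measure.map_apply hpm measurableSet_ball]
    refine measure_congr ?_
    filter_upwards [hae] with y hy
    refine propext ?_
    change dist (prj n y) x < r ↔ dist y (inc n d x) < r
    rw [← dist_inc hnd (prj n y) x, hy]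
  have hsupp : ∀ x : V n, x ∈ ν.support ↔ inc n d x ∈ μ.support := by
    intro x
    rw [(nhds_basis_ball (x := x)).mem_measureSupport,
      (nhds_basis_ball (x := inc n d x)).mem_measureSupport]
    simp only [hball]
  have hADR : ADR n C ⊤ ν := by
    refine ⟨hμ.one_le, fun x r hr => ?_, fun x hx r hr hD => ?_⟩
    · rw [hball]; exact hμ.upper _ r hr
    · rw [hball]; exact hμ.lower _ ((hsupp x).1 hx) r hr hD
  refine ⟨hADR, ?_, ?_, hback⟩
  · intro e ψ hψ h0
    have : IsLocallyFiniteMeasure ν := by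
      refine ⟨fun x => ⟨ball x 1, ball_mem_nhds x one_pos, ?_⟩⟩
      exact (hADR.upper x 1 one_pos).trans_lt ENNReal.ofReal_lt_top
    have hemb : MeasurableEmbedding (inc n d) :=
      ((incL hnd).isometry.isClosedEmbedding).measurableEmbedding
    have h1 : ∫ y, ext n ψ y ∂μ = 0 := by
      rw [← hback, hemb.integral_map]
      simpa only [ext_inc hnd] using h0
    have h2 := hR (inc n d e) (ext n ψ) (isTest_ext hnd hψ) h1
    refine h2.congr fun N => ?_
    unfold Bf
    congr 1
    have h3 : μ.prod μ = (ν.prod ν).map (Prod.map (inc n d) (inc n d)) := by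
      rw [← Measure.map_prod_map _ _ him him, hback]
    have hemb2 : MeasurableEmbedding (Prod.map (inc n d) (inc n d)) :=
      (((incL hnd).isometry.isClosedEmbedding).prodMap
        ((incL hnd).isometry.isClosedEmbedding)).measurableEmbedding
    rw [h3, hemb2.integral_map]
    refine integral_congr_ae (Eventually.of_forall fun p => ?_)
    simp only [Prod.map_fst, Prod.map_snd, lin, ext_inc hnd, inner_inc hnd, kN, inc_sub hnd,
      norm_inc hnd]
  · obtain ⟨y, hy⟩ := hne
    refine ⟨prj n y, ?_⟩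
    rw [hsupp, inc_prj_of_nsq y (hfl y hy)]
    exact hy

end Crest.Agent.R085.Flat
end

-- ▼ part R085/FlatMain

/-!
R085, module M7: `TConst`.
-/

set_option autoImplicit false

namespace Crest.Agent.R085

open MeasureTheory Metric Set Filter
open scoped ENNReal NNReal Topology

/-- **M7.** Reflectionless regular measures on the standard `n`-plane have constant density. -/
theorem tConst {n d : ℕ} (hn : 1 ≤ n) (hnd : n ≤ d) (C : ℝ) : TConst n d C := by
  intro μ hμ hR hne hfl
  obtain ⟨h1, h2, h3, h4⟩ := Flat.transfer hnd hμ hR hne hfl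
  have hfull := support_eq_univ hn h1 h2 h3
  have hC1 : 1 ≤ C := hμ.one_le
  have hC0 : 0 < C := by linarith
  obtain ⟨c0, hc0, hν⟩ := Flat.const_of_full hn (C := C) (c := C⁻¹) h1.upper hC0.le
    (inv_pos.2 hC0) (fun x r hr => h1.lower x (by rw [hfull]; exact mem_univ x) r hr le_top) h2
  refine ⟨c0, hc0, fun f hf hfs => ?_⟩
  have him : Measurable (inc n d) := (Flat.continuous_inc n d hnd).measurable
  rw [← h4, integral_map him.aemeasurable hf.aestronglyMeasurable, hν,
    integral_smul_measure, ENNReal.toReal_ofReal hc0.le, smul_eq_mul]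

end Crest.Agent.R085
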