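import Crest.Agent.R085.Targets
import Crest.Agent.R085.Lim2
import Crest.Agent.R085.Resc
import Crest.Agent.R085.Incl
import Crest.Agent.R085.TouchK
import Crest.Agent.R085.LimRefl
import Crest.Agent.R085.Lim3

-- ▼ part R085/M8b
section

/-!
# R085, module M8b: flat windows with small oscillation are bilaterally flat

`tBiFlat_of` : `TBiFlat n d C A ε'` from
* `TReflLim` (M3): limits of measures with vanishing oscillation are reflectionless,
* `TFull` (M4): a reflectionless regular measure with support in an `n`-plane has full support.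
-/

set_option autoImplicit false

namespace Crest.Agent.R085

open MeasureTheory Metric Set Filter
open scoped ENNReal NNReal Topology

/-- M3: vanishing oscillation gives reflectionless limits. -/
def TReflLim (n d : ℕ) (C : ℝ) : Prop :=
  ∀ (U : Ultrafilter ℕ) (m : ℕ → Measure (V d)) (ν : Measure (V d)) (D : ℕ → ℝ≥0∞),
    WLim U m ν → (∀ k, ADR n C (D k) (m k)) →
    (∀ M δ : ℝ, 0 < M → 0 < δ → ∀ᶠ k in (U : Filter ℕ), EtaS n (m k) 0 1 M δ) → Refl n ν

/-- M4: full support. -/
def TFull (n d : ℕ) (C : ℝ) : Prop :=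
  ∀ ν : Measure (V d), ADR n C ⊤ ν → Refl n ν → (0 : V d) ∈ ν.support →
    ∀ ι : V n →ₗᵢ[ℝ] V d, ν.support ⊆ range ι → range ι ⊆ ν.support

/-- A point of the support at distance `≥ 2 s` from the plane gives a lower bound for the
flatness integral. -/
theorem le_integral_nsq {n d : ℕ} {C : ℝ} {D : ℝ≥0∞} {μ : Measure (V d)} (hμ : ADR n C D μ)
    (g : V d ≃ₗᵢ[ℝ] V d) (b : V d) {x y : V d} {R s : ℝ} (hs : 0 < s) (hsD : ENNReal.ofReal s ≤ D)
    (hy : y ∈ μ.support) (hyR : dist y x + s ≤ R) (h2 : 2 * s ≤ Real.sqrt (nsq n (g y - b))) :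
    s ^ 2 * (C⁻¹ * s ^ n) ≤ ∫ z in ball x R, nsq n (g z - b) ∂μ := by
  have hlf := hμ.isLocallyFiniteMeasure
  have hsub : ball y s ⊆ ball x R := ball_subset_ball' (by linarith)
  have hcont : Continuous fun z : V d => nsq n (g z - b) := by
    have := continuous_nsq (d := d) n
    fun_prop
  have hint : IntegrableOn (fun z : V d => nsq n (g z - b)) (ball x R) μ :=
    (hcont.locallyIntegrable.integrableOn_isCompact (isCompact_closedBall x R)).mono_set
      ball_subset_closedBall
  have h1 : ∫ z in ball y s, s ^ 2 ∂μ ≤ ∫ z in ball x R, nsq n (g z - b) ∂μ := by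
    refine le_trans ?_ (setIntegral_mono_set hint (ae_of_all _ fun z => nsq_nonneg n _)
      (Eventually.of_forall hsub))
    refine setIntegral_mono_on ?_ (hint.mono_set hsub) measurableSet_ball fun z hz => ?_
    · exact integrableOn_const (hμ.ball_lt_top y s).ne
    · have h3 := sqrt_nsq_triangle n g b y z
      rw [mem_ball, dist_comm] at hz
      have h4 : s ≤ Real.sqrt (nsq n (g z - b)) := by linarith
      calc s ^ 2 ≤ Real.sqrt (nsq n (g z - b)) ^ 2 := by gcongr
        _ = nsq n (g z - b) := Real.sq_sqrt (nsq_nonneg n _)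
  have h5 : ∫ z in ball y s, s ^ 2 ∂μ = μ.real (ball y s) * s ^ 2 := by
    rw [setIntegral_const, smul_eq_mul]
  rw [h5] at h1
  have h6 := hμ.le_real_ball hy hs hsD
  calc s ^ 2 * (C⁻¹ * s ^ n) ≤ s ^ 2 * μ.real (ball y s) := by gcongr
    _ = μ.real (ball y s) * s ^ 2 := mul_comm _ _
    _ ≤ _ := h1

/-- In dimension `d < n` there is no nonzero `n`-upper-regular measure. -/
theorem measure_ball_eq_zero_of_lt {n d : ℕ} {C : ℝ} (hC : 0 ≤ C) {μ : Measure (V d)} [SFinite μ]
    (hμ : ∀ (x : V d) (r : ℝ), 0 < r → μ (ball x r) ≤ ENNReal.ofReal (C * r ^ n)) (hdn : d < n)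
    (x0 : V d) : μ (ball x0 1) = 0 := by
  have key : ∀ r : ℝ, 0 < r → r ≤ 1 → μ (ball x0 1) * volume (ball (0 : V d) 1) ≤
      ENNReal.ofReal (C * r) * volume (ball x0 2) := by
    intro r hr hr1
    set S : Set (V d × V d) := {p | p.1 ∈ ball x0 1 ∧ dist p.1 p.2 < r} with hS
    have hSm : MeasurableSet S := by
      refine IsOpen.measurableSet ?_
      refine (isOpen_ball.preimage continuous_fst).inter ?_
      exact isOpen_lt (continuous_fst.dist continuous_snd) continuous_const
    have h1 : ENNReal.ofReal (r ^ d) * (μ (ball x0 1) * volume (ball (0 : V d) 1)) ≤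
        (μ.prod volume) S := by
      rw [Measure.prod_apply hSm]
      calc ENNReal.ofReal (r ^ d) * (μ (ball x0 1) * volume (ball (0 : V d) 1))
          = ∫⁻ x in ball x0 1, volume (ball x r) ∂μ := by
            have : ∀ x : V d, volume (ball x r) =
                ENNReal.ofReal (r ^ d) * volume (ball (0 : V d) 1) := by
              intro x
              rw [Measure.addHaar_ball_of_pos _ _ hr, finrank_euclideanSpace_fin]
            simp_rw [this]
            rw [setLIntegral_const]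
            ring
        _ = ∫⁻ x, (ball x0 1).indicator (fun x => volume (ball x r)) x ∂μ :=
            (lintegral_indicator measurableSet_ball _).symm
        _ ≤ ∫⁻ x, volume (Prod.mk x ⁻¹' S) ∂μ := by
            refine lintegral_mono fun x => ?_
            by_cases hx : x ∈ ball x0 1
            · rw [indicator_of_mem hx]
              refine measure_mono fun y hy => ?_
              rw [mem_ball, dist_comm] at hy
              exact ⟨hx, hy⟩
            · rw [indicator_of_notMem hx]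
              exact bot_le
    have h2 : (μ.prod volume) S ≤ ENNReal.ofReal (C * r ^ n) * volume (ball x0 2) := by
      rw [Measure.prod_apply_symm hSm]
      calc ∫⁻ y, μ ((fun x => (x, y)) ⁻¹' S) ∂volume
          ≤ ∫⁻ y, (ball x0 2).indicator (fun _ => ENNReal.ofReal (C * r ^ n)) y ∂volume := by
            refine lintegral_mono fun y => ?_
            by_cases hy : y ∈ ball x0 2
            · rw [indicator_of_mem hy]
              refine le_trans (measure_mono fun x hx => ?_) (hμ y r hr)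
              exact hx.2
            · rw [indicator_of_notMem hy]
              refine le_of_eq (measure_mono_null ?_ measure_empty)
              intro x hx
              have h3 : dist x x0 < 1 := hx.1
              have h4 : dist x y < r := hx.2
              apply hy
              rw [mem_ball]
              calc dist y x0 ≤ dist y x + dist x x0 := dist_triangle _ _ _
                _ < 2 := by rw [dist_comm y x]; linarith
        _ = _ := by rw [lintegral_indicator measurableSet_ball, setLIntegral_const]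
    have h3 := h1.trans h2
    have hrd : ENNReal.ofReal (r ^ d) ≠ 0 := by
      rw [Ne, ENNReal.ofReal_eq_zero, not_le]; positivity
    have h4 : ENNReal.ofReal (C * r ^ n) ≤ ENNReal.ofReal (r ^ d) * ENNReal.ofReal (C * r) := by
      rw [← ENNReal.ofReal_mul (by positivity)]
      refine ENNReal.ofReal_le_ofReal ?_
      have h5 : r ^ n ≤ r ^ (d + 1) := pow_le_pow_of_le_one hr.le hr1 hdn
      calc C * r ^ n ≤ C * r ^ (d + 1) := by gcongr
        _ = r ^ d * (C * r) := by ring
    have h6 : ENNReal.ofReal (r ^ d) * (μ (ball x0 1) * volume (ball (0 : V d) 1)) ≤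
        ENNReal.ofReal (r ^ d) * (ENNReal.ofReal (C * r) * volume (ball x0 2)) := by
      rw [← mul_assoc (ENNReal.ofReal (r ^ d)) (ENNReal.ofReal (C * r))]
      exact h3.trans (mul_le_mul_left h4 _)
    exact (ENNReal.mul_le_mul_iff_right hrd ENNReal.ofReal_ne_top).mp h6
  have hlim : Tendsto (fun r : ℝ => ENNReal.ofReal (C * r) * volume (ball x0 2)) (𝓝[>] 0)
      (𝓝 0) := by
    have h1 : Tendsto (fun r : ℝ => ENNReal.ofReal (C * r)) (𝓝[>] 0) (𝓝 0) := by
      have : Tendsto (fun r : ℝ => C * r) (𝓝[>] 0) (𝓝 0) := by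
        have h2 : Tendsto (fun r : ℝ => C * r) (𝓝 0) (𝓝 (C * 0)) :=
          (continuous_const.mul continuous_id).tendsto 0
        rw [mul_zero] at h2
        exact h2.mono_left nhdsWithin_le_nhds
      have h3 := (ENNReal.continuous_ofReal.tendsto 0).comp this
      simpa [Function.comp_def] using h3
    have h4 := ENNReal.Tendsto.mul_const h1
      (Or.inr (measure_ball_lt_top (μ := volume) (x := x0) (r := 2)).ne)
    rwa [zero_mul] at h4
  have h0 : μ (ball x0 1) * volume (ball (0 : V d) 1) ≤ 0 := by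
    refine ge_of_tendsto hlim ?_
    filter_upwards [Ioc_mem_nhdsGT (zero_lt_one' ℝ)] with r hr
    exact key r hr.1 hr.2
  rcases mul_eq_zero.mp (le_antisymm h0 bot_le) with h | h
  · exact h
  · exact absurd h (measure_ball_pos _ _ one_pos).ne'

theorem ADR.le_dim {n d : ℕ} {C : ℝ} {D : ℝ≥0∞} {μ : Measure (V d)} (hμ : ADR n C D μ)
    (hne : μ.support.Nonempty) : n ≤ d := by
  by_contra hlt
  push Not at hlt
  obtain ⟨x, hx⟩ := hne
  have := hμ.isLocallyFinite
  have h1 := measure_ball_eq_zero_of_lt hμ.nonneg hμ.upper hlt x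
  have h2 := mem_support_iff_forall_ball.mp hx 1 one_pos
  exact h2.ne' h1

/-- compactness of the set of linear isometries, ultrafilter form -/
theorem exists_tendsto_isometry {n d : ℕ} (U : Ultrafilter ℕ) (ι : ℕ → (V n →ₗᵢ[ℝ] V d)) :
    ∃ T : V n →ₗᵢ[ℝ] V d, ∀ (v : ℕ → V n) (v0 : V n), Tendsto v (U : Filter ℕ) (𝓝 v0) →
      Tendsto (fun k => ι k (v k)) (U : Filter ℕ) (𝓝 (T v0)) := by
  have hc : IsCompact (closedBall (0 : V n →L[ℝ] V d) 1) := by
    have : ProperSpace (V n →L[ℝ] V d) := FiniteDimensional.proper_real _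
    exact isCompact_closedBall _ _
  obtain ⟨S, -, hS⟩ := hc.ultrafilter_le_nhds' (U.map fun k => (ι k).toContinuousLinearMap) (by
    change ∀ᶠ k in (U : Filter ℕ), _ ∈ _
    refine Eventually.of_forall fun k => ?_
    rw [mem_closedBall, dist_zero_right]
    exact (ι k).norm_toContinuousLinearMap_le)
  have hS' : Tendsto (fun k => (ι k).toContinuousLinearMap) (U : Filter ℕ) (𝓝 S) := hS
  have happ : ∀ (v : ℕ → V n) (v0 : V n), Tendsto v (U : Filter ℕ) (𝓝 v0) →
      Tendsto (fun k => ι k (v k)) (U : Filter ℕ) (𝓝 (S v0)) := fun v v0 hv =>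
    ((isBoundedBilinearMap_apply (𝕜 := ℝ) (E := V n) (F := V d)).continuous.tendsto
      (S, v0)).comp (hS'.prodMk_nhds hv)
  have hnorm : ∀ v, ‖S v‖ = ‖v‖ := by
    intro v
    have h1 := (happ (fun _ => v) v tendsto_const_nhds).norm
    refine tendsto_nhds_unique h1 ?_
    simp
  exact ⟨⟨S.toLinearMap, hnorm⟩, happ⟩

/-- bounded sequences in `V n` converge along ultrafilters -/
theorem exists_tendsto_of_norm_le {n : ℕ} (U : Ultrafilter ℕ) (v : ℕ → V n) (B : ℝ)
    (h : ∀ᶠ k in (U : Filter ℕ), ‖v k‖ ≤ B) : ∃ v0, Tendsto v (U : Filter ℕ) (𝓝 v0) := by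
  obtain ⟨v0, -, hv0⟩ := (isCompact_closedBall (0 : V n) B).ultrafilter_le_nhds' (U.map v) (by
    change ∀ᶠ k in (U : Filter ℕ), _ ∈ _
    filter_upwards [h] with k hk
    rwa [mem_closedBall, dist_zero_right])
  exact ⟨v0, hv0⟩

theorem tBiFlat_of {n d : ℕ} {C : ℝ} (hR : TReflLim n d C) (hF : TFull n d C)
    (A ε' : ℝ) (hε' : 0 < ε') : TBiFlat n d C A ε' := by
  by_contra hcon
  unfold TBiFlat at hcon
  push Not at hcon
  have hpos : ∀ k : ℕ, (0 : ℝ) < 1 / ((k : ℝ) + 1) := fun k => by positivity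
  choose μ D x ρ ε M δ hA hx hρ hε0 hε1 hM hδ hD hFl hEta hBi using fun k : ℕ => hcon _ (hpos k)
  set m : ℕ → Measure (V d) := fun k => resc n (x k) (ρ k) (μ k) with hm
  have hlf : ∀ k, IsLocallyFiniteMeasure (μ k) := fun k => (hA k).isLocallyFiniteMeasure
  have hMk : ∀ k : ℕ, (k : ℝ) + 1 ≤ M k := fun k => by
    have := hM k
    rwa [one_div, inv_inv] at this
  have hM0 : ∀ k, 0 < M k := fun k => lt_of_lt_of_le (by positivity) (hMk k)
  have hmA : ∀ k, ADR n C (ENNReal.ofReal (M k)) (m k) := fun k => by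
    refine (hA k).resc (x k) (hρ k) ?_
    rw [← ENNReal.ofReal_mul (hρ k).le, mul_comm]
    exact hD k
  have hm0 : ∀ k, (0 : V d) ∈ (m k).support := fun k => by
    rw [hm, mem_support_resc n (x k) (hρ k), smul_zero, add_zero]
    exact hx k
  have hmF : ∀ k, FlatW n (m k) 0 1 (ε k) (M k) := fun k => by
    rw [hm, FlatW_resc (x k) (hρ k), smul_zero, add_zero, mul_one]
    exact hFl k
  have hmE : ∀ k, EtaS n (m k) 0 1 (M k) (δ k) := fun k => by
    have := hlf k
    rw [hm, EtaS_resc (x k) (hρ k) 0 one_pos, smul_zero, add_zero, mul_one]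
    exact hEta k
  have hmB : ∀ k, ¬ BiFlat n (m k) 0 1 ε' A := fun k => by
    rw [hm, BiFlat_resc (x k) (hρ k), smul_zero, add_zero, mul_one]
    exact hBi k
  clear_value m
  clear hBi hEta hFl hD hlf hx hA hcon
  have hnd : n ≤ d := (hmA 0).le_dim ⟨0, hm0 0⟩
  -- the ultrafilter
  set U : Ultrafilter ℕ := hyperfilter ℕ with hU
  have hUle : (U : Filter ℕ) ≤ atTop := by
    rw [← Nat.cofinite_eq_atTop]
    exact hyperfilter_le_cofinite
  have hev : ∀ t : ℝ, ∀ᶠ k : ℕ in (U : Filter ℕ), t ≤ M k := fun t => by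
    refine hUle ?_
    filter_upwards [eventually_ge_atTop ⌈t⌉₊] with k hk
    have h1 : t ≤ (k : ℝ) := (Nat.le_ceil t).trans (by exact_mod_cast hk)
    linarith [hMk k]
  have hevD : ∀ t : ℝ, ∀ᶠ k : ℕ in (U : Filter ℕ), ENNReal.ofReal t ≤ ENNReal.ofReal (M k) :=
    fun t => (hev t).mono fun k hk => ENNReal.ofReal_le_ofReal hk
  have hsmall : Tendsto (fun k : ℕ => 1 / ((k : ℝ) + 1)) (U : Filter ℕ) (𝓝 0) :=
    tendsto_one_div_add_atTop_nhds_zero_nat.mono_left hUle
  have hεt : Tendsto ε (U : Filter ℕ) (𝓝 0) :=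
    squeeze_zero hε0 hε1 hsmall
  obtain ⟨ν, hν, hνA⟩ := exists_wLim_adr U m (D0 := ⊤) hmA (fun s _ => hevD s)
  have hνR : Refl n ν := by
    refine hR U m ν (fun k => ENNReal.ofReal (M k)) hν hmA fun M' δ' hM' hδ' => ?_
    filter_upwards [hev M', hsmall.eventually_lt_const hδ'] with k hk1 hk2
    exact (hmE k).mono zero_le_one hk1 ((hδ k).trans hk2.le)
  have hν0 : (0 : V d) ∈ ν.support :=
    hν.mem_support_adr (Eventually.of_forall hmA) one_pos (hevD 1)
      (tendsto_const_nhds (x := (0 : V d))) (Eventually.of_forall hm0)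
  -- the planes
  choose g b hgb using hmF
  -- closeness to the planes
  have hclose : ∀ A' s : ℝ, 0 < s → ∀ᶠ k in (U : Filter ℕ), ∀ y ∈ (m k).support, ‖y‖ ≤ A' →
      Real.sqrt (nsq n (g k y - b k)) < 2 * s := by
    intro A' s hs
    set R : ℝ := max (A' + s) 1 with hRdef
    have hR1 : 1 ≤ R := le_max_right _ _
    have hC0 : 0 < C := (hmA 0).pos
    have hlim : Tendsto (fun k => (ε k) ^ 2 * (R / 1) * R ^ (n + 2)) (U : Filter ℕ) (𝓝 0) := by
      have := ((hεt.pow 2).mul_const (R / 1)).mul_const (R ^ (n + 2))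
      simpa using this
    have hlt : 0 < s ^ 2 * (C⁻¹ * s ^ n) := by positivity
    filter_upwards [hlim.eventually_lt_const hlt, hev R, hevD s] with k hk1 hk2 hk3 y hy hyA
    by_contra hge
    push Not at hge
    have h1 := le_integral_nsq (hmA k) (g k) (b k) (x := 0) (R := R) hs hk3 hy
      (by rw [dist_zero_right]; exact (by linarith : ‖y‖ + s ≤ A' + s).trans (le_max_left _ _)) hge
    have h2 := hgb k R hR1 (by linarith)
    linarith
  -- base point and isometry of the planes
  set ι : ℕ → (V n →ₗᵢ[ℝ] V d) := fun k => (g k).symm.toLinearIsometry.comp (incL hnd) with hι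
  set p : ℕ → V d := fun k => (g k).symm (b k) + ι k (prj n (g k 0 - b k)) with hp
  have hdist : ∀ k y, dist y (p k + ι k (prj n (g k y - b k) - prj n (g k 0 - b k))) =
      Real.sqrt (nsq n (g k y - b k)) := by
    intro k y
    rw [← dist_ref_plane hnd]
    congr 1
    rw [hp, map_sub]
    simp only [hι]
    abel
  have hpd : ∀ k, ‖p k‖ = Real.sqrt (nsq n (g k 0 - b k)) := by
    intro k
    rw [← hdist k 0, sub_self, map_zero, add_zero, dist_comm, dist_zero_right]
  have hp0 : Tendsto p (U : Filter ℕ) (𝓝 0) := by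
    rw [tendsto_zero_iff_norm_tendsto_zero, Metric.tendsto_nhds]
    intro s hs
    filter_upwards [hclose 0 (s / 2) (by positivity)] with k hk
    rw [Real.dist_0_eq_abs, abs_norm, hpd]
    have := hk 0 (hm0 k) (by simp)
    linarith
  clear_value ι p
  -- the limit isometry
  obtain ⟨T, hT⟩ := exists_tendsto_isometry U ι
  -- the support of the limit is in the range
  have hsub : ν.support ⊆ range T := by
    intro y hy
    obtain ⟨yk, hyk, hykt⟩ := hν.exists_tendsto_support hy
    set v : ℕ → V n := fun k => prj n (g k (yk k) - b k) - prj n (g k 0 - b k) with hv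
    have hd : Tendsto (fun k => dist (yk k) (p k + ι k (v k))) (U : Filter ℕ) (𝓝 0) := by
      rw [Metric.tendsto_nhds]
      intro s hs
      have hb : ∀ᶠ k in (U : Filter ℕ), ‖yk k‖ < ‖y‖ + 1 :=
        hykt.norm.eventually_lt_const (by linarith)
      filter_upwards [hclose (‖y‖ + 1) (s / 2) (by positivity), hyk, hb] with k hk1 hk2 hk3
      rw [Real.dist_0_eq_abs, abs_of_nonneg dist_nonneg, hdist]
      have := hk1 _ hk2 hk3.le
      linarith
    have hvb : ∀ᶠ k in (U : Filter ℕ), ‖v k‖ ≤ ‖y‖ + 3 := by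
      have hb : ∀ᶠ k in (U : Filter ℕ), ‖yk k‖ < ‖y‖ + 1 :=
        hykt.norm.eventually_lt_const (by linarith)
      have hpb : ∀ᶠ k in (U : Filter ℕ), ‖p k‖ < 1 :=
        (hp0.norm).eventually_lt_const (by simp)
      filter_upwards [hb, hpb, hd.eventually_lt_const one_pos] with k h1 h2 h3
      have h4 : ‖v k‖ = ‖ι k (v k)‖ := ((ι k).norm_map _).symm
      rw [h4]
      have h5 : ι k (v k) = yk k - p k - (yk k - (p k + ι k (v k))) := by abel
      rw [h5]
      refine (norm_sub_le _ _).trans ?_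
      have h6 := norm_sub_le (yk k) (p k)
      rw [dist_eq_norm] at h3
      linarith
    obtain ⟨v0, hv0⟩ := exists_tendsto_of_norm_le U v _ hvb
    refine ⟨v0, ?_⟩
    have h1 : Tendsto (fun k => p k + ι k (v k)) (U : Filter ℕ) (𝓝 (0 + T v0)) :=
      hp0.add (hT v v0 hv0)
    rw [zero_add] at h1
    have h2 : Tendsto (fun k => dist (yk k) (p k + ι k (v k))) (U : Filter ℕ)
        (𝓝 (dist y (T v0))) := hykt.dist h1
    have h3 := tendsto_nhds_unique h2 hd
    exact (dist_eq_zero.mp h3).symm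
  have hfull := hF ν hνA hνR hν0 T hsub
  -- bad points
  have hbad : ∀ᶠ k in (U : Filter ℕ), ∃ v : V n, p k + ι k v ∈ ball (0 : V d) A ∧
      ∀ y ∈ (m k).support, ε' < dist y (p k + ι k v) := by
    filter_upwards [hclose A (ε' / 2) (by positivity)] with k hk
    by_contra hno
    push Not at hno
    apply hmB k
    refine ⟨ι k, p k, fun y hy hyA => ?_, fun v hv => ?_⟩
    · refine ⟨_, le_of_eq_of_le (hdist k y) ?_⟩
      rw [mul_one, mem_ball, dist_zero_right] at hyA
      have := hk y hy hyA.le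
      linarith
    · rw [mul_one] at hv
      obtain ⟨y, hy, hyd⟩ := hno v hv
      exact ⟨y, hy, by rwa [mul_one]⟩
  choose! v hvA hvd using fun k (h : ∃ v : V n, p k + ι k v ∈ ball (0 : V d) A ∧
      ∀ y ∈ (m k).support, ε' < dist y (p k + ι k v)) => h
  have hvb : ∀ᶠ k in (U : Filter ℕ), ‖v k‖ ≤ A + 1 := by
    have hpb : ∀ᶠ k in (U : Filter ℕ), ‖p k‖ < 1 :=
      (hp0.norm).eventually_lt_const (by simp)
    filter_upwards [hbad, hpb] with k h1 h2
    have h3 := hvA k h1
    rw [mem_ball, dist_zero_right] at h3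
    rw [← (ι k).norm_map]
    have h5 : ι k (v k) = (p k + ι k (v k)) - p k := by abel
    rw [h5]
    refine (norm_sub_le _ _).trans ?_
    linarith
  obtain ⟨v0, hv0⟩ := exists_tendsto_of_norm_le U v _ hvb
  have hq : Tendsto (fun k => p k + ι k (v k)) (U : Filter ℕ) (𝓝 (T v0)) := by
    have := hp0.add (hT v v0 hv0)
    rwa [zero_add] at this
  have hq0 : ν (ball (T v0) ε') ≤ 0 := by
    refine hν.ball_le hq (tendsto_const_nhds (x := ε')) ?_
    filter_upwards [hbad] with k hk
    have h1 := hvd k hk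
    refine le_of_eq (measure_mono_null ?_ (Measure.measure_compl_support (μ := m k)))
    intro y hy hys
    have h2 := h1 y hys
    rw [mem_ball] at hy
    exact absurd hy (not_lt.mpr h2.le)
  have hTm : T v0 ∈ ν.support := hfull ⟨v0, rfl⟩
  have := mem_support_iff_forall_ball.mp hTm ε' hε'
  exact absurd hq0 (not_le.mpr this)

end Crest.Agent.R085
end

-- ▼ part R085/Touch1
section

/-!
Row 85, module M4, (T1): comparison of the potential at a point `a` off the support with the
form `Bf` tested on a bump at a point of the support.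
-/

set_option autoImplicit false

namespace Crest.Agent.R085.Touch

open MeasureTheory Metric Set Filter
open scoped ENNReal NNReal Topology

variable {d n : ℕ}

/-- The `e`-component of the truncated potential at `a`:
`∫ ⟪a - y, e⟫ k_N(a - y) dμ(y)`. -/
noncomputable def Fp (n : ℕ) (μ : Measure (V d)) (N : ℝ) (e a : V d) : ℝ :=
  ∫ y, inner ℝ (a - y) e * kN n N (a - y) ∂μ

theorem measurable_Fp_integrand (N : ℝ) (e a : V d) :
    Measurable fun y : V d => inner ℝ (a - y) e * kN n N (a - y) := by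
  have h1 : Measurable fun y : V d => a - y := measurable_const.sub measurable_id
  have h2 : Measurable fun y : V d => inner ℝ (a - y) e :=
    (by fun_prop : Continuous fun y : V d => inner ℝ (a - y) e).measurable
  exact h2.mul ((measurable_kN n N).comp h1)

/-- integrability of the potential integrand on a set at distance `≥ m` from `a`. -/
theorem integrableOn_Fp {C : ℝ} {μ : Measure (V d)} (hμ : UpperReg n C μ) {N : ℝ}
    (hN : 0 < N) {e : V d} (he : ‖e‖ ≤ 1) (a : V d) {m : ℝ} (hm : 0 < m) {S : Set (V d)}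
    (hS : ∀ᵐ y ∂(μ.restrict S), m ≤ ‖a - y‖) :
    IntegrableOn (fun y => inner ℝ (a - y) e * kN n N (a - y)) S μ := by
  have hB : IntegrableOn (fun _ : V d => (m ^ n)⁻¹) (closedBall a (2 * N)) μ := by
    rw [integrableOn_const_iff]
    right
    exact closedBall_lt_top hμ a (2 * N)
  have hB' : Integrable ((closedBall a (2 * N)).indicator fun _ : V d => (m ^ n)⁻¹)
      (μ.restrict S) := by
    have := (integrable_indicator_iff measurableSet_closedBall).2 hB
    exact this.mono_measure Measure.restrict_le_self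
  refine hB'.mono' (measurable_Fp_integrand N e a).aestronglyMeasurable ?_
  filter_upwards [hS] with y hy
  rw [Real.norm_eq_abs]
  by_cases hyB : y ∈ closedBall a (2 * N)
  · rw [indicator_of_mem hyB]
    refine (abs_inner_mul_kN_le N e (a - y) he).trans ?_
    apply inv_anti₀ (by positivity)
    gcongr
  · rw [indicator_of_notMem hyB]
    have : 2 * N ≤ ‖a - y‖ := by
      rw [mem_closedBall, not_le, dist_comm, dist_eq_norm] at hyB
      exact hyB.le
    rw [kN_eq_zero hN this, mul_zero, abs_zero]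

/-- **(T1)** For a probability bump `ψ` at a point `p` with `Lip ψ ≤ L r^{-(n+1)}` and support in
`ball p r`, and `a` with `|a - p| ≤ r` and `dist(a, supp μ) ≥ r`, the potential at `a` is
`Bf n μ N (lin e) ψ` up to a bounded error. -/
theorem abs_Fp_sub_Bf_le (hn : 1 ≤ n) {C : ℝ} (hC : 0 ≤ C) {μ : Measure (V d)}
    (hμ : UpperReg n C μ) {N : ℝ} (hN : 0 < N) {e : V d} (he : ‖e‖ ≤ 1)
    {p a : V d} {r : ℝ} (hr : 0 < r) (hap : ‖a - p‖ ≤ r) (ha : ∀ᵐ y ∂μ, r ≤ ‖a - y‖)
    {ψ : V d → ℝ} {L : ℝ} (hL : 0 ≤ L) (hψL : ∀ x y, |ψ x - ψ y| ≤ L / r ^ (n + 1) * dist x y)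
    (hψ0 : ∀ y, 0 ≤ ψ y) (hψs : ∀ y, y ∉ closedBall p r → ψ y = 0) (hψ1 : ∫ y, ψ y ∂μ = 1) :
    |Fp n μ N e a - Bf n μ N (lin e) ψ|
      ≤ C * 4 ^ n + 4 * L * C ^ 2 * 32 ^ n + (n + 4) * C * 3 ^ (n + 1) := by
  have hlf := lf_of_upper hμ
  set B : Set (V d) := ball p (4 * r) with hBdef
  have hBm : MeasurableSet B := measurableSet_ball
  set f : V d × V d → ℝ := bfI n N (lin e) ψ with hf
  set G : V d → V d → ℝ := fun x y => inner ℝ (x - y) e * kN n N (x - y) with hG
  have hψsB : ∀ y, y ∉ B → ψ y = 0 := by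
    intro y hy
    apply hψs
    intro h
    apply hy
    rw [hBdef, mem_ball]
    rw [mem_closedBall] at h
    linarith
  have hfG : ∀ x y, f (x, y) = G x y * (ψ x - ψ y) := by
    intro x y
    simp only [hf, hG, bfI, lin]
    rw [inner_sub_left]
    ring
  have hlin : ∀ x y : V d, |lin e x - lin e y| ≤ 1 * dist x y := by
    intro x y
    unfold lin
    rw [← inner_sub_left, dist_eq_norm]
    calc |inner ℝ (x - y) e| ≤ ‖x - y‖ * ‖e‖ := abs_real_inner_le_norm _ _
      _ ≤ ‖x - y‖ * 1 := by gcongr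
      _ = 1 * ‖x - y‖ := by ring
  have hlinm : Measurable (lin e : V d → ℝ) := by
    unfold lin
    exact (by fun_prop : Continuous fun y : V d => inner ℝ y e).measurable
  have hψc : Continuous ψ := by
    have hlip : LipschitzWith (Real.toNNReal (L / r ^ (n + 1))) ψ := by
      apply LipschitzWith.of_dist_le_mul
      intro x y
      rw [Real.dist_eq, Real.coe_toNNReal _ (by positivity)]
      exact hψL x y
    exact hlip.continuous
  have hfi : Integrable f (μ.prod μ) :=
    integrable_bfI hn hC hμ hN zero_le_one (by positivity : 0 ≤ L / r ^ (n + 1)) hlin hψL hlinm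
      hψc.measurable (c := p) (R := r) hψs
  -- the decomposition
  set A : Set (V d × V d) := B ×ˢ B with hA
  set g : V d × V d → ℝ := (B ×ˢ Bᶜ).indicator f with hg
  have hdec : ∀ q : V d × V d, f q = A.indicator f q + g q + g q.swap := by
    rintro ⟨x, y⟩
    have hsw : f (y, x) = f (x, y) := bfI_swap N (lin e) ψ (x, y)
    by_cases hx : x ∈ B <;> by_cases hy : y ∈ B <;>
      simp [hA, hg, indicator, hx, hy, hsw]
    rw [hfG, hψsB x hx, hψsB y hy]; ring
  have hAi : Integrable (A.indicator f) (μ.prod μ) :=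
    hfi.indicator (hBm.prod hBm)
  have hgi : Integrable g (μ.prod μ) := hfi.indicator (hBm.prod hBm.compl)
  have hgsi : Integrable (fun q : V d × V d => g q.swap) (μ.prod μ) := hgi.swap
  have hintf : ∫ q, f q ∂(μ.prod μ) = ∫ q, A.indicator f q ∂(μ.prod μ)
      + 2 * ∫ q, g q ∂(μ.prod μ) := by
    have h1 : ∫ q, f q ∂(μ.prod μ) = ∫ q, (A.indicator f q + g q + g q.swap) ∂(μ.prod μ) :=
      integral_congr_ae (Eventually.of_forall hdec)
    have h2 : ∫ q : V d × V d, g q.swap ∂(μ.prod μ) = ∫ q, g q ∂(μ.prod μ) :=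
      integral_prod_swap (μ := μ) (ν := μ) g
    have hAgi : Integrable (fun q => A.indicator f q + g q) (μ.prod μ) := hAi.add hgi
    rw [h1, integral_add hAgi hgsi, integral_add hAi hgi, h2]
    ring
  set H : V d → ℝ := fun x => ∫ y in Bᶜ, G x y ∂μ with hH
  have hgH : ∫ q, g q ∂(μ.prod μ) = ∫ x, ψ x * H x ∂μ := by
    rw [integral_prod g hgi]
    congr 1
    ext x
    have : ∀ y, g (x, y) = ψ x * (Bᶜ.indicator (G x) y) := by
      intro y
      by_cases hx : x ∈ B <;> by_cases hy : y ∈ B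
      · simp [hg, indicator, hx, hy]
      · simp only [hg, indicator, mem_prod, hx, hy, mem_compl_iff, not_false_eq_true, and_self,
          if_true]
        rw [hfG, hψsB y hy]; ring
      · simp [hg, indicator, hx, hy]
      · simp [hg, indicator, hx, hy, hψsB x hx]
    simp_rw [this]
    rw [integral_const_mul, integral_indicator hBm.compl]
  -- potential splitting
  have hFi1 : IntegrableOn (G a) B μ :=
    integrableOn_Fp hμ hN he a hr (ae_restrict_of_ae ha)
  have hFi2 : IntegrableOn (G a) Bᶜ μ :=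
    integrableOn_Fp hμ hN he a hr (ae_restrict_of_ae ha)
  have hFi : Integrable (G a) μ := by
    rw [← integrableOn_univ, ← union_compl_self B]
    exact hFi1.union hFi2
  have hFsplit : Fp n μ N e a = ∫ y in B, G a y ∂μ + H a := by
    have := integral_add_compl hBm hFi
    rw [hH]; exact this.symm
  -- (i) near part
  have hI1 : |∫ y in B, G a y ∂μ| ≤ C * 4 ^ n := by
    have h1 : ‖∫ y in B, G a y ∂μ‖ ≤ (r ^ n)⁻¹ * μ.real B := by
      apply norm_setIntegral_le_of_norm_le_const_ae' (hμ.ball_lt_top p (4 * r))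
      filter_upwards [ha] with y hy _
      rw [Real.norm_eq_abs]
      refine (abs_inner_mul_kN_le N e (a - y) he).trans ?_
      apply inv_anti₀ (by positivity)
      gcongr
    have h2 : μ.real B ≤ C * (4 * r) ^ n := by
      rw [measureReal_def]
      exact ENNReal.toReal_le_of_le_ofReal (by positivity) (hμ p (4 * r) (by positivity))
    calc |∫ y in B, G a y ∂μ| ≤ (r ^ n)⁻¹ * μ.real B := h1
      _ ≤ (r ^ n)⁻¹ * (C * (4 * r) ^ n) := by gcongr
      _ = C * 4 ^ n := by rw [mul_pow]; field_simp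
  -- (ii) near-near part
  have hI2 : |(1 / 2 : ℝ) * ∫ q, A.indicator f q ∂(μ.prod μ)| ≤ 4 * L * C ^ 2 * 32 ^ n := by
    have hnear := integrable_near_prod hC hμ hn p (4 * r) (S := 8 * r) (by positivity)
    set A' : Set (V d × V d) := {q : V d × V d | q.1 ∈ closedBall p (4 * r) ∧
      q.2 ∈ closedBall q.1 (8 * r)} with hA'
    have h1 : |∫ q, A.indicator f q ∂(μ.prod μ)| ≤ ∫ q, 1 * (L / r ^ (n + 1)) *
        A'.indicator (fun q : V d × V d => (dist q.1 q.2 ^ (n - 1))⁻¹) q ∂(μ.prod μ) := by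
      rw [← Real.norm_eq_abs]
      apply norm_integral_le_of_norm_le (hnear.1.const_mul _)
      filter_upwards with q
      rw [Real.norm_eq_abs]
      by_cases hq : q ∈ A
      · have hq' : q ∈ A' := by
          obtain ⟨h1, h2⟩ := hq
          rw [hBdef, mem_ball] at h1 h2
          refine ⟨?_, ?_⟩
          · rw [mem_closedBall]; exact h1.le
          · rw [mem_closedBall]
            have := dist_triangle_right q.2 q.1 p
            linarith
        rw [indicator_of_mem hq, indicator_of_mem hq']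
        exact abs_bfI_le hn zero_le_one (by positivity : 0 ≤ L / r ^ (n + 1)) hlin hψL q
      · rw [indicator_of_notMem hq, abs_zero]
        apply mul_nonneg (by positivity)
        apply indicator_nonneg
        intro q _
        positivity
    have h2 : μ.real (closedBall p (4 * r)) ≤ C * 2 ^ n * (4 * r) ^ n := by
      rw [measureReal_def]
      exact ENNReal.toReal_le_of_le_ofReal (by positivity) (hμ.closedBall_le p (by positivity))
    rw [abs_mul, abs_of_pos (by norm_num : (0 : ℝ) < 1 / 2)]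
    calc (1 / 2 : ℝ) * |∫ q, A.indicator f q ∂(μ.prod μ)|
        ≤ (1 / 2 : ℝ) * ∫ q, 1 * (L / r ^ (n + 1)) *
          A'.indicator (fun q : V d × V d => (dist q.1 q.2 ^ (n - 1))⁻¹) q ∂(μ.prod μ) := by
          gcongr
      _ = (1 / 2 : ℝ) * (1 * (L / r ^ (n + 1)) * ∫ q,
          A'.indicator (fun q : V d × V d => (dist q.1 q.2 ^ (n - 1))⁻¹) q ∂(μ.prod μ)) := by
          rw [integral_const_mul]
      _ ≤ (1 / 2 : ℝ) * (1 * (L / r ^ (n + 1)) *
          (C * 4 ^ n * (8 * r) * (C * 2 ^ n * (4 * r) ^ n))) := by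
          gcongr
          exact hnear.2.trans (by gcongr)
      _ = 4 * L * C ^ 2 * 32 ^ n := by
          have h32 : (32 : ℝ) ^ n = 4 ^ n * 2 ^ n * 4 ^ n := by
            rw [← mul_pow, ← mul_pow]; norm_num
          rw [h32, mul_pow, pow_succ]
          field_simp
          ring
  -- (iii) far-far part
  have htail := integrableOn_tail hμ hC (m := 1) le_rfl p (r := 4 * r) (by positivity)
  have hBc : Bᶜ = {y | 4 * r ≤ dist p y} := by
    ext y
    rw [hBdef, mem_compl_iff, mem_ball, not_lt, dist_comm]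
    rfl
  have hHx : ∀ x, x ∈ closedBall p r → |H a - H x| ≤ (n + 4) * C * 3 ^ (n + 1) := by
    intro x hx
    have hx' : ‖x - p‖ ≤ r := by rwa [mem_closedBall, dist_eq_norm] at hx
    have hxi : IntegrableOn (G x) Bᶜ μ := by
      apply integrableOn_Fp hμ hN he x (m := 3 * r) (by positivity)
      filter_upwards [ae_restrict_mem hBm.compl] with y hy
      rw [hBc, mem_ofPred_eq, dist_eq_norm, norm_sub_rev] at hy
      have e1 : y - p = (x - p) - (x - y) := by abel
      have e2 : ‖y - p‖ ≤ ‖x - p‖ + ‖x - y‖ := by rw [e1]; exact norm_sub_le _ _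
      linarith
    have hdiff : H a - H x = ∫ y in Bᶜ, (G a y - G x y) ∂μ := by
      rw [hH]; exact (integral_sub hFi2 hxi).symm
    rw [hdiff, ← Real.norm_eq_abs]
    have hbound : ‖∫ y in Bᶜ, (G a y - G x y) ∂μ‖
        ≤ ∫ y in Bᶜ, ((n + 4) * (2 * r) * (4 / 3) ^ (n + 1)) * (dist p y ^ (n + 1))⁻¹ ∂μ := by
      apply norm_integral_le_of_norm_le
      · rw [hBc]; exact htail.1.const_mul _
      · filter_upwards [ae_restrict_mem hBm.compl] with y hy
        rw [hBc, mem_ofPred_eq, dist_eq_norm, norm_sub_rev] at hy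
        have hyp : 0 < ‖y - p‖ := by linarith
        have e2 : ‖y - p‖ ≤ ‖x - p‖ + ‖x - y‖ := by
          have e1 : y - p = (x - p) - (x - y) := by abel
          rw [e1]; exact norm_sub_le _ _
        have e3 : ‖y - p‖ ≤ ‖a - p‖ + ‖a - y‖ := by
          have e1 : y - p = (a - p) - (a - y) := by abel
          rw [e1]; exact norm_sub_le _ _
        have h1 := abs_inner_kN_sub_le (n := n) hN (u := a - y) (v := x - y)
          (m := 3 / 4 * ‖y - p‖) (by positivity) (by linarith) (by linarith) e he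
        rw [Real.norm_eq_abs]
        refine h1.trans ?_
        have e4 : ‖(a - y) - (x - y)‖ ≤ 2 * r := by
          have e1 : (a - y) - (x - y) = (a - p) - (x - p) := by abel
          rw [e1]
          exact (norm_sub_le _ _).trans (by linarith)
        rw [dist_eq_norm, norm_sub_rev p y]
        calc (n + 4) * ‖(a - y) - (x - y)‖ / (3 / 4 * ‖y - p‖) ^ (n + 1)
            ≤ (n + 4) * (2 * r) / (3 / 4 * ‖y - p‖) ^ (n + 1) := by gcongr
          _ = (n + 4) * (2 * r) * (4 / 3) ^ (n + 1) * (‖y - p‖ ^ (n + 1))⁻¹ := by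
            rw [mul_pow, div_pow, div_pow]
            field_simp
    refine hbound.trans ?_
    rw [integral_const_mul]
    rw [hBc]
    calc (n + 4) * (2 * r) * (4 / 3) ^ (n + 1) * ∫ y in {y | 4 * r ≤ dist p y},
          (dist p y ^ (n + 1))⁻¹ ∂μ
        ≤ (n + 4) * (2 * r) * (4 / 3) ^ (n + 1) * (C * 2 ^ (n + 1) / (4 * r) ^ 1) := by
          gcongr
          exact htail.2
      _ = (n + 4) * C * (8 / 3) ^ (n + 1) / 2 := by
          have h83 : (8 / 3 : ℝ) ^ (n + 1) = (4 / 3) ^ (n + 1) * 2 ^ (n + 1) := by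
            rw [← mul_pow]; norm_num
          rw [h83]
          field_simp
          ring
      _ ≤ (n + 4) * C * 3 ^ (n + 1) := by
          have h1 : (8 / 3 : ℝ) ^ (n + 1) ≤ 3 ^ (n + 1) := by gcongr; norm_num
          have h2 : (0 : ℝ) ≤ (n + 4) * C := by positivity
          have h3 : (0 : ℝ) ≤ 3 ^ (n + 1) := by positivity
          have h4 := mul_le_mul_of_nonneg_left h1 h2
          have h5 := mul_nonneg h2 h3
          linarith
  have hψi : Integrable ψ μ := by
    apply hψc.integrable_of_hasCompactSupport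
    apply HasCompactSupport.intro (isCompact_closedBall p r)
    intro x hx
    exact hψs x hx
  have hψHi : Integrable (fun x => ψ x * H x) μ := by
    have := hgi.integral_prod_left
    refine this.congr (Eventually.of_forall fun x => ?_)
    simp only
    have : ∀ y, g (x, y) = ψ x * (Bᶜ.indicator (G x) y) := by
      intro y
      by_cases hx : x ∈ B <;> by_cases hy : y ∈ B
      · simp [hg, indicator, hx, hy]
      · simp only [hg, indicator, mem_prod, hx, hy, mem_compl_iff, not_false_eq_true, and_self,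
          if_true]
        rw [hfG, hψsB y hy]; ring
      · simp [hg, indicator, hx, hy]
      · simp [hg, indicator, hx, hy, hψsB x hx]
    simp_rw [this]
    rw [integral_const_mul, integral_indicator hBm.compl]
  have hI3 : |H a - ∫ x, ψ x * H x ∂μ| ≤ (n + 4) * C * 3 ^ (n + 1) := by
    have e1 : H a = ∫ x, ψ x * H a ∂μ := by
      rw [integral_mul_const, hψ1, one_mul]
    have e2 : H a - ∫ x, ψ x * H x ∂μ = ∫ x, (ψ x * H a - ψ x * H x) ∂μ := by
      rw [integral_sub (hψi.mul_const _) hψHi, ← e1]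
    rw [e2, ← Real.norm_eq_abs]
    calc ‖∫ x, (ψ x * H a - ψ x * H x) ∂μ‖
        ≤ ∫ x, ψ x * ((n + 4) * C * 3 ^ (n + 1)) ∂μ := by
          apply norm_integral_le_of_norm_le (hψi.mul_const _)
          filter_upwards with x
          rw [Real.norm_eq_abs, ← mul_sub, abs_mul, abs_of_nonneg (hψ0 x)]
          by_cases hx : x ∈ closedBall p r
          · exact mul_le_mul_of_nonneg_left (hHx x hx) (hψ0 x)
          · rw [hψs x hx, zero_mul, zero_mul]
      _ = (n + 4) * C * 3 ^ (n + 1) := by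
          rw [integral_mul_const, hψ1, one_mul]
  have hfinal : Fp n μ N e a - Bf n μ N (lin e) ψ
      = (∫ y in B, G a y ∂μ) - (1 / 2 : ℝ) * ∫ q, A.indicator f q ∂(μ.prod μ)
        + (H a - ∫ x, ψ x * H x ∂μ) := by
    rw [hFsplit, Bf_eq, ← hf, hintf, hgH]
    ring
  rw [hfinal]
  calc |(∫ y in B, G a y ∂μ) - (1 / 2 : ℝ) * ∫ q, A.indicator f q ∂(μ.prod μ)
        + (H a - ∫ x, ψ x * H x ∂μ)|
      ≤ |(∫ y in B, G a y ∂μ) - (1 / 2 : ℝ) * ∫ q, A.indicator f q ∂(μ.prod μ)|
        + |H a - ∫ x, ψ x * H x ∂μ| := abs_add_le _ _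
    _ ≤ (|∫ y in B, G a y ∂μ| + |(1 / 2 : ℝ) * ∫ q, A.indicator f q ∂(μ.prod μ)|)
        + |H a - ∫ x, ψ x * H x ∂μ| := by
        gcongr
        exact abs_sub _ _
    _ ≤ _ := by linarith

/-! ### the normalised bump -/

/-- unnormalised bump -/
noncomputable def bump0 {d : ℕ} (p : V d) (r : ℝ) (y : V d) : ℝ := max 0 (1 - ‖y - p‖ / r)

/-- normalised bump at `p` with radius `r` -/
noncomputable def bump {d : ℕ} (μ : Measure (V d)) (p : V d) (r : ℝ) (y : V d) : ℝ :=
  bump0 p r y / ∫ z, bump0 p r z ∂μ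

theorem bump0_nonneg (p : V d) (r : ℝ) (y : V d) : 0 ≤ bump0 p r y := le_max_left _ _

theorem bump0_eq_zero {p : V d} {r : ℝ} (hr : 0 < r) {y : V d} (hy : y ∉ ball p r) :
    bump0 p r y = 0 := by
  unfold bump0
  apply max_eq_left
  rw [mem_ball, not_lt, dist_eq_norm] at hy
  rw [sub_nonpos, le_div_iff₀ hr, one_mul]
  exact hy


theorem abs_bump0_sub_le {p : V d} {r : ℝ} (hr : 0 < r) (y z : V d) :
    |bump0 p r y - bump0 p r z| ≤ 1 / r * dist y z := by
  unfold bump0
  calc |max 0 (1 - ‖y - p‖ / r) - max 0 (1 - ‖z - p‖ / r)|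
      ≤ |(1 - ‖y - p‖ / r) - (1 - ‖z - p‖ / r)| := by
        have := abs_max_sub_max_le_abs (1 - ‖y - p‖ / r) (1 - ‖z - p‖ / r) 0
        rwa [max_comm (1 - ‖y - p‖ / r), max_comm (1 - ‖z - p‖ / r)] at this
    _ = |‖y - p‖ - ‖z - p‖| / r := by
        rw [← abs_of_pos hr, ← abs_div, abs_of_pos hr, ← abs_neg]
        congr 1
        ring
    _ ≤ ‖(y - p) - (z - p)‖ / r := by
        gcongr
        exact abs_norm_sub_norm_le _ _
    _ = 1 / r * dist y z := by
        rw [dist_eq_norm]
        have : (y - p) - (z - p) = y - z := by abel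
        rw [this]; ring

theorem continuous_bump0 (p : V d) (r : ℝ) : Continuous (bump0 p r) := by
  unfold bump0
  fun_prop

theorem hasCompactSupport_bump0 {p : V d} {r : ℝ} (hr : 0 < r) :
    HasCompactSupport (bump0 p r) := by
  apply HasCompactSupport.intro (isCompact_closedBall p r)
  intro x hx
  exact bump0_eq_zero hr fun h => hx (ball_subset_closedBall h)

theorem integral_bump0_ge {C : ℝ} {D : ℝ≥0∞} {μ : Measure (V d)} (h : ADR n C D μ) {p : V d}
    (hp : p ∈ μ.support) {r : ℝ} (hr : 0 < r) (hrD : ENNReal.ofReal r ≤ D) :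
    r ^ n / (2 ^ (n + 1) * C) ≤ ∫ z, bump0 p r z ∂μ := by
  have hC := h.pos
  have hlf := lf_of_upper h.upperReg
  have h1 : C⁻¹ * (r / 2) ^ n ≤ μ.real (ball p (r / 2)) := by
    rw [measureReal_def]
    have h2 := h.lower p hp (r / 2) (by positivity)
      ((ENNReal.ofReal_le_ofReal (by linarith)).trans hrD)
    exact (ENNReal.ofReal_le_iff_le_toReal (h.upperReg.ball_lt_top _ _).ne).1 h2
  have h2 : 1 / 2 * μ.real (ball p (r / 2)) ≤ ∫ z, bump0 p r z ∂μ := by
    have hint : Integrable (bump0 p r) μ :=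
      (continuous_bump0 p r).integrable_of_hasCompactSupport (hasCompactSupport_bump0 hr)
    calc 1 / 2 * μ.real (ball p (r / 2)) = ∫ z in ball p (r / 2), (1 / 2 : ℝ) ∂μ := by
          rw [setIntegral_const, smul_eq_mul, mul_comm]
      _ ≤ ∫ z in ball p (r / 2), bump0 p r z ∂μ := by
          apply setIntegral_mono_on
          · rw [integrableOn_const_iff]
            right
            exact h.upperReg.ball_lt_top _ _
          · exact hint.integrableOn
          · exact measurableSet_ball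
          · intro z hz
            rw [mem_ball, dist_eq_norm] at hz
            unfold bump0
            apply le_max_of_le_right
            have : ‖z - p‖ / r ≤ 1 / 2 := by
              rw [div_le_iff₀ hr]; linarith
            linarith
      _ ≤ ∫ z, bump0 p r z ∂μ := by
          apply setIntegral_le_integral hint
          exact Eventually.of_forall (bump0_nonneg p r)
  calc r ^ n / (2 ^ (n + 1) * C) = 1 / 2 * (C⁻¹ * (r / 2) ^ n) := by
        rw [div_pow, pow_succ]; field_simp
    _ ≤ 1 / 2 * μ.real (ball p (r / 2)) := by gcongr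
    _ ≤ _ := h2

section bump

variable {C : ℝ} {D : ℝ≥0∞} {μ : Measure (V d)}

theorem bump_nonneg (p : V d) (r : ℝ) (y : V d) : 0 ≤ bump μ p r y :=
  div_nonneg (bump0_nonneg _ _ _) (integral_nonneg fun _ => bump0_nonneg _ _ _)

theorem bump_eq_zero {p : V d} {r : ℝ} (hr : 0 < r) {y : V d} (hy : y ∉ ball p r) :
    bump μ p r y = 0 := by
  unfold bump
  rw [bump0_eq_zero hr hy, zero_div]

theorem abs_bump_sub_le (h : ADR n C D μ) {p : V d}
    (hp : p ∈ μ.support) {r : ℝ} (hr : 0 < r) (hrD : ENNReal.ofReal r ≤ D) (y z : V d) :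
    |bump μ p r y - bump μ p r z| ≤ (2 ^ (n + 1) * C) / r ^ (n + 1) * dist y z := by
  have hC := h.pos
  have h1 := integral_bump0_ge h hp hr hrD
  have h0 : 0 < r ^ n / (2 ^ (n + 1) * C) := by positivity
  have hI : 0 < ∫ z, bump0 p r z ∂μ := h0.trans_le h1
  unfold bump
  rw [← sub_div, abs_div, abs_of_pos hI, div_le_iff₀ hI]
  calc |bump0 p r y - bump0 p r z| ≤ 1 / r * dist y z := abs_bump0_sub_le hr y z
    _ = (2 ^ (n + 1) * C) / r ^ (n + 1) * dist y z * (r ^ n / (2 ^ (n + 1) * C)) := by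
        rw [pow_succ r n]; field_simp
    _ ≤ (2 ^ (n + 1) * C) / r ^ (n + 1) * dist y z * ∫ z, bump0 p r z ∂μ := by
        gcongr

theorem integral_bump (h : ADR n C D μ) {p : V d}
    (hp : p ∈ μ.support) {r : ℝ} (hr : 0 < r) (hrD : ENNReal.ofReal r ≤ D) :
    ∫ y, bump μ p r y ∂μ = 1 := by
  have hC := h.pos
  have h1 := integral_bump0_ge h hp hr hrD
  have h0 : 0 < r ^ n / (2 ^ (n + 1) * C) := by positivity
  have hI : 0 < ∫ z, bump0 p r z ∂μ := h0.trans_le h1
  unfold bump
  rw [integral_div, div_self hI.ne']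

theorem isTest_bump (h : ADR n C D μ) {p : V d}
    (hp : p ∈ μ.support) {r : ℝ} (hr : 0 < r) (hrD : ENNReal.ofReal r ≤ D) :
    IsTest (bump μ p r) := by
  have hC := h.pos
  refine ⟨⟨Real.toNNReal ((2 ^ (n + 1) * C) / r ^ (n + 1)), ?_⟩, ?_⟩
  · apply LipschitzWith.of_dist_le_mul
    intro x y
    rw [Real.dist_eq, Real.coe_toNNReal _ (by positivity)]
    exact abs_bump_sub_le h hp hr hrD x y
  · apply HasCompactSupport.intro (isCompact_closedBall p r)
    intro x hx
    exact bump_eq_zero hr fun h => hx (ball_subset_closedBall h)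

/-- constant in the bump comparison -/
noncomputable def T1c (n : ℕ) (C : ℝ) : ℝ :=
  C * 4 ^ n + 4 * (2 ^ (n + 1) * C) * C ^ 2 * 32 ^ n + (n + 4) * C * 3 ^ (n + 1)

/-- **(T1)** bump comparison for the normalised bump. -/
theorem abs_Fp_sub_Bf_bump_le (hn : 1 ≤ n) (h : ADR n C D μ) {N : ℝ} (hN : 0 < N)
    {e : V d} (he : ‖e‖ ≤ 1) {p a : V d} (hp : p ∈ μ.support) {r : ℝ} (hr : 0 < r)
    (hrD : ENNReal.ofReal r ≤ D) (hap : ‖a - p‖ ≤ r) (ha : ∀ y ∈ μ.support, r ≤ ‖a - y‖) :
    |Fp n μ N e a - Bf n μ N (lin e) (bump μ p r)| ≤ T1c n C := by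
  have hC := h.pos
  have hlf := lf_of_upper h.upperReg
  apply abs_Fp_sub_Bf_le hn hC.le h.upperReg hN he hr hap
  · filter_upwards [Measure.support_mem_ae (μ := μ)] with y hy using ha y hy
  · positivity
  · exact abs_bump_sub_le h hp hr hrD
  · exact bump_nonneg p r
  · intro y hy
    exact bump_eq_zero hr fun h => hy (ball_subset_closedBall h)
  · exact integral_bump h hp hr hrD

end bump

/-! ### linearity of `Bf` in the test function and consequence for reflectionless measures -/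

theorem isTest_abs_sub_le {ψ : V d → ℝ} (h : IsTest ψ) :
    ∃ K : ℝ, 0 ≤ K ∧ ∀ x y, |ψ x - ψ y| ≤ K * dist x y := by
  obtain ⟨K, hK⟩ := h.lip
  refine ⟨K, K.2, fun x y => ?_⟩
  rw [← Real.dist_eq]
  exact hK.dist_le_mul x y

theorem isTest_exists_support {ψ : V d → ℝ} (h : IsTest ψ) (c : V d) :
    ∃ R : ℝ, 0 < R ∧ ∀ y, y ∉ closedBall c R → ψ y = 0 := by
  obtain ⟨R, hR⟩ := h.cpt.isCompact.isBounded.subset_closedBall c
  refine ⟨max R 1, by positivity, fun y hy => ?_⟩
  apply image_eq_zero_of_notMem_tsupport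
  intro h'
  exact hy (closedBall_subset_closedBall (le_max_left _ _) (hR h'))

theorem isTest_continuous {ψ : V d → ℝ} (h : IsTest ψ) : Continuous ψ := by
  obtain ⟨K, hK⟩ := h.lip
  exact hK.continuous

theorem isTest_integrable {ψ : V d → ℝ} (h : IsTest ψ) {C : ℝ} {μ : Measure (V d)}
    (hμ : UpperReg n C μ) : Integrable ψ μ := by
  have := lf_of_upper hμ
  exact (isTest_continuous h).integrable_of_hasCompactSupport h.cpt

theorem isTest_sub {ψ φ : V d → ℝ} (h : IsTest ψ) (h' : IsTest φ) :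
    IsTest (fun y => ψ y - φ y) := by
  obtain ⟨K, hK⟩ := h.lip
  obtain ⟨K', hK'⟩ := h'.lip
  exact ⟨⟨K + K', hK.sub hK'⟩, h.cpt.sub h'.cpt⟩


theorem abs_lin_sub_le (e x y : V d) : |lin e x - lin e y| ≤ ‖e‖ * dist x y := by
  unfold lin
  rw [← inner_sub_left, dist_eq_norm]
  calc |inner ℝ (x - y) e| ≤ ‖x - y‖ * ‖e‖ := abs_real_inner_le_norm _ _
    _ = ‖e‖ * ‖x - y‖ := by ring

theorem continuous_lin (e : V d) : Continuous (lin e) := by
  unfold lin
  fun_prop

theorem integrable_bfI_lin (hn : 1 ≤ n) {C : ℝ} (hC : 0 ≤ C) {μ : Measure (V d)}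
    (hμ : UpperReg n C μ) {N : ℝ} (hN : 0 < N) (e : V d) {ψ : V d → ℝ} (hψ : IsTest ψ) :
    Integrable (bfI n N (lin e) ψ) (μ.prod μ) := by
  obtain ⟨K, hK0, hK⟩ := isTest_abs_sub_le hψ
  obtain ⟨R, hR0, hR⟩ := isTest_exists_support hψ 0
  exact integrable_bfI hn hC hμ hN (norm_nonneg e) hK0 (abs_lin_sub_le e) hK
    (continuous_lin e).measurable (isTest_continuous hψ).measurable hR

theorem Bf_sub (hn : 1 ≤ n) {C : ℝ} (hC : 0 ≤ C) {μ : Measure (V d)}
    (hμ : UpperReg n C μ) {N : ℝ} (hN : 0 < N) (e : V d) {ψ φ : V d → ℝ} (hψ : IsTest ψ)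
    (hφ : IsTest φ) :
    Bf n μ N (lin e) (fun y => ψ y - φ y) = Bf n μ N (lin e) ψ - Bf n μ N (lin e) φ := by
  rw [Bf_eq, Bf_eq, Bf_eq, ← mul_sub, ← integral_sub (integrable_bfI_lin hn hC hμ hN e hψ)
    (integrable_bfI_lin hn hC hμ hN e hφ)]
  congr 2
  ext p
  unfold bfI
  ring

/-- For a reflectionless measure the potentials at two points off the support differ by a
bounded amount. -/
theorem refl_abs_Fp_sub_le (hn : 1 ≤ n) {C : ℝ} {μ : Measure (V d)} (h : ADR n C ⊤ μ)
    (hR : Refl n μ) {e : V d} (he : ‖e‖ ≤ 1) {p a q b : V d} (hp : p ∈ μ.support)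
    (hq : q ∈ μ.support) {r s : ℝ} (hr : 0 < r) (hs : 0 < s)
    (hap : ‖a - p‖ ≤ r) (ha : ∀ y ∈ μ.support, r ≤ ‖a - y‖)
    (hbq : ‖b - q‖ ≤ s) (hb : ∀ y ∈ μ.support, s ≤ ‖b - y‖) :
    ∀ᶠ N : ℝ in atTop, |Fp n μ N e a - Fp n μ N e b| ≤ 2 * T1c n C + 1 := by
  have hC := h.pos
  have t1 : IsTest (bump μ p r) := isTest_bump h hp hr le_top
  have t2 : IsTest (bump μ q s) := isTest_bump h hq hs le_top
  have hlim := hR e _ (isTest_sub t1 t2) (by
    rw [integral_sub (isTest_integrable t1 h.upperReg) (isTest_integrable t2 h.upperReg),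
      integral_bump h hp hr le_top, integral_bump h hq hs le_top, sub_self])
  have hev : ∀ᶠ N : ℝ in atTop,
      |Bf n μ N (lin e) (fun y => bump μ p r y - bump μ q s y)| < 1 := by
    have h1 := hlim.abs
    rw [abs_zero] at h1
    exact h1.eventually_lt_const one_pos
  filter_upwards [hev, eventually_gt_atTop 0] with N hN hN0
  rw [Bf_sub hn hC.le h.upperReg hN0 e t1 t2] at hN
  have k1 := abs_Fp_sub_Bf_bump_le hn h hN0 he hp hr le_top hap ha
  have k2 := abs_Fp_sub_Bf_bump_le hn h hN0 he hq hs le_top hbq hb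
  rw [abs_le] at k1 k2 ⊢
  rw [abs_lt] at hN
  constructor <;> linarith [k1.1, k1.2, k2.1, k2.2, hN.1, hN.2]

end Crest.Agent.R085.Touch
end

-- ▼ part R085/Touch2
section

/-!
Row 85, module M4, (T2): the half-space lemma.
-/

set_option autoImplicit false

namespace Crest.Agent.R085.Touch

open MeasureTheory Metric Set Filter
open scoped ENNReal NNReal Topology

variable {d n : ℕ}

/-- constant in the half-space lemma -/
noncomputable def halfC (n : ℕ) (C : ℝ) : ℝ :=
  2 * T1c n C + 1 + C * 4 ^ n + (n + 4) * C * 3 ^ (n + 1)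


/-- bound for the potential at `- t e`, uniform in `t`. -/
theorem halfspace_bound (hn : 1 ≤ n) {C : ℝ} {μ : Measure (V d)} (h : ADR n C ⊤ μ)
    (hR : Refl n μ) (h0 : (0 : V d) ∈ μ.support) {e : V d} (he : ‖e‖ = 1)
    (hs : ∀ y ∈ μ.support, 0 ≤ inner ℝ y e) {t : ℝ} (ht0 : 0 < t) (ht1 : t ≤ 1) :
    ∫⁻ y in ball (0 : V d) 4, ENNReal.ofReal ((inner ℝ y e + t) * (‖y + t • e‖ ^ (n + 1))⁻¹) ∂μ
      ≤ ENNReal.ofReal (halfC n C) := by
  have hC := h.pos
  have hμ := h.upperReg
  have hlf := lf_of_upper hμ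
  have hae : ∀ᵐ y ∂μ, y ∈ μ.support := Measure.support_mem_ae
  -- distance of `-s e` to the support
  have hdist : ∀ s : ℝ, 0 ≤ s → ∀ y ∈ μ.support, s ≤ ‖y + s • e‖ := by
    intro s hs0 y hy
    have h1 : inner ℝ (y + s • e) e = inner ℝ y e + s := by
      rw [inner_add_left, real_inner_smul_left, real_inner_self_eq_norm_sq, he]; ring
    have h2 : inner ℝ (y + s • e) e ≤ ‖y + s • e‖ := by
      have := real_inner_le_norm (y + s • e) e
      rwa [he, mul_one] at this
    have h3 := hs y hy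
    linarith
  have hneg : ∀ (s : ℝ) (y : V d), -(s • e) - y = -(y + s • e) := by intro s y; abel
  have hdist' : ∀ s : ℝ, 0 ≤ s → ∀ y ∈ μ.support, s ≤ ‖-(s • e) - y‖ := by
    intro s hs0 y hy
    rw [hneg, norm_neg]; exact hdist s hs0 y hy
  have hev := refl_abs_Fp_sub_le hn h hR he.le (p := 0) (q := 0) (a := -(t • e))
    (b := -((1 : ℝ) • e)) h0 h0 ht0 one_pos
    (by rw [sub_zero, norm_neg, norm_smul, he, mul_one, Real.norm_of_nonneg ht0.le])
    (hdist' t ht0.le)
    (by rw [sub_zero, norm_neg, norm_smul, he, mul_one, norm_one]) (hdist' 1 zero_le_one)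
  obtain ⟨N, hN1, hN2⟩ := (hev.and (eventually_ge_atTop 6)).exists
  have hN0 : 0 < N := by linarith
  -- the integrands
  set g : ℝ → V d → ℝ := fun s y => (inner ℝ y e + s) * kN n N (y + s • e) with hg
  have hgF : ∀ s y, inner ℝ (-(s • e) - y) e * kN n N (-(s • e) - y) = - g s y := by
    intro s y
    rw [hneg, kN_neg, inner_neg_left, inner_add_left, real_inner_smul_left,
      real_inner_self_eq_norm_sq, he, hg]
    ring
  have hFp : ∀ s, Fp n μ N e (-(s • e)) = - ∫ y, g s y ∂μ := by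
    intro s
    unfold Fp
    simp_rw [hgF]
    rw [integral_neg]
  have hgi : ∀ s, 0 < s → Integrable (g s) μ := by
    intro s hs0
    have h1 := integrableOn_Fp hμ hN0 he.le (-(s • e)) hs0 (S := univ) (by
      rw [Measure.restrict_univ]
      filter_upwards [hae] with y hy using hdist' s hs0.le y hy)
    rw [integrableOn_univ] at h1
    refine h1.neg.congr (Eventually.of_forall fun y => ?_)
    simp only [Pi.neg_apply]
    rw [hgF]; ring
  set B : Set (V d) := ball 0 4 with hB
  have hBm : MeasurableSet B := measurableSet_ball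
  have hBc : Bᶜ = {y | 4 ≤ dist 0 y} := by
    ext y
    rw [hB, mem_compl_iff, mem_ball, not_lt, dist_comm]
    rfl
  have hti := hgi t ht0
  have h1i := hgi 1 one_pos
  have e1 : ∫ y in B, g t y ∂μ = (∫ y, g t y ∂μ - ∫ y, g 1 y ∂μ) + ∫ y in B, g 1 y ∂μ
      + ∫ y in Bᶜ, (g 1 y - g t y) ∂μ := by
    rw [← integral_add_compl hBm hti, ← integral_add_compl hBm h1i,
      integral_sub h1i.integrableOn hti.integrableOn]
    ring
  have b1 : ∫ y, g t y ∂μ - ∫ y, g 1 y ∂μ ≤ 2 * T1c n C + 1 := by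
    rw [hFp, hFp, abs_le] at hN1
    linarith [hN1.1, hN1.2]
  have b2 : ∫ y in B, g 1 y ∂μ ≤ C * 4 ^ n := by
    have h1 : ‖∫ y in B, g 1 y ∂μ‖ ≤ 1 * μ.real B := by
      apply norm_setIntegral_le_of_norm_le_const_ae' (hμ.ball_lt_top 0 4)
      filter_upwards [hae] with y hy _
      rw [← norm_neg, ← hgF, Real.norm_eq_abs]
      refine (abs_inner_mul_kN_le N e _ he.le).trans ?_
      apply inv_le_one_of_one_le₀
      exact one_le_pow₀ (hdist' 1 zero_le_one y hy)
    have h2 : μ.real B ≤ C * 4 ^ n := by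
      rw [measureReal_def]
      exact ENNReal.toReal_le_of_le_ofReal (by positivity) (hμ 0 4 (by norm_num))
    calc ∫ y in B, g 1 y ∂μ ≤ ‖∫ y in B, g 1 y ∂μ‖ := le_abs_self _
      _ ≤ 1 * μ.real B := h1
      _ ≤ C * 4 ^ n := by rw [one_mul]; exact h2
  have htail := integrableOn_tail hμ hC.le (m := 1) le_rfl (0 : V d) (r := 4) (by norm_num)
  have b3 : ∫ y in Bᶜ, (g 1 y - g t y) ∂μ ≤ (n + 4) * C * 3 ^ (n + 1) := by
    have hbound : ‖∫ y in Bᶜ, (g 1 y - g t y) ∂μ‖
        ≤ ∫ y in Bᶜ, ((n + 4) * 1 * (4 / 3) ^ (n + 1)) * (dist 0 y ^ (n + 1))⁻¹ ∂μ := by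
      apply norm_integral_le_of_norm_le
      · rw [hBc]; exact htail.1.const_mul _
      · filter_upwards [ae_restrict_mem hBm.compl] with y hy
        rw [hBc, mem_ofPred_eq, dist_eq_norm, zero_sub, norm_neg] at hy
        have hyp : 0 < ‖y‖ := by linarith
        have hh : ∀ s : ℝ, 0 ≤ s → s ≤ 1 → 3 / 4 * ‖y‖ ≤ ‖-(s • e) - y‖ := by
          intro s hs0 hs1
          rw [hneg, norm_neg]
          have e1 : y = (y + s • e) - s • e := by abel
          have e2 : ‖y‖ ≤ ‖y + s • e‖ + ‖s • e‖ := by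
            conv_lhs => rw [e1]
            exact norm_sub_le _ _
          rw [norm_smul, he, mul_one, Real.norm_of_nonneg hs0] at e2
          linarith
        have h1 := abs_inner_kN_sub_le (n := n) hN0 (u := -((t : ℝ) • e) - y)
          (v := -((1 : ℝ) • e) - y) (m := 3 / 4 * ‖y‖) (by positivity)
          (hh t ht0.le ht1) (hh 1 zero_le_one le_rfl) e he.le
        rw [hgF, hgF] at h1
        have e0 : g 1 y - g t y = -g t y - -g 1 y := by ring
        rw [e0, Real.norm_eq_abs]
        refine h1.trans ?_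
        have e4 : ‖(-((t : ℝ) • e) - y) - (-((1 : ℝ) • e) - y)‖ ≤ 1 := by
          have e5 : (-((t : ℝ) • e) - y) - (-((1 : ℝ) • e) - y) = (1 - t) • e := by
            rw [sub_smul]; abel
          rw [e5, norm_smul, he, mul_one, Real.norm_of_nonneg (by linarith)]
          linarith
        rw [dist_eq_norm, zero_sub, norm_neg]
        calc (n + 4) * ‖(-((t : ℝ) • e) - y) - (-((1 : ℝ) • e) - y)‖ / (3 / 4 * ‖y‖) ^ (n + 1)
            ≤ (n + 4) * 1 / (3 / 4 * ‖y‖) ^ (n + 1) := by gcongr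
          _ = (n + 4) * 1 * (4 / 3) ^ (n + 1) * (‖y‖ ^ (n + 1))⁻¹ := by
            rw [mul_pow, div_pow, div_pow]
            field_simp
    calc ∫ y in Bᶜ, (g 1 y - g t y) ∂μ ≤ ‖∫ y in Bᶜ, (g 1 y - g t y) ∂μ‖ := le_abs_self _
      _ ≤ _ := hbound
      _ = (n + 4) * 1 * (4 / 3) ^ (n + 1) * ∫ y in {y | 4 ≤ dist 0 y},
          (dist 0 y ^ (n + 1))⁻¹ ∂μ := by rw [integral_const_mul, hBc]
      _ ≤ (n + 4) * 1 * (4 / 3) ^ (n + 1) * (C * 2 ^ (n + 1) / 4 ^ 1) := by
          gcongr
          exact htail.2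
      _ = (n + 4) * C * (8 / 3) ^ (n + 1) / 4 := by
          have h83 : (8 / 3 : ℝ) ^ (n + 1) = (4 / 3) ^ (n + 1) * 2 ^ (n + 1) := by
            rw [← mul_pow]; norm_num
          rw [h83]
          ring
      _ ≤ (n + 4) * C * 3 ^ (n + 1) := by
          have h1 : (8 / 3 : ℝ) ^ (n + 1) ≤ 3 ^ (n + 1) := by gcongr; norm_num
          have h2 : (0 : ℝ) ≤ (n + 4) * C := by positivity
          have h3 : (0 : ℝ) ≤ 3 ^ (n + 1) := by positivity
          have h4 := mul_le_mul_of_nonneg_left h1 h2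
          have h5 := mul_nonneg h2 h3
          linarith
  have btot : ∫ y in B, g t y ∂μ ≤ halfC n C := by
    rw [e1]; unfold halfC; linarith
  -- conversion to a lower integral
  have hg0 : ∀ᵐ y ∂(μ.restrict B), 0 ≤ g t y := by
    filter_upwards [ae_restrict_of_ae hae] with y hy
    exact mul_nonneg (by linarith [hs y hy]) (kN_nonneg _ _ _)
  calc ∫⁻ y in B, ENNReal.ofReal ((inner ℝ y e + t) * (‖y + t • e‖ ^ (n + 1))⁻¹) ∂μ
      = ∫⁻ y in B, ENNReal.ofReal (g t y) ∂μ := by
        apply setLIntegral_congr_fun hBm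
        intro y hy
        rw [hB, mem_ball, dist_zero_right] at hy
        have : ‖y + t • e‖ ≤ N := by
          calc ‖y + t • e‖ ≤ ‖y‖ + ‖t • e‖ := norm_add_le _ _
            _ ≤ N := by rw [norm_smul, he, mul_one, Real.norm_of_nonneg ht0.le]; linarith
        simp only [hg]
        rw [kN_eq hN0 this]
    _ = ENNReal.ofReal (∫ y in B, g t y ∂μ) :=
        (ofReal_integral_eq_lintegral_ofReal hti.integrableOn hg0).symm
    _ ≤ _ := ENNReal.ofReal_le_ofReal btot

/-- **(T2) Half-space lemma.** If the support of a reflectionless regular measure lies in the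
half space `{⟪y, e⟫ ≥ 0}` and contains `0`, then `∫_{|y|<4} ⟪y,e⟫ / |y|^{n+1} dμ < ∞`. -/
theorem halfspace (hn : 1 ≤ n) {C : ℝ} {μ : Measure (V d)} (h : ADR n C ⊤ μ)
    (hR : Refl n μ) (h0 : (0 : V d) ∈ μ.support) {e : V d} (he : ‖e‖ = 1)
    (hs : ∀ y ∈ μ.support, 0 ≤ inner ℝ y e) :
    ∫⁻ y in ball (0 : V d) 4, ENNReal.ofReal (inner ℝ y e * (‖y‖ ^ (n + 1))⁻¹) ∂μ
      ≤ ENNReal.ofReal (halfC n C) := by
  set t : ℕ → ℝ := fun k => 1 / ((k : ℝ) + 1) with ht
  have ht0 : ∀ k, 0 < t k := fun k => by positivity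
  have ht1 : ∀ k, t k ≤ 1 := fun k => by
    rw [ht]
    simp only
    rw [div_le_one (by positivity)]
    have : (0 : ℝ) ≤ k := by positivity
    linarith
  have htl : Tendsto t atTop (𝓝 0) := tendsto_one_div_add_atTop_nhds_zero_nat
  have hmeas : ∀ k, Measurable fun y : V d =>
      ENNReal.ofReal ((inner ℝ y e + t k) * (‖y + t k • e‖ ^ (n + 1))⁻¹) := by
    intro k
    have h1 : Measurable fun y : V d => inner ℝ y e + t k :=
      (by fun_prop : Continuous fun y : V d => inner ℝ y e + t k).measurable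
    have h2 : Measurable fun y : V d => ‖y + t k • e‖ :=
      (by fun_prop : Continuous fun y : V d => ‖y + t k • e‖).measurable
    exact (h1.mul (h2.pow_const _).inv).ennreal_ofReal
  have hpt : ∀ y : V d, ENNReal.ofReal (inner ℝ y e * (‖y‖ ^ (n + 1))⁻¹)
      ≤ liminf (fun k => ENNReal.ofReal ((inner ℝ y e + t k) * (‖y + t k • e‖ ^ (n + 1))⁻¹))
        atTop := by
    intro y
    rcases eq_or_ne y 0 with rfl | hy
    · simp
    · have hy' : ‖y‖ ^ (n + 1) ≠ 0 := by
        have := norm_pos_iff.2 hy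
        positivity
      have hl : Tendsto (fun k => ENNReal.ofReal ((inner ℝ y e + t k) *
          (‖y + t k • e‖ ^ (n + 1))⁻¹)) atTop
          (𝓝 (ENNReal.ofReal (inner ℝ y e * (‖y‖ ^ (n + 1))⁻¹))) := by
        apply (ENNReal.continuous_ofReal.tendsto _).comp
        have l1 : Tendsto (fun k => inner ℝ y e + t k) atTop (𝓝 (inner ℝ y e)) := by
          simpa using (tendsto_const_nhds (x := inner ℝ y e)).add htl
        have l2 : Tendsto (fun k => y + t k • e) atTop (𝓝 y) := by
          simpa using (tendsto_const_nhds (x := y)).add (htl.smul_const e)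
        exact l1.mul ((l2.norm.pow _).inv₀ hy')
      rw [hl.liminf_eq]
  calc ∫⁻ y in ball (0 : V d) 4, ENNReal.ofReal (inner ℝ y e * (‖y‖ ^ (n + 1))⁻¹) ∂μ
      ≤ ∫⁻ y in ball (0 : V d) 4, liminf (fun k =>
          ENNReal.ofReal ((inner ℝ y e + t k) * (‖y + t k • e‖ ^ (n + 1))⁻¹)) atTop ∂μ :=
        lintegral_mono hpt
    _ ≤ liminf (fun k => ∫⁻ y in ball (0 : V d) 4,
          ENNReal.ofReal ((inner ℝ y e + t k) * (‖y + t k • e‖ ^ (n + 1))⁻¹) ∂μ) atTop :=
        lintegral_liminf_le hmeas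
    _ ≤ ENNReal.ofReal (halfC n C) := by
        apply liminf_le_of_le
        · isBoundedDefault
        · intro b hb
          obtain ⟨k, hk⟩ := hb.exists
          exact hk.trans (halfspace_bound hn h hR h0 he hs (ht0 k) (ht1 k))

end Crest.Agent.R085.Touch
end

-- ▼ part R085/Touch3
section

/-!
Row 85, module M4, (T3): blow-ups at a touching point.
-/

set_option autoImplicit false

namespace Crest.Agent.R085.Touch

open MeasureTheory Metric Set Filter
open scoped ENNReal NNReal Topology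

variable {d n : ℕ}

/-- existence of blow-ups. -/
theorem exists_blowup {C : ℝ} {μ : Measure (V d)} (h : ADR n C ⊤ μ) {x : V d}
    (hx : x ∈ μ.support) {r : ℕ → ℝ} (hr : ∀ k, 0 < r k) (U : Ultrafilter ℕ) :
    ∃ ν : Measure (V d), WLim U (fun k => resc n x (r k) μ) ν ∧ ADR n C ⊤ ν ∧
      (0 : V d) ∈ ν.support := by
  have hA : ∀ k, ADR n C ⊤ (resc n x (r k) μ) := fun k => h.resc x (hr k) le_top
  obtain ⟨ν, hν, hνA⟩ := exists_wLim_adr (D0 := ⊤) U (fun k => resc n x (r k) μ) hA
    (fun s _ => Eventually.of_forall fun k => le_top)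
  refine ⟨ν, hν, hνA, ?_⟩
  apply hν.mem_support_adr (Eventually.of_forall hA) one_pos
    (Eventually.of_forall fun k => le_top) (x := fun _ => (0 : V d)) tendsto_const_nhds
  refine Eventually.of_forall fun k => ?_
  rw [mem_support_resc n x (hr k)]
  simpa using hx

/-- the support of a blow-up at a point of a subspace stays in the subspace. -/
theorem support_blowup_subset {μ ν : Measure (V d)} {x : V d} {r : ℕ → ℝ} (hr : ∀ k, 0 < r k)
    {U : Ultrafilter ℕ} (hν : WLim U (fun k => resc n x (r k) μ) ν)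
    {W : Submodule ℝ (V d)} (hW : μ.support ⊆ W) (hx : x ∈ W) : ν.support ⊆ W := by
  intro w hw
  obtain ⟨y, hy1, hy2⟩ := hν.exists_tendsto_support hw
  have hcl : IsClosed (W : Set (V d)) := W.closed_of_finiteDimensional
  refine hcl.mem_of_tendsto hy2 ?_
  filter_upwards [hy1] with k hk
  rw [mem_support_resc n x (hr k)] at hk
  have h1 : x + r k • y k ∈ W := hW hk
  have h2 : r k • y k ∈ W := by
    have := W.sub_mem h1 hx
    simpa using this
  have h3 : (r k)⁻¹ • (r k • y k) ∈ W := W.smul_mem _ h2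
  rwa [smul_smul, inv_mul_cancel₀ (hr k).ne', one_smul] at h3

/-- (T3a) first blow-up: at a touching point of a ball the blow-up lies in a half space. -/
theorem blowup_halfspace {μ ν : Measure (V d)} {p e : V d} {ρ : ℝ} (hρ : 0 < ρ) (he : ‖e‖ = 1)
    (htouch : ∀ y ∈ μ.support, ρ ≤ ‖y - (p - ρ • e)‖) {r : ℕ → ℝ} (hr : ∀ k, 0 < r k)
    {U : Ultrafilter ℕ} (hr0 : Tendsto r U (𝓝 0)) (hν : WLim U (fun k => resc n p (r k) μ) ν) :
    ∀ w ∈ ν.support, 0 ≤ inner ℝ w e := by
  intro w hw
  obtain ⟨y, hy1, hy2⟩ := hν.exists_tendsto_support hw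
  have h1 : Tendsto (fun k => inner ℝ (y k) e) U (𝓝 (inner ℝ w e)) :=
    hy2.inner tendsto_const_nhds
  have h2 : Tendsto (fun k => - (r k * ‖y k‖ ^ 2 / (2 * ρ))) U (𝓝 0) := by
    have := ((hr0.mul (hy2.norm.pow 2)).div_const (2 * ρ)).neg
    simpa using this
  refine le_of_tendsto_of_tendsto h2 h1 ?_
  filter_upwards [hy1] with k hk
  rw [mem_support_resc n p (hr k)] at hk
  have h3 := htouch _ hk
  have e1 : p + r k • y k - (p - ρ • e) = r k • y k + ρ • e := by abel
  rw [e1] at h3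
  have h4 : ρ ^ 2 ≤ ‖r k • y k + ρ • e‖ ^ 2 := by gcongr
  rw [norm_add_sq_real, norm_smul, norm_smul, he, real_inner_smul_left, real_inner_smul_right,
    Real.norm_of_nonneg (hr k).le, Real.norm_of_nonneg hρ.le] at h4
  have hrk := hr k
  have h5 : 0 ≤ r k * (r k * ‖y k‖ ^ 2 + 2 * ρ * inner ℝ (y k) e) := by nlinarith
  have h6 : 0 ≤ r k * ‖y k‖ ^ 2 + 2 * ρ * inner ℝ (y k) e := nonneg_of_mul_nonneg_right h5 hrk
  have h7 : inner ℝ (y k) e + r k * ‖y k‖ ^ 2 / (2 * ρ)
      = (r k * ‖y k‖ ^ 2 + 2 * ρ * inner ℝ (y k) e) / (2 * ρ) := by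
    field_simp; ring
  have h8 : 0 ≤ (r k * ‖y k‖ ^ 2 + 2 * ρ * inner ℝ (y k) e) / (2 * ρ) := by positivity
  linarith [h7, h8]

/-- (T3b) second blow-up: lies in the hyperplane. -/
theorem blowup_hyperplane (hn : 1 ≤ n) {C : ℝ} {μ ν : Measure (V d)} (h : ADR n C ⊤ μ)
    (hR : Refl n μ) (h0 : (0 : V d) ∈ μ.support) {e : V d} (he : ‖e‖ = 1)
    (hs : ∀ y ∈ μ.support, 0 ≤ inner ℝ y e) {r : ℕ → ℝ} (hr : ∀ k, 0 < r k)
    {U : Ultrafilter ℕ} (hr0 : Tendsto r U (𝓝 0)) (hν : WLim U (fun k => resc n 0 (r k) μ) ν) :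
    ∀ w ∈ ν.support, inner ℝ w e = 0 := by
  intro w hw
  have hC := h.pos
  obtain ⟨y, hy1, hy2⟩ := hν.exists_tendsto_support hw
  have hge : 0 ≤ inner ℝ w e := by
    refine ge_of_tendsto (hy2.inner tendsto_const_nhds) ?_
    filter_upwards [hy1] with k hk
    rw [mem_support_resc n 0 (hr k), zero_add] at hk
    have h1 := hs _ hk
    rw [real_inner_smul_left] at h1
    exact nonneg_of_mul_nonneg_right h1 (hr k)
  by_contra hne
  set a := inner ℝ w e with ha
  have hapos : 0 < a := lt_of_le_of_ne hge (Ne.symm hne)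
  set R : ℝ := ‖w‖ + a with hRdef
  have hRpos : 0 < R := by positivity
  set f : V d → ℝ≥0∞ := fun y => ENNReal.ofReal (inner ℝ y e * (‖y‖ ^ (n + 1))⁻¹) with hf
  -- the small balls have small integral
  have hfin : ∫⁻ y, f y ∂(μ.restrict (ball 0 4)) ≠ ⊤ :=
    (lt_of_le_of_lt (halfspace hn h hR h0 he hs) ENNReal.ofReal_lt_top).ne
  have hsmall : Tendsto ((μ.restrict (ball (0 : V d) 4)) ∘ fun k => ball (0 : V d) (r k * R)) U
      (𝓝 0) := by
    have h1 : Tendsto (fun k => ENNReal.ofReal (C * (r k * R) ^ n)) U (𝓝 0) := by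
      have h2 : Tendsto (fun k => C * (r k * R) ^ n) U (𝓝 (C * (0 * R) ^ n)) :=
        ((hr0.mul_const R).pow n).const_mul C
      rw [zero_mul, zero_pow (by omega), mul_zero] at h2
      have h3 := (ENNReal.continuous_ofReal.tendsto 0).comp h2
      rw [ENNReal.ofReal_zero] at h3
      exact h3
    refine tendsto_of_tendsto_of_tendsto_of_le_of_le tendsto_const_nhds h1 (fun k => bot_le)
      (fun k => ?_)
    exact (Measure.restrict_apply_le _ _).trans (h.upper 0 _ (mul_pos (hr k) hRpos))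
  have hlim := tendsto_setLIntegral_zero hfin hsmall
  -- lower bound
  have hlow : ∀ᶠ k in (U : Filter ℕ),
      ENNReal.ofReal (a / 2 * (R ^ (n + 1))⁻¹ * (C⁻¹ * (a / 4) ^ n))
        ≤ ∫⁻ y in ball (0 : V d) (r k * R), f y ∂(μ.restrict (ball 0 4)) := by
    have hRr : Tendsto (fun k => r k * R) U (𝓝 0) := by simpa using hr0.mul_const R
    have hyk : ∀ᶠ k in (U : Filter ℕ), dist (y k) w < a / 4 :=
      (tendsto_iff_dist_tendsto_zero.1 hy2).eventually_lt_const (by positivity)
    filter_upwards [hy1, hyk, hRr.eventually_lt_const (show (0 : ℝ) < 4 by norm_num)]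
      with k hk1 hk2 hk3
    have hrk := hr k
    have hA : ADR n C ⊤ (resc n 0 (r k) μ) := h.resc 0 hrk le_top
    have hm1 : ENNReal.ofReal (C⁻¹ * (a / 4) ^ n) ≤ resc n 0 (r k) μ (ball w (a / 2)) := by
      refine (hA.lower _ hk1 (a / 4) (by positivity) le_top).trans (measure_mono ?_)
      apply ball_subset_ball'
      linarith
    rw [resc_ball n 0 hrk, zero_add] at hm1
    -- the set
    set S : Set (V d) := ball (r k • w) (r k * (a / 2)) with hS
    have hS1 : S ⊆ ball (0 : V d) (r k * R) := by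
      apply ball_subset_ball'
      rw [dist_zero_right, norm_smul, Real.norm_of_nonneg hrk.le, hRdef]
      nlinarith
    have hS2 : S ⊆ ball (0 : V d) 4 := hS1.trans (ball_subset_ball hk3.le)
    have hb : ∀ z ∈ S, ENNReal.ofReal (r k * (a / 2) * ((r k * R) ^ (n + 1))⁻¹) ≤ f z := by
      intro z hz
      apply ENNReal.ofReal_le_ofReal
      have hz1 := hS1 hz
      rw [mem_ball, dist_zero_right] at hz1
      rw [hS, mem_ball, dist_eq_norm] at hz
      have hz2 : inner ℝ z e = r k * a + inner ℝ (z - r k • w) e := by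
        rw [inner_sub_left, real_inner_smul_left, ← ha]; ring
      have hz3 : -(r k * (a / 2)) ≤ inner ℝ (z - r k • w) e := by
        have h1 := abs_real_inner_le_norm (z - r k • w) e
        rw [he, mul_one] at h1
        have h2 := neg_abs_le (inner ℝ (z - r k • w) e)
        linarith
      have hz4 : r k * (a / 2) ≤ inner ℝ z e := by
        rw [hz2]; linarith
      have hz0 : 0 < ‖z‖ := by
        rw [norm_pos_iff]
        rintro rfl
        rw [inner_zero_left] at hz4
        have : 0 < r k * (a / 2) := by positivity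
        linarith
      have hz5 : 0 ≤ inner ℝ z e := le_trans (by positivity) hz4
      gcongr
    calc ENNReal.ofReal (a / 2 * (R ^ (n + 1))⁻¹ * (C⁻¹ * (a / 4) ^ n))
        = ENNReal.ofReal (a / 2 * (R ^ (n + 1))⁻¹) * ENNReal.ofReal (C⁻¹ * (a / 4) ^ n) := by
          rw [ENNReal.ofReal_mul (by positivity)]
      _ ≤ ENNReal.ofReal (a / 2 * (R ^ (n + 1))⁻¹) *
          (ENNReal.ofReal ((r k ^ n)⁻¹) * μ S) := by gcongr
      _ = ENNReal.ofReal (r k * (a / 2) * ((r k * R) ^ (n + 1))⁻¹) * μ S := by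
          rw [← mul_assoc, ← ENNReal.ofReal_mul (by positivity)]
          congr 2
          rw [mul_pow, pow_succ (r k) n]
          field_simp
      _ = ∫⁻ z in S, ENNReal.ofReal (r k * (a / 2) * ((r k * R) ^ (n + 1))⁻¹) ∂μ := by
          rw [setLIntegral_const]
      _ ≤ ∫⁻ z in S, f z ∂μ := setLIntegral_mono' measurableSet_ball hb
      _ ≤ ∫⁻ y in ball (0 : V d) (r k * R), f y ∂(μ.restrict (ball 0 4)) := by
          rw [Measure.restrict_restrict measurableSet_ball]
          exact lintegral_mono_set (subset_inter hS1 hS2)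
  have hcontra := ge_of_tendsto hlim hlow
  have : 0 < ENNReal.ofReal (a / 2 * (R ^ (n + 1))⁻¹ * (C⁻¹ * (a / 4) ^ n)) :=
    ENNReal.ofReal_pos.2 (by positivity)
  exact absurd hcontra (not_le.2 this)

end Crest.Agent.R085.Touch
end

-- ▼ part R085/Touch4
section

/-!
Row 85, module M4, (T4): counting lemmas. The support of an `n`-regular measure cannot contain a
subspace of dimension `> n` and cannot be contained in a subspace of dimension `< n`.
-/

set_option autoImplicit false

namespace Crest.Agent.R085.Touch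

open MeasureTheory Metric Set Filter
open scoped ENNReal NNReal Topology

variable {d n : ℕ}

/-- grid point -/
noncomputable def grid (m k : ℕ) (j : Fin m → Fin k) : V m :=
  WithLp.toLp 2 fun i => ((j i : ℕ) : ℝ) / k

theorem grid_apply (m k : ℕ) (j : Fin m → Fin k) (i : Fin m) :
    grid m k j i = ((j i : ℕ) : ℝ) / k := rfl

theorem norm_grid_le (m : ℕ) {k : ℕ} (j : Fin m → Fin k) : ‖grid m k j‖ ≤ m := by
  rw [EuclideanSpace.norm_eq]
  rw [Real.sqrt_le_left (by positivity)]
  calc ∑ i, ‖grid m k j i‖ ^ 2 ≤ ∑ _i : Fin m, (1 : ℝ) := by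
        apply Finset.sum_le_sum
        intro i _
        rw [grid_apply]
        have hk : 0 < k := Fin.pos (j i)
        have hk' : (0 : ℝ) < k := by exact_mod_cast hk
        have h1 : ((j i : ℕ) : ℝ) / k ≤ 1 := by
          rw [div_le_one hk']
          exact_mod_cast (j i).2.le
        have h0 : 0 ≤ ((j i : ℕ) : ℝ) / k := by positivity
        rw [Real.norm_of_nonneg h0]
        exact pow_le_one₀ h0 h1
    _ = m := by simp
    _ ≤ (m : ℝ) ^ 2 := by
        rcases Nat.eq_zero_or_pos m with rfl | hm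
        · simp
        · have : (1 : ℝ) ≤ m := by exact_mod_cast hm
          nlinarith

theorem le_dist_grid (m : ℕ) {k : ℕ} {j j' : Fin m → Fin k} (h : j ≠ j') :
    1 / (k : ℝ) ≤ dist (grid m k j) (grid m k j') := by
  obtain ⟨i, hi⟩ := Function.ne_iff.1 h
  have hk : 0 < k := Fin.pos (j i)
  have hk' : (0 : ℝ) < k := by exact_mod_cast hk
  have h1 : ‖grid m k j i - grid m k j' i‖ ≤ dist (grid m k j) (grid m k j') := by
    rw [dist_eq_norm]
    exact PiLp.norm_apply_le (grid m k j - grid m k j') i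
  refine le_trans ?_ h1
  rw [grid_apply, grid_apply, ← sub_div, Real.norm_eq_abs, abs_div, abs_of_pos hk']
  gcongr
  have hne : ((j i : ℕ) : ℤ) ≠ ((j' i : ℕ) : ℤ) := by
    intro h'
    apply hi
    exact Fin.ext (by exact_mod_cast h')
  have h2 : (1 : ℤ) ≤ |((j i : ℕ) : ℤ) - ((j' i : ℕ) : ℤ)| :=
    Int.one_le_abs (sub_ne_zero.2 hne)
  have h3 : ((1 : ℤ) : ℝ) ≤ ((|((j i : ℕ) : ℤ) - ((j' i : ℕ) : ℤ)| : ℤ) : ℝ) := by exact_mod_cast h2
  push_cast at h3
  exact h3

/-- (T4a) the support of an `n`-regular measure contains no subspace of dimension `> n`. -/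
theorem not_subspace_subset_support {C : ℝ} {μ : Measure (V d)} (h : ADR n C ⊤ μ)
    {W : Submodule ℝ (V d)} (hW : n < Module.finrank ℝ W) : ¬ ((W : Set (V d)) ⊆ μ.support) := by
  intro hsub
  have hC := h.pos
  -- isometric embedding of `V (n+1)` into `W`
  let b := stdOrthonormalBasis ℝ W
  let v : Fin (n + 1) → V d := fun i => (b ⟨i, by omega⟩ : V d)
  have hv : Orthonormal ℝ v := by
    have h1 : Orthonormal ℝ (fun i : Fin (Module.finrank ℝ W) => ((b i : W) : V d)) :=
      b.orthonormal.comp_linearIsometry W.subtypeₗᵢ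
    apply h1.comp (fun i : Fin (n + 1) => (⟨i, by omega⟩ : Fin (Module.finrank ℝ W)))
    intro i j hij
    exact Fin.ext (by simpa using hij)
  let ι : V (n + 1) → V d := fun x => ∑ i, x i • v i
  have hιdist : ∀ x y, dist (ι x) (ι y) = dist x y := by
    intro x y
    rw [dist_eq_norm, dist_eq_norm]
    have e1 : ι x - ι y = ∑ i, (x - y) i • v i := by
      simp only [ι, ← Finset.sum_sub_distrib, ← sub_smul]
      rfl
    rw [e1, ← sq_eq_sq₀ (norm_nonneg _) (norm_nonneg _), ← real_inner_self_eq_norm_sq,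
      EuclideanSpace.norm_sq_eq, hv.inner_sum]
    apply Finset.sum_congr rfl
    intro i _
    simp [pow_two]
  have hι0 : ι 0 = 0 := by simp [ι]
  have hιW : ∀ x, ι x ∈ W := by
    intro x
    apply W.sum_mem
    intro i _
    exact W.smul_mem _ (b ⟨i, by omega⟩).2
  have key : ∀ k : ℕ, 0 < k → (k : ℝ) ≤ C ^ 2 * (2 * (n + 2)) ^ n := by
    intro k hk
    have hk' : (0 : ℝ) < k := by exact_mod_cast hk
    have hk1 : (1 : ℝ) ≤ k := by exact_mod_cast hk
    set s : ℝ := 1 / (2 * k) with hs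
    have hs0 : 0 < s := by positivity
    have hs1 : s ≤ 1 / 2 := by
      rw [hs, div_le_div_iff₀ (by positivity) (by norm_num)]; linarith
    have hdisj : Pairwise (Function.onFun Disjoint
        fun j : Fin (n + 1) → Fin k => ball (ι (grid (n + 1) k j)) s) := by
      intro j j' hjj'
      apply ball_disjoint_ball
      rw [hιdist]
      refine le_trans (le_of_eq ?_) (le_dist_grid (n + 1) hjj')
      rw [hs]; field_simp; norm_num
    have h1 : ∑ j : Fin (n + 1) → Fin k, μ (ball (ι (grid (n + 1) k j)) s)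
        = μ (⋃ j : Fin (n + 1) → Fin k, ball (ι (grid (n + 1) k j)) s) := by
      rw [measure_iUnion hdisj fun _ => measurableSet_ball, tsum_fintype]
    have h2 : (⋃ j : Fin (n + 1) → Fin k, ball (ι (grid (n + 1) k j)) s) ⊆ ball 0 (n + 2) := by
      apply iUnion_subset
      intro j
      apply ball_subset_ball'
      have h3 : dist (ι (grid (n + 1) k j)) 0 ≤ ((n + 1 : ℕ) : ℝ) := by
        rw [← hι0, hιdist, dist_zero_right]
        exact norm_grid_le (n + 1) j
      push_cast at h3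
      linarith
    have h3 : ∀ j : Fin (n + 1) → Fin k,
        ENNReal.ofReal (C⁻¹ * s ^ n) ≤ μ (ball (ι (grid (n + 1) k j)) s) := by
      intro j
      exact h.lower _ (hsub (hιW _)) s hs0 le_top
    have h4 : ((k : ℝ≥0∞) ^ (n + 1)) * ENNReal.ofReal (C⁻¹ * s ^ n)
        ≤ ENNReal.ofReal (C * (n + 2) ^ n) := by
      calc ((k : ℝ≥0∞) ^ (n + 1)) * ENNReal.ofReal (C⁻¹ * s ^ n)
          = ∑ j : Fin (n + 1) → Fin k, ENNReal.ofReal (C⁻¹ * s ^ n) := by
            rw [Finset.sum_const, Finset.card_univ, Fintype.card_fun, Fintype.card_fin,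
              Fintype.card_fin, nsmul_eq_mul]
            push_cast
            rfl
        _ ≤ ∑ j : Fin (n + 1) → Fin k, μ (ball (ι (grid (n + 1) k j)) s) :=
            Finset.sum_le_sum fun j _ => h3 j
        _ = _ := h1
        _ ≤ μ (ball 0 (n + 2)) := measure_mono h2
        _ ≤ ENNReal.ofReal (C * (n + 2) ^ n) := h.upper 0 _ (by positivity)
    have h5 : (k : ℝ) ^ (n + 1) * (C⁻¹ * s ^ n) ≤ C * (n + 2) ^ n := by
      rw [← ENNReal.ofReal_le_ofReal_iff (by positivity), ENNReal.ofReal_mul (by positivity),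
        ENNReal.ofReal_pow (by positivity), ENNReal.ofReal_natCast]
      exact h4
    have h6 : (k : ℝ) ^ (n + 1) * (C⁻¹ * s ^ n) = k * (C⁻¹ * (1 / 2) ^ n) := by
      rw [hs, pow_succ, div_pow, div_pow, mul_pow]
      field_simp
    rw [h6] at h5
    have h7 : (k : ℝ) = (k * (C⁻¹ * (1 / 2) ^ n)) * (C * 2 ^ n) := by
      rw [div_pow]; field_simp; simp
    rw [h7]
    calc (k * (C⁻¹ * (1 / 2) ^ n)) * (C * 2 ^ n) ≤ (C * (n + 2) ^ n) * (C * 2 ^ n) := by
          gcongr
      _ = C ^ 2 * (2 * (n + 2)) ^ n := by rw [mul_pow]; ring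
  obtain ⟨k, hk⟩ := exists_nat_gt (C ^ 2 * (2 * ((n : ℝ) + 2)) ^ n)
  have hk0 : 0 < k := by
    have : (0 : ℝ) < k := lt_of_le_of_lt (by positivity) hk
    exact_mod_cast this
  exact absurd (key k hk0) (not_le.2 hk)

/-- (T4b) an `n`-regular measure has no mass on a subspace of dimension `< n`. -/
theorem measure_subspace_eq_zero {C : ℝ} {D : ℝ≥0∞} {μ : Measure (V d)} (h : ADR n C D μ)
    {W : Submodule ℝ (V d)} (hW : Module.finrank ℝ W < n) : μ (W : Set (V d)) = 0 := by
  have hC := h.pos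
  have hC0 : ENNReal.ofReal C ≠ 0 := by
    rw [Ne, ENNReal.ofReal_eq_zero, not_le]; exact hC
  have hCt : ENNReal.ofReal C ≠ ⊤ := ENNReal.ofReal_ne_top
  have h1 : (ENNReal.ofReal C)⁻¹ • μ ≤ Measure.hausdorffMeasure (n : ℝ) := by
    apply Measure.le_hausdorffMeasure (n : ℝ) _ 1 one_pos
    intro s hs
    rw [Measure.smul_apply, smul_eq_mul]
    rcases s.eq_empty_or_nonempty with rfl | ⟨x, hx⟩
    · simp
    · have hst : ediam s ≠ ⊤ := (hs.trans_lt ENNReal.one_lt_top).ne
      have hsub : s ⊆ closedBall x (ediam s).toReal := by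
        intro y hy
        rw [mem_closedBall, dist_edist]
        exact ENNReal.toReal_mono hst (edist_le_ediam_of_mem hy hx)
      have h2 : μ s ≤ ENNReal.ofReal C * (ediam s) ^ n := by
        calc μ s ≤ μ (closedBall x (ediam s).toReal) := measure_mono hsub
          _ ≤ ENNReal.ofReal (C * (ediam s).toReal ^ n) :=
              h.upper_closedBall x ENNReal.toReal_nonneg
          _ = ENNReal.ofReal C * (ediam s) ^ n := by
              rw [ENNReal.ofReal_mul hC.le, ENNReal.ofReal_pow ENNReal.toReal_nonneg,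
                ENNReal.ofReal_toReal hst]
      calc (ENNReal.ofReal C)⁻¹ * μ s ≤ (ENNReal.ofReal C)⁻¹ * (ENNReal.ofReal C * (ediam s) ^ n) := by
            gcongr
        _ = (ediam s) ^ n := by
            rw [← mul_assoc, ENNReal.inv_mul_cancel hC0 hCt, one_mul]
        _ = (ediam s) ^ (n : ℝ) := by rw [ENNReal.rpow_natCast]
  have h2 : Measure.hausdorffMeasure (n : ℝ) (W : Set (V d)) = 0 := by
    have h3 : dimH (W : Set (V d)) < ((n : ℝ≥0) : ℝ≥0∞) := by
      have e1 : (W : Set (V d)) = W.subtypeₗᵢ '' univ := by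
        rw [image_univ]
        simp
      rw [e1, W.subtypeₗᵢ.isometry.dimH_image, Real.dimH_univ_eq_finrank]
      exact_mod_cast hW
    have h4 := hausdorffMeasure_of_dimH_lt h3
    simpa using h4
  have h3 : ((ENNReal.ofReal C)⁻¹ • μ) (W : Set (V d)) ≤ 0 := (h1 _).trans h2.le
  rw [Measure.smul_apply, smul_eq_mul, nonpos_iff_eq_zero, mul_eq_zero] at h3
  rcases h3 with h3 | h3
  · exact absurd h3 (ENNReal.inv_ne_zero.2 hCt)
  · exact h3

/-- (T4b) the support of an `n`-regular measure is not contained in a subspace of dimension `< n`. -/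
theorem not_support_subset_subspace {C : ℝ} {D : ℝ≥0∞} {μ : Measure (V d)} (h : ADR n C D μ)
    (hne : μ.support.Nonempty) {W : Submodule ℝ (V d)} (hW : Module.finrank ℝ W < n) :
    ¬ (μ.support ⊆ W) := by
  intro hsub
  have h1 := measure_subspace_eq_zero h hW
  have h2 : μ μ.support = 0 := measure_mono_null hsub h1
  have h3 : μ univ = 0 := by
    rw [← union_compl_self μ.support]
    exact measure_union_null h2 Measure.measure_compl_support
  rw [Measure.measure_univ_eq_zero] at h3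
  rw [h3, Measure.support_zero] at hne
  exact not_nonempty_empty hne

end Crest.Agent.R085.Touch
end

-- ▼ part R085/Touch5

/-!
Row 85, module M4, (T5): descent. A reflectionless regular measure is flat somewhere.
-/

set_option autoImplicit false

namespace Crest.Agent.R085.Touch

open MeasureTheory Metric Set Filter
open scoped ENNReal NNReal Topology

variable {d n : ℕ}

/-- no flat balls at all -/
def NF (n : ℕ) (ε : ℝ) (ν : Measure (V d)) : Prop :=
  ∀ w ∈ ν.support, ∀ s : ℝ, 0 < s → ∀ (g : V d ≃ₗᵢ[ℝ] V d) (b : V d),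
    ε ^ 2 * s ^ (n + 2) ≤ ∫ z in ball w s, nsq n (g z - b) ∂ν

/-- "no flat ball near `x`" passes to blow-ups at `x`. -/
theorem nf_blowup {ε : ℝ} (hε : 0 < ε) {μ ν : Measure (V d)} {x : V d} {r0 : ℝ} (hr0 : 0 < r0)
    (h : ∀ y ∈ μ.support, y ∈ ball x r0 → ∀ s : ℝ, 0 < s → s < r0 →
      ∀ (g : V d ≃ₗᵢ[ℝ] V d) (b : V d),
        ε ^ 2 * s ^ (n + 2) ≤ ∫ z in ball y s, nsq n (g z - b) ∂μ)
    {r : ℕ → ℝ} (hr : ∀ k, 0 < r k) {U : Ultrafilter ℕ} (hrl : Tendsto r U (𝓝 0))
    (hν : WLim U (fun k => resc n x (r k) μ) ν) : NF n ε ν := by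
  intro w hw s hs g b
  by_contra hcon
  push Not at hcon
  obtain ⟨y, hy1, hy2⟩ := hν.exists_tendsto_support hw
  -- a slightly smaller radius
  have hcont : Tendsto (fun s' : ℝ => ε ^ 2 * s' ^ (n + 2)) (𝓝[<] s)
      (𝓝 (ε ^ 2 * s ^ (n + 2))) := by
    have : Continuous fun s' : ℝ => ε ^ 2 * s' ^ (n + 2) := by fun_prop
    exact (this.tendsto s).mono_left nhdsWithin_le_nhds
  obtain ⟨s', hs'1, hs'2⟩ := ((hcont.eventually_const_lt hcon).and
    (Ioo_mem_nhdsLT hs)).exists
  have hfc : Continuous fun z : V d => nsq n (g z - b) :=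
    (continuous_nsq n).comp (g.continuous.sub continuous_const)
  have hev := hν.eventually_setIntegral_lt hfc (fun z => nsq_nonneg n _) hy2
    (s := s) (s' := s') hs'2.2 hs'1
  have e1 : ∀ᶠ k in (U : Filter ℕ), r k * s' < r0 := by
    have : Tendsto (fun k => r k * s') U (𝓝 0) := by simpa using hrl.mul_const s'
    exact this.eventually_lt_const hr0
  have e2 : ∀ᶠ k in (U : Filter ℕ), x + r k • y k ∈ ball x r0 := by
    have : Tendsto (fun k => x + r k • y k) U (𝓝 (x + (0 : ℝ) • w)) :=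
      tendsto_const_nhds.add (hrl.smul hy2)
    rw [zero_smul, add_zero] at this
    exact this (ball_mem_nhds x hr0)
  obtain ⟨k, hk1, hk2, hk3, hk4⟩ := (hev.and (e1.and (e2.and hy1))).exists
  have hrk := hr k
  rw [mem_support_resc n x hrk] at hk4
  rw [setIntegral_ball_resc n x hrk] at hk1
  have e3 : ∀ z : V d, nsq n (g ((r k)⁻¹ • (z - x)) - b)
      = ((r k)⁻¹) ^ 2 * nsq n (g z - (g x + r k • b)) := by
    intro z
    rw [← nsq_smul]
    congr 1
    rw [map_smul, map_sub, smul_sub, smul_sub, smul_add, smul_smul, inv_mul_cancel₀ hrk.ne',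
      one_smul]
    abel
  simp_rw [e3] at hk1
  rw [integral_const_mul, smul_eq_mul] at hk1
  have h5 := h _ hk4 hk3 (r k * s') (mul_pos hrk hs'2.1) hk2 g (g x + r k • b)
  have h6 : ε ^ 2 * s' ^ (n + 2)
      ≤ ((r k) ^ n)⁻¹ * (((r k)⁻¹) ^ 2 *
        ∫ z in ball (x + r k • y k) (r k * s'), nsq n (g z - (g x + r k • b)) ∂μ) := by
    calc ε ^ 2 * s' ^ (n + 2)
        = ((r k) ^ n)⁻¹ * (((r k)⁻¹) ^ 2 * (ε ^ 2 * (r k * s') ^ (n + 2))) := by
          rw [mul_pow, pow_add (r k) n 2, inv_pow]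
          field_simp
      _ ≤ _ := by gcongr
  exact absurd hk1 (not_lt.2 h6)

/-- for a subspace `W` of dimension `≤ n` there is an isometry mapping it into `{nsq n = 0}`. -/
theorem exists_isometry_nsq_eq_zero {W : Submodule ℝ (V d)} (hW : Module.finrank ℝ W ≤ n) :
    ∃ g : V d ≃ₗᵢ[ℝ] V d, ∀ z ∈ W, nsq n (g z) = 0 := by
  classical
  set m := Module.finrank ℝ W with hm
  have hmd : m ≤ d := by
    have := Submodule.finrank_le W
    rwa [finrank_euclideanSpace, Fintype.card_fin] at this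
  let b := stdOrthonormalBasis ℝ W
  let v : Fin d → V d := fun i => if h : (i : ℕ) < m then ((b ⟨i, h⟩ : W) : V d) else 0
  let s : Set (Fin d) := {i | (i : ℕ) < m}
  have hv : Orthonormal ℝ (s.domRestrict v) := by
    have h1 : Orthonormal ℝ (fun i : Fin (Module.finrank ℝ W) => ((b i : W) : V d)) :=
      b.orthonormal.comp_linearIsometry W.subtypeₗᵢ
    have h2 : Orthonormal ℝ (fun i : s => ((b ⟨(i : Fin d), i.2⟩ : W) : V d)) := by
      apply h1.comp (fun i : s => (⟨(i : Fin d), i.2⟩ : Fin (Module.finrank ℝ W)))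
      intro i j hij
      apply Subtype.ext
      apply Fin.ext
      simpa using hij
    convert h2 using 1
    ext1 i
    have hi : ((i : Fin d) : ℕ) < m := i.2
    change v (i : Fin d) = _
    simp only [v]
    rw [dif_pos hi]
  obtain ⟨B, hB⟩ := hv.exists_orthonormalBasis_extension_of_card_eq (by simp)
  refine ⟨B.repr, fun z hz => ?_⟩
  unfold nsq
  apply Finset.sum_eq_zero
  intro i _
  split_ifs with hi
  · have hzero : B.repr z i = 0 := by
      rw [B.repr_apply_apply]
      -- `z` is a combination of the `b j`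
      have hz' : z = ∑ j, (b.repr ⟨z, hz⟩ j) • ((b j : W) : V d) := by
        have h1 := congrArg (Subtype.val) (b.sum_repr ⟨z, hz⟩)
        simp only [AddSubmonoidClass.coe_finsetSum] at h1
        exact h1.symm
      rw [hz', inner_sum]
      apply Finset.sum_eq_zero
      intro j _
      rw [real_inner_smul_right]
      have hj : (⟨(j : ℕ), by omega⟩ : Fin d) ∈ s := j.2
      have hbj : B ⟨(j : ℕ), by omega⟩ = ((b j : W) : V d) := by
        rw [hB _ hj]
        simp only [v]
        rw [dif_pos (show ((⟨(j : ℕ), by omega⟩ : Fin d) : ℕ) < m from j.2)]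
      rw [← hbj, B.orthonormal.2, mul_zero]
      intro hij
      have : (i : ℕ) = (j : ℕ) := by rw [hij]
      have := j.2
      omega
    rw [hzero]; simp
  · rfl

/-- a touching point: if the support is a proper subset of the subspace `W` -/
theorem exists_touching {μ : Measure (V d)} {W : Submodule ℝ (V d)} (hsub : μ.support ⊆ W)
    (hne : μ.support.Nonempty) (hW : ¬ ((W : Set (V d)) ⊆ μ.support)) :
    ∃ p ∈ μ.support, ∃ e ∈ W, ‖e‖ = 1 ∧ ∃ ρ : ℝ, 0 < ρ ∧
      ∀ y ∈ μ.support, ρ ≤ ‖y - (p - ρ • e)‖ := by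
  obtain ⟨z, hzW, hz⟩ := not_subset.1 hW
  obtain ⟨p, hp, hpd⟩ := Measure.isClosed_support.exists_infDist_eq_dist hne z
  have hpz : p ≠ z := by
    rintro rfl; exact hz hp
  have hρ : 0 < ‖p - z‖ := norm_pos_iff.2 (sub_ne_zero.2 hpz)
  refine ⟨p, hp, (‖p - z‖)⁻¹ • (p - z), W.smul_mem _ (W.sub_mem (hsub hp) hzW), ?_, ‖p - z‖, hρ, ?_⟩
  · rw [norm_smul, norm_inv, norm_norm, inv_mul_cancel₀ hρ.ne']
  · intro y hy
    rw [smul_smul, mul_inv_cancel₀ hρ.ne', one_smul, sub_sub_cancel]
    have h1 : infDist z μ.support ≤ dist z y := infDist_le_dist_of_mem hy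
    rw [hpd, dist_eq_norm, dist_eq_norm, norm_sub_rev z p, norm_sub_rev z y] at h1
    exact h1

/-- the intersection with a hyperplane has smaller dimension -/
theorem finrank_inf_orthogonal_lt {W : Submodule ℝ (V d)} {e : V d} (heW : e ∈ W) (he : ‖e‖ = 1) :
    Module.finrank ℝ (W ⊓ (ℝ ∙ e)ᗮ : Submodule ℝ (V d)) < Module.finrank ℝ W := by
  apply Submodule.finrank_lt_finrank_of_lt
  refine lt_of_le_of_ne inf_le_left ?_
  intro h
  have h1 : e ∈ (W ⊓ (ℝ ∙ e)ᗮ : Submodule ℝ (V d)) := by rw [h]; exact heW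
  have h2 : e ∈ (ℝ ∙ e)ᗮ := h1.2
  rw [Submodule.mem_orthogonal_singleton_iff_inner_right, real_inner_self_eq_norm_sq, he] at h2
  norm_num at h2

/-- Two successive blow-ups reduce the dimension. -/
theorem exists_descend (hn : 1 ≤ n) {C : ℝ} {μ : Measure (V d)} (h : ADR n C ⊤ μ)
    (hR : Refl n μ) (hne : μ.support.Nonempty) {W : Submodule ℝ (V d)} (hsub : μ.support ⊆ W)
    (hW : ¬ ((W : Set (V d)) ⊆ μ.support)) :
    ∃ p ∈ μ.support, ∃ (r : ℕ → ℝ) (U : Ultrafilter ℕ) (ν ν' : Measure (V d)) (W' : Submodule ℝ (V d)),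
      (∀ k, 0 < r k) ∧ Tendsto r U (𝓝 0) ∧
      WLim U (fun k => resc n p (r k) μ) ν ∧ ADR n C ⊤ ν ∧ Refl n ν ∧ (0 : V d) ∈ ν.support ∧
      WLim U (fun k => resc n 0 (r k) ν) ν' ∧ ADR n C ⊤ ν' ∧ Refl n ν' ∧ (0 : V d) ∈ ν'.support ∧
      ν'.support ⊆ W' ∧ Module.finrank ℝ W' < Module.finrank ℝ W := by
  have hlf := lf_of_upper h.upperReg
  obtain ⟨p, hp, e, heW, he, ρ, hρ, htouch⟩ := exists_touching hsub hne hW
  set r : ℕ → ℝ := fun k => 1 / ((k : ℝ) + 1) with hr
  have hr0 : ∀ k, 0 < r k := fun k => by positivity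
  set U : Ultrafilter ℕ := hyperfilter ℕ with hU
  have hUtop : (U : Filter ℕ) ≤ atTop := Nat.hyperfilter_le_atTop
  have hrl : Tendsto r U (𝓝 0) := tendsto_one_div_add_atTop_nhds_zero_nat.mono_left hUtop
  obtain ⟨ν, hν, hνA, hν0⟩ := exists_blowup h hp hr0 U
  have hνR : Refl n ν := by
    apply refl_of_wLim_refl hn hν (C := C)
      (Eventually.of_forall fun k => (h.resc p (hr0 k) le_top : ADR n C ⊤ _).upperReg)
      (Eventually.of_forall fun k => hR.resc p (hr0 k))
  have hνlf := lf_of_upper hνA.upperReg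
  have hνW : ν.support ⊆ W := support_blowup_subset hr0 hν hsub (hsub hp)
  have hνh : ∀ w ∈ ν.support, 0 ≤ inner ℝ w e := blowup_halfspace hρ he htouch hr0 hrl hν
  obtain ⟨ν', hν', hν'A, hν'0⟩ := exists_blowup hνA hν0 hr0 U
  have hν'R : Refl n ν' := by
    apply refl_of_wLim_refl hn hν' (C := C)
      (Eventually.of_forall fun k => (hνA.resc 0 (hr0 k) le_top : ADR n C ⊤ _).upperReg)
      (Eventually.of_forall fun k => hνR.resc 0 (hr0 k))
  have hν'W : ν'.support ⊆ W := support_blowup_subset hr0 hν' hνW W.zero_mem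
  have hν'h : ∀ w ∈ ν'.support, inner ℝ w e = 0 :=
    blowup_hyperplane hn hνA hνR hν0 he hνh hr0 hrl hν'
  refine ⟨p, hp, r, U, ν, ν', W ⊓ (ℝ ∙ e)ᗮ, hr0, hrl, hν, hνA, hνR, hν0, hν', hν'A, hν'R, hν'0,
    ?_, finrank_inf_orthogonal_lt heW he⟩
  intro w hw
  refine ⟨hν'W hw, ?_⟩
  rw [SetLike.mem_coe, Submodule.mem_orthogonal_singleton_iff_inner_left]
  exact hν'h w hw

/-- descent: no reflectionless regular measure without flat balls. -/
theorem descent (hn : 1 ≤ n) {C ε : ℝ} (hε : 0 < ε) :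
    ∀ (m : ℕ) (W : Submodule ℝ (V d)) (μ : Measure (V d)), Module.finrank ℝ W = m →
      μ.support ⊆ W → ADR n C ⊤ μ → Refl n μ → μ.support.Nonempty → NF n ε μ → False := by
  intro m
  induction m using Nat.strong_induction_on with
  | _ m ih =>
    intro W μ hWm hsub h hR hne hNF
    rcases le_or_gt m n with hmn | hmn
    · -- flat
      obtain ⟨g, hg⟩ := exists_isometry_nsq_eq_zero (n := n) (W := W) (by rw [hWm]; exact hmn)
      obtain ⟨w, hw⟩ := hne
      have h1 := hNF w hw 1 one_pos g 0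
      have h2 : ∫ z in ball w 1, nsq n (g z - 0) ∂μ = 0 := by
        have hlf := lf_of_upper h.upperReg
        have hae : ∀ᵐ y ∂μ, y ∈ μ.support := Measure.support_mem_ae
        rw [integral_eq_zero_of_ae]
        filter_upwards [ae_restrict_of_ae hae] with y hy
        rw [sub_zero]
        exact hg y (hsub hy)
      rw [h2] at h1
      have : 0 < ε ^ 2 * (1 : ℝ) ^ (n + 2) := by positivity
      linarith
    · have hW : ¬ ((W : Set (V d)) ⊆ μ.support) := not_subspace_subset_support h (by omega)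
      obtain ⟨p, hp, r, U, ν, ν', W', hr0, hrl, hν, hνA, hνR, hν0, hν', hν'A, hν'R, hν'0, hν'W,
        hlt⟩ := exists_descend hn h hR hne hsub hW
      have hNFν : NF n ε ν := nf_blowup hε (r0 := 1) one_pos
        (fun y hy _ s hs _ g b => hNF y hy s hs g b) hr0 hrl hν
      have hNFν' : NF n ε ν' := nf_blowup hε (r0 := 1) one_pos
        (fun y hy _ s hs _ g b => hNFν y hy s hs g b) hr0 hrl hν'
      exact ih _ (by rw [← hWm]; exact hlt) W' ν' rfl hν'W hν'A hν'R ⟨0, hν'0⟩ hNFν'

end Crest.Agent.R085.Touch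

namespace Crest.Agent.R085

open MeasureTheory Metric Set Filter
open scoped ENNReal NNReal Topology

/-- **M4.** Reflectionless regular measures are flat somewhere inside every ball. -/
theorem flatSomewhere {n d : ℕ} (hn : 1 ≤ n) (C : ℝ) : TFlatSomewhere n d C := by
  intro μ h hR x hx r hr ε hε
  by_contra hcon
  push Not at hcon
  set ρ : ℕ → ℝ := fun k => 1 / ((k : ℝ) + 1) with hρ
  have hρ0 : ∀ k, 0 < ρ k := fun k => by positivity
  set U : Ultrafilter ℕ := hyperfilter ℕ with hU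
  have hUtop : (U : Filter ℕ) ≤ atTop := Nat.hyperfilter_le_atTop
  have hρl : Tendsto ρ U (𝓝 0) := tendsto_one_div_add_atTop_nhds_zero_nat.mono_left hUtop
  obtain ⟨ν, hν, hνA, hν0⟩ := Touch.exists_blowup h hx hρ0 U
  have hlf := Touch.lf_of_upper h.upperReg
  have hνR : Refl n ν := by
    apply refl_of_wLim_refl hn hν (C := C)
      (Eventually.of_forall fun k => (h.resc x (hρ0 k) le_top : ADR n C ⊤ _).upperReg)
      (Eventually.of_forall fun k => hR.resc x (hρ0 k))
  have hNF : Touch.NF n ε ν := Touch.nf_blowup hε hr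
    (fun y hy hyx s hs hsr g b => (hcon y hy hyx s hs hsr g b).le) hρ0 hρl hν
  exact Touch.descent hn hε _ ⊤ ν rfl (by simp) hνA hνR ⟨0, hν0⟩ hNF

/-- A reflectionless `n`-regular measure supported in a subspace of dimension `≤ n` has full
support there. -/
theorem support_eq_of_subset_subspace {n d : ℕ} (hn : 1 ≤ n) {C : ℝ} {μ : Measure (V d)}
    (h : ADR n C ⊤ μ) (hR : Refl n μ) (hne : μ.support.Nonempty) {W : Submodule ℝ (V d)}
    (hsub : μ.support ⊆ W) (hW : Module.finrank ℝ W ≤ n) : μ.support = W := by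
  by_contra hcon
  have hW' : ¬ ((W : Set (V d)) ⊆ μ.support) := fun h' => hcon (hsub.antisymm h')
  obtain ⟨p, hp, r, U, ν, ν', W', hr0, hrl, hν, hνA, hνR, hν0, hν', hν'A, hν'R, hν'0, hν'W,
    hlt⟩ := Touch.exists_descend hn h hR hne hsub hW'
  exact Touch.not_support_subset_subspace hν'A ⟨0, hν'0⟩ (by omega) hν'W

end Crest.Agent.R085
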